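import Vale.Agent.P026.Bas

namespace Vale.Agent.P026

open Complex MeasureTheory Filter Topology
open scoped Classical ComplexConjugate Real MatrixGroups

noncomputable section

theorem lat_coord (z : ℂ) : ∃ x y : ℝ, ∀ d : O, normSq (z + toC d) =
    (x + d.re) ^ 2 - (x + d.re) * (y + d.im) + (y + d.im) ^ 2 := by
  refine ⟨z.re + z.im * √3 / 3, 2 * z.im * √3 / 3, fun d => ?_⟩
  rw [normSq_apply, add_re, add_im, bas_toC_re, bas_toC_im]
  linear_combination ((d.im : ℝ) ^ 2 / 4 - z.im ^ 2 / 3) * bas_sqrt3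
theorem lat_card_Icc (u t : ℝ) (ht : 0 ≤ t) :
    ((Finset.Icc ⌈u - t⌉ ⌊u + t⌋).card : ℝ) ≤ 2 * t + 1 := by
  rw [Int.card_Icc]
  have h1 := Int.le_ceil (u - t)
  have h2 := Int.floor_le (u + t)
  rcases le_total 0 (⌊u + t⌋ + 1 - ⌈u - t⌉) with h | h
  · have h3 : (((⌊u + t⌋ + 1 - ⌈u - t⌉).toNat : ℤ) : ℝ) = ((⌊u + t⌋ + 1 - ⌈u - t⌉ : ℤ) : ℝ) := by
      rw [Int.toNat_of_nonneg h]
    push_cast at h3
    rw [h3]; linarith
  · rw [Int.toNat_eq_zero.2 h]; simp; linarith
theorem card_near : ∃ C : ℝ, 0 < C ∧ ∀ (z : ℂ) (R : ℝ), 0 ≤ R →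
    {d : O | normSq (z + toC d) ≤ R}.Finite ∧
      ({d : O | normSq (z + toC d) ≤ R}.ncard : ℝ) ≤ C * (1 + R) := by
  refine ⟨32, by norm_num, fun z R hR => ?_⟩
  obtain ⟨x, y, hxy⟩ := lat_coord z
  have hr := Real.sqrt_nonneg R
  have hr2 := Real.sq_sqrt hR
  set s : Finset O := (Finset.Icc ⌈-x - 2 * √R⌉ ⌊-x + 2 * √R⌋ ×ˢ
    Finset.Icc ⌈-y - 2 * √R⌉ ⌊-y + 2 * √R⌋).image (fun p => (⟨p.1, p.2⟩ : O)) with hs
  have hsub : {d : O | normSq (z + toC d) ≤ R} ⊆ s := by
    intro d hd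
    rw [Set.mem_ofPred_eq, hxy] at hd
    have h1 : |x + d.re| ≤ 2 * √R := by
      apply abs_le_of_sq_le_sq _ (by positivity)
      nlinarith [sq_nonneg (x + d.re - 2 * (y + d.im)), sq_nonneg (x + d.re)]
    have h2 : |y + d.im| ≤ 2 * √R := by
      apply abs_le_of_sq_le_sq _ (by positivity)
      nlinarith [sq_nonneg (y + d.im - 2 * (x + d.re)), sq_nonneg (y + d.im)]
    rw [abs_le] at h1 h2
    rw [hs, Finset.coe_image]
    refine ⟨(d.re, d.im), ?_, rfl⟩
    simp only [Finset.coe_product, Finset.coe_Icc, Set.mem_prod, Set.mem_Icc, Int.ceil_le,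
      Int.le_floor]
    refine ⟨⟨?_, ?_⟩, ?_, ?_⟩ <;> linarith [h1.1, h1.2, h2.1, h2.2]
  refine ⟨s.finite_toSet.subset hsub, ?_⟩
  have h3 := Set.ncard_le_ncard hsub s.finite_toSet
  rw [Set.ncard_coe_finset] at h3
  have h4 := h3.trans Finset.card_image_le
  rw [Finset.card_product] at h4
  have h5 : ({d : O | normSq (z + toC d) ≤ R}.ncard : ℝ) ≤
      ((Finset.Icc ⌈-x - 2 * √R⌉ ⌊-x + 2 * √R⌋).card : ℝ) *
        ((Finset.Icc ⌈-y - 2 * √R⌉ ⌊-y + 2 * √R⌋).card : ℝ) := by exact_mod_cast h4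
  have h6 := mul_le_mul (lat_card_Icc (-x) (2 * √R) (by positivity))
    (lat_card_Icc (-y) (2 * √R) (by positivity)) (Nat.cast_nonneg _) (by positivity)
  nlinarith [sq_nonneg (4 * √R - 1)]
theorem exists_near (z : ℂ) : ∃ d : O, normSq (z + toC d) ≤ 3 / 4 := by
  obtain ⟨x, y, hxy⟩ := lat_coord z
  refine ⟨⟨-round x, -round y⟩, ?_⟩
  rw [hxy]
  have h1 := abs_le.1 (abs_sub_round x)
  have h2 := abs_le.1 (abs_sub_round y)
  push_cast
  simp only [← sub_eq_add_neg]
  nlinarith [h1.1, h1.2, h2.1, h2.2]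
theorem card_ballO_le : ∃ C : ℝ, 0 < C ∧ ∀ R : ℝ, 0 ≤ R → ((ballO R).card : ℝ) ≤ C * R := by
  obtain ⟨C, hC, h⟩ := card_near
  refine ⟨2 * C, by positivity, fun R hR => ?_⟩
  by_cases h1 : R < 1
  · rw [ballO_eq_empty h1]; simp; positivity
  · obtain ⟨h2, h3⟩ := h 0 R hR
    have h4 : ((ballO R : Finset O) : Set O) ⊆ {d : O | normSq (0 + toC d) ≤ R} := by
      intro d hd
      rw [Set.mem_ofPred_eq, zero_add, normSq_toC]
      exact (mem_ballO.1 hd).2
    have h5 := Set.ncard_le_ncard h4 h2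
    rw [Set.ncard_coe_finset] at h5
    have h6 : ((ballO R).card : ℝ) ≤ ({d : O | normSq (0 + toC d) ≤ R}.ncard : ℝ) := by
      exact_mod_cast h5
    nlinarith
theorem card_ballO_ge {R : ℝ} (hR : 1 ≤ R) : R / 4 ≤ ((ballO R).card : ℝ) := by
  have h0 : 1 ≤ √R := Real.one_le_sqrt.2 hR
  set K := ⌊√R⌋₊ with hK
  have h1 : 1 ≤ K := Nat.le_floor (by simpa using h0)
  have h2 : (K : ℝ) ≤ √R := Nat.floor_le (by linarith)
  have h3 : √R < K + 1 := Nat.lt_floor_add_one _
  have h4 := Real.sq_sqrt (show 0 ≤ R by linarith)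
  have h1' : (1 : ℝ) ≤ K := by exact_mod_cast h1
  have hsub : (Finset.Icc 1 K ×ˢ Finset.Icc 1 K).image
      (fun p : ℕ × ℕ => (⟨p.1, p.2⟩ : O)) ⊆ ballO R := by
    intro d hd
    obtain ⟨⟨a, b⟩, hp, rfl⟩ := Finset.mem_image.1 hd
    simp only [Finset.mem_product, Finset.mem_Icc] at hp
    rw [mem_ballO]
    constructor
    · intro h
      have := congrArg QuadraticAlgebra.re h
      simp at this
      omega
    · rw [bas_N]
      simp only [Int.cast_natCast]
      have a1 : (a : ℝ) ≤ K := by exact_mod_cast hp.1.2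
      have a2 : (b : ℝ) ≤ K := by exact_mod_cast hp.2.2
      have a3 : (0 : ℝ) ≤ a := Nat.cast_nonneg _
      have a4 : (0 : ℝ) ≤ b := Nat.cast_nonneg _
      rcases le_total (a : ℝ) b with h | h <;> nlinarith
  have h5 := Finset.card_le_card hsub
  rw [Finset.card_image_of_injective, Finset.card_product, Nat.card_Icc] at h5
  · have h6 : ((K * K : ℕ) : ℝ) ≤ ((ballO R).card : ℝ) := by exact_mod_cast (by simpa using h5)
    push_cast at h6
    nlinarith
  · intro p q hpq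
    simp only [QuadraticAlgebra.mk.injEq, Nat.cast_inj] at hpq
    exact Prod.ext hpq.1 hpq.2
theorem lat_tail_aux {s B : ℝ} (hs : 1 < s) (hB : 0 ≤ B) {c : O → ℝ} (hc : ∀ n, 0 ≤ c n)
    (hb : ∀ R : ℝ, 0 < R → ∑ n ∈ ballO R, c n ≤ B * R) (J : ℕ) : ∀ R : ℝ, 0 < R →
    ∑ n ∈ ballO (2 ^ J * R), (if R < N n then c n * N n ^ (-s) else 0) ≤
      2 * B / (1 - 2 ^ (1 - s)) * R ^ (1 - s) := by
  have hq : (2 : ℝ) ^ (1 - s) < 1 := Real.rpow_lt_one_of_one_lt_of_neg (by norm_num) (by linarith)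
  have hq' : 0 < 1 - (2 : ℝ) ^ (1 - s) := by linarith
  induction J with
  | zero =>
    intro R hR
    rw [Finset.sum_eq_zero]
    · positivity
    · intro n hn
      rw [if_neg]
      have := (mem_ballO.1 hn).2
      simp only [pow_zero, one_mul] at this
      linarith
  | succ J ih =>
    intro R hR
    have h1 := ih (2 * R) (by positivity)
    have h2 : (2 : ℝ) ^ (J + 1) * R = 2 ^ J * (2 * R) := by ring
    rw [h2]
    have h3 : ∀ n ∈ ballO (2 ^ J * (2 * R)), (if R < N n then c n * N n ^ (-s) else 0) ≤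
        (if 2 * R < N n then c n * N n ^ (-s) else 0) +
          (if n ∈ ballO (2 * R) then c n else 0) * R ^ (-s) := by
      intro n hn
      have a0 : 0 ≤ c n * N n ^ (-s) := mul_nonneg (hc n) (Real.rpow_nonneg (N_nonneg n) _)
      have a1 : 0 ≤ (if n ∈ ballO (2 * R) then c n else 0) * R ^ (-s) := by
        apply mul_nonneg _ (by positivity)
        split_ifs
        · exact hc n
        · exact le_rfl
      by_cases b1 : 2 * R < N n
      · rw [if_pos b1, if_pos (by linarith)]; linarith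
      · rw [if_neg b1, if_pos (mem_ballO.2 ⟨(mem_ballO.1 hn).1, not_lt.1 b1⟩), zero_add]
        split_ifs with b2
        · exact mul_le_mul_of_nonneg_left
            (Real.rpow_le_rpow_of_nonpos hR b2.le (by linarith)) (hc n)
        · exact mul_nonneg (hc n) (by positivity)
    refine (Finset.sum_le_sum h3).trans ?_
    rw [Finset.sum_add_distrib, ← Finset.sum_mul, Finset.sum_ite_mem]
    have h4 : ∑ n ∈ ballO (2 ^ J * (2 * R)) ∩ ballO (2 * R), c n ≤ B * (2 * R) :=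
      (Finset.sum_le_sum_of_subset_of_nonneg Finset.inter_subset_right
        (fun n _ _ => hc n)).trans (hb _ (by positivity))
    have h5 := mul_le_mul_of_nonneg_right h4 (show 0 ≤ R ^ (-s) by positivity)
    have h6 : R ^ (1 - s) = R * R ^ (-s) := by
      rw [sub_eq_add_neg, Real.rpow_add hR, Real.rpow_one]
    rw [Real.mul_rpow (by norm_num) hR.le] at h1
    have h7 : 2 * B / (1 - 2 ^ (1 - s)) * (2 ^ (1 - s) * R ^ (1 - s)) + B * (2 * R) * R ^ (-s) =
        2 * B / (1 - 2 ^ (1 - s)) * R ^ (1 - s) := by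
      rw [h6]; field_simp; ring
    linarith
theorem lat_tail {s B : ℝ} (hs : 1 < s) (hB : 0 ≤ B) {c : O → ℝ} (hc : ∀ n, 0 ≤ c n)
    (hb : ∀ R : ℝ, 0 < R → ∑ n ∈ ballO R, c n ≤ B * R) {R : ℝ} (hR : 0 < R) :
    Summable (fun n : O => if R < N n then c n * N n ^ (-s) else 0) ∧
    ∑' n : O, (if R < N n then c n * N n ^ (-s) else 0) ≤
      2 * B / (1 - 2 ^ (1 - s)) * R ^ (1 - s) := by
  have hnn : ∀ n : O, 0 ≤ (if R < N n then c n * N n ^ (-s) else 0) := by
    intro n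
    split_ifs
    · exact mul_nonneg (hc n) (Real.rpow_nonneg (N_nonneg n) _)
    · exact le_rfl
  have key : ∀ u : Finset O, ∑ n ∈ u, (if R < N n then c n * N n ^ (-s) else 0) ≤
      2 * B / (1 - 2 ^ (1 - s)) * R ^ (1 - s) := by
    intro u
    obtain ⟨J, hJ⟩ := pow_unbounded_of_one_lt ((∑ n ∈ u, N n) / R) (one_lt_two (α := ℝ))
    refine le_trans ?_ (lat_tail_aux hs hB hc hb J R hR)
    rw [← Finset.sum_filter, ← Finset.sum_filter]
    apply Finset.sum_le_sum_of_subset_of_nonneg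
    · intro n hn
      rw [Finset.mem_filter] at hn ⊢
      refine ⟨mem_ballO.2 ⟨?_, ?_⟩, hn.2⟩
      · rintro rfl
        have := hn.2
        rw [N_zero] at this
        linarith
      · have := Finset.single_le_sum (fun n _ => N_nonneg n) hn.1
        rw [div_lt_iff₀ hR] at hJ
        linarith
    · exact fun n _ _ => mul_nonneg (hc n) (Real.rpow_nonneg (N_nonneg n) _)
  have hsum := summable_of_sum_le hnn key
  exact ⟨hsum, hsum.tsum_le_of_sum_le key⟩
theorem lat_summable {s B : ℝ} (hs : 1 < s) (hB : 0 ≤ B) {c : O → ℝ} (hc : ∀ n, 0 ≤ c n)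
    (hb : ∀ R : ℝ, 0 < R → ∑ n ∈ ballO R, c n ≤ B * R) :
    Summable (fun n : O => c n * N n ^ (-s)) := by
  refine (lat_tail hs hB hc hb (R := 1 / 2) (by norm_num)).1.congr (fun n => ?_)
  split_ifs with h
  · rfl
  · have : n = 0 := by
      by_contra h0
      have := one_le_N h0
      linarith
    rw [this, N_zero, Real.zero_rpow (by linarith), mul_zero]
theorem lat_tail_one {s : ℝ} (hs : 1 < s) :
    ∃ C : ℝ, 0 < C ∧ ∀ R : ℝ, 0 < R →
      Summable (fun n : O => if R < N n then N n ^ (-s) else 0) ∧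
      ∑' n : O, (if R < N n then N n ^ (-s) else 0) ≤ C * R ^ (1 - s) := by
  obtain ⟨C, hC, h⟩ := card_ballO_le
  have hq : (2 : ℝ) ^ (1 - s) < 1 := Real.rpow_lt_one_of_one_lt_of_neg (by norm_num) (by linarith)
  have hq' : 0 < 1 - (2 : ℝ) ^ (1 - s) := by linarith
  refine ⟨2 * C / (1 - 2 ^ (1 - s)), by positivity, fun R hR => ?_⟩
  have := lat_tail hs hC.le (c := fun _ => 1) (fun _ => zero_le_one)
    (fun R hR => by simpa using h R hR.le) hR
  simpa only [one_mul] using this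
theorem summable_N_rpow {s : ℝ} (hs : 1 < s) : Summable (fun n : O => N n ^ (-s)) := by
  obtain ⟨C, hC, h⟩ := card_ballO_le
  have := lat_summable hs hC.le (c := fun _ => 1) (fun _ => zero_le_one)
    (fun R hR => by simpa using h R hR.le)
  simpa only [one_mul] using this
theorem lat_head_aux {a C : ℝ} (ha : -1 < a) (ha0 : a ≤ 0) (hC : 0 < C)
    (h : ∀ R : ℝ, 0 ≤ R → ((ballO R).card : ℝ) ≤ C * R) (J : ℕ) : ∀ R : ℝ, 0 ≤ R → R < 2 ^ J →
    ∑ n ∈ ballO R, N n ^ a ≤ 2 * C * 2 ^ (1 + a) / (2 ^ (1 + a) - 1) * R ^ (1 + a) := by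
  have hq : (1 : ℝ) < 2 ^ (1 + a) := Real.one_lt_rpow (by norm_num) (by linarith)
  have hq' : (0 : ℝ) < 2 ^ (1 + a) - 1 := by linarith
  induction J with
  | zero =>
    intro R hR h1
    rw [ballO_eq_empty (by simpa using h1), Finset.sum_empty]
    positivity
  | succ J ih =>
    intro R hR h1
    rcases hR.eq_or_lt with rfl | hR'
    · rw [ballO_eq_empty (by norm_num), Finset.sum_empty]
      positivity
    obtain ⟨r, rfl⟩ : ∃ r, R = 2 * r := ⟨R / 2, by ring⟩
    have hr : 0 < r := by linarith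
    have h2 := ih r hr.le (by rw [pow_succ] at h1; linarith)
    have h3 : ∀ n ∈ ballO (2 * r), N n ^ a ≤ (if n ∈ ballO r then N n ^ a else 0) + r ^ a := by
      intro n hn
      split_ifs with b
      · have : 0 ≤ r ^ a := by positivity
        linarith
      · rw [mem_ballO, not_and] at b
        rw [zero_add]
        exact Real.rpow_le_rpow_of_nonpos hr (not_le.1 (b (mem_ballO.1 hn).1)).le ha0
    refine (Finset.sum_le_sum h3).trans ?_
    rw [Finset.sum_add_distrib, Finset.sum_ite_mem,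
      Finset.inter_eq_right.2 (ballO_mono (by linarith)), Finset.sum_const, nsmul_eq_mul,
      Real.mul_rpow (by norm_num) hr.le]
    have h5 := mul_le_mul_of_nonneg_right (h (2 * r) hR) (show 0 ≤ r ^ a by positivity)
    have h6 : r ^ (1 + a) = r * r ^ a := by
      rw [Real.rpow_add hr, Real.rpow_one]
    have h7 : 2 * C * 2 ^ (1 + a) / (2 ^ (1 + a) - 1) * (2 ^ (1 + a) * r ^ (1 + a)) =
        2 * C * 2 ^ (1 + a) / (2 ^ (1 + a) - 1) * r ^ (1 + a) +
          2 ^ (1 + a) * (C * (2 * r) * r ^ a) := by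
      rw [h6]; field_simp; ring
    have h8 : C * (2 * r) * r ^ a ≤ 2 ^ (1 + a) * (C * (2 * r) * r ^ a) :=
      le_mul_of_one_le_left (by positivity) hq.le
    linarith
theorem sum_N_rpow_le {a : ℝ} (ha : -1 < a) :
    ∃ C : ℝ, 0 < C ∧ ∀ R : ℝ, 0 ≤ R → ∑ n ∈ ballO R, N n ^ a ≤ C * R ^ (1 + a) := by
  obtain ⟨C, hC, h⟩ := card_ballO_le
  rcases le_total a 0 with ha0 | ha0
  · have hq : (1 : ℝ) < 2 ^ (1 + a) := Real.one_lt_rpow (by norm_num) (by linarith)
    have hq' : (0 : ℝ) < 2 ^ (1 + a) - 1 := by linarith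
    refine ⟨2 * C * 2 ^ (1 + a) / (2 ^ (1 + a) - 1), by positivity, fun R hR => ?_⟩
    obtain ⟨J, hJ⟩ := pow_unbounded_of_one_lt R (one_lt_two (α := ℝ))
    exact lat_head_aux ha ha0 hC h J R hR hJ
  · refine ⟨C, hC, fun R hR => ?_⟩
    have h1 : ∀ n ∈ ballO R, N n ^ a ≤ R ^ a := fun n hn =>
      Real.rpow_le_rpow (N_nonneg n) (mem_ballO.1 hn).2 ha0
    refine (Finset.sum_le_sum h1).trans ?_
    rw [Finset.sum_const, nsmul_eq_mul, Real.rpow_add' hR (by linarith), Real.rpow_one,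
      ← mul_assoc]
    exact mul_le_mul_of_nonneg_right (h R hR) (by positivity)
theorem sum_inv_N_le {ε : ℝ} (hε : 0 < ε) :
    ∃ C : ℝ, 0 < C ∧ ∀ R : ℝ, 1 ≤ R → ∑ n ∈ ballO R, (N n)⁻¹ ≤ C * R ^ ε := by
  obtain ⟨C, hC, h⟩ := sum_N_rpow_le (a := -1 + ε) (by linarith)
  refine ⟨C, hC, fun R hR => ?_⟩
  have h1 := h R (by linarith)
  rw [show 1 + (-1 + ε) = ε by ring] at h1
  refine le_trans (Finset.sum_le_sum (fun n hn => ?_)) h1
  rw [← Real.rpow_neg_one]
  exact Real.rpow_le_rpow_of_exponent_le (one_le_N (mem_ballO.1 hn).1) (by linarith)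
theorem tail_N_rpow_le {s : ℝ} (hs : 1 < s) :
    ∃ C : ℝ, 0 < C ∧ ∀ R : ℝ, 0 < R →
      ∑' n : O, (if R < N n then N n ^ (-s) else 0) ≤ C * R ^ (1 - s) := by
  obtain ⟨C, hC, h⟩ := lat_tail_one hs
  exact ⟨C, hC, fun R hR => (h R hR).2⟩
theorem lat_split : ∃ C : ℝ, 0 < C ∧ ∀ (f : O → ℝ) (T A B : ℝ), 0 < T → 0 ≤ A → 0 ≤ B →
    (∀ h, 0 ≤ f h) → f 0 = 0 → (∀ h, N h ≤ T → f h ≤ A) → (∀ h, T < N h → f h ≤ B / N h ^ 2) →
    Summable f ∧ ∑' h, f h ≤ C * (A * T + B / T) := by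
  obtain ⟨C1, hC1, h1⟩ := card_ballO_le
  obtain ⟨C2, hC2, h2⟩ := lat_tail_one (s := 2) (by norm_num)
  refine ⟨C1 + C2, by positivity, fun f T A B hT hA hB hf hf0 ha hb => ?_⟩
  obtain ⟨h3, h4⟩ := h2 T hT
  have h5 : HasSum (fun h : O => if h ∈ ballO T then A else 0) ((ballO T).card * A) := by
    have := hasSum_sum_of_ne_finset_zero (f := fun h : O => if h ∈ ballO T then A else 0)
      (s := ballO T) (L := SummationFilter.unconditional O) (fun b hb => if_neg hb)
    rwa [Finset.sum_ite_mem, Finset.inter_self, Finset.sum_const, nsmul_eq_mul] at this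
  have h6 := h5.add (h3.hasSum.mul_left B)
  have h7 : ∀ h : O, f h ≤ (if h ∈ ballO T then A else 0) +
      B * (if T < N h then N h ^ (-(2 : ℝ)) else 0) := by
    intro h
    by_cases b1 : T < N h
    · rw [if_pos b1, if_neg (fun hh => by linarith [(mem_ballO.1 hh).2]), zero_add,
        Real.rpow_neg (N_nonneg h), Real.rpow_two, ← div_eq_mul_inv]
      exact hb h b1
    · rw [if_neg b1, mul_zero, add_zero]
      by_cases b2 : h = 0
      · rw [b2, hf0]
        split_ifs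
        · exact hA
        · exact le_rfl
      · rw [if_pos (mem_ballO.2 ⟨b2, not_lt.1 b1⟩)]
        exact ha h (not_lt.1 b1)
  have h8 : Summable f := Summable.of_nonneg_of_le hf h7 h6.summable
  refine ⟨h8, (hasSum_le h7 h8.hasSum h6).trans ?_⟩
  rw [show (1 : ℝ) - 2 = -1 by norm_num, Real.rpow_neg_one] at h4
  have h9 := mul_le_mul_of_nonneg_right (h1 T hT.le) hA
  have h10 := mul_le_mul_of_nonneg_left h4 hB
  have h11 : 0 ≤ C1 * (B / T) := by positivity
  have h12 : 0 ≤ C2 * (A * T) := by positivity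
  have h13 : B * (C2 * T⁻¹) = C2 * (B / T) := by ring
  nlinarith
theorem lat_exp_le {x : ℝ} (hx : 0 < x) (k : ℕ) : Real.exp (-x) ≤ k.factorial / x ^ k := by
  have h := Real.pow_div_factorial_le_exp x hx.le k
  rw [Real.exp_neg, ← inv_div]
  exact inv_anti₀ (by positivity) h
theorem sum_exp_le {c : ℝ} (hc : 0 < c) :
    ∃ C : ℝ, 0 < C ∧ ∀ T : ℝ, 0 < T → Summable (fun h : O => Real.exp (-(c * N h / T))) ∧
      ∑' h : O, (if h ≠ 0 then Real.exp (-(c * N h / T)) else 0) ≤ C * T := by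
  obtain ⟨C, hC, h⟩ := lat_split
  refine ⟨C * (1 + 2 / c ^ 2), by positivity, fun T hT => ?_⟩
  obtain ⟨h1, h2⟩ := h (fun h : O => if h ≠ 0 then Real.exp (-(c * N h / T)) else 0) T 1
    (2 * T ^ 2 / c ^ 2) hT zero_le_one (by positivity)
    (fun h => by split_ifs <;> positivity) (by simp)
    (fun h _ => by
      split_ifs
      · rw [Real.exp_le_one_iff, neg_nonpos]
        have := N_nonneg h
        positivity
      · exact zero_le_one)
    (fun h hh => by
      have hN : 0 < N h := by linarith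
      split_ifs
      · refine (lat_exp_le (by positivity) 2).trans (le_of_eq ?_)
        simp only [Nat.factorial]; field_simp; norm_num
      · positivity)
  refine ⟨?_, h2.trans (le_of_eq ?_)⟩
  · refine (h1.add (hasSum_ite_eq (0 : O) (1 : ℝ)).summable).congr (fun h => ?_)
    by_cases b : h = 0
    · simp [b, N_zero]
    · simp [b]
  · field_simp
theorem sum_N_mul_exp_le {c : ℝ} (hc : 0 < c) :
    ∃ C : ℝ, 0 < C ∧ ∀ T : ℝ, 0 < T → Summable (fun h : O => N h * Real.exp (-(c * N h / T))) ∧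
      ∑' h : O, N h * Real.exp (-(c * N h / T)) ≤ C * T ^ 2 := by
  obtain ⟨C, hC, h⟩ := lat_split
  refine ⟨C * (1 + 6 / c ^ 3), by positivity, fun T hT => ?_⟩
  obtain ⟨h1, h2⟩ := h (fun h : O => N h * Real.exp (-(c * N h / T))) T T
    (6 * T ^ 3 / c ^ 3) hT hT.le (by positivity)
    (fun h => mul_nonneg (N_nonneg h) (Real.exp_pos _).le) (by simp [N_zero])
    (fun h hh => by
      have hN := N_nonneg h
      refine le_trans (mul_le_of_le_one_right hN ?_) hh
      rw [Real.exp_le_one_iff, neg_nonpos]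
      positivity)
    (fun h hh => by
      have hN : 0 < N h := by linarith
      refine (mul_le_mul_of_nonneg_left (lat_exp_le (by positivity) 3) hN.le).trans (le_of_eq ?_)
      simp only [Nat.factorial]; field_simp; norm_num)
  refine ⟨h1, h2.trans (le_of_eq ?_)⟩
  field_simp
theorem summable_of_sq_bound {a : O → ℂ} {Bd : ℝ}
    (ha : ∀ R : ℝ, 1 ≤ R → ∑ n ∈ ballO R, ‖a n‖ ^ 2 ≤ Bd * R) {s : ℝ} (hs : 1 < s) :
    Summable (fun n : O => ‖a n‖ * N n ^ (-s)) := by
  obtain ⟨C, hC, h⟩ := card_ballO_le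
  refine lat_summable hs (B := |Bd| + C) (by positivity) (fun n => norm_nonneg _)
    (fun R hR => ?_)
  by_cases h1 : R < 1
  · rw [ballO_eq_empty h1, Finset.sum_empty]; positivity
  · have h2 : ∀ n ∈ ballO R, ‖a n‖ ≤ ‖a n‖ ^ 2 + 1 := fun n _ => by
      nlinarith [sq_nonneg (‖a n‖ - 1), norm_nonneg (a n)]
    refine (Finset.sum_le_sum h2).trans ?_
    rw [Finset.sum_add_distrib, Finset.sum_const, nsmul_eq_mul, mul_one]
    have h3 := ha R (not_lt.1 h1)
    have h4 := h R hR.le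
    have h5 := mul_le_mul_of_nonneg_right (le_abs_self Bd) hR.le
    linarith
/-- exhaustion of `O` by balls -/
theorem tendsto_sum_ballO {E : Type*} [NormedAddCommGroup E] {f : O → E} (hf : Summable f)
    (h0 : f 0 = 0) :
    Tendsto (fun R : ℝ => ∑ n ∈ ballO R, f n) atTop (𝓝 (∑' n, f n)) := by
  have h1 : Tendsto (fun R : ℝ => insert 0 (ballO R)) atTop atTop := by
    apply tendsto_atTop_finset_of_monotone
    · exact fun R R' h => Finset.insert_subset_insert _ (ballO_mono h)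
    · intro x
      refine ⟨N x, ?_⟩
      by_cases hx : x = 0
      · simp [hx]
      · exact Finset.mem_insert_of_mem (mem_ballO.2 ⟨hx, le_rfl⟩)
  have h2 : Tendsto (fun s : Finset O => ∑ n ∈ s, f n) atTop (𝓝 (∑' n, f n)) := hf.hasSum
  refine (h2.comp h1).congr (fun R => ?_)
  simp only [Function.comp]
  rw [Finset.sum_insert_of_eq_zero_if_notMem (fun _ => h0)]

end

end Vale.Agent.P026
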