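import Vale.Agent.P026.SRel
import Vale.Agent.P026.Lat

namespace Vale.Agent.P026

open Complex MeasureTheory Filter Topology
open scoped Classical ComplexConjugate Real MatrixGroups

noncomputable section

theorem summable_Dser {m : O} (hm : m ≠ 0) {Φ : O × O → ℂ} (hΦ : ∀ x, ‖Φ x‖ ≤ 1) (n : O) {s : ℂ}
    (hs : 3 < s.re) :
    Summable (fun c : O => if c ≠ 0 then ((N c : ℝ) : ℂ) ^ (-s) * Ssum m Φ n c else 0) := by
  have h1 := (summable_N_rpow (s := s.re - 1) (by linarith)).mul_left (N m)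
  refine Summable.of_norm_bounded h1 (fun c => ?_)
  split_ifs with hc
  · have hN := N_pos hc
    rw [norm_mul, Complex.norm_cpow_eq_rpow_re_of_pos hN]
    have h2 := norm_Ssum_le hm hc hΦ n
    have h3 : N c ^ (-(s.re - 1)) = N c ^ (-s).re * N c := by
      rw [← Real.rpow_add_one hN.ne']; congr 1; simp; ring
    rw [h3]
    have h4 : 0 ≤ N c ^ (-s).re := Real.rpow_nonneg hN.le _
    calc _ ≤ N c ^ (-s).re * (N m * N c) := mul_le_mul_of_nonneg_left h2 h4
      _ = _ := by ring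
  · rw [norm_zero]
    exact mul_nonneg (N_nonneg _) (Real.rpow_nonneg (N_nonneg _) _)

/-- the terms of `Dser` -/
def drA (m : O) (Φ : O × O → ℂ) (n : O) (s : ℂ) (c : O) : ℂ :=
  if c ≠ 0 then ((N c : ℝ) : ℂ) ^ (-s) * Ssum m Φ n c else 0

/-- the terms of `Dsub` -/
def drB (m : O) (Φ : O × O → ℂ) (n p : O) (s : ℂ) (c : O) : ℂ :=
  if ¬ p ∣ c then ((N c : ℝ) : ℂ) ^ (-s) * Ssum m Φ n c else 0

theorem dr_Dser (m : O) (Φ : O × O → ℂ) (n : O) (s : ℂ) :
    Dser m Φ n s = ∑' c, drA m Φ n s c := rfl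

theorem dr_Dsub (m : O) (Φ : O × O → ℂ) (n p : O) (s : ℂ) :
    Dsub m Φ n p s = ∑' c, drB m Φ n p s c := rfl

theorem dr_B_eq (m : O) (Φ : O × O → ℂ) (n p : O) (s : ℂ) (c : O) :
    drB m Φ n p s c = if ¬ p ∣ c then drA m Φ n s c else 0 := by
  unfold drB drA
  by_cases h : p ∣ c
  · simp [h]
  · simp [h, sr_ne h]

theorem dr_sumA {m : O} (hm : m ≠ 0) {Φ : O × O → ℂ} (hΦ : ∀ x, ‖Φ x‖ ≤ 1) (n : O) {s : ℂ}
    (hs : 3 < s.re) : Summable (drA m Φ n s) := summable_Dser hm hΦ n hs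

theorem dr_sumB {m : O} (hm : m ≠ 0) {Φ : O × O → ℂ} (hΦ : ∀ x, ‖Φ x‖ ≤ 1) (n p : O) {s : ℂ}
    (hs : 3 < s.re) : Summable (drB m Φ n p s) := by
  refine Summable.of_norm_bounded (dr_sumA hm hΦ n hs).norm (fun c => ?_)
  rw [dr_B_eq]
  split_ifs <;> simp

theorem dr_split {m : O} (hm : m ≠ 0) {Φ : O × O → ℂ} (hΦ : ∀ x, ‖Φ x‖ ≤ 1) (n : O) {s : ℂ}
    (hs : 3 < s.re) {p q : O} (hq : q ≠ 0) (hpq : p ∣ q)
    (h : ∀ c, p ∣ c → ¬ q ∣ c → drA m Φ n s c = 0) :
    Dser m Φ n s = Dsub m Φ n p s + ∑' c, drA m Φ n s (c * q) := by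
  have hA := dr_sumA hm hΦ n hs
  have hB := dr_sumB hm hΦ n p hs
  have h1 : ∑' c, drA m Φ n s (c * q) = ∑' c, (drA m Φ n s c - drB m Φ n p s c) := by
    rw [← Function.Injective.tsum_eq (g := fun c : O => c * q) (mul_left_injective₀ hq)
      (f := fun c => drA m Φ n s c - drB m Φ n p s c)]
    · apply tsum_congr
      intro c
      rw [dr_B_eq, if_neg (not_not.2 (hpq.mul_left c)), sub_zero]
    · intro c hc
      rw [Function.mem_support, dr_B_eq] at hc
      by_cases h1 : p ∣ c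
      · rw [if_neg (not_not.2 h1), sub_zero] at hc
        obtain ⟨w, hw⟩ : q ∣ c := by
          by_contra h2
          exact hc (h c h1 h2)
        exact ⟨w, by simp only; rw [hw, mul_comm]⟩
      · rw [if_pos h1, sub_self] at hc
        exact absurd rfl hc
  rw [h1, hA.tsum_sub hB, dr_Dser, dr_Dsub]
  ring

theorem dr_decomp {p c : O} (hp : Prime p) (hc : c ≠ 0) :
    ∃ (c' : O) (k : ℕ), ¬ p ∣ c' ∧ c = c' * p ^ k := by
  obtain ⟨k, c', h1, h2⟩ := WfDvdMonoid.max_power_factor hc hp.irreducible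
  exact ⟨c', k, h1, by rw [h2, mul_comm]⟩

theorem dr_cpow (c p : O) (k : ℕ) (s : ℂ) :
    ((N (c * p ^ k) : ℝ) : ℂ) ^ (-s) = ((N c : ℝ) : ℂ) ^ (-s) * (((N p : ℝ) : ℂ) ^ (-s)) ^ k := by
  induction k with
  | zero => simp
  | succ k ih =>
    rw [pow_succ, ← mul_assoc, N_mul, Complex.ofReal_mul,
      Complex.mul_cpow_ofReal_nonneg (N_nonneg _) (N_nonneg _), ih]
    ring

theorem dr_cpow3 {p : O} (hp : p ≠ 0) (j : ℕ) (s : ℂ) :
    ((N p : ℝ) : ℂ) ^ ((j : ℂ) - 3 * s) = ((N p : ℝ) : ℂ) ^ j * (((N p : ℝ) : ℂ) ^ (-s)) ^ 3 := by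
  have hN : ((N p : ℝ) : ℂ) ≠ 0 := by exact_mod_cast (N_pos hp).ne'
  rw [← Complex.cpow_nat_mul, ← Complex.cpow_natCast, ← Complex.cpow_add _ _ hN]
  congr 1
  push_cast
  ring

theorem dr_small {p c : O} (hp : Prime p) (hc : c ≠ 0) (h1 : p ∣ c) (h3 : ¬ p ^ 3 ∣ c) :
    ∃ (c' : O) (k : ℕ), ¬ p ∣ c' ∧ c = c' * p ^ k ∧ (k = 1 ∨ k = 2) := by
  obtain ⟨c', k, hc', rfl⟩ := dr_decomp hp hc
  refine ⟨c', k, hc', rfl, ?_⟩
  have k0 : k ≠ 0 := by
    rintro rfl
    exact hc' (by simpa using h1)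
  have k3 : ¬ 3 ≤ k := fun h => h3 ((pow_dvd_pow p h).mul_left _)
  omega

theorem dr_bd (σ : SLO) : ∀ x, ‖tw Phi1 σ x‖ ≤ 1 := (equi_tw (dvd_refl (9 : O)) σ).bd

theorem D_C (σ : SLO) {p : O} (hp : Prime p) (hP : Prim p) {s : ℂ} (hs : 3 < s.re) :
    (1 - ((N p : ℝ) : ℂ) ^ (3 - 3 * s)) * Dser 9 (tw Phi1 σ) 0 s =
      (1 - ((N p : ℝ) : ℂ) ^ (2 - 3 * s)) * Dsub 9 (tw Phi1 σ) 0 p s := by
  have hN : ((N p : ℝ) : ℂ) ≠ 0 := by exact_mod_cast (N_pos hp.ne_zero).ne'
  have e3 := dr_cpow3 hp.ne_zero 3 s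
  have e2 := dr_cpow3 hp.ne_zero 2 s
  push_cast at e3 e2
  have h1 := dr_split sr_nine_ne (dr_bd σ) 0 hs (pow_ne_zero 3 hp.ne_zero)
    (dvd_pow_self p (by norm_num)) (by
      intro c h1 h3
      unfold drA
      split_ifs with hc
      · obtain ⟨c', k, hc', rfl, hk⟩ := dr_small hp hc h1 h3
        rw [S_C σ hp hP hc' (by omega), if_neg (by omega), mul_zero]
      · rfl)
  have h2 : ∀ c, drA 9 (tw Phi1 σ) 0 s (c * p ^ 3) =
      ((N p : ℝ) : ℂ) ^ (3 - 3 * s) * drA 9 (tw Phi1 σ) 0 s c -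
        ((N p : ℝ) : ℂ) ^ (2 - 3 * s) * drB 9 (tw Phi1 σ) 0 p s c := by
    intro c
    rw [dr_B_eq, e3, e2]
    unfold drA
    by_cases hc : c = 0
    · simp [hc]
    · rw [if_pos (mul_ne_zero hc (pow_ne_zero 3 hp.ne_zero)), if_pos hc, dr_cpow]
      by_cases h : p ∣ c
      · obtain ⟨c', k, hc', rfl⟩ := dr_decomp hp hc
        have k0 : k ≠ 0 := by
          rintro rfl
          exact hc' (by simpa using h)
        rw [if_neg (not_not.2 h), mul_assoc c', ← pow_add, S_C σ hp hP hc' (by omega),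
          S_C σ hp hP hc' (by omega)]
        have : 3 ∣ k + 3 ↔ 3 ∣ k := by omega
        simp only [this]
        split_ifs <;> ring
      · rw [if_pos h, S_C σ hp hP h (by norm_num), if_pos dvd_rfl]
        field_simp
  rw [tsum_congr h2, ((dr_sumA sr_nine_ne (dr_bd σ) 0 hs).mul_left _).tsum_sub
    ((dr_sumB sr_nine_ne (dr_bd σ) 0 p hs).mul_left _), tsum_mul_left, tsum_mul_left,
    ← dr_Dser, ← dr_Dsub] at h1
  linear_combination h1

theorem D_P (σ : SLO) {p : O} (hp : Prime p) (hP : Prim p) (n : O) (s : ℂ) :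
    Dsub 9 (tw Phi1 σ) (n * p ^ 3) p s = Dsub 9 (tw Phi1 σ) n p s := by
  unfold Dsub
  apply tsum_congr
  intro c
  split_ifs with h
  · rfl
  · rw [S_P σ hp hP h]

theorem D_Q (σ : SLO) {p n : O} (hp : Prime p) (hP : Prim p) (hn : ¬ p ∣ n) {s : ℂ}
    (hs : 3 < s.re) :
    Dser 9 (tw Phi1 σ) (n * p ^ 2) s =
      (1 - ((N p : ℝ) : ℂ) ^ (2 - 3 * s)) * Dsub 9 (tw Phi1 σ) (n * p ^ 2) p s := by
  have e2 := dr_cpow3 hp.ne_zero 2 s
  push_cast at e2
  have h1 := dr_split sr_nine_ne (dr_bd σ) (n * p ^ 2) hs (pow_ne_zero 3 hp.ne_zero)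
    (dvd_pow_self p (by norm_num)) (by
      intro c h1 h3
      unfold drA
      split_ifs with hc
      · obtain ⟨c', k, hc', rfl, hk⟩ := dr_small hp hc h1 h3
        rw [S_Q σ hp hP hc' hn (by omega), mul_zero]
      · rfl)
  have h2 : ∀ c, drA 9 (tw Phi1 σ) (n * p ^ 2) s (c * p ^ 3) =
      -((N p : ℝ) : ℂ) ^ (2 - 3 * s) * drB 9 (tw Phi1 σ) (n * p ^ 2) p s c := by
    intro c
    rw [dr_B_eq, e2]
    unfold drA
    by_cases hc : c = 0
    · simp [hc]
    · rw [if_pos (mul_ne_zero hc (pow_ne_zero 3 hp.ne_zero)), if_pos hc, dr_cpow]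
      by_cases h : p ∣ c
      · obtain ⟨c', k, hc', rfl⟩ := dr_decomp hp hc
        have k0 : k ≠ 0 := by
          rintro rfl
          exact hc' (by simpa using h)
        rw [if_neg (not_not.2 h), mul_assoc c', ← pow_add, S_Q σ hp hP hc' hn (by omega)]
        ring
      · rw [if_pos h, S_Q3 σ hp hP h hn]
        ring
  rw [tsum_congr h2, tsum_mul_left, ← dr_Dsub] at h1
  linear_combination h1

theorem D_G {p n : O} (hp : Prime p) (hP : Prim p) (hn : ¬ p ∣ n) {s : ℂ} (hs : 3 < s.re) :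
    Dser 9 Phi1 n s = Dsub 9 Phi1 n p s +
      sym3 9 p * g3 n p * ((N p : ℝ) : ℂ) ^ (-s) * Dsub 9 Phi1 (n * p) p s := by
  have h1 := dr_split sr_nine_ne (equi_Phi1 (dvd_refl (9 : O))).bd n hs hp.ne_zero dvd_rfl
    (fun c h1 h2 => absurd h1 h2)
  have h2 : ∀ c, drA 9 Phi1 n s (c * p) =
      sym3 9 p * g3 n p * ((N p : ℝ) : ℂ) ^ (-s) * drB 9 Phi1 (n * p) p s c := by
    intro c
    rw [dr_B_eq]
    unfold drA
    by_cases hc : c = 0
    · simp [hc]
    · have e := dr_cpow c p 1 s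
      rw [pow_one, pow_one] at e
      rw [if_pos (mul_ne_zero hc hp.ne_zero), if_pos hc, e]
      by_cases h : p ∣ c
      · obtain ⟨c', k, hc', rfl⟩ := dr_decomp hp hc
        have k0 : k ≠ 0 := by
          rintro rfl
          exact hc' (by simpa using h)
        rw [if_neg (not_not.2 h), mul_assoc c', ← pow_succ, S_G2 hp hP hc' hn (by omega)]
        ring
      · rw [if_pos h, S_G1 hp hP h]
        ring
  rw [tsum_congr h2, tsum_mul_left, ← dr_Dsub] at h1
  exact h1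

/-- level raising of the sums -/
theorem dr_level (σ : SLO) {p c : O} (hp : p ≠ 0) (hc : c ≠ 0) (n : O) (G : O → ℂ)
    (hG : Per (9 * c * p) G) {Ψ : O × O → ℂ} (hΨ : ∀ d, Ψ (c, d) = tw Phi1 σ (c, d) * G d)
    (z : ℂ) (hz : ∀ x, IsCoprime c x → ∑ j ∈ rs p, G (x + 9 * c * j) = z) :
    Ssum (9 * p) Ψ (p * n) c = z * Ssum 9 (tw Phi1 σ) n c := by
  have h9c := mul_ne_zero sr_nine_ne hc
  have e : 9 * p * c = 9 * c * p := by ring
  have e2 : ∀ d, toC (p * n * d) / toC (9 * c * p) = toC (n * d) / toC (9 * c) := by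
    intro d
    have := toC_ne_zero h9c
    have := toC_ne_zero hp
    rw [mul_assoc p, map_mul toC p, map_mul toC _ p]
    field_simp
  have hF := sr_per (n := n) h9c (sr_Phi_per σ c)
  rw [sr_Ssum, sr_Ssum, e]
  simp only [hΨ, e2]
  have hper : Per (9 * c * p)
      (fun d => tw Phi1 σ (c, d) * G d * psi (toC (n * d) / toC (9 * c))) := by
    intro x y hxy
    have h1 := hF x y ((dvd_mul_right _ _).trans hxy)
    simp only at h1 ⊢
    rw [hG x y hxy]
    linear_combination G y * h1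
  rw [sum_rs_split h9c hp hper, Finset.mul_sum]
  apply Finset.sum_congr rfl
  intro x _
  have h2 : ∀ j, tw Phi1 σ (c, x + 9 * c * j) * G (x + 9 * c * j) *
      psi (toC (n * (x + 9 * c * j)) / toC (9 * c)) =
      G (x + 9 * c * j) * (tw Phi1 σ (c, x) * psi (toC (n * x) / toC (9 * c))) := by
    intro j
    have h1 := hF (x + 9 * c * j) x ⟨j, by ring⟩
    simp only at h1
    linear_combination G (x + 9 * c * j) * h1
  simp only [h2]
  rw [← Finset.sum_mul]
  by_cases hx : IsCoprime c x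
  · rw [hz x hx]
  · rw [(equi_tw (dvd_refl (9 : O)) σ).supp (c, x) hx]
    simp

theorem dr_const {p : O} (hp : p ≠ 0) (a : ℂ) : ∑ _j ∈ rs p, a = ((N p : ℝ) : ℂ) * a := by
  rw [Finset.sum_const, card_rs hp]
  simp [N]

theorem dr_L (σ : SLO) {p : O} (hp : Prime p) (n : O) {s : ℂ} (hs : 3 < s.re)
    {Ψ : O × O → ℂ} (hΨ : ∀ c d, Ψ (c, d) = tw Phi1 σ (c, d) *
      ((if p ∣ c then 1 else 0) - 1 / (((N p : ℝ) : ℂ) + 1))) :
    Dser (9 * p) Ψ (p * n) s =
      ((N p : ℝ) : ℂ) * (Dser 9 (tw Phi1 σ) n s - Dsub 9 (tw Phi1 σ) n p s) -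
        ((N p : ℝ) : ℂ) / (((N p : ℝ) : ℂ) + 1) * Dser 9 (tw Phi1 σ) n s := by
  have hA := dr_sumA sr_nine_ne (dr_bd σ) n hs
  have hB := dr_sumB sr_nine_ne (dr_bd σ) n p hs
  rw [dr_Dser, dr_Dser, dr_Dsub, ← hA.tsum_sub hB, ← tsum_mul_left, ← tsum_mul_left,
    ← ((hA.sub hB).mul_left _).tsum_sub (hA.mul_left _)]
  apply tsum_congr
  intro c
  rw [dr_B_eq]
  unfold drA
  by_cases hc : c = 0
  · simp [hc]
  · rw [if_pos hc, if_pos hc, dr_level σ hp.ne_zero hc n _ (fun _ _ _ => rfl) (hΨ c) _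
      (fun x _ => dr_const hp.ne_zero _)]
    by_cases h : p ∣ c
    · rw [if_pos h, if_neg (not_not.2 h)]; ring
    · rw [if_neg h, if_pos h]; ring

theorem D_L1 (σ : SLO) {p : O} (hp : Prime p) (hP : Prim p) (n : O) {s : ℂ} (hs : 3 < s.re) :
    Dser (9 * p) (Phil σ p) (p * n) s =
      ((N p : ℝ) : ℂ) * (Dser 9 (tw Phi1 σ) n s - Dsub 9 (tw Phi1 σ) n p s) -
        ((N p : ℝ) : ℂ) / (((N p : ℝ) : ℂ) + 1) * Dser 9 (tw Phi1 σ) n s :=
  dr_L σ hp n hs (fun _ _ => rfl)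

theorem dr_one {p t : O} (hp : Prime p) (ht : ¬ p ∣ t) (a : O) :
    ∑ j ∈ rs p, (if p ∣ a + t * j then (1 : ℂ) else 0) = 1 := by
  have hper : Per p (fun y => if p ∣ -a - y then (1 : ℂ) else 0) := by
    intro x y hxy
    have : p ∣ -a - x ↔ p ∣ -a - y := by
      constructor
      · intro h; simpa using dvd_add h hxy
      · intro h
        have := dvd_sub h hxy
        rwa [show -a - y - (x - y) = -a - x by ring] at this
    simp only [this]
  have h1 := sum_rs_mul hp.ne_zero (sr_cop hp ht).symm hper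
  rw [sum_class hp.ne_zero] at h1
  refine Eq.trans ?_ h1
  apply Finset.sum_congr rfl
  intro j _
  have : p ∣ a + t * j ↔ p ∣ -a - t * j := by
    rw [← dvd_neg]
    have : -(a + t * j) = -a - t * j := by ring
    rw [this]
  simp only [this]

theorem D_L0 (σ σ' : SLO) {p : O} (hp : Prime p) (hP : Prim p) :
    (∀ s : ℂ, 3 < s.re → Dser (9 * p) (tw (Phil σ p) σ') 0 s =
      ((N p : ℝ) : ℂ) * (Dser 9 (tw Phi1 (σ * σ')) 0 s - Dsub 9 (tw Phi1 (σ * σ')) 0 p s) -
        ((N p : ℝ) : ℂ) / (((N p : ℝ) : ℂ) + 1) * Dser 9 (tw Phi1 (σ * σ')) 0 s) ∨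
    (∀ s : ℂ, 3 < s.re → Dser (9 * p) (tw (Phil σ p) σ') 0 s =
      Dsub 9 (tw Phi1 (σ * σ')) 0 p s -
        ((N p : ℝ) : ℂ) / (((N p : ℝ) : ℂ) + 1) * Dser 9 (tw Phi1 (σ * σ')) 0 s) := by
  have hΨ : ∀ c d, tw (Phil σ p) σ' (c, d) = tw Phi1 (σ * σ') (c, d) *
      ((if p ∣ c * σ'⁻¹ 0 0 + d * σ'⁻¹ 1 0 then 1 else 0) - 1 / (((N p : ℝ) : ℂ) + 1)) := by
    intro c d
    rw [← tw_tw]
    rfl
  have det := det_SLO σ'⁻¹
  generalize σ'⁻¹ 0 0 = α at hΨ det
  generalize σ'⁻¹ 1 0 = γ at hΨ det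
  by_cases hγ : p ∣ γ
  · left
    intro s hs
    have hα : IsCoprime p α := by
      obtain ⟨w, hw⟩ := hγ
      exact ⟨-(σ'⁻¹ 0 1 * w), σ'⁻¹ 1 1, by rw [hw] at det; linear_combination det⟩
    have := dr_L (σ * σ') hp 0 hs (Ψ := tw (Phil σ p) σ') (by
      intro c d
      rw [hΨ]
      have : p ∣ c * α + d * γ ↔ p ∣ c := by
        rw [dvd_add_left (hγ.mul_left d)]
        exact ⟨fun h => hα.dvd_of_dvd_mul_right h, fun h => h.mul_right _⟩
      simp only [this])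
    rwa [mul_zero] at this
  · right
    intro s hs
    have hA := dr_sumA sr_nine_ne (dr_bd (σ * σ')) 0 hs
    have hB := dr_sumB sr_nine_ne (dr_bd (σ * σ')) 0 p hs
    rw [dr_Dser, dr_Dser, dr_Dsub, ← tsum_mul_left, ← hB.tsum_sub (hA.mul_left _)]
    apply tsum_congr
    intro c
    rw [dr_B_eq]
    unfold drA
    by_cases hc : c = 0
    · simp [hc]
    · have hG : Per (9 * c * p) (fun d => (if p ∣ c * α + d * γ then (1 : ℂ) else 0) -
          1 / (((N p : ℝ) : ℂ) + 1)) := by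
        intro x y hxy
        have hd : p ∣ (c * α + x * γ) - (c * α + y * γ) := by
          have : (c * α + x * γ) - (c * α + y * γ) = (x - y) * γ := by ring
          rw [this]
          exact ((dvd_mul_left _ _).trans hxy).mul_right _
        have : p ∣ c * α + x * γ ↔ p ∣ c * α + y * γ := by
          constructor
          · intro h
            have := dvd_sub h hd
            rwa [sub_sub_cancel] at this
          · intro h
            have := dvd_add hd h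
            rwa [sub_add_cancel] at this
        simp only [this]
      have key := dr_level (σ * σ') hp.ne_zero hc 0 _ hG (hΨ c)
        ((if ¬ p ∣ c then 1 else 0) - ((N p : ℝ) : ℂ) / (((N p : ℝ) : ℂ) + 1)) (by
          intro x hx
          rw [Finset.sum_sub_distrib, dr_const hp.ne_zero]
          congr 1
          · by_cases h : p ∣ c
            · rw [if_neg (not_not.2 h)]
              apply Finset.sum_eq_zero
              intro j _
              rw [if_neg]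
              intro h1
              have e : c * α + (x + 9 * c * j) * γ = c * (α + 9 * j * γ) + x * γ := by ring
              rw [e, dvd_add_right (h.mul_right _)] at h1
              rcases hp.dvd_or_dvd h1 with h2 | h2
              · exact hp.not_isUnit (hx.isUnit_of_dvd' h h2)
              · exact hγ h2
            · rw [if_pos h]
              have ht : ¬ p ∣ 9 * c * γ := fun h1 =>
                hγ ((sr_cop9 hp hP h).dvd_of_dvd_mul_left h1)
              refine Eq.trans ?_ (dr_one hp ht (c * α + x * γ))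
              apply Finset.sum_congr rfl
              intro j _
              have e : c * α + (x + 9 * c * j) * γ = c * α + x * γ + 9 * c * γ * j := by ring
              rw [e]
          · ring)
      rw [mul_zero] at key
      rw [if_pos hc, if_pos hc, key]
      split_ifs <;> ring

end

end Vale.Agent.P026
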