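import Vale.Agent.P026.Bas
import Vale.Agent.P026.Lat

namespace Vale.Agent.P026

open Complex MeasureTheory Filter Topology
open scoped Classical ComplexConjugate Real MatrixGroups

noncomputable section

theorem div_mem {n d : O} (hn : n ≠ 0) : d ∈ (ballO (N n)).filter (· ∣ n) ↔ d ∣ n := by
  rw [Finset.mem_filter, mem_ballO]
  exact ⟨fun h => h.2, fun h => ⟨⟨ne_zero_of_dvd_ne_zero hn h, N_le_of_dvd h hn⟩, h⟩⟩
theorem card_le_dv {n : O} (hn : n ≠ 0) (s : Finset O) (hs : ∀ d ∈ s, d ∣ n) :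
    (s.card : ℝ) ≤ dv n := by
  unfold dv
  exact_mod_cast Finset.card_le_card (fun d hd => (div_mem hn).2 (hs d hd))
theorem div_two_le_N {p : O} (hp : Prime p) : 2 ≤ N p := by
  have h1 := bas_Nm_pos hp.ne_zero
  have h2 : Nm p ≠ 1 := fun h => hp.not_isUnit (isUnit_iff_Nm.2 h)
  have h3 : 2 ≤ Nm p := by omega
  unfold N; exact_mod_cast h3
theorem div_dv_step {p m : O} (hp : Prime p) (hm : m ≠ 0) (k : ℕ) :
    dv (p ^ k * m) ≤ (k + 1) * dv m := by
  have h0 : p ^ k * m ≠ 0 := mul_ne_zero (pow_ne_zero k hp.ne_zero) hm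
  have h : (ballO (N (p ^ k * m))).filter (· ∣ p ^ k * m) ⊆
      (Finset.range (k + 1) ×ˢ (ballO (N m)).filter (· ∣ m)).image (fun t => p ^ t.1 * t.2) := by
    intro d hd
    rw [div_mem h0] at hd
    obtain ⟨d1, d2, h1, h2, rfl⟩ := exists_dvd_and_dvd_of_dvd_mul hd
    obtain ⟨i, hi, u, hu⟩ := (dvd_prime_pow hp k).1 h1
    refine Finset.mem_image.2 ⟨(i, (↑u⁻¹ : O) * d2), Finset.mem_product.2
      ⟨Finset.mem_range.2 (by omega), (div_mem hm).2 ?_⟩, ?_⟩
    · exact Units.mul_left_dvd.2 h2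
    · simp only
      rw [← hu, mul_assoc, Units.mul_inv_cancel_left]
  have h2 := (Finset.card_le_card h).trans Finset.card_image_le
  rw [Finset.card_product, Finset.card_range] at h2
  unfold dv
  exact_mod_cast h2
theorem div_small {ε x : ℝ} (hε : 0 < ε) (hx : 2 ≤ x) (k : ℕ) :
    (k + 1 : ℝ) ≤ (1 + 2 / ε) * (x ^ k) ^ ε := by
  have h1 : (1 : ℝ) / 2 ≤ Real.log x := by
    have := Real.log_two_gt_d9
    have := Real.log_le_log two_pos hx
    linarith
  have hx0 : 0 < x := by linarith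
  have h2 : 1 + k * ε / 2 ≤ (x ^ k) ^ ε := by
    rw [Real.rpow_def_of_pos (pow_pos hx0 k), Real.log_pow]
    have h3 := Real.add_one_le_exp (k * Real.log x * ε)
    have h4 : k * ε * (1 / 2) ≤ k * ε * Real.log x :=
      mul_le_mul_of_nonneg_left h1 (by positivity)
    nlinarith
  have h5 : (1 + 2 / ε) * (1 + k * ε / 2) = 1 + k * ε / 2 + 2 / ε + k := by
    field_simp; ring
  have h6 : (1 + 2 / ε) * (1 + k * ε / 2) ≤ (1 + 2 / ε) * (x ^ k) ^ ε :=
    mul_le_mul_of_nonneg_left h2 (by positivity)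
  have h7 : 0 ≤ k * ε / 2 + 2 / ε := by positivity
  linarith
theorem div_two_le_rpow {ε x : ℝ} (hε : 0 < ε) (hx : (2 : ℝ) ^ (1 / ε) ≤ x) : 2 ≤ x ^ ε := by
  have h := Real.rpow_le_rpow (by positivity) hx hε.le
  rwa [← Real.rpow_mul (by norm_num), one_div_mul_cancel hε.ne', Real.rpow_one] at h
theorem div_large {ε x : ℝ} (hε : 0 < ε) (hx : (2 : ℝ) ^ (1 / ε) ≤ x) (k : ℕ) :
    (k + 1 : ℝ) ≤ (x ^ k) ^ ε := by
  have hx0 : 0 ≤ x := le_trans (by positivity) hx
  rw [← Real.rpow_natCast, ← Real.rpow_mul hx0, mul_comm, Real.rpow_mul hx0, Real.rpow_natCast]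
  have h1 : (2 : ℝ) ^ k ≤ (x ^ ε) ^ k := pow_le_pow_left₀ (by norm_num) (div_two_le_rpow hε hx) k
  have h2 : k + 1 ≤ 2 ^ k := Nat.lt_two_pow_self
  have h3 : (k + 1 : ℝ) ≤ 2 ^ k := by exact_mod_cast h2
  linarith
theorem div_dv_nonneg (n : O) : 0 ≤ dv n := Nat.cast_nonneg _
theorem div_dv_bound {ε : ℝ} (hε : 0 < ε) (n : O) (hn : n ≠ 0) :
    dv n ≤ 6 * (1 + 2 / ε) ^ ((ballO (2 ^ (1 / ε))).filter (· ∣ n)).card * N n ^ ε := by
  have hK : 1 ≤ 1 + 2 / ε := by
    have : 0 ≤ 2 / ε := by positivity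
    linarith
  induction hk : Nm n using Nat.strong_induction_on generalizing n with
  | _ j ih =>
    by_cases hu : IsUnit n
    · rw [N_unit hu, Real.one_rpow, mul_one]
      have h1 : dv n ≤ 6 := by
        unfold dv
        rw [N_unit hu]
        have := Finset.card_filter_le (ballO 1) (· ∣ n)
        rw [card_ballO_one] at this
        exact_mod_cast this
      have h2 := one_le_pow₀ (n := ((ballO (2 ^ (1 / ε))).filter (· ∣ n)).card) hK
      linarith
    · obtain ⟨p, hp, hpn⟩ := WfDvdMonoid.exists_irreducible_factor hu hn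
      obtain ⟨k, m, hm, rfl⟩ := WfDvdMonoid.max_power_factor hn hp
      have hp' := hp.prime
      have hm0 : m ≠ 0 := right_ne_zero_of_mul hn
      have hk0 : k ≠ 0 := by
        rintro rfl
        exact hm (by simpa using hpn)
      have h2 := div_two_le_N hp'
      have hlt : Nm m < j := by
        rw [← hk, Nm_mul, Nm_pow]
        have a1 : 2 ≤ Nm p := by unfold N at h2; exact_mod_cast h2
        have a2 : 1 < Nm p ^ k := Nat.one_lt_pow hk0 a1
        have a3 := bas_Nm_pos hm0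
        nlinarith
      have h3 := ih _ hlt m hm0 rfl
      have h4 := div_dv_step hp' hm0 k
      have hsub : (ballO (2 ^ (1 / ε))).filter (· ∣ m) ⊆
          (ballO (2 ^ (1 / ε))).filter (· ∣ p ^ k * m) := by
        intro d hd
        rw [Finset.mem_filter] at hd ⊢
        exact ⟨hd.1, dvd_mul_of_dvd_right hd.2 _⟩
      rw [N_mul, N_pow, Real.mul_rpow (pow_nonneg (N_nonneg p) k) (N_nonneg m)]
      set a := ((ballO (2 ^ (1 / ε))).filter (· ∣ m)).card with ha
      set b := ((ballO (2 ^ (1 / ε))).filter (· ∣ p ^ k * m)).card with hb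
      have h5 : (k + 1 : ℝ) * (1 + 2 / ε) ^ a ≤ (1 + 2 / ε) ^ b * (N p ^ k) ^ ε := by
        have hpos : 0 ≤ (N p ^ k) ^ ε := Real.rpow_nonneg (pow_nonneg (N_nonneg p) k) _
        by_cases hs : N p ≤ 2 ^ (1 / ε)
        · have hab : a < b := by
            apply Finset.card_lt_card
            refine (Finset.ssubset_iff_of_subset hsub).2 ⟨p, ?_, ?_⟩
            · exact Finset.mem_filter.2 ⟨mem_ballO.2 ⟨hp'.ne_zero, hs⟩, hpn⟩
            · exact fun h => hm (Finset.mem_filter.1 h).2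
          calc (k + 1 : ℝ) * (1 + 2 / ε) ^ a ≤ (1 + 2 / ε) * (N p ^ k) ^ ε * (1 + 2 / ε) ^ a :=
                mul_le_mul_of_nonneg_right (div_small hε h2 k) (by positivity)
            _ = (1 + 2 / ε) ^ (a + 1) * (N p ^ k) ^ ε := by ring
            _ ≤ _ := mul_le_mul_of_nonneg_right (pow_le_pow_right₀ hK hab) hpos
        · have hab : a ≤ b := Finset.card_le_card hsub
          calc (k + 1 : ℝ) * (1 + 2 / ε) ^ a ≤ (N p ^ k) ^ ε * (1 + 2 / ε) ^ a :=
                mul_le_mul_of_nonneg_right (div_large hε (not_le.1 hs).le k) (by positivity)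
            _ = (1 + 2 / ε) ^ a * (N p ^ k) ^ ε := by ring
            _ ≤ _ := mul_le_mul_of_nonneg_right (pow_le_pow_right₀ hK hab) hpos
      have h6 : 0 ≤ N m ^ ε := Real.rpow_nonneg (N_nonneg m) _
      calc dv (p ^ k * m) ≤ (k + 1) * dv m := h4
        _ ≤ (k + 1) * (6 * (1 + 2 / ε) ^ a * N m ^ ε) :=
            mul_le_mul_of_nonneg_left h3 (by positivity)
        _ = 6 * ((k + 1) * (1 + 2 / ε) ^ a) * N m ^ ε := by ring
        _ ≤ 6 * ((1 + 2 / ε) ^ b * (N p ^ k) ^ ε) * N m ^ ε := by gcongr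
        _ = _ := by ring
theorem dv_le {ε : ℝ} (hε : 0 < ε) :
    ∃ C : ℝ, 0 < C ∧ ∀ n : O, n ≠ 0 → dv n ≤ C * N n ^ ε := by
  have hK : 1 ≤ 1 + 2 / ε := by
    have : 0 ≤ 2 / ε := by positivity
    linarith
  refine ⟨6 * (1 + 2 / ε) ^ (ballO (2 ^ (1 / ε))).card, by positivity, fun n hn => ?_⟩
  refine (div_dv_bound hε n hn).trans ?_
  have h6 : 0 ≤ N n ^ ε := Real.rpow_nonneg (N_nonneg n) _
  have := pow_le_pow_right₀ hK (Finset.card_filter_le (ballO (2 ^ (1 / ε))) (· ∣ n))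
  gcongr
theorem mem_divs {n e : O} (hn : n ≠ 0) : e ∈ divs n ↔ NN e ∧ e ∣ n := by
  unfold divs
  rw [Finset.mem_filter, mem_ballN]
  exact ⟨fun h => ⟨h.1.1, h.2⟩, fun h => ⟨⟨h.1, N_le_of_dvd h.2 hn⟩, h.2⟩⟩
theorem card_divs_le (n : O) : ((divs n).card : ℝ) ≤ dv n := by
  unfold dv divs ballN
  exact_mod_cast Finset.card_le_card
    (Finset.filter_subset_filter _ (Finset.filter_subset _ _))
theorem one_le_dv {n : O} (hn : n ≠ 0) : 1 ≤ dv n := by
  simpa using card_le_dv hn {1} (by simp)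
theorem dv_le_of_dvd {a b : O} (h : a ∣ b) (hb : b ≠ 0) : dv a ≤ dv b :=
  card_le_dv hb _ (fun _ hd => (Finset.mem_filter.1 hd).2.trans h)
theorem mu_one : mu 1 = 1 := by
  simp [mu, UniqueFactorizationMonoid.factors_one]
theorem mu_prime {p : O} (hp : Prime p) : mu p = -1 := by
  simp [mu, hp.squarefree, UniqueFactorizationMonoid.card_factors_of_irreducible hp.irreducible]
theorem div_mu_zero {n : O} (hn : ¬ Squarefree n) : mu n = 0 := by simp [mu, hn]
theorem mu_mul {a b : O} (h : IsCoprime a b) : mu (a * b) = mu a * mu b := by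
  by_cases hab : Squarefree (a * b)
  · have ha := hab.of_mul_left
    have hb := hab.of_mul_right
    have := Multiset.card_eq_card_of_rel
      (UniqueFactorizationMonoid.factors_mul ha.ne_zero hb.ne_zero)
    simp only [mu, hab, ha, hb, if_true, this, Multiset.card_add, pow_add]
  · rw [div_mu_zero hab]
    rw [squarefree_mul_iff] at hab
    by_cases ha : Squarefree a
    · have hb : ¬ Squarefree b := fun hb => hab ⟨h.isRelPrime, ha, hb⟩
      rw [div_mu_zero hb, mul_zero]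
    · rw [div_mu_zero ha, zero_mul]
theorem norm_mu {n : O} (hn : Squarefree n) : ‖mu n‖ = 1 := by
  simp [mu, hn]
theorem norm_mu_le (n : O) : ‖mu n‖ ≤ 1 := by
  by_cases hn : Squarefree n
  · exact (norm_mu hn).le
  · rw [div_mu_zero hn]; simp
theorem conj_mu (n : O) : conj (mu n) = mu n := by
  unfold mu
  split_ifs <;> simp
theorem div_sum_zero {g p : O} (hp : Prime p) (hP : Prim p) (hpg : p ∣ g) (s : Finset O)
    (hs : ∀ e, e ∈ s ↔ Prim e ∧ e ∣ g) : ∑ e ∈ s, mu e = 0 := by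
  rw [← Finset.sum_filter_add_sum_filter_not s (p ∣ ·)]
  have h1 : (s.filter (fun e => ¬ p ∣ e)).image (p * ·) ⊆ s.filter (p ∣ ·) := by
    intro e he
    obtain ⟨d, hd, rfl⟩ := Finset.mem_image.1 he
    rw [Finset.mem_filter, hs] at hd ⊢
    exact ⟨⟨hP.mul hd.1.1, (hp.coprime_iff_not_dvd.2 hd.2).mul_dvd hpg hd.1.2⟩, dvd_mul_right _ _⟩
  rw [← Finset.sum_subset h1, Finset.sum_image (fun a _ b _ h => mul_left_cancel₀ hp.ne_zero h),
    ← Finset.sum_add_distrib]
  · refine Finset.sum_eq_zero (fun e he => ?_)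
    rw [mu_mul (hp.coprime_iff_not_dvd.2 (Finset.mem_filter.1 he).2), mu_prime hp]
    ring
  · intro e he hne
    rw [Finset.mem_filter, hs] at he
    obtain ⟨⟨a1, a2⟩, d, rfl⟩ := he
    apply div_mu_zero
    intro hsq
    apply hne
    refine Finset.mem_image.2 ⟨d, Finset.mem_filter.2 ⟨(hs d).2 ⟨a1.of_mul hP,
      (dvd_mul_left _ _).trans a2⟩, fun h => hp.not_isUnit (hsq p (mul_dvd_mul_left p h))⟩, rfl⟩
/-- the same for all primary divisors, even ones included -/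
theorem sum_mu_prim {n : O} (hn : Prim n) (x : O) :
    ∑ e ∈ (ballO (N n)).filter (fun e => Prim e ∧ e ∣ n), (if e ∣ x then mu e else 0) =
      if IsCoprime x n then 1 else 0 := by
  obtain ⟨g, hg, hgn, hgx, hmax⟩ := exists_prim_gcd hn x
  rw [← Finset.sum_filter]
  have hs : ∀ e, e ∈ ((ballO (N n)).filter (fun e => Prim e ∧ e ∣ n)).filter (· ∣ x) ↔
      Prim e ∧ e ∣ g := by
    intro e
    simp only [Finset.mem_filter, mem_ballO]
    exact ⟨fun h => ⟨h.1.2.1, hmax e h.1.2.2 h.2⟩, fun h => ⟨⟨⟨h.1.ne_zero,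
      N_le_of_dvd (h.2.trans hgn) hn.ne_zero⟩, h.1, h.2.trans hgn⟩, h.2.trans hgx⟩⟩
  by_cases h1 : g = 1
  · subst h1
    have h2 : ((ballO (N n)).filter (fun e => Prim e ∧ e ∣ n)).filter (· ∣ x) = {1} := by
      ext e
      rw [hs, Finset.mem_singleton]
      exact ⟨fun h => h.1.eq_one_of_isUnit (isUnit_of_dvd_one h.2),
        fun h => by rw [h]; exact ⟨prim_one, dvd_rfl⟩⟩
    rw [h2, Finset.sum_singleton, mu_one, if_pos]
    rw [isCoprime_iff_no_prime (Or.inr hn.ne_zero)]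
    exact fun p hp a1 a2 => hp.not_isUnit (isUnit_of_dvd_one (hmax p a2 a1))
  · obtain ⟨p, m, hp, hP, -, hpm⟩ := bas_prime_factor hg h1
    have hpg : p ∣ g := ⟨m, hpm⟩
    rw [div_sum_zero hp hP hpg _ hs, if_neg]
    exact fun h => hp.not_isUnit (h.isUnit_of_dvd' (hpg.trans hgx) (hpg.trans hgn))
theorem sum_mu_divs {n : O} (hn : Prim n) (ho : OddO n) (x : O) :
    ∑ e ∈ divs n, (if e ∣ x then mu e else 0) = if IsCoprime x n then 1 else 0 := by
  rw [← sum_mu_prim hn x]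
  apply Finset.sum_subset
  · intro e he
    rw [mem_divs hn.ne_zero] at he
    exact Finset.mem_filter.2 ⟨mem_ballO.2 ⟨he.1.ne_zero, N_le_of_dvd he.2 hn.ne_zero⟩,
      he.1.1, he.2⟩
  · intro e he hne
    rw [Finset.mem_filter] at he
    rw [mem_divs hn.ne_zero] at hne
    have : ¬ Squarefree e := fun h => hne ⟨⟨he.2.1, h, ho.of_dvd he.2.2⟩, he.2.2⟩
    rw [div_mu_zero this, ite_self]
theorem div_N_prod (s : Finset O) : N (∏ p ∈ s, p) = ∏ p ∈ s, N p := by
  induction s using Finset.induction_on with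
  | empty => simp [N_one]
  | insert a s ha ih => rw [Finset.prod_insert ha, Finset.prod_insert ha, N_mul, ih]
theorem prod_cop_le {ε : ℝ} (hε : 0 < ε) : ∃ C : ℝ, 0 < C ∧ ∀ k : O, k ≠ 0 →
    ∏ p ∈ (divs k).filter Prime, (1 - N p ^ (-(1 / 2) : ℝ))⁻¹ ≤ C * N k ^ ε := by
  refine ⟨2 ^ (ballO (2 ^ (1 / ε))).card, by positivity, fun k hk => ?_⟩
  set s := (divs k).filter Prime with hs
  have hmem : ∀ p ∈ s, Prime p ∧ Prim p ∧ p ∣ k := by
    intro p hp
    rw [hs, Finset.mem_filter, mem_divs hk] at hp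
    exact ⟨hp.2, hp.1.1.1, hp.1.2⟩
  have hhalf : ∀ p ∈ s, N p ^ (-(1 / 2) : ℝ) ≤ 1 / 2 := by
    intro p hp
    have h4 := four_le_N_of_prime (hmem p hp).1 (hmem p hp).2.1
    have h5 : N p ^ (-(1 / 2) : ℝ) ≤ (4 : ℝ) ^ (-(1 / 2) : ℝ) :=
      Real.rpow_le_rpow_of_nonpos (by norm_num) h4 (by norm_num)
    have h6 : (4 : ℝ) ^ (-(1 / 2) : ℝ) = 1 / 2 := by
      rw [show (4 : ℝ) = 2 ^ (2 : ℝ) by norm_num, ← Real.rpow_mul (by norm_num)]
      norm_num
    linarith
  have h1 : ∏ p ∈ s, (1 - N p ^ (-(1 / 2) : ℝ))⁻¹ ≤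
      ∏ p ∈ s, ((if p ∈ ballO (2 ^ (1 / ε)) then (2 : ℝ) else 1) * N p ^ ε) := by
    apply Finset.prod_le_prod
    · intro p hp
      have := hhalf p hp
      apply inv_nonneg.2; linarith
    · intro p hp
      have a1 := hhalf p hp
      have a2 : (1 - N p ^ (-(1 / 2) : ℝ))⁻¹ ≤ 2 := by
        rw [inv_le_comm₀ (by linarith) two_pos]; linarith
      refine a2.trans ?_
      split_ifs with h
      · have := Real.one_le_rpow (one_le_N (hmem p hp).1.ne_zero) hε.le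
        linarith
      · rw [mem_ballO, not_and] at h
        rw [one_mul]
        exact div_two_le_rpow hε (not_le.1 (h (hmem p hp).1.ne_zero)).le
  refine h1.trans ?_
  rw [Finset.prod_mul_distrib, Real.finsetProd_rpow _ _ (fun p _ => N_nonneg p), ← div_N_prod]
  have h2 : ∏ p ∈ s, p ∣ k := by
    apply Finset.prod_dvd_of_coprime _ (fun p hp => (hmem p hp).2.2)
    intro p hp q hq hne
    have a := hmem p hp
    have b := hmem q hq
    exact a.1.coprime_iff_not_dvd.2 (fun h => hne (a.2.1.eq_of_associated b.2.1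
      (a.1.irreducible.associated_of_dvd b.1.irreducible h)))
  have h3 := Real.rpow_le_rpow (N_nonneg _) (N_le_of_dvd h2 hk) hε.le
  have h4 : ∏ p ∈ s, (if p ∈ ballO (2 ^ (1 / ε)) then (2 : ℝ) else 1) ≤
      2 ^ (ballO (2 ^ (1 / ε))).card := by
    rw [Finset.prod_ite_mem, Finset.prod_const]
    exact pow_le_pow_right₀ (by norm_num) (Finset.card_le_card Finset.inter_subset_right)
  exact mul_le_mul h4 h3 (Real.rpow_nonneg (N_nonneg _) _) (by positivity)
theorem sqfree_decomp {b : O} (hb : Squarefree b) :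
    ∃ (u : O) (i j : ℕ) (b0 : O), IsUnit u ∧ i ≤ 1 ∧ j ≤ 1 ∧ NN b0 ∧
      b = u * (-2) ^ i * lam ^ j * b0 := by
  obtain ⟨u, k, y, hu, hy, rfl⟩ := exists_unit_lam_prim hb.ne_zero
  have hk : k ≤ 1 := by
    have h1 : Squarefree (lam ^ k) := hb.of_mul_left.of_mul_right
    rcases h1.eq_zero_or_one_of_pow_of_not_isUnit prime_lam.not_isUnit with h | h <;> omega
  have hy2 : Squarefree y := hb.of_mul_right
  by_cases h2 : (2 : O) ∣ y
  · obtain ⟨z, rfl⟩ : (-2 : O) ∣ y := (neg_dvd).2 h2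
    refine ⟨u, 1, k, z, hu, le_rfl, hk, ⟨hy.of_mul prim_neg_two, hy2.of_mul_right, ?_⟩, by ring⟩
    rintro ⟨w, rfl⟩
    exact prime_two.not_isUnit (hy2 2 ⟨-w, by ring⟩)
  · exact ⟨u, 0, k, y, hu, zero_le_one, hk, ⟨hy, hy2, h2⟩, by ring⟩
theorem exists_sqfree_mul_sq {m : O} (hm : m ≠ 0) :
    ∃ b a : O, Squarefree b ∧ a ≠ 0 ∧ m = b * a ^ 2 := by
  induction hk : Nm m using Nat.strong_induction_on generalizing m with
  | _ j ih =>
    by_cases h : Squarefree m
    · exact ⟨m, 1, h, one_ne_zero, by ring⟩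
    · unfold Squarefree at h
      push Not at h
      obtain ⟨x, ⟨m', rfl⟩, hx⟩ := h
      have h1 : m' ≠ 0 := right_ne_zero_of_mul hm
      have h2 : x ≠ 0 := left_ne_zero_of_mul (left_ne_zero_of_mul hm)
      have h3 : Nm m' < j := by
        rw [← hk, Nm_mul, Nm_mul]
        have a1 := bas_Nm_pos h2
        have a2 : Nm x ≠ 1 := fun h => hx (isUnit_iff_Nm.2 h)
        have a3 := bas_Nm_pos h1
        have a4 : 2 ≤ Nm x := by omega
        have a5 : 2 * 2 ≤ Nm x * Nm x := Nat.mul_le_mul a4 a4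
        nlinarith
      obtain ⟨b, a, hb, ha, rfl⟩ := ih _ h3 h1 rfl
      exact ⟨b, a * x, hb, mul_ne_zero ha h2, by ring⟩
theorem div_assoc_of_pow {k : ℕ} {n0 n1 d0 d1 : O} (hd : d0 ≠ 0)
    (h0 : ∀ a, a ^ k ∣ n0 → IsUnit a) (h1 : ∀ a, a ^ k ∣ n1 → IsUnit a)
    (h : n0 * d0 ^ k = n1 * d1 ^ k) : Associated d0 d1 := by
  obtain ⟨a, b, c, hab, rfl, rfl⟩ := UniqueFactorizationMonoid.exists_reduced_factors d0 hd d1
  have hc : c ≠ 0 := left_ne_zero_of_mul hd
  have h2 : c ^ k * (n0 * a ^ k) = c ^ k * (n1 * b ^ k) := by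
    rw [mul_pow, mul_pow] at h
    linear_combination h
  have h3 := mul_left_cancel₀ (pow_ne_zero k hc) h2
  have h4 : IsCoprime (a ^ k) (b ^ k) := hab.isCoprime.pow
  have h5 : IsUnit a := h1 a (h4.dvd_of_dvd_mul_right ⟨n0, by linear_combination -h3⟩)
  have h6 : IsUnit b := h0 b (h4.symm.dvd_of_dvd_mul_right ⟨n1, by linear_combination h3⟩)
  exact (associated_mul_unit_left c a h5).trans (associated_mul_unit_right c b h6)
/-- every nonzero `m` is `b * a ^ 2` with `b` squarefree in exactly six ways -/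
theorem sq_six {F : O → ℂ} (hF : Summable F) :
    Summable (fun p : O × O => if Squarefree p.1 ∧ p.2 ≠ 0 then F (p.1 * p.2 ^ 2) else 0) ∧
    ∑' b : O, (if Squarefree b then ∑' a : O, (if a ≠ 0 then F (b * a ^ 2) else 0) else 0) =
      6 * ∑' m : O, (if m ≠ 0 then F m else 0) := by
  have hex : ∀ m : {m : O // m ≠ 0}, ∃ b a : O, Squarefree b ∧ a ≠ 0 ∧ m.1 = b * a ^ 2 :=
    fun m => exists_sqfree_mul_sq m.2
  choose b0 a0 hb0 ha0 hm0 using hex
  set G : O × O → ℂ := fun p => if Squarefree p.1 ∧ p.2 ≠ 0 then F (p.1 * p.2 ^ 2) else 0 with hG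
  set e : {m : O // m ≠ 0} × ballO 1 → O × O :=
    fun t => (b0 t.1 * t.2.1 ^ 4, a0 t.1 * t.2.1) with he
  have hprod : ∀ t, (e t).1 * (e t).2 ^ 2 = t.1.1 := by
    intro t
    have hu := unit_pow_six (mem_ballO_one.1 t.2.2)
    rw [hm0 t.1, he]
    simp only
    linear_combination (b0 t.1 * a0 t.1 ^ 2) * hu
  have hinj : Function.Injective e := by
    intro t t' h
    have h1 : t.1 = t'.1 := by
      apply Subtype.ext
      rw [← hprod t, ← hprod t', h]
    have h2 : a0 t.1 * t.2.1 = a0 t'.1 * t'.2.1 := congrArg Prod.snd h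
    rw [h1] at h2
    exact Prod.ext h1 (Subtype.ext (mul_left_cancel₀ (ha0 _) h2))
  have hrange : ∀ p, p ∉ Set.range e → G p = 0 := by
    intro p hp
    rw [hG]
    simp only
    rw [if_neg]
    rintro ⟨h1, h2⟩
    apply hp
    have h3 : p.1 * p.2 ^ 2 ≠ 0 := mul_ne_zero h1.ne_zero (pow_ne_zero 2 h2)
    have h4 := hm0 ⟨_, h3⟩
    set m : {m : O // m ≠ 0} := ⟨_, h3⟩ with hm
    have h5 : b0 m * a0 m ^ 2 = p.1 * p.2 ^ 2 := h4.symm
    obtain ⟨u, hu⟩ := div_assoc_of_pow (ha0 m) (fun a h => hb0 m a (by rwa [← sq]))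
      (fun a h => h1 a (by rwa [← sq])) h5
    refine ⟨(m, ⟨u, mem_ballO_one.2 u.isUnit⟩), Prod.ext ?_ hu⟩
    have h6 := unit_pow_six u.isUnit
    apply mul_right_cancel₀ (pow_ne_zero 2 h2)
    rw [← h5, ← hu, he]
    simp only
    linear_combination (b0 m * a0 m ^ 2) * h6
  have hGe : G ∘ e = fun t => F t.1.1 * 1 := by
    funext t
    have hu := mem_ballO_one.1 t.2.2
    simp only [Function.comp, hG]
    rw [if_pos, hprod, mul_one]
    exact ⟨(associated_mul_unit_right _ _ (hu.pow 4)).squarefree_iff.1 (hb0 t.1),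
      mul_ne_zero (ha0 t.1) hu.ne_zero⟩
  have hF1 : Summable (fun m : {m : O // m ≠ 0} => ‖F m.1‖) :=
    (hF.subtype {m | m ≠ 0}).norm
  have hF2 : Summable (fun _ : ballO 1 => ‖(1 : ℂ)‖) := Summable.of_finite
  have hsum : Summable G := by
    rw [← hinj.summable_iff hrange, hGe]
    exact summable_mul_of_summable_norm (f := fun m : {m : O // m ≠ 0} => F m.1)
      (g := fun _ : ballO 1 => (1 : ℂ)) hF1 hF2
  refine ⟨hsum, ?_⟩
  have h1 : ∑' p, G p = 6 * ∑' m : O, (if m ≠ 0 then F m else 0) := by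
    rw [← hinj.tsum_eq (fun p hp => by_contra (fun h => hp (hrange p h)))]
    have h2 : ∑' t, G (e t) = ∑' t : {m : O // m ≠ 0} × ballO 1, F t.1.1 * 1 :=
      congrArg tsum hGe
    rw [h2, ← tsum_mul_tsum_of_summable_norm (f := fun m : {m : O // m ≠ 0} => F m.1)
      (g := fun _ : ballO 1 => (1 : ℂ)) hF1 hF2, tsum_fintype (fun _ : ballO 1 => (1 : ℂ)), Finset.sum_const,
      Finset.card_univ, Fintype.card_coe, card_ballO_one, mul_comm]
    have h3 := tsum_subtype {m : O | m ≠ 0} F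
    have h4 : ∑' m : {m : O // m ≠ 0}, F m.1 = ∑' m : O, (if m ≠ 0 then F m else 0) := by
      refine h3.trans (tsum_congr (fun m => ?_))
      simp [Set.indicator]
    rw [h4]
    simp
  rw [← h1, hsum.tsum_prod]
  refine tsum_congr (fun b => ?_)
  by_cases hb : Squarefree b
  · simp [hG, hb]
  · simp [hG, hb]
theorem div_prim_prime {n p : O} (hn : Prim n) (hp : Prime p) (h : p ∣ n) :
    ∃ q, Prime q ∧ Prim q ∧ Associated q p := by
  obtain ⟨u, hu, hP⟩ := exists_prim_assoc (fun h2 => hn.not_lam_dvd (h2.trans h))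
  exact ⟨u * p, (associated_unit_mul_left p u hu).symm.prime hp, hP,
    associated_unit_mul_left p u hu⟩
theorem cube_decomp {n : O} (hn : Prim n) :
    ∃ n0 d : O, Prim n0 ∧ Prim d ∧ n = n0 * d ^ 3 ∧ ∀ p, Prime p → ¬ p ^ 3 ∣ n0 := by
  induction hk : Nm n using Nat.strong_induction_on generalizing n with
  | _ j ih =>
    by_cases h : ∀ p, Prime p → ¬ p ^ 3 ∣ n
    · exact ⟨n, 1, hn, prim_one, by ring, h⟩
    · push Not at h
      obtain ⟨p, hp, hpn⟩ := h
      obtain ⟨q, hq, hQ, hqp⟩ := div_prim_prime hn hp ((dvd_pow_self p (by norm_num)).trans hpn)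
      obtain ⟨m, rfl⟩ : q ^ 3 ∣ n := (hqp.pow_pow (n := 3)).dvd.trans hpn
      have hm : Prim m := hn.of_mul (hQ.pow 3)
      have h3 : Nm m < j := by
        rw [← hk, Nm_mul, Nm_pow]
        have a0 := div_two_le_N hq
        have a1 : 2 ≤ Nm q := by unfold N at a0; exact_mod_cast a0
        have a2 : 1 < Nm q ^ 3 := Nat.one_lt_pow (by norm_num) a1
        have a3 := bas_Nm_pos hm.ne_zero
        nlinarith
      obtain ⟨n0, d, b1, b2, rfl, b4⟩ := ih _ h3 hm rfl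
      exact ⟨n0, q * d, b1, hQ.mul b2, by ring, b4⟩
theorem div_unit_of_cube {n : O} (hn : n ≠ 0) (hs : ∀ p, Prime p → ¬ p ^ 3 ∣ n) (a : O)
    (h : a ^ 3 ∣ n) : IsUnit a := by
  by_contra hu
  have ha : a ≠ 0 := by
    rintro rfl
    exact hn (by simpa using h)
  obtain ⟨p, hp, hpa⟩ := WfDvdMonoid.exists_irreducible_factor hu ha
  exact hs p hp.prime ((pow_dvd_pow_of_dvd hpa 3).trans h)
theorem cube_unique {n0 n1 d0 d1 : O} (h0 : Prim n0) (h1 : Prim n1) (hd0 : Prim d0)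
    (hd1 : Prim d1) (hs0 : ∀ p, Prime p → ¬ p ^ 3 ∣ n0) (hs1 : ∀ p, Prime p → ¬ p ^ 3 ∣ n1)
    (h : n0 * d0 ^ 3 = n1 * d1 ^ 3) : n0 = n1 ∧ d0 = d1 := by
  have h2 := hd0.eq_of_associated hd1 (div_assoc_of_pow hd0.ne_zero
    (div_unit_of_cube h0.ne_zero hs0) (div_unit_of_cube h1.ne_zero hs1) h)
  subst h2
  exact ⟨mul_right_cancel₀ (pow_ne_zero 3 hd0.ne_zero) h, rfl⟩
/-- a cube-free primary element that is not squarefree has a prime with exact exponent two -/
theorem exists_exact_sq {n : O} (hn : Prim n) (h3 : ∀ p, Prime p → ¬ p ^ 3 ∣ n)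
    (hs : ¬ Squarefree n) : ∃ p n', Prime p ∧ Prim p ∧ Prim n' ∧ ¬ p ∣ n' ∧ n = n' * p ^ 2 := by
  rw [squarefree_iff_irreducible_sq_not_dvd_of_ne_zero hn.ne_zero] at hs
  push Not at hs
  obtain ⟨p, hp, hpn⟩ := hs
  obtain ⟨q, hq, hQ, hqp⟩ := div_prim_prime hn hp.prime ((dvd_mul_right p p).trans hpn)
  obtain ⟨m, rfl⟩ : q * q ∣ n := (hqp.mul_mul hqp).dvd.trans hpn
  refine ⟨q, m, hq, hQ, hn.of_mul (hQ.mul hQ), ?_, by ring⟩
  rintro ⟨w, rfl⟩
  exact h3 q hq ⟨w, by ring⟩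

end

end Vale.Agent.P026
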