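import Vale.Agent.P026.Sym

namespace Vale.Agent.P026

open Complex MeasureTheory Filter Topology
open scoped Classical ComplexConjugate Real MatrixGroups

noncomputable section

/-- generic Gauss sum -/
def gauG (χ : O → ℂ) (h n : O) : ℂ := ∑ x ∈ rs n, χ x * psi (toC h * toC x / toC n)

theorem gau_per {χ : O → ℂ} {q : O} (hq : q ≠ 0) (hχ : Per q χ) (h : O) :
    Per q fun x => χ x * psi (toC h * toC x / toC q) := fun x y hxy => by
  have := psi_congr hq (x := h * x) (y := h * y) (by rw [← mul_sub]; exact hxy.mul_left h)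
  rw [map_mul, map_mul] at this
  simp only [hχ x y hxy, this]

theorem gau_mul {χ : O → ℂ} {q t : O} (hq : q ≠ 0) (hχ : Per q χ)
    (hm : ∀ x y, χ (x * y) = χ x * χ y) (ht : IsCoprime t q) (h : O) :
    gauG χ h q = χ t * gauG χ (h * t) q := by
  rw [gauG, ← sum_rs_mul hq ht (gau_per hq hχ h), gauG, Finset.mul_sum]
  refine Finset.sum_congr rfl fun x _ => ?_
  simp only [hm, map_mul, mul_assoc]

theorem gau_twist_prime {χ : O → ℂ} {p : O} (hp : Prime p) (hχ : Per p χ)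
    (hm : ∀ x y, χ (x * y) = χ x * χ y) (h0 : ∀ x, p ∣ x → χ x = 0)
    (h1 : ∀ x, IsCoprime x p → ‖χ x‖ = 1) (hne : ∃ x, ¬ p ∣ x ∧ χ x ≠ 1) (h : O) :
    gauG χ h p = conj (χ h) * gauG χ 1 p := by
  have hc : ∀ x, ¬ p ∣ x → IsCoprime x p := fun x hx =>
    ((hp.irreducible.coprime_iff_not_dvd).2 hx).symm
  by_cases hh : p ∣ h
  · obtain ⟨t, ht, ht1⟩ := hne
    have e : ∀ h, p ∣ h → gauG χ h p = ∑ x ∈ rs p, χ x := fun h hh =>
      Finset.sum_congr rfl fun x _ => by
        rw [(psi_div_eq_one_iff hp.ne_zero h).2 hh x, mul_one]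
    have a := gau_mul hp.ne_zero hχ hm (hc t ht) h
    rw [e _ (hh.mul_right t), ← e h hh] at a
    rw [h0 h hh, map_zero, zero_mul]
    have : (1 - χ t) * gauG χ h p = 0 := by linear_combination a
    exact (mul_eq_zero.1 this).resolve_left (sub_ne_zero.2 ht1.symm)
  · have a := gau_mul hp.ne_zero hχ hm (hc h hh) 1
    have b := Complex.mul_conj' (χ h)
    rw [h1 h (hc h hh)] at b
    push_cast at b
    rw [a, one_mul]
    linear_combination (-gauG χ h p) * b

theorem gau_conj (χ : O → ℂ) (h q : O) :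
    conj (gauG χ h q) = gauG (fun x => conj (χ x)) (-h) q := by
  simp only [gauG, map_sum, map_mul, ← psi_neg, map_neg, neg_mul, neg_div]

theorem gau_norm {χ : O → ℂ} {q : O} (hq : q ≠ 0) (hχ : Per q χ) (h1 : χ 1 = 1)
    (ht : ∀ h, gauG χ h q = conj (χ h) * gauG χ 1 q) : ‖gauG χ 1 q / (‖toC q‖ : ℂ)‖ = 1 := by
  have key : conj (gauG χ 1 q) * gauG χ 1 q = (N q : ℝ) := by
    calc conj (gauG χ 1 q) * gauG χ 1 q
        = ∑ y ∈ rs q, gauG χ y q * psi (toC (-1) * toC y / toC q) := by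
          rw [gau_conj, gauG, Finset.sum_mul]
          exact Finset.sum_congr rfl fun y _ => by rw [ht y]; ring
      _ = ∑ x ∈ rs q, χ x * ∑ y ∈ rs q, psi (toC (x - 1) * toC y / toC q) := by
          simp only [gauG, Finset.sum_mul, Finset.mul_sum]
          rw [Finset.sum_comm]
          refine Finset.sum_congr rfl fun x _ => Finset.sum_congr rfl fun y _ => ?_
          rw [mul_assoc, ← psi_add]
          congr 2
          simp only [map_sub, map_neg, map_one]; ring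
      _ = ∑ x ∈ rs q, (if q ∣ 1 - x then ((N q : ℝ) : ℂ) else 0) := by
          refine Finset.sum_congr rfl fun x _ => ?_
          rw [sum_psi hq, dvd_sub_comm]
          split_ifs with hx
          · rw [← hχ 1 x hx, h1, one_mul]
          · rw [mul_zero]
      _ = _ := sum_class hq 1 _
  have h2 : ‖gauG χ 1 q‖ ^ 2 = ‖toC q‖ ^ 2 := by
    rw [Complex.conj_mul'] at key
    rw [norm_toC_sq]
    exact_mod_cast key
  have h3 := (pow_left_inj₀ (norm_nonneg _) (norm_nonneg _) two_ne_zero).1 h2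
  rw [norm_div, h3, Complex.norm_real, norm_norm, div_self (norm_ne_zero_iff.2 (toC_ne_zero hq))]

theorem gau_crt {χ₁ χ₂ : O → ℂ} {a b : O} (ha : a ≠ 0) (hb : b ≠ 0) (hab : IsCoprime a b)
    (p1 : Per a χ₁) (p2 : Per b χ₂) (m1 : ∀ x y, χ₁ (x * y) = χ₁ x * χ₁ y)
    (m2 : ∀ x y, χ₂ (x * y) = χ₂ x * χ₂ y) (h : O) :
    gauG (fun x => χ₁ x * χ₂ x) h (a * b) = χ₁ b * χ₂ a * gauG χ₁ h a * gauG χ₂ h b := by
  have hp : Per (a * b) fun x => χ₁ x * χ₂ x := fun x y hxy => by
    simp only [p1 x y ((dvd_mul_right a b).trans hxy), p2 x y ((dvd_mul_left b a).trans hxy)]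
  rw [gauG, sum_rs_crt ha hb hab (gau_per (mul_ne_zero ha hb) hp h), gauG, gauG, mul_assoc,
    Finset.sum_mul_sum, Finset.mul_sum]
  refine Finset.sum_congr rfl fun x _ => ?_
  rw [Finset.mul_sum]
  refine Finset.sum_congr rfl fun y _ => ?_
  have e1 : χ₁ (x * b + y * a) = χ₁ x * χ₁ b := by
    rw [← m1]; exact p1 _ _ ⟨y, by ring⟩
  have e2 : χ₂ (x * b + y * a) = χ₂ y * χ₂ a := by
    rw [← m2]; exact p2 _ _ ⟨x, by ring⟩
  have e3 : toC h * toC (x * b + y * a) / toC (a * b) =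
      toC h * toC x / toC a + toC h * toC y / toC b := by
    have := toC_ne_zero ha
    have := toC_ne_zero hb
    simp only [map_add, map_mul]
    field_simp
  rw [e1, e2, e3, psi_add]
  ring

theorem gau_one {χ : O → ℂ} (h1 : ∀ x, χ x = 1) : gauG χ 1 1 / (‖toC 1‖ : ℂ) = 1 := by
  have : ∀ x ∈ rs 1, χ x * psi (toC 1 * toC x / toC 1) = 1 := fun x _ => by
    rw [h1, map_one, one_mul, one_mul, div_one, psi_toC]
  rw [gauG, Finset.sum_congr rfl this, Finset.sum_const, card_rs one_ne_zero,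
    isUnit_iff_Nm.1 isUnit_one]
  simp

theorem gau_per6 (n : O) (k : ℕ) : Per n fun x => chi6 x n ^ k := fun _ _ h => by
  simp only [chi6_congr h]

theorem gau_mul6 {n : O} (hn : OddO n) (k : ℕ) (x y : O) :
    chi6 (x * y) n ^ k = chi6 x n ^ k * chi6 y n ^ k := by rw [chi6_mul_left _ _ hn, mul_pow]

theorem gau_gs_mul {a b : O} (ha : NN a) (hb : NN b) (hab : IsCoprime a b) (k : ℕ) (h : O) :
    gs k h (a * b) = chi6 b a ^ k * chi6 a b ^ k * gs k h a * gs k h b := by
  have := gau_crt ha.ne_zero hb.ne_zero hab (gau_per6 a k) (gau_per6 b k) (gau_mul6 ha.2.2 k)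
    (gau_mul6 hb.2.2 k) h
  simpa only [gauG, gs, chi6_mul_right _ ha.ne_zero hb.ne_zero, mul_pow] using this

theorem gs_twist {n : O} (hn : NN n) {k : ℕ} (h1 : 1 ≤ k) (h5 : k ≤ 5) (h : O) :
    gs k h n = chi6 h n ^ (6 - k) * gs k 1 n := by
  refine NN.induction (P := fun n => gs k h n = chi6 h n ^ (6 - k) * gs k 1 n) ?_
    (fun p n hp hP hn hpn ih => ?_) n hn
  · simp only [gs, chi6_one_right, map_one, div_one, ← map_mul, psi_toC, one_pow, one_mul]
  · have hc : IsCoprime p n := (hp.irreducible.coprime_iff_not_dvd).2 hpn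
    have e : gs k h p = chi6 h p ^ (6 - k) * gs k 1 p := by
      rw [← conj_chi6_pow h hp.ne_zero h1 h5]
      refine gau_twist_prime hp (gau_per6 p k) (gau_mul6 hP.2.2 k) (fun x hx => ?_)
        (fun x hx => by rw [norm_pow, norm_chi6 hx, one_pow]) (exists_chi6_pow_ne hp hP h1 h5) h
      rw [(chi6_eq_zero_iff hp.ne_zero).2 fun hc => hp.not_unit (hc.isUnit_of_dvd' hx dvd_rfl),
        zero_pow (by omega)]
    rw [gau_gs_mul hP hn hc, gau_gs_mul hP hn hc, ih, e, chi6_mul_right _ hp.ne_zero hn.ne_zero]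
    ring
theorem norm_gt {n : O} (hn : NN n) {k : ℕ} (h1 : 1 ≤ k) (h5 : k ≤ 5) : ‖gt k n‖ = 1 :=
  gau_norm hn.ne_zero (gau_per6 n k) (by rw [chi6_one_left, one_pow]) fun h => by
    rw [conj_chi6_pow h hn.ne_zero h1 h5]; exact gs_twist hn h1 h5 h
theorem gs_crt {a b : O} (ha : NN a) (hb : NN b) (hab : IsCoprime a b) (k : ℕ) (h : O) :
    ∑ x ∈ rs (a * b), chi6 x a ^ k * conj (chi6 x b ^ k) * psi (toC h * toC x / toC (a * b)) =
      chi6 b a ^ k * conj (chi6 a b ^ k) * gs k h a * conj (gs k (-h) b) := by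
  have := gau_crt (χ₂ := fun x => conj (chi6 x b ^ k)) ha.ne_zero hb.ne_zero hab (gau_per6 a k)
    (fun x y hxy => by simp only [chi6_congr hxy]) (gau_mul6 ha.2.2 k)
    (fun x y => by rw [gau_mul6 hb.2.2 k, map_mul]) h
  have e := gau_conj (fun x => chi6 x b ^ k) (-h) b
  rw [neg_neg] at e
  rw [← e] at this
  exact this
theorem gt_mul {a b : O} (ha : NN a) (hb : NN b) (hab : IsCoprime a b) (k : ℕ) :
    gt k (a * b) = gt k a * gt k b * chi6 a b ^ k * chi6 b a ^ k := by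
  rw [gt, gt, gt, gau_gs_mul ha hb hab, map_mul, norm_mul]
  push_cast
  ring
theorem gt_one (k : ℕ) : gt k 1 = 1 :=
  gau_one (χ := fun x => chi6 x 1 ^ k) fun x => by rw [chi6_one_right, one_pow]
theorem gt_five {n : O} (hn : NN n) : gt 5 n = sym2 (-1) n * conj (gt 1 n) := by
  have e : conj (gs 1 1 n) = gs 5 (-1) n := by
    have := gau_conj (fun x => chi6 x n ^ 1) 1 n
    simp only [conj_chi6_pow _ hn.ne_zero le_rfl (by norm_num : 1 ≤ 5)] at this
    exact this
  have h2 := sym2_sq (x := -1) (n := n) isCoprime_one_left.neg_left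
  rw [gt, gt, map_div₀, e, gs_twist hn (by norm_num) le_rfl (-1), chi6_neg_one, Complex.conj_ofReal]
  linear_combination (-(gs 5 1 n / (‖toC n‖ : ℂ))) * h2
theorem gs_three {n : O} (hn : n ≠ 0) (h : O) : gs 3 h n = g2 h n := by
  simp only [gs, g2, chi6_cube _ hn]
theorem gs_two {n : O} (hn : n ≠ 0) (h : O) : gs 2 h n = g3 h n := by
  simp only [gs, g3, chi6_sq _ hn]
theorem g3_twist {p : O} (hp : Prime p) (hP : Prim p) (h : O) :
    g3 h p = conj (sym3 h p) * g3 1 p :=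
  gau_twist_prime (χ := fun x => sym3 x p) hp (fun _ _ h => sym3_congr h)
    (fun x y => sym3_mul_left x y p)
    (fun _ hx => (sym3_eq_zero_iff hp.ne_zero).2 fun hc =>
      hp.not_unit (hc.isUnit_of_dvd' hx dvd_rfl))
    (fun _ hx => norm_sym3 hx) (exists_sym3_ne hp hP) h
theorem norm_gt3 {p : O} (hp : Prime p) (hP : Prim p) : ‖gt3 p‖ = 1 :=
  gau_norm (χ := fun x => sym3 x p) hp.ne_zero (fun _ _ h => sym3_congr h) (sym3_one_left p)
    (g3_twist hp hP)
theorem gt3_one : gt3 1 = 1 :=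
  gau_one (χ := fun x => sym3 x 1) fun x => sym3_unit_right x isUnit_one
theorem gt3_mul {a b : O} (ha : a ≠ 0) (hb : b ≠ 0) (hab : IsCoprime a b) :
    gt3 (a * b) = gt3 a * gt3 b * sym3 a b * sym3 b a := by
  have := gau_crt (χ₁ := fun x => sym3 x a) (χ₂ := fun x => sym3 x b) ha hb hab
    (fun _ _ h => sym3_congr h) (fun _ _ h => sym3_congr h) (fun x y => sym3_mul_left x y a)
    (fun x y => sym3_mul_left x y b) 1
  have e : g3 1 (a * b) = sym3 b a * sym3 a b * g3 1 a * g3 1 b := by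
    simpa only [gauG, g3, sym3_mul_right _ ha hb] using this
  rw [gt3, gt3, gt3, e, map_mul, norm_mul]
  push_cast
  ring

end

end Vale.Agent.P026
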