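import Vale.Agent.P026.Hil

namespace Vale.Agent.P026

open Complex MeasureTheory Filter Topology
open scoped Classical ComplexConjugate Real MatrixGroups

noncomputable section

theorem res_lim {β : ℂ → ℂ} (hβ : DifferentiableOn ℂ β {s | 1 < s.re}) :
    Tendsto (fun ε : ℝ => β (4 / 3 + ε * Complex.I)) (UU : Filter ℝ) (𝓝 (β (4 / 3))) := by
  have ho : IsOpen {s : ℂ | 1 < s.re} := isOpen_lt continuous_const continuous_re
  have hm : (4 / 3 : ℂ) ∈ {s : ℂ | 1 < s.re} := by
    show 1 < (4 / 3 : ℂ).re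
    norm_num
  exact (hβ.continuousOn.continuousAt (ho.mem_nhds hm)).tendsto.comp tendsto_UU

theorem res_Om {β : ℂ → ℂ} (hβ : DifferentiableOn ℂ β {s | 1 < s.re}) :
    DifferentiableOn ℂ β Om := hβ.mono fun _ hs => hs.1

/-- identity theorem on `Om` -/
theorem eqOn_Om {f g : ℂ → ℂ} (hf : DifferentiableOn ℂ f Om) (hg : DifferentiableOn ℂ g Om)
    (h : ∀ s ∈ Om, 3 < s.re → f s = g s) : ∀ s ∈ Om, f s = g s := by
  have hm : (4 + Complex.I : ℂ) ∈ Om := by
    refine ⟨?_, ?_, ?_⟩ <;> norm_num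
  have ho : IsOpen {s : ℂ | 3 < s.re} := isOpen_lt continuous_const continuous_re
  have hm' : (4 + Complex.I : ℂ) ∈ {s : ℂ | 3 < s.re} := by
    show 3 < (4 + Complex.I : ℂ).re
    norm_num
  refine (hf.analyticOnNhd isOpen_Om).eqOn_of_preconnected_of_eventuallyEq
    (hg.analyticOnNhd isOpen_Om) convex_Om.isPreconnected hm ?_
  filter_upwards [isOpen_Om.mem_nhds hm, ho.mem_nhds hm'] with s h1 h2 using h s h1 h2

theorem IsRes.unique {D : ℂ → ℂ} {r r' : ℂ} (h : IsRes D r) (h' : IsRes D r') : r = r' := by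
  obtain ⟨I1, β1, a1, a2, a3, a4, a5⟩ := h
  obtain ⟨I2, β2, b1, b2, b3, b4, b5⟩ := h'
  have e := eqOn_Om (a1.mul (res_Om b2)) (b1.mul (res_Om a2)) fun s hs h3 => by
    simp only [Pi.mul_apply]
    rw [a4 s hs h3, b4 s hs h3]
    ring
  have := tendsto_nhds_unique_of_eventuallyEq (a5.mul (res_lim b2)) (b5.mul (res_lim a2)) (by
    filter_upwards [eventually_mem_Om] with ε hε
    have := e _ hε.1
    simp only [Pi.mul_apply] at this
    rw [mul_assoc, mul_assoc, this])
  rw [mul_right_comm, mul_assoc, mul_assoc] at this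
  exact mul_right_cancel₀ (mul_ne_zero b3 a3) this
theorem IsRes.congr {D D' : ℂ → ℂ} {r : ℂ} (h : IsRes D r) (hD : ∀ s, 3 < s.re → D s = D' s) :
    IsRes D' r := by
  obtain ⟨I1, β1, a1, a2, a3, a4, a5⟩ := h
  exact ⟨I1, β1, a1, a2, a3, fun s hs h3 => by rw [a4 s hs h3, hD s h3], a5⟩
theorem IsRes.add {D D' : ℂ → ℂ} {r r' : ℂ} (h : IsRes D r) (h' : IsRes D' r') :
    IsRes (fun s => D s + D' s) (r + r') := by
  obtain ⟨I1, β1, a1, a2, a3, a4, a5⟩ := h
  obtain ⟨I2, β2, b1, b2, b3, b4, b5⟩ := h'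
  refine ⟨fun s => I1 s * β2 s + I2 s * β1 s, fun s => β1 s * β2 s,
    (a1.mul (res_Om b2)).add (b1.mul (res_Om a2)), a2.mul b2, mul_ne_zero a3 b3,
    fun s hs h3 => ?_, ?_⟩
  · beta_reduce
    rw [a4 s hs h3, b4 s hs h3]
    ring
  · have := (a5.mul (res_lim b2)).add (b5.mul (res_lim a2))
    refine (this.congr fun ε => by ring).trans (le_of_eq ?_)
    congr 1
    ring
theorem IsRes.mul {D f : ℂ → ℂ} {r : ℂ} (h : IsRes D r)
    (hf : DifferentiableOn ℂ f {s | 1 < s.re}) :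
    IsRes (fun s => f s * D s) (f (4 / 3) * r) := by
  obtain ⟨I1, β1, a1, a2, a3, a4, a5⟩ := h
  refine ⟨fun s => f s * I1 s, β1, (res_Om hf).mul a1, a2, a3, fun s hs h3 => ?_, ?_⟩
  · beta_reduce
    rw [a4 s hs h3]
    ring
  · have := (res_lim hf).mul a5
    refine (this.congr fun ε => by ring).trans (le_of_eq ?_)
    congr 1
    ring
theorem IsRes.const_mul {D : ℂ → ℂ} {r : ℂ} (h : IsRes D r) (c : ℂ) :
    IsRes (fun s => c * D s) (c * r) := h.mul (f := fun _ => c) (differentiableOn_const c)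
theorem IsRes.sub {D D' : ℂ → ℂ} {r r' : ℂ} (h : IsRes D r) (h' : IsRes D' r') :
    IsRes (fun s => D s - D' s) (r - r') := by
  have := (h.add (h'.const_mul (-1))).congr (D' := fun s => D s - D' s) fun s _ => by ring
  rwa [neg_one_mul, ← sub_eq_add_neg] at this
theorem IsRes.of_mul {D f : ℂ → ℂ} {r : ℂ} (h : IsRes (fun s => f s * D s) r)
    (hf : DifferentiableOn ℂ f {s | 1 < s.re}) (h0 : f (4 / 3) ≠ 0) :
    IsRes D (r / f (4 / 3)) := by
  obtain ⟨I1, β1, a1, a2, a3, a4, a5⟩ := h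
  refine ⟨I1, fun s => f s * β1 s, a1, hf.mul a2, mul_ne_zero h0 a3, fun s hs h3 => ?_, ?_⟩
  · beta_reduce
    rw [a4 s hs h3]
    ring
  · beta_reduce
    rwa [← mul_assoc, div_mul_cancel₀ _ h0]
theorem isRes_zero : IsRes (fun _ => 0) 0 :=
  ⟨fun _ => 0, fun _ => 1, differentiableOn_const _, differentiableOn_const _, one_ne_zero,
    fun _ _ _ => by simp, by simp⟩
theorem isRes_zeta {f : ℂ → ℂ} (hf : DifferentiableOn ℂ f {s | 1 < s.re}) :
    IsRes (fun s => f s * riemannZeta (3 * s - 3)) (f (4 / 3) / (3 * Complex.I)) := by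
  have ne : ∀ s ∈ Om, 3 * s - 3 ≠ 1 := fun s hs h => by
    have := congrArg Complex.im h
    have h2 := hs.2.1
    simp at this
    linarith
  have key : IsRes (fun s => riemannZeta (3 * s - 3)) (1 / (3 * Complex.I)) := by
    refine ⟨fun s => riemannZeta (3 * s - 3), fun _ => 1, fun s hs => ?_, differentiableOn_const _,
      one_ne_zero, fun s _ _ => by simp, ?_⟩
    · exact ((differentiableAt_riemannZeta (ne s hs)).comp s
        (f := fun s : ℂ => 3 * s - 3) (by fun_prop)).differentiableWithinAt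
    · have t1 : Tendsto (fun ε : ℝ => 3 * (4 / 3 + ε * Complex.I) - 3) (UU : Filter ℝ) (𝓝[≠] 1) := by
        refine tendsto_nhdsWithin_iff.2 ⟨?_, ?_⟩
        · have := (tendsto_UU.const_mul 3).sub_const 3
          rwa [show (3 : ℂ) * (4 / 3) - 3 = 1 by norm_num] at this
        · filter_upwards [eventually_mem_Om] with ε hε using ne _ hε.1
      have t2 := (riemannZeta_residue_one.comp t1).const_mul (1 / (3 * Complex.I))
      refine t2.congr fun ε => ?_
      have := Complex.I_ne_zero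
      simp only [Function.comp_apply]
      field_simp
      ring
  have := key.mul hf
  rwa [mul_one_div] at this

end

end Vale.Agent.P026
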