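import Vale.Agent.P026.ThC
import Vale.Agent.P026.Gau
import Vale.Agent.P026.Div
import Vale.Agent.P026.DRel
import Vale.Agent.P026.Res

namespace Vale.Agent.P026

open Complex MeasureTheory Filter Topology
open scoped Classical ComplexConjugate Real MatrixGroups

noncomputable section

theorem thr_ne {p : O} (hp : Prime p) (hP : Prim p) : ((N p : ℝ) : ℂ) ≠ 0 ∧
    ((N p : ℝ) : ℂ) + 1 ≠ 0 ∧ ((N p : ℝ) : ℂ) - 1 ≠ 0 := by
  have := four_le_N_of_prime hp hP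
  refine ⟨?_, ?_, ?_⟩
  · exact_mod_cast (by linarith : N p ≠ 0)
  · exact_mod_cast (by linarith : N p + 1 ≠ 0)
  · exact_mod_cast (by linarith : N p - 1 ≠ 0)

theorem thr_diff {P : ℂ} (hP : P ≠ 0) (a : ℂ) :
    DifferentiableOn ℂ (fun s : ℂ => 1 - P ^ (a - 3 * s)) {s | 1 < s.re} :=
  Differentiable.differentiableOn
    ((Differentiable.const_cpow (by fun_prop) (Or.inl hP)).const_sub 1)

theorem thr_val2 (P : ℂ) : P ^ ((2 : ℂ) - 3 * (4 / 3)) = (P ^ 2)⁻¹ := by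
  rw [show (2 : ℂ) - 3 * (4 / 3) = -((2 : ℕ) : ℂ) by push_cast; ring, cpow_neg, cpow_natCast]

theorem thr_val3 (P : ℂ) : P ^ ((3 : ℂ) - 3 * (4 / 3)) = P⁻¹ := by
  rw [show (3 : ℂ) - 3 * (4 / 3) = -1 by ring, cpow_neg_one]

theorem thr_res0 {ρ : SLO → O → ℂ} (h : ThetaOut 9 Phi1 ρ) (σ : SLO) {p : O} (hp : Prime p)
    (hP : Prim p) :
    IsRes (Dsub 9 (tw Phi1 σ) 0 p) (((N p : ℝ) : ℂ) / (((N p : ℝ) : ℂ) + 1) * ρ σ 0) := by
  obtain ⟨n0, n1, n2⟩ := thr_ne hp hP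
  have h1 := ((h.res σ 0).mul (thr_diff n0 3)).congr fun s hs => D_C σ hp hP hs
  have e : 1 - (((N p : ℝ) : ℂ) ^ 2)⁻¹ = (((N p : ℝ) : ℂ) - 1) * (((N p : ℝ) : ℂ) + 1) /
      ((N p : ℝ) : ℂ) ^ 2 := by field_simp; ring
  have h2 := h1.of_mul (thr_diff n0 2) (by
    rw [thr_val2, e]; exact div_ne_zero (mul_ne_zero n2 n1) (pow_ne_zero _ n0))
  convert h2 using 1
  rw [thr_val2, thr_val3, e]
  field_simp

theorem res_Dsub {ρ : SLO → O → ℂ} (h : ThetaOut 9 Phi1 ρ) (σ : SLO) {p : O} (hp : Prime p)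
    (hP : Prim p) (n : O) :
    IsRes (Dsub 9 (tw Phi1 σ) n p) (((N p : ℝ) : ℂ) / (((N p : ℝ) : ℂ) + 1) * ρ σ n) := by
  obtain ⟨n0, n1, n2⟩ := thr_ne hp hP
  have h9 : (9 : O) * p ≠ 0 := mul_ne_zero (by decide) hp.ne_zero
  obtain ⟨ρ', h'⟩ := theta_machine h9 (mulS_kap0 (dvd_mul_right 9 p)) (equi_Phil σ p)
  have hz : ∀ σ', ρ' σ' 0 = 0 := fun σ' => by
    have a := h.res (σ * σ') 0
    have b := thr_res0 h (σ * σ') hp hP
    rcases D_L0 σ σ' hp hP with hD | hD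
    · have c := (((a.sub b).const_mul ((N p : ℝ) : ℂ)).sub
        (a.const_mul (((N p : ℝ) : ℂ) / (((N p : ℝ) : ℂ) + 1)))).congr fun s hs => (hD s hs).symm
      rw [(h'.res σ' 0).unique c]
      field_simp
      ring
    · have c := (b.sub
        (a.const_mul (((N p : ℝ) : ℂ) / (((N p : ℝ) : ℂ) + 1)))).congr fun s hs => (hD s hs).symm
      rw [(h'.res σ' 0).unique c, sub_self]
  have a := h.res σ n
  have b := h'.res 1 (p * n)
  rw [h'.van hz, tw_one] at b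
  have c := ((a.const_mul (((N p : ℝ) : ℂ) / (((N p : ℝ) : ℂ) + 1))).sub
    (b.const_mul ((N p : ℝ) : ℂ)⁻¹)).congr (D' := Dsub 9 (tw Phi1 σ) n p) fun s hs => by
      rw [D_L1 σ hp hP n hs]
      field_simp
      ring
  rwa [mul_zero, sub_zero] at c
theorem rho_cube {ρ : SLO → O → ℂ} (h : ThetaOut 9 Phi1 ρ) (σ : SLO) (n : O) {d : O}
    (hd : Prim d) : ρ σ (n * d ^ 3) = ρ σ n := by
  refine Prim.induction (P := fun d => ρ σ (n * d ^ 3) = ρ σ n) (by simp)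
    (fun p d hp hP _ ih => ?_) d hd
  obtain ⟨n0, n1, -⟩ := thr_ne hp hP
  have a := (res_Dsub h σ hp hP (n * d ^ 3 * p ^ 3)).congr fun s _ => D_P σ hp hP _ s
  have b := mul_left_cancel₀ (div_ne_zero n0 n1) (a.unique (res_Dsub h σ hp hP (n * d ^ 3)))
  rw [← ih, ← b]
  congr 1; ring
theorem rho_sq {ρ : SLO → O → ℂ} (h : ThetaOut 9 Phi1 ρ) (σ : SLO) {n p : O} (hp : Prime p)
    (hP : Prim p) (hn : ¬ p ∣ n) : ρ σ (n * p ^ 2) = 0 := by
  obtain ⟨n0, n1, -⟩ := thr_ne hp hP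
  have a := ((res_Dsub h σ hp hP (n * p ^ 2)).mul (thr_diff n0 2)).congr
    fun s hs => (D_Q σ hp hP hn hs).symm
  have b := (h.res σ (n * p ^ 2)).unique a
  rw [thr_val2] at b
  generalize ρ σ (n * p ^ 2) = r at b
  generalize ((N p : ℝ) : ℂ) = P at *
  field_simp at b
  have : (P + 1) * r = 0 := by linear_combination b
  exact (mul_eq_zero.1 this).resolve_left n1
theorem rho_mult {ρ : SLO → O → ℂ} (h : ThetaOut 9 Phi1 ρ) {γ σ : SLO} (hγ : γ * σ⁻¹ ∈ Gam 3)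
    (n : O) : ρ γ n = conj (tw Phi1 σ (row γ)) * ρ σ n := by
  refine (h.res γ n).unique (((h.res σ n).const_mul _).congr fun s _ => ?_)
  rw [Dser, Dser, ← tsum_mul_left]
  refine tsum_congr fun c => ?_
  split_ifs
  · rw [mul_left_comm, Ssum, Ssum, Finset.mul_sum]
    congr 1
    exact Finset.sum_congr rfl fun d _ => by rw [tw_mult hγ, mul_assoc]
  · rw [mul_zero]
theorem rho_three {ρ : SLO → O → ℂ} (h : ThetaOut 9 Phi1 ρ) {n : O} (hn : ¬ (3 : O) ∣ n) :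
    ρ 1 n = 0 := by
  refine (h.res 1 n).unique (isRes_zero.congr fun s _ => ?_)
  rw [tw_one, Dser]
  refine (tsum_zero.symm.trans (tsum_congr fun c => ?_))
  split_ifs with hc
  · rw [S_three hn hc, mul_zero]
  · rfl
theorem tau_gauss {ρ : SLO → O → ℂ} (h : ThetaOut 9 Phi1 ρ) {n p : O} (hp : Prime p)
    (hP : Prim p) (hn : ¬ p ∣ n) :
    tauOf ρ 1 (n * p) = conj (sym3 9 p) * sym3 n p * conj (gt3 p) * tauOf ρ 1 n := by
  obtain ⟨n0, n1, -⟩ := thr_ne hp hP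
  have hd : DifferentiableOn ℂ (fun s : ℂ => sym3 9 p * g3 n p * ((N p : ℝ) : ℂ) ^ (-s))
      {s | 1 < s.re} := Differentiable.differentiableOn
    ((Differentiable.const_cpow (by fun_prop) (Or.inl n0)).const_mul _)
  have a := ((res_Dsub h 1 hp hP n).add ((res_Dsub h 1 hp hP (n * p)).mul hd)).congr
    (D' := Dser 9 (tw Phi1 1) n) fun s hs => by rw [tw_one, D_G hp hP hn hs]
  have b := (h.res 1 n).unique a
  have hN := N_pos hp.ne_zero
  obtain ⟨a, ha⟩ : ∃ a : ℝ, a = N p ^ (1 / 6 : ℝ) := ⟨_, rfl⟩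
  have a0 : 0 < a := ha ▸ Real.rpow_pos_of_pos hN _
  have e6 : N p = a ^ 6 := by
    rw [ha, ← Real.rpow_natCast, ← Real.rpow_mul hN.le]; norm_num
  have e3 : ‖toC p‖ = a ^ 3 := by
    rw [norm_toC, e6, show a ^ 6 = (a ^ 3) ^ 2 by ring, Real.sqrt_sq (by positivity)]
  have e8 : ((N p : ℝ) : ℂ) ^ (-(4 / 3 : ℂ)) = (((a : ℂ)) ^ 8)⁻¹ := by
    have : N p ^ (-(4 / 3) : ℝ) = (a ^ 8)⁻¹ := by
      rw [ha, ← Real.rpow_natCast, ← Real.rpow_mul hN.le, ← Real.rpow_neg hN.le]; norm_num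
    have e := Complex.ofReal_cpow hN.le (-(4 / 3) : ℝ)
    rw [this] at e
    push_cast at e
    exact e.symm
  have eg : g3 n p = conj (sym3 n p) * gt3 p * (a : ℂ) ^ 3 := by
    have : (a : ℂ) ≠ 0 := by exact_mod_cast a0.ne'
    rw [g3_twist hp hP, gt3, e3]
    push_cast
    field_simp
  have c1 := Complex.mul_conj' (sym3 9 p)
  have c2 := Complex.mul_conj' (sym3 n p)
  have c3 := Complex.mul_conj' (gt3 p)
  have q9 : IsCoprime (9 : O) p := by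
    have := (hP.coprime_three.pow_right (n := 2)).symm
    rwa [show (3 : O) ^ 2 = 9 by norm_num] at this
  rw [norm_sym3 q9] at c1
  rw [norm_sym3 ((hp.irreducible.coprime_iff_not_dvd).2 hn).symm] at c2
  rw [norm_gt3 hp hP] at c3
  push_cast at c1 c2 c3
  rw [e8, eg] at b
  rw [e6] at b n1
  have hac : (a : ℂ) ≠ 0 := by exact_mod_cast a0.ne'
  have b2 : ρ 1 n = sym3 9 p * conj (sym3 n p) * gt3 p * a * ρ 1 (n * p) := by
    push_cast at b n1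
    field_simp at b
    linear_combination b
  rw [tauOf, tauOf, N_mul, Real.mul_rpow (N_nonneg n) hN.le, ← ha, b2]
  push_cast
  linear_combination (-((N n ^ (1 / 6 : ℝ) : ℝ) : ℂ) * a * ρ 1 (n * p)) *
    (sym3 n p * conj (sym3 n p) * (gt3 p * conj (gt3 p)) * c1 + gt3 p * conj (gt3 p) * c2 + c3)
theorem tau_cube {ρ : SLO → O → ℂ} (h : ThetaOut 9 Phi1 ρ) (σ : SLO) (n : O) {d : O}
    (hd : Prim d) : tauOf ρ σ (n * d ^ 3) = (‖toC d‖ : ℂ) * tauOf ρ σ n := by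
  have e : (N d ^ 3) ^ (1 / 6 : ℝ) = ‖toC d‖ := by
    rw [norm_toC, Real.sqrt_eq_rpow, ← Real.rpow_natCast, ← Real.rpow_mul (N_nonneg d)]; norm_num
  rw [tauOf, tauOf, rho_cube h σ n hd, N_mul, N_pow,
    Real.mul_rpow (N_nonneg n) (pow_nonneg (N_nonneg d) 3), e]
  push_cast
  ring
theorem tau_bound {ρ : SLO → O → ℂ} (h : ThetaOut 9 Phi1 ρ) :
    ∃ C : ℝ, ∀ σ, ∀ R : ℝ, 1 ≤ R → ∑ n ∈ ballO R, ‖tauOf ρ σ n‖ ^ 2 ≤ C * R := by
  obtain ⟨C, hC⟩ := h.bound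
  refine ⟨C, fun σ R hR => ?_⟩
  have hR0 : 0 < R := by linarith
  calc ∑ n ∈ ballO R, ‖tauOf ρ σ n‖ ^ 2 ≤ ∑ n ∈ ballO R, R ^ (1 / 3 : ℝ) * ‖ρ σ n‖ ^ 2 := by
        refine Finset.sum_le_sum fun n hn => ?_
        rw [tauOf, norm_mul, mul_pow, Complex.norm_real, Real.norm_eq_abs, sq_abs,
          ← Real.rpow_natCast, ← Real.rpow_mul (N_nonneg n)]
        refine mul_le_mul_of_nonneg_right ?_ (sq_nonneg _)
        rw [show (1 / 6 : ℝ) * (2 : ℕ) = 1 / 3 by norm_num]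
        exact Real.rpow_le_rpow (N_nonneg n) (mem_ballO.1 hn).2 (by norm_num)
    _ ≤ R ^ (1 / 3 : ℝ) * (C * R ^ (2 / 3 : ℝ)) := by
        rw [← Finset.mul_sum]
        exact mul_le_mul_of_nonneg_left (hC σ R hR) (by positivity)
    _ = C * R := by
        rw [mul_left_comm, ← Real.rpow_add hR0]; norm_num

end

end Vale.Agent.P026
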