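import Vale.Agent.P026.Jac

namespace Vale.Agent.P026

open Complex MeasureTheory Filter Topology
open scoped Classical ComplexConjugate Real MatrixGroups

noncomputable section

theorem rec_frob {R R' : Type} [CommRing R] [Fintype R] [CommRing R'] (l : ℕ) [Fact l.Prime]
    [CharP R' l] (χ : MulChar R R') (ψ : AddChar R R') (n : ℕ) :
    gaussSum χ ψ ^ l ^ n = gaussSum (χ ^ l ^ n) (ψ ^ l ^ n) := by
  induction n with
  | zero => simp
  | succ n ih => rw [pow_succ, pow_mul, ih, gaussSum_frob, ← pow_mul, ← pow_mul]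

theorem rec_abs {F R : Type} [Field F] [Fintype F] [Field R] {X : MulChar F R} (ho : orderOf X = 3)
    {ψ : AddChar F R} (hψ : ψ.IsPrimitive) (l : ℕ) [Fact l.Prime] [CharP R l] (n : ℕ) {Q k : ℕ}
    (hQ : Q = l ^ n) (hk : Q = 3 * k + 1) (hu : IsUnit (Q : F)) (h0 : (Fintype.card F : R) ≠ 0) :
    X Q * (X (-1) * Fintype.card F * jacobiSum X X) ^ k = 1 := by
  have g3 := gaussSum_pow_eq_prod_jacobiSum (χ := X) (by omega) hψ
  rw [ho] at g3
  simp only [Nat.add_one_sub_one, Nat.Ico_succ_singleton, Finset.prod_singleton, pow_one] at g3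
  have hg0 := gaussSum_ne_zero_of_nontrivial h0 (χ := X) (fun h => by simp [h] at ho) hψ
  have fr := rec_frob l X ψ n
  rw [← hQ, AddChar.pow_mulShift] at fr
  have e4 : X ^ Q = X := by
    rw [hk, pow_succ, pow_mul, ← ho, pow_orderOf_eq_one, one_pow, one_mul]
  have sh := gaussSum_mulShift X ψ hu.unit
  rw [IsUnit.unit_spec, ← e4, ← fr, e4] at sh
  refine mul_right_cancel₀ hg0 ?_
  rw [← g3, ← pow_mul, mul_assoc, ← pow_succ, ← hk, sh, one_mul]

theorem rec_cop {a b : O} (h : (Nm a).Coprime (Nm b)) : IsCoprime (a * star a) (b * star b) := by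
  rw [mul_star_eq, mul_star_eq]
  exact h.cast

theorem recip_aux {p q : O} (hp : Prime p) (hP : Prim p) (hq : Prime q) (hQ : Prim q)
    (h : (Nm p).Coprime (Nm q)) :
    sym3 (p ^ 2 * star p) q = conj (sym3 (q * star q) p) := by
  obtain ⟨χ, hχ, -, hJ⟩ := jac_exists hp hP
  haveI := jac_max hp
  letI := Ideal.Quotient.field (Ideal.span {p})
  haveI := finite_quot hp.ne_zero
  letI := Fintype.ofFinite (O ⧸ Ideal.span {p})
  haveI := jac_max hq
  letI := Ideal.Quotient.field (Ideal.span {q})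
  haveI := finite_quot hq.ne_zero
  letI := Fintype.ofFinite (O ⧸ Ideal.span {q})
  obtain ⟨n, hl, hc⟩ := FiniteField.card (O ⧸ Ideal.span {p}) (ringChar (O ⧸ Ideal.span {p}))
  obtain ⟨n', hl', hc'⟩ := FiniteField.card (O ⧸ Ideal.span {q}) (ringChar (O ⧸ Ideal.span {q}))
  rw [jac_card hp.ne_zero] at hc
  rw [jac_card hq.ne_zero] at hc'
  have hch : ringChar (O ⧸ Ideal.span {q}) ≠ ringChar (O ⧸ Ideal.span {p}) := by
    intro e
    rw [hc, hc', e, Nat.coprime_pow_left_iff n.pos, Nat.coprime_pow_right_iff n'.pos,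
      Nat.coprime_self] at h
    exact hl.one_lt.ne' h
  let ψ := AddChar.FiniteField.primitiveChar _ _ hch
  let FF := CyclotomicField ψ.n (O ⧸ Ideal.span {q})
  have hchar := Algebra.ringChar_eq (O ⧸ Ideal.span {q}) FF
  let f : O →+* FF := (algebraMap (O ⧸ Ideal.span {q}) FF).comp (Ideal.Quotient.mk _)
  have hf : ∀ x y, f x = f y ↔ q ∣ x - y := fun x y =>
    ((algebraMap (O ⧸ Ideal.span {q}) FF).injective.eq_iff).trans jac_mk_eq
  have ho : orderOf (χ.ringHomComp f) = 3 := jac_order hp hP f (fun ζ h1 h2 => toC_inj (by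
    rw [← sym3_eq_of (x := 1) hq hQ h1 (by
      rw [one_pow]; exact (hf _ _).1 (by rw [h2, map_one])), sym3_one_left, map_one])) hχ
  have e1 : jacobiSum χ χ = -p := by
    rw [jacobiSum, ← sum_rs_eq_sum_quot hp.ne_zero (fun y => χ y * χ (1 - y)), ← hJ]
    simp only [map_sub, map_one]
  have e3 : χ (-1) = 1 := toC_inj (by
    have := hχ (-1)
    rwa [map_neg, map_one, sym3_neg_one, ← map_one toC] at this)
  have hcop := rec_cop h
  have hQu : IsCoprime (q * star q) p := hcop.of_mul_left_left.symm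
  haveI := Fact.mk (hchar ▸ hl' : (ringChar FF).Prime)
  have h3 := hQ.Nm_mod
  have e5 : ((Nm q : ℕ) : O ⧸ Ideal.span {p}) = Ideal.Quotient.mk _ (q * star q) := by
    rw [mul_star_eq, map_natCast]
  have e6 : ((Nm p : ℕ) : FF) = f (p * star p) := by rw [mul_star_eq, map_natCast]
  have sh := rec_abs ho ψ.prim (ringChar FF) n' (Q := Nm q) (k := (Nm q - 1) / 3) (hchar ▸ hc')
    (by omega) (by rw [e5]; exact jac_unit.2 hQu) (by
      rw [jac_card hp.ne_zero, e6, ← map_zero f, Ne, hf, sub_zero]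
      exact fun hh => hq.not_unit (hcop.of_mul_right_left.symm.isUnit_of_dvd hh))
  rw [jac_card hp.ne_zero, e6, e5, jacobiSum_ringHomComp, e1, MulChar.ringHomComp_apply,
    MulChar.ringHomComp_apply, e3, ← map_mul f, ← map_mul f, ← map_pow f, ← map_mul f, ← map_one f, hf,
    show 1 * (p * star p) * -p = -1 * (p ^ 2 * star p) by ring] at sh
  set ζ := χ (Ideal.Quotient.mk _ (q * star q))
  have hζ : toC ζ = sym3 (q * star q) p := hχ _
  have hζ3 : ζ ^ 3 = 1 := toC_inj (by rw [map_pow, hζ, sym3_cube hQu, map_one])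
  have := sym3_eq_of (x := -1 * (p ^ 2 * star p)) (ζ := ζ ^ 2) hq hQ
    (by rw [← pow_mul, mul_comm, pow_mul, hζ3, one_pow]) (by
      convert sh.mul_left (ζ ^ 2) using 1
      linear_combination (-(-1 * (p ^ 2 * star p)) ^ ((Nm q - 1) / 3)) * hζ3)
  rwa [sym3_mul_left, sym3_neg_one, one_mul, map_pow, hζ, ← conj_sym3] at this

theorem rec_prime_cop {p q : O} (hp : Prime p) (hP : Prim p) (hq : Prime q) (hQ : Prim q)
    (hc : IsCoprime (p * star p) (q * star q)) : sym3 p q = sym3 q p := by
  have h : (Nm p).Coprime (Nm q) := by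
    rw [mul_star_eq, mul_star_eq] at hc
    have h1 := isUnit_iff_Nm.1 (hc.isUnit_of_dvd' (Nat.cast_dvd_cast (Nat.gcd_dvd_left _ _))
      (Nat.cast_dvd_cast (Nat.gcd_dvd_right _ _)))
    rw [Nm_natCast] at h1
    exact (Nat.pow_eq_one.1 h1).resolve_right two_ne_zero
  have A := recip_aux hp hP hq hQ h
  have B := recip_aux hq hQ hp hP h.symm
  have a1 := norm_sym3 hc.of_mul_right_left
  have a2 := norm_sym3 hc.symm.of_mul_right_left
  rw [pow_two, mul_assoc, sym3_mul_left] at A B
  have b1 := mul_conj (sym3 (p * star p) q)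
  have b2 := mul_conj (sym3 (q * star q) p)
  rw [normSq_eq_norm_sq, a1, ← B] at b1
  rw [normSq_eq_norm_sq, a2, ← A] at b2
  simp only [one_pow, ofReal_one] at b1 b2
  linear_combination (sym3 q p) * b2 - (sym3 p q) * b1

theorem rec_star_cop {a b : O} (h : IsCoprime a b) : IsCoprime (star a) (star b) :=
  h.map (starRingEnd O)

theorem rec_star_prime {p : O} (hp : Prime p) : Prime (star p) :=
  (MulEquiv.prime_iff (starRingAut (R := O))).2 hp

theorem rec_one {p : O} (hp : Prime p) (hP : Prim p) :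
    ∀ n, Prim n → IsCoprime n (p * star p) → sym3 n p = sym3 p n := by
  refine Prim.induction (fun _ => by rw [sym3_one_left, sym3_unit_right _ isUnit_one])
    fun r n hr hR hn ih hc => ?_
  rw [sym3_mul_left, sym3_mul_right _ hr.ne_zero hn.ne_zero, ih hc.of_mul_left_right]
  congr 1
  refine rec_prime_cop hr hR hp hP (hc.of_mul_left_left.mul_left ?_)
  have := rec_star_cop hc.of_mul_left_left
  rwa [star_mul, star_star] at this

theorem rec_prime {p q : O} (hp : Prime p) (hP : Prim p) (hq : Prime q) (hQ : Prim q) :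
    sym3 p q = sym3 q p := by
  by_cases h1 : q ∣ p
  · rw [hQ.eq_of_associated hP (hq.associated_of_dvd hp h1)]
  have c1 : IsCoprime q p := hq.irreducible.coprime_iff_not_dvd.2 h1
  by_cases h2 : q ∣ star p
  · obtain rfl : q = star p := hQ.eq_of_associated hP.star (hq.associated_of_dvd (rec_star_prime hp) h2)
    have hT : Prim (-(p + star p)) := by
      obtain ⟨a, ha⟩ := hP
      obtain ⟨b, hb⟩ := hQ
      exact ⟨-a - b - 1, by linear_combination -ha - hb⟩
    have cT : IsCoprime (-(p + star p)) (p * star p) := by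
      refine (IsCoprime.mul_right ?_ ?_).neg_left
      · simpa using c1.mul_add_left_left 1
      · simpa using c1.symm.add_mul_left_left 1
    have e1 : sym3 (star p) p = sym3 p (-(p + star p)) := by
      rw [← rec_one hp hP _ hT cT, ← neg_one_mul (p + star p), sym3_mul_left, sym3_neg_one, one_mul]
      exact sym3_congr ⟨-1, by ring⟩
    have e2 : sym3 p (-(p + star p)) = conj (sym3 p (-(p + star p))) := by
      rw [← sym3_star, star_neg, star_add, star_star, add_comm (star p), ← one_mul (sym3 (star p) _),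
        ← sym3_neg_one (-(p + star p)), ← sym3_mul_left]
      exact sym3_congr ⟨-1, by ring⟩
    have e3 := sym3_star (star p) p
    rw [star_star] at e3
    rw [e3, e1, ← e2]
  · exact (rec_one hp hP q hQ (c1.mul_right (hq.irreducible.coprime_iff_not_dvd.2 h2))).symm

theorem cubic_recip {a b : O} (ha : Prim a) (hb : Prim b) : sym3 a b = sym3 b a := by
  refine Prim.induction (P := fun a => sym3 a b = sym3 b a)
    (by rw [sym3_one_left, sym3_unit_right _ isUnit_one]) (fun p n hp hP hn ih => ?_) a ha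
  rw [sym3_mul_left, sym3_mul_right _ hp.ne_zero hn.ne_zero, ih]
  congr 1
  refine Prim.induction (P := fun b => sym3 p b = sym3 b p)
    (by rw [sym3_one_left, sym3_unit_right _ isUnit_one]) (fun q m hq hQ hm ih => ?_) b hb
  rw [sym3_mul_left, sym3_mul_right _ hq.ne_zero hm.ne_zero, ih, rec_prime hp hP hq hQ]

end

end Vale.Agent.P026
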