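import Vale.Agent.P026.Rec

namespace Vale.Agent.P026

open Complex MeasureTheory Filter Topology
open scoped Classical ComplexConjugate Real MatrixGroups

noncomputable section

theorem sup_prim {D : O} (hD : (9 : O) ∣ D - 1) : Prim D :=
  Dvd.dvd.trans ⟨3, by norm_num⟩ hD

theorem sup_om {D : O} (hD : (9 : O) ∣ D - 1) : sym3 om D = 1 := by
  rw [sym3_om (sup_prim hD)]
  obtain ⟨⟨a, ha⟩, ⟨b, hb⟩⟩ := (intCast_dvd_iff 9 _).1 (by exact_mod_cast hD)
  have h1 := Nm_cast D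
  have h2 : D.re = 1 + 9 * a := by
    rw [← ha]; simp [QuadraticAlgebra.re_one]
  have h3 : D.im = 9 * b := by
    rw [← hb]; simp [QuadraticAlgebra.im_one]
  have h4 : (Nm D : ℤ) = 1 + 9 * (2 * a - b + 9 * (a ^ 2 - a * b + b ^ 2)) := by
    rw [h1, h2, h3]; ring
  obtain ⟨j, hj⟩ : 3 ∣ (Nm D - 1) / 3 := by omega
  rw [hj, pow_mul, omC_cube, one_pow]

theorem sup_neg (x n : O) : sym3 (-x) n = sym3 x n := by
  rw [← neg_one_mul x, sym3_mul_left, sym3_neg_one, one_mul]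

theorem sym3_unit_of_nine {D u : O} (hD : (9 : O) ∣ D - 1) (hu : IsUnit u) : sym3 u D = 1 := by
  rcases unit_cases hu with h | h | h | h | h | h <;>
    simp only [h, sup_neg, sym3_pow_left, sup_om hD, sym3_one_left, one_pow]

theorem sup_int {x y : ℤ} (h : IsCoprime x y) : sym3 x y = 1 := by
  have h1 := sym3_star (x : O) (y : O)
  have h2 := sym3_cube (x := x) (n := y) (h.map (Int.castRingHom O))
  rw [star_intCast, star_intCast, conj_sym3] at h1
  linear_combination (sym3 (x : O) y + 1) * h1 + h2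

theorem sup_one_sub {e : ℤ} (h : IsCoprime 3 e) : sym3 (1 - om) e = sym3 om e ^ 2 := by
  have h1 : (1 - om) ^ 2 = -((3 : ℤ) * om) := by push_cast; linear_combination om_sq
  have h2 : sym3 (1 - om) e ^ 2 = sym3 om e := by
    rw [← sym3_pow_left, h1, sup_neg, sym3_mul_left, sup_int h, one_mul]
  have h3 : IsCoprime (1 - om) (e : O) := by
    obtain ⟨a, b, hab⟩ := h
    have : (a : O) * 3 + b * e = 1 := by exact_mod_cast congrArg (Int.cast : ℤ → O) hab
    exact ⟨a * (2 + om), b, by linear_combination this - a * om_sq⟩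
  rw [← h2]
  linear_combination (-sym3 (1 - om) e) * sym3_cube h3

theorem sup_prim_int {a : ℤ} (h : 3 ∣ a - 1) : Prim (a : O) := by
  obtain ⟨c, hc⟩ := h
  exact ⟨c, by exact_mod_cast congrArg (Int.cast : ℤ → O) hc⟩

theorem sup_three {a : ℤ} (h : 3 ∣ a - 1) : IsCoprime 3 a := by
  obtain ⟨c, hc⟩ := h
  exact ⟨-c, 1, by linear_combination hc⟩

theorem sup_cop {a b : ℤ} (h : IsCoprime a b) (ha : 3 ∣ a - 1) (hb : 3 ∣ b) :
    sym3 (1 - om) (a + b * om) * sym3 om a = sym3 om ((a + b : ℤ) : O) ^ 2 * sym3 om (a + b * om) := by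
  have hab : 3 ∣ a + b - 1 := by omega
  have pa := sup_prim_int ha
  have pab := sup_prim_int hab
  have pD : Prim (a + b * om) := by
    obtain ⟨c, rfl⟩ := hb
    exact pa.congr ⟨-c * om, by push_cast; ring⟩
  have e1 : sym3 b (a + b * om) * sym3 om (a + b * om) = sym3 om a := by
    rw [← sym3_mul_left, sym3_congr (y := -a) ⟨1, by ring⟩, sup_neg, cubic_recip pa pD,
      sym3_congr (y := b * om) ⟨1, by ring⟩, sym3_mul_left, sup_int h.symm, one_mul]
  have e2 : sym3 b (a + b * om) * sym3 (1 - om) (a + b * om) = sym3 om ((a + b : ℤ) : O) ^ 2 := by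
    rw [← sym3_mul_left, sym3_congr (y := ((a + b : ℤ) : O)) ⟨-1, by push_cast; ring⟩,
      cubic_recip pab pD, sym3_congr (y := -(b * (1 - om))) ⟨1, by push_cast; ring⟩, sup_neg,
      sym3_mul_left, sup_int (by simpa using h.symm.add_mul_left_right 1), one_mul,
      sup_one_sub (sup_three hab)]
  rw [← e1, ← e2]
  ring

theorem sup_all {a b : ℤ} (ha : 3 ∣ a - 1) (hb : 3 ∣ b) :
    sym3 (1 - om) (a + b * om) * sym3 om a = sym3 om ((a + b : ℤ) : O) ^ 2 * sym3 om (a + b * om) := by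
  obtain ⟨e, a0, b0, h, rfl, rfl, ha0⟩ : ∃ e a0 b0 : ℤ, IsCoprime a0 b0 ∧ a = e * a0 ∧ b = e * b0 ∧
      3 ∣ a0 - 1 := by
    obtain ⟨g, a0, b0, -, h, h1, h2⟩ := Int.exists_gcd_one' (m := a) (n := b)
      (Int.gcd_pos_of_ne_zero_left _ (by omega))
    have h' := Int.isCoprime_iff_gcd_eq_one.2 h
    have h0 : ¬ 3 ∣ a0 := fun hh => by
      have : 3 ∣ a := h1 ▸ hh.mul_right _
      omega
    by_cases hs : 3 ∣ a0 - 1
    · exact ⟨g, a0, b0, h', by rw [h1, mul_comm], by rw [h2, mul_comm], hs⟩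
    · exact ⟨-g, -a0, -b0, h'.neg_neg, by rw [h1]; ring, by rw [h2]; ring, by omega⟩
  have he : IsCoprime 3 e := (sup_three ha).of_mul_right_left
  have hb0 : 3 ∣ b0 := he.dvd_of_dvd_mul_left hb
  have e0 : (e : O) ≠ 0 := by
    rintro h0
    rw [Int.cast_eq_zero.1 h0] at ha
    omega
  have pa := sup_prim_int ha0
  have pab := sup_prim_int (show 3 ∣ a0 + b0 - 1 by omega)
  have pD : Prim (a0 + b0 * om) := by
    obtain ⟨c, rfl⟩ := hb0
    exact pa.congr ⟨-c * om, by push_cast; ring⟩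
  rw [show ((e * a0 : ℤ) : O) + (e * b0 : ℤ) * om = e * (a0 + b0 * om) by push_cast; ring,
    show ((e * a0 + e * b0 : ℤ) : O) = e * (a0 + b0 : ℤ) by push_cast; ring, Int.cast_mul,
    sym3_mul_right _ e0 pD.ne_zero, sym3_mul_right _ e0 pD.ne_zero, sym3_mul_right _ e0 pa.ne_zero,
    sym3_mul_right _ e0 pab.ne_zero, sup_one_sub he]
  linear_combination sym3 om e ^ 3 * sup_cop h ha0 hb0

theorem sym3_lam_of_nine {D : O} (hD : (9 : O) ∣ D - 1) : sym3 lam D = 1 := by
  obtain ⟨⟨a, ha⟩, ⟨b, hb⟩⟩ := (intCast_dvd_iff 9 _).1 (by exact_mod_cast hD)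
  have h2 : D.re = 1 + 9 * a := by
    rw [← ha]; simp [QuadraticAlgebra.re_one]
  have h3 : D.im = 9 * b := by
    rw [← hb]; simp [QuadraticAlgebra.im_one]
  have h := sup_all (a := D.re) (b := D.im) (by omega) (by omega)
  have e : (D.re : O) + D.im * om = D := by
    ext <;> simp [om]
  have e' : 1 - om = lam * om ^ 2 := by decide
  rw [e, sup_om hD, sup_om (D := (D.re : O)) ⟨a, by rw [h2]; push_cast; ring⟩,
    sup_om (D := ((D.re + D.im : ℤ) : O)) ⟨a + b, by rw [h2, h3]; push_cast; ring⟩, e', sym3_mul_left,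
    sym3_pow_left, sup_om hD] at h
  simpa using h

theorem sup_nine {w D D' : O} (hw : ∀ D : O, (9 : O) ∣ D - 1 → sym3 w D = 1) (hD : Prim D)
    (hD' : Prim D') (h9 : (9 : O) ∣ D - D') : sym3 w D = sym3 w D' := by
  have h1 := hw (D * D ^ 2) (by rw [← pow_succ']; exact hD.cube)
  have h2 := hw (D' * D ^ 2) (by
    convert hD.cube.sub (h9.mul_right (D ^ 2)) using 1
    ring)
  rw [sym3_mul_right _ hD.ne_zero (hD.pow 2).ne_zero] at h1
  rw [sym3_mul_right _ hD'.ne_zero (hD.pow 2).ne_zero] at h2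
  linear_combination sym3 w D' * h1 - sym3 w D * h2

theorem sym3_SYM {x D D' : O} (hD : Prim D) (hD' : Prim D') (h9 : (9 : O) ∣ D - D')
    (hx : x ∣ D - D') : sym3 x D = sym3 x D' := by
  by_cases h0 : x = 0
  · rw [h0, zero_dvd_iff, sub_eq_zero] at hx
    rw [hx]
  obtain ⟨u, k, y, hu, hy, rfl⟩ := exists_unit_lam_prim h0
  simp only [sym3_mul_left, sym3_pow_left]
  rw [sup_nine (fun D h => sym3_unit_of_nine h hu) hD hD' h9,
    sup_nine (fun D h => sym3_lam_of_nine h) hD hD' h9, cubic_recip hy hD, cubic_recip hy hD',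
    sym3_congr ((dvd_mul_left y _).trans hx)]

theorem sym3_per {k q n n' : O} {j : ℕ} (hn : Prim n) (hn' : Prim n') (hq : q ≠ 0)
    (h : 9 * q ∣ n - n') (hk : k ∣ q ^ j) : sym3 k n = sym3 k n' := by
  have h9 : (9 : O) ∣ n - n' := (dvd_mul_right _ _).trans h
  induction k using UniqueFactorizationMonoid.induction_on_prime with
  | h₁ => exact absurd (zero_dvd_iff.1 hk) (pow_ne_zero _ hq)
  | h₂ u hu => exact sym3_SYM hn hn' h9 hu.dvd
  | h₃ a p _ hp ih =>
    rw [sym3_mul_left, sym3_mul_left, ih ((dvd_mul_left _ _).trans hk), sym3_SYM hn hn' h9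
      ((hp.dvd_of_dvd_pow ((dvd_mul_right _ _).trans hk)).trans ((dvd_mul_left _ _).trans h))]

theorem sym3_three_ne : sym3 3 (1 - 3 * lam) ≠ 1 := by
  have e : 1 - 3 * lam = ((-2 : ℤ) : O) * (1 + 3 * om) := by decide
  have hN : Nm (1 + 3 * om) = 7 := by decide
  have hp : Prime (1 + 3 * om) := by
    refine Irreducible.prime ⟨fun h => by rw [isUnit_iff_Nm, hN] at h; omega, fun a b h => ?_⟩
    rw [h, Nm_mul] at hN
    rw [isUnit_iff_Nm, isUnit_iff_Nm]
    exact (Nat.prime_mul_iff.1 (hN ▸ Nat.prime_seven)).symm.imp (·.2) (·.2)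
  have h1 : sym3 3 ((-2 : ℤ) : O) = 1 := by
    have := sup_int (x := 3) (y := -2) ⟨1, 1, by norm_num⟩
    exact_mod_cast this
  rw [e, sym3_mul_right _ (by decide) hp.ne_zero, h1, one_mul,
    sym3_eq_of hp ⟨om, by ring⟩ om_cube ⟨-3 - 4 * om, by rw [hN]; decide⟩, toC_om]
  exact omC_ne_one

end

end Vale.Agent.P026
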