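import Vale.Agent.P026.Zk1

namespace Vale.Agent.P026

open Complex MeasureTheory Filter Topology
open scoped Classical ComplexConjugate Real MatrixGroups

noncomputable section

theorem zk2_fib {α β : Type} {F : α → ℂ} (hF : Summable F) (g : α → β) (s : β → Finset α)
    (h1 : ∀ a, a ∉ s (g a) → F a = 0) (h2 : ∀ b, ∀ a ∈ s b, g a = b) :
    ∑' a, F a = ∑' b, ∑ a ∈ s b, F a := by
  rw [← (hF.hasSum.tsum_fiberwise g).tsum_eq]
  refine tsum_congr fun b => ?_
  rw [tsum_subtype (g ⁻¹' {b}) F, tsum_eq_sum (s := s b)]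
  · exact Finset.sum_congr rfl fun a ha => Set.indicator_of_mem (by exact h2 b a ha) _
  · intro a ha
    by_cases h : g a = b
    · subst h
      rw [Set.indicator_of_mem (by rfl), h1 a ha]
    · exact Set.indicator_of_notMem (by exact h) _

theorem zk2_mem {x e : O} (hx : x ≠ 0) :
    e ∈ (ballO (N x)).filter (fun e => Prim e ∧ e ∣ x) ↔ Prim e ∧ e ∣ x := by
  rw [Finset.mem_filter, mem_ballO]
  exact ⟨fun h => h.2, fun h => ⟨⟨h.1.ne_zero, N_le_of_dvd h.2 hx⟩, h⟩⟩

theorem zk2_conv (a c : O → ℂ) (hc : ∀ x y, c (x * y) = c x * c y)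
    (h1 : Summable fun n => ‖if Prim n then a n * c n else 0‖)
    (h2 : Summable fun n => ‖if Prim n then c n else 0‖) :
    (∑' n : O, if Prim n then a n * c n else 0) * (∑' n : O, if Prim n then c n else 0) =
      ∑' x : O, if Prim x then
        c x * ∑ e ∈ (ballO (N x)).filter (fun e => Prim e ∧ e ∣ x), a e else 0 := by
  rw [tsum_mul_tsum_of_summable_norm h1 h2, zk2_fib (summable_mul_of_summable_norm h1 h2)
    (fun p => p.1 * p.2) (fun x => if Prim x then
      ((ballO (N x)).filter (fun e => Prim e ∧ e ∣ x)).image (fun e => (e, x / e)) else ∅)]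
  · refine tsum_congr fun x => ?_
    by_cases hx : Prim x
    · rw [if_pos hx, if_pos hx, Finset.sum_image fun _ _ _ _ h => (Prod.ext_iff.1 h).1,
        Finset.mul_sum]
      refine Finset.sum_congr rfl fun e he => ?_
      obtain ⟨g1, g2⟩ := (zk2_mem hx.ne_zero).1 he
      have g3 := EuclideanDomain.mul_div_cancel' g1.ne_zero g2
      have g4 : Prim (x / e) := Prim.of_mul (by rwa [g3]) g1
      have g5 := hc e (x / e)
      rw [g3] at g5
      simp only [if_pos g1, if_pos g4]
      rw [g5]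
      ring
    · rw [if_neg hx, if_neg hx, Finset.sum_empty]
  · rintro ⟨n, m⟩ h
    by_cases g1 : Prim n
    · by_cases g2 : Prim m
      · refine absurd ?_ h
        simp only [if_pos (g1.mul g2)]
        exact Finset.mem_image.2 ⟨n, (zk2_mem (g1.mul g2).ne_zero).2 ⟨g1, dvd_mul_right _ _⟩, by
          rw [mul_div_cancel_left₀ _ g1.ne_zero]⟩
      · simp [g2]
    · simp [g1]
  · intro x p hp
    by_cases hx : Prim x
    · rw [if_pos hx] at hp
      obtain ⟨e, he, rfl⟩ := Finset.mem_image.1 hp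
      obtain ⟨g1, g2⟩ := (zk2_mem hx.ne_zero).1 he
      exact EuclideanDomain.mul_div_cancel' g1.ne_zero g2
    · simp [hx] at hp

theorem zk2_cpow_mul (x y : O) (s : ℂ) :
    ((N (x * y) : ℝ) : ℂ) ^ s = ((N x : ℝ) : ℂ) ^ s * ((N y : ℝ) : ℂ) ^ s := by
  rw [N_mul, Complex.ofReal_mul, Complex.mul_cpow_ofReal_nonneg (N_nonneg x) (N_nonneg y)]

theorem zk2_summ {s : ℂ} (hs : 1 < s.re) (a : O → ℂ) (ha : ∀ n, ‖a n‖ ≤ 1) :
    Summable fun n => ‖if Prim n then a n * ((N n : ℝ) : ℂ) ^ (-s) else 0‖ := by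
  refine Summable.of_nonneg_of_le (fun _ => norm_nonneg _) (fun n => ?_) (summable_N_rpow hs)
  split_ifs with h
  · rw [norm_mul, Complex.norm_cpow_eq_rpow_re_of_pos (N_pos h.ne_zero), neg_re]
    exact mul_le_of_le_one_left (Real.rpow_nonneg (N_nonneg n) _) (ha n)
  · rw [norm_zero]
    exact Real.rpow_nonneg (N_nonneg n) _

theorem zk2_mob {s : ℂ} (hs : 1 < s.re) (a : O → ℂ) (ha : ∀ n, ‖a n‖ ≤ 1)
    (hm : ∀ x y, a (x * y) = a x * a y) (h1 : a 1 = 1) :
    (∑' n : O, if Prim n then mu n * (a n * ((N n : ℝ) : ℂ) ^ (-s)) else 0) *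
      (∑' n : O, if Prim n then a n * ((N n : ℝ) : ℂ) ^ (-s) else 0) = 1 := by
  rw [zk2_conv mu (fun n => a n * ((N n : ℝ) : ℂ) ^ (-s)) (fun x y => by
      rw [hm, zk2_cpow_mul]; ring) (by
      simpa only [mul_assoc] using zk2_summ hs (fun n => mu n * a n) fun n => by
        rw [norm_mul]
        exact mul_le_one₀ (norm_mu_le n) (norm_nonneg _) (ha n)) (zk2_summ hs a ha),
    tsum_eq_single 1]
  · have := sum_mu_prim prim_one 0
    simp only [dvd_zero, if_true, isCoprime_one_right] at this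
    rw [if_pos prim_one, this, h1, N_one]
    simp
  · intro x hx
    split_ifs with h
    · have := sum_mu_prim h 0
      simp only [dvd_zero, if_true, isCoprime_zero_left] at this
      rw [this, if_neg fun hu => hx (h.eq_one_of_isUnit hu), mul_zero]
    · rfl

theorem zk2_L {L : ℕ} [NeZero L] (h3 : 3 ∣ L) (χ : DirichletCharacter ℂ L) {s : ℂ}
    (hs : 1 < s.re) :
    (∑' n : O, if Prim n then χ (Nm n : ZMod L) * ((N n : ℝ) : ℂ) ^ (-s) else 0) =
      DirichletCharacter.LFunction χ s *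
        DirichletCharacter.LFunction (χ * DirichletCharacter.changeLevel h3 chi3D) s := by
  have hz : ∀ k : ℕ, ¬ k.Coprime L → χ (k : ZMod L) = 0 := fun k hk =>
    χ.map_nonunit (by rwa [ZMod.isUnit_iff_coprime])
  have hv : ∀ k : ℕ, (χ * DirichletCharacter.changeLevel h3 chi3D) (k : ZMod L)
      = χ (k : ZMod L) * chi3D (k : ZMod 3) := fun k => by
    rw [MulChar.mul_apply]
    by_cases hk : k.Coprime L
    · have := DirichletCharacter.changeLevel_eq_cast_of_dvd' chi3D h3 (a := (k : ℤ))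
        (Nat.isCoprime_iff_coprime.2 hk)
      simp only [Int.cast_natCast] at this
      rw [this]
    · rw [hz k hk, zero_mul, zero_mul]
  rw [DirichletCharacter.LFunction_eq_LSeries _ hs, DirichletCharacter.LFunction_eq_LSeries _ hs,
    ← LSeries_convolution' (DirichletCharacter.LSeriesSummable_of_one_lt_re _ hs)
      (DirichletCharacter.LSeriesSummable_of_one_lt_re _ hs),
    zk2_fib (zk2_summ hs (fun n => χ (Nm n : ZMod L)) fun n => χ.norm_le_one _).of_norm Nm zk1_S
      (fun n hn => if_neg fun h => hn (zk1_mem.2 ⟨h, rfl⟩)) (fun k n hn => (zk1_mem.1 hn).2),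
    LSeries]
  refine tsum_congr fun k => ?_
  rw [Finset.sum_congr rfl (g := fun _ => χ (k : ZMod L) * (k : ℂ) ^ (-s)) fun n hn => by
    obtain ⟨g1, g2⟩ := zk1_mem.1 hn
    rw [if_pos g1, N, g2, Complex.ofReal_natCast], Finset.sum_const, nsmul_eq_mul]
  rcases Nat.eq_zero_or_pos k with rfl | hk
  · have : zk1_S 0 = ∅ := Finset.eq_empty_of_forall_notMem fun n hn =>
      (zk1_mem.1 hn).1.ne_zero (Nm_eq_zero.1 (zk1_mem.1 hn).2)
    simp [this]
  · rw [LSeries.term_of_ne_zero hk.ne', LSeries.convolution_def, zk1_S, card_prim_norm k hk,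
      Complex.cpow_neg, div_eq_mul_inv, ← mul_assoc]
    congr 1
    simp only [hv]
    rw [Nat.sum_divisorsAntidiagonal' (f := fun a b : ℕ =>
      χ (a : ZMod L) * (χ (b : ZMod L) * chi3D (b : ZMod 3)))]
    have e : ∑ i ∈ k.divisors, χ ((k / i : ℕ) : ZMod L) * (χ (i : ZMod L) * chi3D (i : ZMod 3))
        = (∑ d ∈ k.divisors, chi3D (d : ZMod 3)) * χ (k : ZMod L) := by
      rw [Finset.sum_mul]
      refine Finset.sum_congr rfl fun d hd => ?_
      rw [← mul_assoc, ← map_mul, ← Nat.cast_mul, Nat.div_mul_cancel (Nat.dvd_of_mem_divisors hd),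
        mul_comm]
    rw [e]
    split_ifs with h
    · rw [hz k fun hc => by
        have := Nat.dvd_gcd h h3
        rw [hc] at this
        omega, mul_zero, mul_zero]
    · rfl

theorem zeta_prim {s : ℂ} (hs : 1 < s.re) :
    ∑' n : O, (if Prim n then ((N n : ℝ) : ℂ) ^ (-s) else 0) =
      (1 - (3 : ℂ) ^ (-s)) * riemannZeta s * DirichletCharacter.LFunction chi3D s := by
  have h := zk2_L (dvd_refl 3) (1 : DirichletCharacter ℂ 3) hs
  have h1 : s ≠ 1 := fun h => by simp [h] at hs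
  have h2 := DirichletCharacter.LFunctionTrivChar_eq_mul_riemannZeta (N := 3) h1
  rw [Nat.prime_three.primeFactors, Finset.prod_singleton, DirichletCharacter.LFunctionTrivChar]
    at h2
  rw [DirichletCharacter.changeLevel_self, one_mul, h2] at h
  rw [Nat.cast_ofNat] at h
  rw [← h]
  refine tsum_congr fun n => ?_
  split_ifs with hn
  · have e : (Nm n : ZMod 3) = 1 := by rw [← ZMod.natCast_mod, hn.Nm_mod]; rfl
    rw [e, map_one, one_mul]
  · rfl

theorem mu_prim_mul {s : ℂ} (hs : 1 < s.re) :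
    (∑' n : O, (if Prim n then mu n * ((N n : ℝ) : ℂ) ^ (-s) else 0)) *
      (∑' n : O, (if Prim n then ((N n : ℝ) : ℂ) ^ (-s) else 0)) = 1 := by
  simpa only [one_mul] using zk2_mob hs (fun _ => 1) (fun _ => by simp) (fun _ _ => by simp) rfl

theorem mob_L {L : ℕ} [NeZero L] (h6 : 6 ∣ L) (χ : DirichletCharacter ℂ L) :
    ∃ χ' : DirichletCharacter ℂ L, ∀ s : ℂ, 1 < s.re →
      (∑' n : O, (if NN n then mu n * χ (Nm n : ZMod L) * ((N n : ℝ) : ℂ) ^ (-s) else 0)) *
        (DirichletCharacter.LFunction χ s * DirichletCharacter.LFunction χ' s) = 1 := by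
  have h3 : 3 ∣ L := (by norm_num : 3 ∣ 6).trans h6
  refine ⟨χ * DirichletCharacter.changeLevel h3 chi3D, fun s hs => ?_⟩
  rw [← zk2_L h3 χ hs, ← zk2_mob hs (fun n => χ (Nm n : ZMod L)) (fun n => χ.norm_le_one _)
    (fun x y => by rw [Nm_mul, Nat.cast_mul, map_mul])
    (by rw [isUnit_iff_Nm.1 isUnit_one, Nat.cast_one, map_one])]
  congr 1
  refine tsum_congr fun n => ?_
  by_cases h : NN n
  · rw [if_pos h, if_pos h.1, mul_assoc]
  · rw [if_neg h]
    split_ifs with hP
    · by_cases hsq : Squarefree n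
      · have ho : ¬ Odd (Nm n) := fun ho => h ⟨hP, hsq, oddO_iff_Nm.2 ho⟩
        rw [χ.map_nonunit (a := (Nm n : ZMod L)) (by
          rw [ZMod.isUnit_iff_coprime]
          intro hc
          have := Nat.dvd_gcd (Nat.not_odd_iff_even.1 ho).two_dvd
            ((by norm_num : 2 ∣ 6).trans h6)
          rw [hc] at this
          omega), zero_mul, mul_zero]
      · rw [mu, if_neg hsq, zero_mul]
    · rfl

end

end Vale.Agent.P026
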