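import Vale.Agent.P026.DRel
import Vale.Agent.P026.Zk2

namespace Vale.Agent.P026

open Complex MeasureTheory Filter Topology
open scoped Classical ComplexConjugate Real MatrixGroups

noncomputable section

def cd_h (e : O) : ℂ :=
  ∑ f ∈ (ballO (N e)).filter (fun f => Prim f ∧ f ∣ e), mu f / ((N f : ℝ) : ℂ)

def cd_b (n : O) : ℂ :=
  ∑ e ∈ (ballO (N n)).filter (fun e => Prim e ∧ n = e ^ 3), ((N n : ℝ) : ℂ) * cd_h e

theorem cd_h_mul {p e : O} (hp : Prime p) (hP : Prim p) (he : Prim e) (hpe : ¬ p ∣ e) {j : ℕ}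
    (hj : 1 ≤ j) : cd_h (e * p ^ j) = (1 - 1 / ((N p : ℝ) : ℂ)) * cd_h e := by
  have hx : Prim (e * p ^ j) := he.mul (hP.pow j)
  have hcop : ∀ f, ¬ p ∣ f → f ∣ e * p ^ j → f ∣ e := fun f h1 h2 =>
    (((hp.irreducible.coprime_iff_not_dvd).2 h1).symm.pow_right (n := j)).dvd_of_dvd_mul_right h2
  have hsub : (ballO (N e)).filter (fun f => Prim f ∧ f ∣ e) ∪
      ((ballO (N e)).filter (fun f => Prim f ∧ f ∣ e)).image (p * ·)
      ⊆ (ballO (N (e * p ^ j))).filter (fun f => Prim f ∧ f ∣ e * p ^ j) := by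
    intro f hf
    rw [zk2_mem hx.ne_zero]
    rcases Finset.mem_union.1 hf with h | h
    · obtain ⟨g1, g2⟩ := (zk2_mem he.ne_zero).1 h
      exact ⟨g1, g2.mul_right _⟩
    · obtain ⟨f', h', rfl⟩ := Finset.mem_image.1 h
      obtain ⟨g1, g2⟩ := (zk2_mem he.ne_zero).1 h'
      exact ⟨hP.mul g1, by rw [mul_comm p]; exact mul_dvd_mul g2 (dvd_pow_self p (by omega))⟩
  rw [cd_h, ← Finset.sum_subset hsub, Finset.sum_union, Finset.sum_image fun a _ b _ h =>
    mul_left_cancel₀ hP.ne_zero h, sub_mul, one_mul, cd_h, sub_eq_add_neg, Finset.mul_sum,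
    ← Finset.sum_neg_distrib]
  · congr 1
    refine Finset.sum_congr rfl fun f hf => ?_
    obtain ⟨g1, g2⟩ := (zk2_mem he.ne_zero).1 hf
    rw [mu_mul ((hp.irreducible.coprime_iff_not_dvd).2 fun h => hpe (h.trans g2)), mu_prime hp,
      N_mul]
    push_cast
    ring
  · rw [Finset.disjoint_left]
    intro f h1 h2
    obtain ⟨f', -, rfl⟩ := Finset.mem_image.1 h2
    exact hpe ((dvd_mul_right _ _).trans ((zk2_mem he.ne_zero).1 h1).2)
  · intro f h1 h2
    obtain ⟨g1, g2⟩ := (zk2_mem hx.ne_zero).1 h1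
    rw [Finset.mem_union, not_or] at h2
    have h3 : p ∣ f := by
      by_contra h
      exact h2.1 ((zk2_mem he.ne_zero).2 ⟨g1, hcop f h g2⟩)
    obtain ⟨f', rfl⟩ := h3
    have h4 : p ∣ f' := by
      by_contra h
      exact h2.2 (Finset.mem_image.2 ⟨f', (zk2_mem he.ne_zero).2
        ⟨g1.of_mul hP, hcop f' h ((dvd_mul_left _ _).trans g2)⟩, rfl⟩)
    rw [mu, if_neg fun hs => hp.not_isUnit (hs p (mul_dvd_mul_left p h4)), zero_div]

theorem cd_cube_inj {e e' : O} (he : Prim e) (he' : Prim e') (h : e ^ 3 = e' ^ 3) : e = e' := by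
  have h1 : ∀ p : O, Prime p → ¬ p ^ 3 ∣ 1 := fun p hp h =>
    hp.not_dvd_one ((dvd_pow_self p three_ne_zero).trans h)
  exact (cube_unique prim_one prim_one he he' h1 h1 (by rw [h])).2

theorem cd_b_cube {e : O} (he : Prim e) : cd_b (e ^ 3) = ((N (e ^ 3) : ℝ) : ℂ) * cd_h e := by
  have : (ballO (N (e ^ 3))).filter (fun e' => Prim e' ∧ e ^ 3 = e' ^ 3) = {e} := by
    ext e'
    rw [Finset.mem_filter, Finset.mem_singleton, mem_ballO]
    refine ⟨fun h => (cd_cube_inj he h.2.1 h.2.2).symm, ?_⟩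
    rintro rfl
    exact ⟨⟨he.ne_zero, N_le_of_dvd (dvd_pow_self _ three_ne_zero) (he.pow 3).ne_zero⟩, he, rfl⟩
  rw [cd_b, this, Finset.sum_singleton]

theorem cd_b_zero {n : O} (h : ¬ ∃ e, Prim e ∧ n = e ^ 3) : cd_b n = 0 :=
  Finset.sum_eq_zero fun e he => absurd ⟨e, (Finset.mem_filter.1 he).2⟩ h

theorem cd_uniq {p : O} (hp : Prime p) {a b : O} {i j : ℕ} (ha : ¬ p ∣ a) (hb : ¬ p ∣ b)
    (h : a * p ^ i = b * p ^ j) : i = j ∧ a = b := by
  have key : ∀ {a b : O} {i j : ℕ}, ¬ p ∣ a → a * p ^ i = b * p ^ j → j ≤ i := by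
    intro a b i j ha h
    by_contra hc
    obtain ⟨k, rfl⟩ := Nat.exists_eq_add_of_lt (not_le.1 hc)
    refine ha ⟨b * p ^ k, mul_right_cancel₀ (pow_ne_zero i hp.ne_zero) ?_⟩
    rw [h]
    ring
  have hij : i = j := le_antisymm (key hb h.symm) (key ha h)
  subst hij
  exact ⟨rfl, mul_right_cancel₀ (pow_ne_zero i hp.ne_zero) h⟩

theorem cd_b_mul {p n : O} (hp : Prime p) (hP : Prim p) (hpn : ¬ p ∣ n) {k : ℕ}
    (hk : 1 ≤ k) : cd_b (n * p ^ k) =
      if 3 ∣ k then ((N p : ℝ) : ℂ) ^ k * (1 - 1 / ((N p : ℝ) : ℂ)) * cd_b n else 0 := by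
  by_cases h : ∃ e, Prim e ∧ n * p ^ k = e ^ 3
  · obtain ⟨e, he, h⟩ := h
    obtain ⟨j, e', h1, rfl⟩ := WfDvdMonoid.max_power_factor he.ne_zero hp.irreducible
    have he' : Prim e' := he.of_mul (hP.pow j)
    obtain ⟨rfl, rfl⟩ := cd_uniq hp (b := e' ^ 3) (j := 3 * j) hpn
      (fun h => h1 (hp.dvd_of_dvd_pow h)) (by rw [h]; ring)
    rw [h, cd_b_cube he, if_pos (dvd_mul_right _ _), cd_b_cube he', mul_comm (p ^ j),
      cd_h_mul hp hP he' h1 (by omega)]
    simp only [N_pow, N_mul]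
    push_cast
    ring
  · rw [cd_b_zero h]
    split_ifs with h3
    · obtain ⟨j, rfl⟩ := h3
      rw [cd_b_zero (n := n), mul_zero]
      rintro ⟨e, he, rfl⟩
      exact h ⟨e * p ^ j, he.mul (hP.pow j), by ring⟩
    · rfl

theorem cd_b_one : cd_b 1 = 1 := by
  have h := cd_b_cube prim_one
  have : (ballO (N 1)).filter (fun f => Prim f ∧ f ∣ 1) = {1} := by
    ext f
    rw [zk2_mem one_ne_zero, Finset.mem_singleton]
    exact ⟨fun h => h.1.eq_one_of_isUnit (isUnit_of_dvd_one h.2), by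
      rintro rfl
      exact ⟨prim_one, dvd_rfl⟩⟩
  rw [one_pow, cd_h, this, Finset.sum_singleton, mu_one, N_one] at h
  simpa using h

theorem cd_S {c0 : O} (hc : ∀ p, Prime p → Prim p → ¬ p ∣ c0) (m : ℕ) :
    ∀ n, Prim n → Nm n = m → Ssum 9 Phi1 0 (c0 * n) = Ssum 9 Phi1 0 c0 * cd_b n := by
  induction m using Nat.strong_induction_on with
  | _ m ih =>
    intro n hn hm
    have h1 : n = 1 ∨ ∃ p, Prime p ∧ Prim p ∧ p ∣ n :=
      Prim.induction (P := fun n => n = 1 ∨ ∃ p, Prime p ∧ Prim p ∧ p ∣ n) (Or.inl rfl)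
        (fun p n hp hP _ _ => Or.inr ⟨p, hp, hP, dvd_mul_right _ _⟩) n hn
    rcases h1 with rfl | ⟨p, hp, hP, hd⟩
    · rw [mul_one, cd_b_one, mul_one]
    obtain ⟨k, n', h1, rfl⟩ := WfDvdMonoid.max_power_factor hn.ne_zero hp.irreducible
    have hn' : Prim n' := hn.of_mul (hP.pow k)
    have hk : 1 ≤ k := by
      rcases Nat.eq_zero_or_pos k with rfl | h
      · exact absurd (by simpa using hd) h1
      · exact h
    have hlt : Nm n' < m := by
      have g1 : 4 ≤ Nm p := by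
        have := four_le_N_of_prime hp hP
        rw [N] at this
        exact_mod_cast this
      have g2 : 0 < Nm n' := Nat.pos_of_ne_zero fun h => hn'.ne_zero (Nm_eq_zero.1 h)
      have g3 : 1 < Nm p ^ k := Nat.one_lt_pow (by omega) (by omega)
      rw [← hm, Nm_mul, Nm_pow]
      nlinarith
    have h2 := S_C 1 hp hP (c := c0 * n') (fun h => (hp.dvd_or_dvd h).elim (hc p hp hP) h1) hk
    rw [tw_one] at h2
    rw [mul_comm (p ^ k), ← mul_assoc, h2, ih _ hlt n' hn' rfl, cd_b_mul hp hP h1 hk]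
    split_ifs <;> ring

theorem S_const {c0 n : O} (hc : ∀ p, Prime p → Prim p → ¬ p ∣ c0) (hn : Prim n) :
    Ssum 9 Phi1 0 (c0 * n) = Ssum 9 Phi1 0 c0 *
      ∑ e ∈ (ballO (N n)).filter (fun e => Prim e ∧ n = e ^ 3), ((N n : ℝ) : ℂ) *
        ∑ f ∈ (ballO (N e)).filter (fun f => Prim f ∧ f ∣ e), mu f / ((N f : ℝ) : ℂ) :=
  cd_S hc _ n hn rfl

theorem cd_no_prime {u : O} (hu : IsUnit u) (j : ℕ) :
    ∀ p, Prime p → Prim p → ¬ p ∣ u * lam ^ j := fun p hp hP h => by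
  rw [hu.dvd_mul_left] at h
  exact hP.not_lam_dvd
    ((hp.irreducible.associated_of_dvd prime_lam.irreducible (hp.dvd_of_dvd_pow h)).symm.dvd)

theorem cd_nine : (9 : O) ≠ 0 := by decide

theorem cd_S_eq (c : O) : Ssum 9 Phi1 0 c = ∑ d ∈ rs (9 * c), Phi1 (c, d) := by
  simp [Ssum, psi_zero]

theorem cd_S_card {c : O} (h : ∀ t, Prim t → sym3 c t = 1) :
    Ssum 9 Phi1 0 c = (((rs (9 * c)).filter fun d => (3 : O) ∣ c ∧ Prim d).card : ℂ) := by
  rw [cd_S_eq, Finset.card_filter]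
  push_cast
  refine Finset.sum_congr rfl fun d _ => ?_
  simp only [Phi1]
  split_ifs with h1
  · exact h d h1.2
  · rfl

theorem cd_S_nat {u : O} (hu : IsUnit u) (j : ℕ) :
    ∃ m : ℕ, Ssum 9 Phi1 0 (u * lam ^ j) = m := by
  by_cases h : ∀ t, Prim t → sym3 (u * lam ^ j) t = 1
  · exact ⟨_, cd_S_card h⟩
  push Not at h
  obtain ⟨t, ht, h⟩ := h
  have hc0 : u * lam ^ j ≠ 0 := mul_ne_zero hu.ne_zero (pow_ne_zero _ prime_lam.ne_zero)
  have hcl : IsCoprime t lam := ((prime_lam.irreducible.coprime_iff_not_dvd).2 ht.not_lam_dvd).symm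
  have hcop : IsCoprime t (9 * (u * lam ^ j)) := by
    rw [show (9 : O) = 3 * 3 by norm_num]
    exact (ht.coprime_three.mul_right ht.coprime_three).mul_right
      (((isCoprime_mul_unit_left_right hu _ _).2 hcl.pow_right))
  have h1 := sum_rs_mul (mul_ne_zero cd_nine hc0) hcop (f := fun d => Phi1 (u * lam ^ j, d))
    fun x y hxy => by simpa only [tw_one] using Phi_per 1 hxy
  have h2 : ∀ d, Phi1 (u * lam ^ j, t * d) = sym3 (u * lam ^ j) t * Phi1 (u * lam ^ j, d) := by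
    intro d
    simp only [Phi1]
    by_cases g : (3 : O) ∣ u * lam ^ j ∧ Prim d
    · rw [if_pos g, if_pos ⟨g.1, ht.mul g.2⟩, sym3_mul_right _ ht.ne_zero g.2.ne_zero]
    · rw [if_neg g, if_neg fun g' => g ⟨g'.1, g'.2.of_mul ht⟩, mul_zero]
  simp only [h2, ← Finset.mul_sum, ← cd_S_eq] at h1
  refine ⟨0, ?_⟩
  rw [Nat.cast_zero]
  by_contra hc
  exact h (mul_right_cancel₀ hc (by rw [h1, one_mul]))

theorem cd_S_pos : ∃ m : ℕ, 0 < m ∧ Ssum 9 Phi1 0 (1 * lam ^ 3) = m := by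
  refine ⟨_, ?_, cd_S_card fun t ht => ?_⟩
  · have hc0 : (9 : O) * (1 * lam ^ 3) ≠ 0 := by decide
    obtain ⟨y, hy, h⟩ := rs_exists hc0 1
    refine Finset.card_pos.2 ⟨y, Finset.mem_filter.2 ⟨hy, ⟨-lam, by decide⟩, ?_⟩⟩
    exact prim_one.congr (Dvd.dvd.trans ⟨3 * (1 * lam ^ 3), by ring⟩ h)
  · rw [one_mul, sym3_pow_left]
    exact sym3_cube ((prime_lam.irreducible.coprime_iff_not_dvd).2 ht.not_lam_dvd)

def cd_t (s : ℂ) (x : ballO 1 × ℕ) : ℂ :=
  ((N (x.1 * lam ^ x.2) : ℝ) : ℂ) ^ (-s) * Ssum 9 Phi1 0 (x.1 * lam ^ x.2)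

theorem cd_unit (u : ballO 1) : IsUnit (u : O) := mem_ballO_one.1 u.2

theorem cd_ne (x : ballO 1 × ℕ) : (x.1 : O) * lam ^ x.2 ≠ 0 :=
  mul_ne_zero (cd_unit _).ne_zero (pow_ne_zero _ prime_lam.ne_zero)

theorem cd_t_le {σ : ℝ} {s : ℂ} (hs : σ ≤ s.re) (x : ballO 1 × ℕ) :
    ‖cd_t s x‖ ≤ N 9 * ((3 : ℝ) ^ (1 - σ)) ^ x.2 := by
  have h1 := norm_Ssum_le cd_nine (cd_ne x) (equi_Phi1 (m := 9) dvd_rfl).bd 0
  have e : N (x.1 * lam ^ x.2) = 3 ^ x.2 := by rw [N_mul, N_unit (cd_unit _), N_pow, N_lam, one_mul]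
  rw [cd_t, norm_mul, Complex.norm_cpow_eq_rpow_re_of_pos (N_pos (cd_ne x)), neg_re]
  rw [e] at h1 ⊢
  have h3 : (1 : ℝ) ≤ 3 ^ x.2 := one_le_pow₀ (by norm_num)
  calc _ ≤ ((3 : ℝ) ^ x.2) ^ (-σ) * (N 9 * 3 ^ x.2) :=
        mul_le_mul (Real.rpow_le_rpow_of_exponent_le h3 (by linarith)) h1 (norm_nonneg _)
          (by positivity)
    _ = _ := by
        rw [← Real.rpow_natCast ((3 : ℝ) ^ (1 - σ)), ← Real.rpow_mul (by norm_num), mul_comm (1 - σ),
          Real.rpow_mul (by norm_num), Real.rpow_natCast, sub_eq_add_neg,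
          Real.rpow_add (by positivity), Real.rpow_one]
        ring

theorem cd_geo {σ : ℝ} (hσ : 1 < σ) :
    Summable fun x : ballO 1 × ℕ => N 9 * ((3 : ℝ) ^ (1 - σ)) ^ x.2 :=
  Summable.mul_of_nonneg (f := fun _ : ballO 1 => N 9)
    (g := fun j : ℕ => ((3 : ℝ) ^ (1 - σ)) ^ j) Summable.of_finite
    (summable_geometric_of_lt_one (by positivity)
      (Real.rpow_lt_one_of_one_lt_of_neg (by norm_num) (by linarith)))
    (fun _ => N_nonneg 9) fun j => by positivity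

theorem cd_summ {s : ℂ} (hs : 1 < s.re) : Summable fun x => ‖cd_t s x‖ :=
  Summable.of_nonneg_of_le (fun _ => norm_nonneg _) (cd_t_le le_rfl) (cd_geo hs)

theorem cd_diff {s : ℂ} (hs : 1 < s.re) : DifferentiableAt ℂ (fun s => ∑' x, cd_t s x) s := by
  have ho : IsOpen {z : ℂ | (1 + s.re) / 2 < z.re} := isOpen_lt continuous_const continuous_re
  have h := differentiableOn_tsum_of_summable_norm (cd_geo (σ := (1 + s.re) / 2) (by linarith))
    (F := fun x z => cd_t z x) (fun x => by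
      refine Differentiable.differentiableOn (Differentiable.mul_const ?_ _)
      exact differentiable_id.neg.const_cpow (Or.inl (by exact_mod_cast (N_pos (cd_ne x)).ne')))
    ho fun x z hz => cd_t_le (le_of_lt hz) x
  exact h.differentiableAt (ho.mem_nhds (show (1 + s.re) / 2 < s.re by linarith))

theorem cd_nz : ∑' x, cd_t (4 / 3) x ≠ 0 := by
  have hs : Summable (cd_t (4 / 3)) := (cd_summ (by norm_num)).of_norm
  have e : ∀ (x : ballO 1 × ℕ) (m : ℕ), Ssum 9 Phi1 0 (x.1 * lam ^ x.2) = m →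
      (cd_t (4 / 3) x).re = N (x.1 * lam ^ x.2) ^ (-(4 / 3) : ℝ) * m := fun x m hm => by
    rw [cd_t, hm, show (-(4 / 3) : ℂ) = ((-(4 / 3) : ℝ) : ℂ) by push_cast; rfl,
      ← Complex.ofReal_cpow (N_nonneg _), ← Complex.ofReal_natCast, ← Complex.ofReal_mul,
      Complex.ofReal_re]
  have h : 0 < (∑' x, cd_t (4 / 3) x).re := by
    rw [Complex.re_tsum hs]
    refine (Complex.hasSum_re hs.hasSum).summable.tsum_pos (fun x => ?_)
      (⟨1, mem_ballO_one.2 isUnit_one⟩, 3) ?_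
    · obtain ⟨m, hm⟩ := cd_S_nat (cd_unit x.1) x.2
      rw [e x m hm]
      exact mul_nonneg (Real.rpow_nonneg (N_nonneg _) _) (Nat.cast_nonneg m)
    · obtain ⟨m, h0, hm⟩ := cd_S_pos
      rw [e (⟨1, mem_ballO_one.2 isUnit_one⟩, 3) m hm]
      exact mul_pos (Real.rpow_pos_of_pos (N_pos (cd_ne _)) _) (by exact_mod_cast h0)
  intro h0
  rw [h0] at h
  simp at h

theorem cd_split {s : ℂ} (hs : 3 < s.re) : Dser 9 Phi1 0 s = (∑' x, cd_t s x) *
    ∑' e : O, if Prim e then ((N e : ℝ) : ℂ) ^ (-(3 * s - 3)) * cd_h e else 0 := by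
  obtain ⟨C, hC0, hC⟩ := card_ballO_le
  have h2 : Summable fun e : O =>
      ‖if Prim e then ((N e : ℝ) : ℂ) ^ (-(3 * s - 3)) * cd_h e else 0‖ := by
    refine Summable.of_nonneg_of_le (fun _ => norm_nonneg _) (fun e => ?_)
      ((summable_N_rpow (s := 2) (by norm_num)).mul_left C)
    split_ifs with he
    · have g0 := N_pos he.ne_zero
      have g1 : ‖cd_h e‖ ≤ C * N e := by
        refine (norm_sum_le _ _).trans (le_trans ?_ (hC _ g0.le))
        refine (Finset.sum_le_card_nsmul _ _ 1 fun f hf => ?_).trans ?_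
        · have g2 := one_le_N ((zk2_mem he.ne_zero).1 hf).1.ne_zero
          rw [norm_div, Complex.norm_real, Real.norm_of_nonneg (N_nonneg f)]
          exact div_le_one_of_le₀ ((norm_mu_le f).trans g2) (N_nonneg f)
        · rw [nsmul_eq_mul, mul_one]
          exact_mod_cast Finset.card_filter_le _ _
      rw [norm_mul, Complex.norm_cpow_eq_rpow_re_of_pos g0]
      calc _ ≤ N e ^ (-3 : ℝ) * (C * N e) :=
            mul_le_mul (Real.rpow_le_rpow_of_exponent_le (one_le_N he.ne_zero) (by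
              simp
              linarith)) g1 (norm_nonneg _) (by positivity)
        _ = _ := by
            rw [show (-2 : ℝ) = -3 + 1 by norm_num, Real.rpow_add g0, Real.rpow_one]
            ring
    · rw [norm_zero]
      exact mul_nonneg hC0.le (Real.rpow_nonneg (N_nonneg _) _)
  rw [tsum_mul_tsum_of_summable_norm (cd_summ (by linarith)) h2, Dser]
  have hP : ∀ z : Function.support fun z : (ballO 1 × ℕ) × O => cd_t s z.1 *
      if Prim z.2 then ((N z.2 : ℝ) : ℂ) ^ (-(3 * s - 3)) * cd_h z.2 else 0, Prim z.1.2 := by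
    intro z
    by_contra h
    exact z.2 (by simp [h])
  have hval : ∀ (x : ballO 1 × ℕ) (e : O), Prim e →
      (if x.1 * lam ^ x.2 * e ^ 3 ≠ 0 then ((N (x.1 * lam ^ x.2 * e ^ 3) : ℝ) : ℂ) ^ (-s)
        * Ssum 9 Phi1 0 (x.1 * lam ^ x.2 * e ^ 3) else 0) = cd_t s x *
        if Prim e then ((N e : ℝ) : ℂ) ^ (-(3 * s - 3)) * cd_h e else 0 := fun x e he => by
    have g0 : ((N e : ℝ) : ℂ) ≠ 0 := by exact_mod_cast (N_pos he.ne_zero).ne'
    rw [if_pos (mul_ne_zero (cd_ne x) (he.pow 3).ne_zero), if_pos he,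
      cd_S (cd_no_prime (cd_unit _) _) _ _ (he.pow 3) rfl, cd_b_cube he, zk2_cpow_mul, cd_t,
      show -(3 * s - 3) = -s + -s + -s + (3 : ℕ) by push_cast; ring, Complex.cpow_add _ _ g0,
      Complex.cpow_add _ _ g0, Complex.cpow_add _ _ g0, Complex.cpow_natCast]
    rw [show ((N (e ^ 3) : ℝ) : ℂ) ^ (-s) = _ by
      rw [pow_three, zk2_cpow_mul, zk2_cpow_mul], N_pow]
    push_cast
    ring
  refine tsum_eq_tsum_of_ne_zero_bij (fun z => z.1.1.1 * lam ^ z.1.1.2 * z.1.2 ^ 3) ?_ ?_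
    fun z => hval _ _ (hP z)
  · intro z z' h
    obtain ⟨g1, g2, g3⟩ := unit_lam_prim_unique (cd_unit _) (cd_unit _) ((hP z).pow 3)
      ((hP z').pow 3) h
    exact Subtype.ext (Prod.ext (Prod.ext (Subtype.ext g1) g2) (cd_cube_inj (hP z) (hP z') g3))
  · intro c hc
    have hc0 : c ≠ 0 := fun h => hc (by simp [h])
    obtain ⟨u, k, y, hu, hy, rfl⟩ := exists_unit_lam_prim hc0
    have : ∃ e, Prim e ∧ y = e ^ 3 := by
      by_contra h
      refine hc ?_
      simp only []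
      rw [cd_S (cd_no_prime hu _) _ _ hy rfl, cd_b_zero h]
      simp
    obtain ⟨e, he, rfl⟩ := this
    refine ⟨⟨((⟨u, mem_ballO_one.2 hu⟩, k), e), ?_⟩, rfl⟩
    rw [Function.mem_support, ← hval _ _ he]
    exact hc

theorem cd_three {w : ℂ} (hw : 0 < w.re) : 1 - (3 : ℂ) ^ (-w) ≠ 0 := by
  intro h
  have h1 : ‖(3 : ℂ) ^ (-w)‖ = 1 := by rw [← sub_eq_zero.1 h, norm_one]
  rw [show (3 : ℂ) = ((3 : ℝ) : ℂ) by norm_num,
    Complex.norm_cpow_eq_rpow_re_of_pos (by norm_num), neg_re] at h1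
  exact (Real.rpow_lt_one_of_one_lt_of_neg (by norm_num) (by linarith)).ne h1

theorem constD : ∃ f : ℂ → ℂ, DifferentiableOn ℂ f {s | 1 < s.re} ∧ f (4 / 3) ≠ 0 ∧
    ∀ s : ℂ, 3 < s.re → Dser 9 Phi1 0 s = f s * riemannZeta (3 * s - 3) := by
  have hL := DirichletCharacter.differentiable_LFunction chi3D_ne_one
  have hden : ∀ s : ℂ, 1 < s.re → (1 - (3 : ℂ) ^ (-(3 * s - 2))) * riemannZeta (3 * s - 2)
      * DirichletCharacter.LFunction chi3D (3 * s - 2) ≠ 0 := fun s hs => by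
    have h1 : 1 < (3 * s - 2).re := by simp; linarith
    exact mul_ne_zero (mul_ne_zero (cd_three (by linarith)) (riemannZeta_ne_zero_of_one_lt_re h1))
      (DirichletCharacter.LFunction_ne_zero_of_one_le_re _ (Or.inl chi3D_ne_one) h1.le)
  refine ⟨fun s => (∑' x, cd_t s x) * ((1 - (3 : ℂ) ^ (-(3 * s - 3)))
    * DirichletCharacter.LFunction chi3D (3 * s - 3)) / ((1 - (3 : ℂ) ^ (-(3 * s - 2)))
    * riemannZeta (3 * s - 2) * DirichletCharacter.LFunction chi3D (3 * s - 2)), ?_, ?_, ?_⟩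
  · intro s hs
    have hs' : 1 < s.re := hs
    have d0 : ∀ a : ℂ, DifferentiableAt ℂ (fun s : ℂ => 3 * s - a) s := fun a => by fun_prop
    have d1 : ∀ a : ℂ, DifferentiableAt ℂ (fun s : ℂ => 1 - (3 : ℂ) ^ (-(3 * s - a))) s :=
      fun a => ((d0 a).neg.const_cpow (Or.inl (by norm_num))).const_sub 1
    have d2 : ∀ a : ℂ, DifferentiableAt ℂ
        (fun s : ℂ => DirichletCharacter.LFunction chi3D (3 * s - a)) s :=
      fun a => (hL _).comp s (d0 a)
    have d3 : DifferentiableAt ℂ (fun s : ℂ => riemannZeta (3 * s - 2)) s :=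
      (differentiableAt_riemannZeta fun h => by
        have := congrArg re h
        simp at this
        linarith).comp s (d0 2)
    exact (((cd_diff hs').mul ((d1 3).mul (d2 3))).div (((d1 2).mul d3).mul (d2 2))
      (hden s hs')).differentiableWithinAt
  · refine div_ne_zero (mul_ne_zero cd_nz (mul_ne_zero (cd_three (by norm_num))
      (DirichletCharacter.LFunction_ne_zero_of_one_le_re _ (Or.inl chi3D_ne_one) (by norm_num))))
      (hden _ (by norm_num))
  · intro s hs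
    have h2 : 1 < (3 * s - 2).re := by simp; linarith
    have h3 : 1 < (3 * s - 3).re := by simp; linarith
    have e1 : (fun n : O => if Prim n then mu n / ((N n : ℝ) : ℂ) * ((N n : ℝ) : ℂ) ^ (-(3 * s - 3))
        else 0) = fun n : O => if Prim n then mu n * ((N n : ℝ) : ℂ) ^ (-(3 * s - 2)) else 0 := by
      funext n
      split_ifs with hn
      · have g0 : ((N n : ℝ) : ℂ) ≠ 0 := by exact_mod_cast (N_pos hn.ne_zero).ne'
        rw [show -(3 * s - 3) = -(3 * s - 2) + 1 by ring, Complex.cpow_add _ _ g0, Complex.cpow_one]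
        field_simp
      · rfl
    have h4 := zk2_conv (fun f => mu f / ((N f : ℝ) : ℂ)) (fun n => ((N n : ℝ) : ℂ) ^ (-(3 * s - 3)))
      (fun x y => zk2_cpow_mul x y _) (by
        have := zk2_summ h2 mu norm_mu_le
        exact this.congr fun n => by rw [← congrFun e1 n])
      (by simpa only [one_mul] using zk2_summ h3 (fun _ => 1) fun _ => by simp)
    have h5 := mu_prim_mul h2
    rw [e1, zeta_prim h3] at h4
    rw [zeta_prim h2] at h5
    rw [cd_split hs, div_mul_eq_mul_div, eq_div_iff (hden s (by linarith))]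
    simp only [cd_h]
    rw [← h4]
    linear_combination ((∑' x, cd_t s x) * ((1 - (3 : ℂ) ^ (-(3 * s - 3)))
      * DirichletCharacter.LFunction chi3D (3 * s - 3)) * riemannZeta (3 * s - 3)) * h5

end

end Vale.Agent.P026
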