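import Vale.Agent.P026.ThR
import Vale.Agent.P026.ConstD

namespace Vale.Agent.P026

open Complex MeasureTheory Filter Topology
open scoped Classical ComplexConjugate Real MatrixGroups

noncomputable section

theorem rho_zero_ne {ρ : SLO → O → ℂ} (h : ThetaOut 9 Phi1 ρ) : ρ 1 0 ≠ 0 := by
  obtain ⟨f, hf, h0, hD⟩ := constD
  have a := (isRes_zeta hf).congr (D' := Dser 9 (tw Phi1 1) 0) fun s hs => by
    rw [tw_one, hD s hs]
  rw [(h.res 1 0).unique a]
  exact div_ne_zero h0 (mul_ne_zero (by norm_num) I_ne_zero)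

theorem thn_not_dvd {p v n : O} (hp : Prime p) (hP : Prim p) (hv : IsUnit v) (hn : ¬ p ∣ n) :
    ¬ p ∣ 3 * v * n := fun h => by
  rcases hp.dvd_or_dvd h with h | h
  · rcases hp.dvd_or_dvd h with h | h
    · exact hp.not_unit (hP.coprime_three.isUnit_of_dvd' dvd_rfl h)
    · exact hp.not_unit (isUnit_of_dvd_unit h hv)
  · exact hn h

theorem thn_supp {ρ : SLO → O → ℂ} (h : ThetaOut 9 Phi1 ρ)
    (hz : ∀ u : O, IsUnit u → tauOf ρ 1 (3 * u) = 0) {n : O} (hn : ¬ 3 * lam ∣ n) :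
    ρ 1 n = 0 := by
  by_cases h3 : (3 : O) ∣ n
  swap
  · exact rho_three h h3
  obtain ⟨n1, rfl⟩ := h3
  obtain ⟨u, hu, hy⟩ := exists_prim_assoc (x := n1) fun hl => hn (mul_dvd_mul_left 3 hl)
  obtain ⟨v, hv⟩ := hu.exists_left_inv
  have hvu : IsUnit v := IsUnit.of_mul_eq_one u hv
  obtain ⟨n0, d, h0, hd, e, hc⟩ := cube_decomp hy
  have e1 : 3 * n1 = 3 * v * n0 * d ^ 3 := by
    linear_combination (-3 * n1) * hv + 3 * v * e
  rw [e1, rho_cube h 1 _ hd]
  by_cases hs : Squarefree n0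
  · have key : ∀ y, Prim y → Squarefree y → tauOf ρ 1 (3 * v * y) = 0 :=
      Prim.induction (fun _ => by rw [mul_one]; exact hz v hvu) fun p y hp hP _ ih hs => by
        have hpy : ¬ p ∣ y := fun hh => hp.not_unit (hs p (mul_dvd_mul_left p hh))
        rw [mul_comm p, ← mul_assoc, tau_gauss h hp hP (thn_not_dvd hp hP hvu hpy),
          ih hs.of_mul_right, mul_zero]
    have := key n0 h0 hs
    rw [tauOf] at this
    refine (mul_eq_zero.1 this).resolve_left ?_
    have hne : 3 * v * n0 ≠ 0 := mul_ne_zero (mul_ne_zero (by decide) hvu.ne_zero) h0.ne_zero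
    exact_mod_cast (Real.rpow_pos_of_pos (N_pos hne) _).ne'
  · obtain ⟨p, n', hp, hP, -, hpn, rfl⟩ := exists_exact_sq h0 hc hs
    rw [← mul_assoc]
    exact rho_sq h 1 hp hP (thn_not_dvd hp hP hvu hpn)

theorem thn_shift {ρ : O → ℂ} (hρ : ∀ n, ¬ 3 * lam ∣ n → ρ n = 0) {k : O} (hk : lam ∣ k) (w : Hs) :
    thetaF 9 ρ (actO (Tm k) w) = thetaF 9 ρ w := by
  rw [actO_Tm, thetaF, thetaF]
  refine tsum_congr fun n => ?_
  by_cases hn : 3 * lam ∣ n
  · obtain ⟨a, rfl⟩ := hn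
    obtain ⟨b, rfl⟩ := hk
    have h9 : toC 9 ≠ 0 := toC_ne_zero (by decide)
    have e : toC (3 * lam * a) * (w.1 + toC (lam * b)) / toC 9 =
        toC (3 * lam * a) * w.1 / toC 9 + toC (-(a * b)) := by
      have e2 : 3 * lam * a * (lam * b) = 9 * -(a * b) := by
        linear_combination 3 * a * b * lam_sq
      rw [mul_add, add_div, ← map_mul, e2, map_mul toC 9, mul_div_cancel_left₀ _ h9]
    simp only [ht, e, psi_add, psi_toC, mul_one]
  · simp only [hρ n hn, zero_mul]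

theorem tau_nz {ρ : SLO → O → ℂ} (h : ThetaOut 9 Phi1 ρ) :
    ∃ u : O, IsUnit u ∧ tauOf ρ 1 (3 * u) ≠ 0 := by
  by_contra hcon
  push Not at hcon
  have hs := fun n => thn_supp h hcon (n := n)
  have haut : ∀ γ ∈ Gam 3, ∀ w, thetaF 9 (ρ 1) (actO γ w) = conj (kap0 γ) * thetaF 9 (ρ 1) w :=
    fun γ hγ w => by
      have hγ' : γ * 1⁻¹ ∈ Gam 3 := by simpa using hγ
      rw [h.aut, thetaF, thetaF, ← tsum_mul_left]
      refine tsum_congr fun n => ?_
      rw [rho_mult h hγ', tw_row hγ', inv_one, mul_one]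
      ring
  obtain ⟨g, g00, g01, g10, g11⟩ := exists_SLO (a := 1) (b := 0) (c := 3) (d := 1) (by ring)
  have hg : g ∈ Gam 3 := mem_Gam.2 (by simp [g00, g01, g10, g11])
  have hg1 : Tm lam * g * (Tm lam)⁻¹ ∈ Gam 3 := (Gam_normal 3).conj_mem g hg _
  have k0 : kap0 g = 1 := by rw [kap0, g11, sym3_unit_right _ isUnit_one]
  have k1 : kap0 (Tm lam * g * (Tm lam)⁻¹) = sym3 3 (1 - 3 * lam) := by
    obtain ⟨a1, a2, a3, a4⟩ := Tm_apply lam
    obtain ⟨b1, b2, b3, b4⟩ := Tm_apply (-lam)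
    rw [kap0, Tm_inv]
    simp only [SLO_mul, g00, g01, g10, g11, a3, a4, b1, b2, b3, b4]
    congr 1 <;> ring
  have hzero : ∀ w, thetaF 9 (ρ 1) w = 0 := fun w => by
    have a := haut _ hg1 w
    rw [k1, Tm_inv, actO_mul, actO_mul, thn_shift hs dvd_rfl, haut g hg, k0,
      thn_shift hs (dvd_neg.2 dvd_rfl), map_one] at a
    have b : (1 - conj (sym3 3 (1 - 3 * lam))) * thetaF 9 (ρ 1) w = 0 := by linear_combination a
    refine (mul_eq_zero.1 b).resolve_left fun hc => sym3_three_ne ?_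
    have := congrArg conj (sub_eq_zero.1 hc)
    rw [map_one, conj_conj] at this
    exact this.symm
  obtain ⟨C, hC⟩ := h.bound
  refine rho_zero_ne h (thetaF_eq_zero (m := 9) (by decide) (Bd := |C|) (fun R hR => ?_) hzero 0)
  refine (hC 1 R hR).trans (mul_le_mul (le_abs_self C) ?_ (by positivity) (abs_nonneg C))
  exact Real.rpow_le_self_of_one_le hR (by norm_num)

end

end Vale.Agent.P026
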