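import Vale.Agent.P026.Defs

namespace Vale.Agent.P026

open Complex MeasureTheory Filter Topology
open scoped Classical ComplexConjugate Real MatrixGroups

noncomputable section

/-- `V`, `Vs` form a Poisson summation pair for periodic functions on `O` -/
def PoisPair (V Vs : ℝ → ℝ) : Prop :=
  (∀ Y : ℝ, 0 < Y → Summable (fun m : O => V (N m / Y))) ∧
  (∀ T : ℝ, 0 < T → Summable (fun m : O => Vs (N m * T))) ∧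
  ∀ (q : O) (f : O → ℂ) (Y : ℝ), q ≠ 0 → Per q f → 0 < Y →
    ∑' m : O, f m * ((V (N m / Y) : ℝ) : ℂ) =
      ((Y / N q : ℝ) : ℂ) * ∑' h : O, (∑ x ∈ rs q, f x * psi (toC h * toC x / toC q)) *
        ((Vs (N h * (Y / N q)) : ℝ) : ℂ)

/-- the twisting element attached to a triple `(g1, e, f)` -/
def kt (t : O × O × O) : O := t.2.1 ^ 5 * t.2.2 ^ 4 * t.1 ^ 6
/-- product of a triple -/
def pr (t : O × O × O) : O := t.1 * t.2.1 * t.2.2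
/-- dual length -/
def Ht (X Y : ℝ) (t : O × O × O) : ℝ := X ^ 2 / (N t.2.1 * N t.1 ^ 2 * Y)

def REV (q0 : O) (γ : ℝ) : Prop :=
  ∀ ε > (0 : ℝ), ∀ R0 : ℝ, ∃ C : ℝ, 0 ≤ C ∧ ∀ (Z X Y U K Δ : ℝ) (w : ℂ)
    (I : Finset (O × O × O)) (ω : O × O × O → O → ℂ),
    1 ≤ X → X ≤ Z → 1 ≤ Y → Y ≤ Z → 1 ≤ U → 1 ≤ K → 1 ≤ Δ → |w.re| ≤ R0 → I ⊆ trip Z →
    (∀ t ∈ I, Wt q0 (ω t) ∧ Δ ≤ N (pr t)) →
    ∑ t ∈ I, Y * N t.1 / X * ∑ h ∈ ballO (K * Ht X Y t),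
        ‖B (ω t) (X / (U * N (pr t))) w (h * kt t)‖ ^ 2 ≤
      C * Real.exp (C * |w.im|) * (Z * K) ^ ε * K *
        (X ^ 2 / U + X * Y / U ^ 2 + U ^ (1 - γ) * X ^ γ / Δ)

def HB (q0 : O) (γ : ℝ) : Prop :=
  ∀ ε > (0 : ℝ), ∀ R0 : ℝ, ∃ C : ℝ, 0 ≤ C ∧ ∀ (Z X Y K : ℝ) (w : ℂ) (ω : O × O × O → O → ℂ),
    1 ≤ X → X ≤ Z → X ^ (239 / 200 : ℝ) ≤ Y → Y ≤ Z → 1 ≤ K → |w.re| ≤ R0 →
    (∀ t ∈ trip (Z ^ 3), Wt q0 (ω t)) →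
    ∑ t ∈ trip (Z ^ 3), Y * N t.1 / X * ∑ h ∈ ballO (K * Ht X Y t),
        ‖B (ω t) (X / N (pr t)) w (h * kt t)‖ ^ 2 ≤
      C * Real.exp (C * |w.im|) * Z ^ ε * K ^ (7 / 2 : ℝ) * (X * Y + X ^ γ)

theorem DualW.norm_le {Wst : ℝ → ℂ} {M : ℝ} (h : DualW Wst M) {x : ℝ} (hx : 0 < x) :
    ‖Wst x‖ ≤ M * x ^ (-3 : ℝ) := by
  obtain ⟨m0, m3, -, h3, -, hM, hW⟩ := h.ex
  rw [(hW x hx).2]
  refine (norm_integral_le_integral_norm _).trans ?_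
  have : ∀ τ : ℝ, ‖m3 τ * (x : ℂ) ^ (-(3 + τ * Complex.I))‖ = ‖m3 τ‖ * x ^ (-3 : ℝ) := by
    intro τ
    rw [norm_mul, Complex.norm_cpow_eq_rpow_re_of_pos hx]
    simp
  simp_rw [this]
  rw [integral_mul_const]
  exact mul_le_mul_of_nonneg_right hM (Real.rpow_nonneg hx.le _)

theorem DualW.nonneg {Wst : ℝ → ℂ} {M : ℝ} (h : DualW Wst M) : 0 ≤ M := by
  obtain ⟨m0, m3, -, h3, -, hM, hW⟩ := h.ex
  exact le_trans (integral_nonneg fun _ => norm_nonneg _) hM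

end

end Vale.Agent.P026
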