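import Vale.Agent.P026.QLS2
import Vale.Agent.P026.Defs2

namespace Vale.Agent.P026

open Complex MeasureTheory Filter Topology
open scoped Classical ComplexConjugate Real MatrixGroups

noncomputable section

theorem dualB_int {ι : Type*} (S : Finset ι) {m : ℝ → ℂ} (hm : Integrable m) {M D : ℝ}
    (hM : ∫ t, ‖m t‖ ≤ M) (hD : 0 ≤ D) (F : ι → ℝ → ℂ)
    (hi : ∀ h ∈ S, Integrable fun t => m t * F h t) (hF : ∀ t, ∑ h ∈ S, ‖F h t‖ ^ 2 ≤ D) :
    ∑ h ∈ S, ‖∫ t, m t * F h t‖ ^ 2 ≤ M ^ 2 * D := by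
  set s : ι → ℂ := fun h => ∫ t, m t * F h t with hs
  set L : ℝ := ∑ h ∈ S, ‖s h‖ ^ 2 with hL
  have L0 : 0 ≤ L := Finset.sum_nonneg fun _ _ => by positivity
  have M0 : 0 ≤ M := (integral_nonneg fun _ => norm_nonneg _).trans hM
  have e : (L : ℂ) = ∫ t, ∑ h ∈ S, conj (s h) * (m t * F h t) := by
    rw [integral_finsetSum _ fun h hh => (hi h hh).const_mul _, hL]
    push_cast
    exact Finset.sum_congr rfl fun h _ => by rw [integral_const_mul, Complex.conj_mul']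
  have h1 : L ≤ M * √(L * D) := by
    have : L = ‖(L : ℂ)‖ := by rw [Complex.norm_real, Real.norm_of_nonneg L0]
    refine this.le.trans ?_
    rw [e]
    refine (norm_integral_le_of_norm_le (hm.norm.mul_const √(L * D))
      (Eventually.of_forall fun t => ?_)).trans ?_
    · have : ∑ h ∈ S, conj (s h) * (m t * F h t) = m t * ∑ h ∈ S, conj (s h) * F h t := by
        rw [Finset.mul_sum]
        exact Finset.sum_congr rfl fun _ _ => by ring
      rw [this, norm_mul]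
      refine mul_le_mul_of_nonneg_left (Real.le_sqrt_of_sq_le ?_) (norm_nonneg _)
      refine (pow_le_pow_left₀ (norm_nonneg _) (norm_sum_le _ _) 2).trans ?_
      simp only [norm_mul, RCLike.norm_conj]
      exact (Finset.sum_mul_sq_le_sq_mul_sq _ _ _).trans (mul_le_mul_of_nonneg_left (hF t) L0)
    · rw [integral_mul_const]
      exact mul_le_mul_of_nonneg_right hM (Real.sqrt_nonneg _)
  have h2 := pow_le_pow_left₀ L0 h1 2
  rw [mul_pow, Real.sq_sqrt (by positivity)] at h2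
  rcases L0.eq_or_lt with h0 | h0
  · rw [← h0]; positivity
  · exact le_of_mul_le_mul_right (by nlinarith) h0

theorem dualB_blk {H T L M D P κ σ : ℝ} {τ θ : O → ℂ} {Wst m s : ℝ → ℂ} (hT : 0 < T) (hP : 0 < P)
    (hD : 0 ≤ D) (hθ : ∀ n, ‖θ n‖ ≤ 1)
    (hq : ∀ θ' : O → ℂ, (∀ n, ‖θ' n‖ ≤ 1) →
      ∑ h ∈ ballN H, ‖∑ n ∈ ballO L, τ n * θ' n * sym2 n h‖ ^ 2 ≤ D)
    (hm : Integrable m) (hM : ∫ t, ‖m t‖ ≤ M) (hs : Continuous s) (hσ : ∀ t, (s t).re = σ)
    (hW : ∀ x : ℝ, 0 < x → Wst x = ∫ t : ℝ, m t * (x : ℂ) ^ (-s t)) {B : Finset O}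
    (hB : B ⊆ ballO L) (h1 : ∀ n ∈ B, (N n / P) ^ (-σ) ≤ 1)
    (h2 : ∀ h ∈ ballN H, (P / (T * N h ^ 2)) ^ (-σ) ≤ κ) :
    ∑ h ∈ ballN H, ‖∑ n ∈ B, τ n * θ n * sym2 n h * Wst (N n / (T * N h ^ 2))‖ ^ 2 ≤
      M ^ 2 * (κ ^ 2 * D) := by
  have nB : ∀ n ∈ B, 0 < N n := fun n hn => N_pos (mem_ballO.1 (hB hn)).1
  have nH : ∀ h ∈ ballN H, 0 < T * N h ^ 2 := fun h hh => by
    have := N_pos (mem_ballN.1 hh).1.ne_zero
    positivity
  have nc : ∀ x : ℝ, 0 < x → ∀ t, ‖(x : ℂ) ^ (-s t)‖ = x ^ (-σ) := fun x hx t => by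
    rw [Complex.norm_cpow_eq_rpow_re_of_pos hx, neg_re, hσ]
  have ig : ∀ x : ℝ, 0 < x → Integrable fun t => m t * (x : ℂ) ^ (-s t) := fun x hx =>
    hm.mul_bdd (c := x ^ (-σ)) (hs.neg.const_cpow (Or.inl (by exact_mod_cast hx.ne'))).aestronglyMeasurable
      (Eventually.of_forall fun t => (nc x hx t).le)
  set F : O → ℝ → ℂ := fun h t => ∑ n ∈ B, τ n * θ n * sym2 n h *
    ((N n / (T * N h ^ 2) : ℝ) : ℂ) ^ (-s t) with hF
  have e0 : ∀ h t, m t * F h t = ∑ n ∈ B, τ n * θ n * sym2 n h *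
      (m t * ((N n / (T * N h ^ 2) : ℝ) : ℂ) ^ (-s t)) := fun h t => by
    rw [hF, Finset.mul_sum]
    exact Finset.sum_congr rfl fun _ _ => by ring
  refine le_trans (le_of_eq (Finset.sum_congr rfl fun h hh => ?_))
    (dualB_int (ballN H) hm hM (by positivity) F (fun h hh => ?_) fun t => ?_)
  · simp only [e0]
    rw [integral_finsetSum _ fun n hn => (ig _ (div_pos (nB n hn) (nH h hh))).const_mul _]
    congr 2
    exact Finset.sum_congr rfl fun n hn => by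
      rw [integral_const_mul, hW _ (div_pos (nB n hn) (nH h hh))]
  · simp only [e0]
    exact integrable_finsetSum _ fun n hn => (ig _ (div_pos (nB n hn) (nH h hh))).const_mul _
  · refine le_trans ?_ (mul_le_mul_of_nonneg_left (hq (fun n => if n ∈ B then
      θ n * ((N n / P : ℝ) : ℂ) ^ (-s t) else 0) fun n => ?_) (sq_nonneg κ))
    · rw [Finset.mul_sum]
      refine Finset.sum_le_sum fun h hh => ?_
      have : F h t = ((P / (T * N h ^ 2) : ℝ) : ℂ) ^ (-s t) * ∑ n ∈ ballO L, τ n * (if n ∈ B then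
          θ n * ((N n / P : ℝ) : ℂ) ^ (-s t) else 0) * sym2 n h := by
        rw [← Finset.sum_subset hB fun n _ hn => by simp [hn], Finset.mul_sum]
        refine Finset.sum_congr rfl fun n hn => ?_
        have : N n / (T * N h ^ 2) = N n / P * (P / (T * N h ^ 2)) := by field_simp
        rw [if_pos hn, this, Complex.ofReal_mul, Complex.mul_cpow_ofReal_nonneg
          (div_pos (nB n hn) hP).le (div_pos hP (nH h hh)).le]
        ring
      rw [this, norm_mul, mul_pow, nc _ (div_pos hP (nH h hh))]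
      exact mul_le_mul_of_nonneg_right (pow_le_pow_left₀
        (Real.rpow_nonneg (div_pos hP (nH h hh)).le _) (h2 h hh) 2) (by positivity)
    · split_ifs with hn
      · rw [norm_mul, nc _ (div_pos (nB n hn) hP)]
        exact mul_le_one₀ (hθ n) (Real.rpow_nonneg (div_pos (nB n hn) hP).le _) (h1 n hn)
      · simp

theorem dualB_tel (f : O → ℂ) {L : ℝ} (hL : 0 < L) (J : ℕ) :
    ∑ n ∈ ballO (2 ^ J * L), f n = ∑ n ∈ ballO L, f n +
      ∑ j ∈ Finset.range J, ∑ n ∈ ballO (2 ^ (j + 1) * L) \ ballO (2 ^ j * L), f n := by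
  induction J with
  | zero => simp
  | succ J ih =>
    rw [Finset.sum_range_succ, ← add_assoc, ← ih, add_comm (∑ n ∈ ballO (2 ^ J * L), f n),
      Finset.sum_sdiff]
    exact ballO_mono (by gcongr <;> norm_num)

theorem dualB {ε : ℝ} (hε : 0 < ε) : ∃ C : ℝ, 0 < C ∧
    ∀ (Z H T Bd M : ℝ) (τ θ : O → ℂ) (Wst : ℝ → ℂ),
    1 ≤ Z → 0 < H → H ≤ Z → 0 < T → T * H ^ 2 ≤ Z → 0 ≤ Bd → τ 0 = 0 →
    (∀ n d, Prim d → ‖τ (n * d ^ 3)‖ = ‖toC d‖ * ‖τ n‖) →
    (∀ n p, Prime p → Prim p → ¬ p ∣ n → τ (n * p ^ 2) = 0) →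
    (∀ R : ℝ, 1 ≤ R → ∑ n ∈ ballO R, ‖τ n‖ ^ 2 ≤ Bd * R) → (∀ n, ‖θ n‖ ≤ 1) → DualW Wst M →
    ∑ h ∈ ballN H, ‖∑' n : O, τ n * θ n * sym2 n h * Wst (N n / (T * N h ^ 2))‖ ^ 2 ≤
      C * Bd * Z ^ ε * M ^ 2 * (T * H ^ 2) *
        (H ^ (8 / 7 : ℝ) + (T * H ^ 2) ^ (8 / 5 : ℝ)) := by
  obtain ⟨C, C0, hC⟩ := qls2 (lt_min hε one_pos)
  refine ⟨130 * C, by positivity, fun Z H T Bd M τ θ Wst hZ hH hHZ hT hLZ hB t0 t1 t2 t3 hθ hW => ?_⟩
  set L : ℝ := T * H ^ 2 with hL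
  have L0 : 0 < L := by positivity
  set D : ℝ := C * Bd * Z ^ ε * L * (H ^ (8 / 7 : ℝ) + L ^ (8 / 5 : ℝ)) with hD
  have D0 : 0 ≤ D := by positivity
  have hq : ∀ p : ℝ, 1 ≤ p → ∀ θ' : O → ℂ, (∀ n, ‖θ' n‖ ≤ 1) →
      ∑ h ∈ ballN H, ‖∑ n ∈ ballO (p * L), τ n * θ' n * sym2 n h‖ ^ 2 ≤ p ^ 4 * D := by
    intro p hp θ' h'
    have p0 : 0 < p := by linarith
    refine (hC (p * Z) H (p * L) Bd τ θ' (by nlinarith) hH (by nlinarith) (by positivity)
      (by gcongr) hB t1 t2 t3 h').trans ?_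
    have a1 : (p * Z) ^ min ε 1 ≤ p * Z ^ ε := by
      rw [Real.mul_rpow p0.le (by linarith)]
      exact mul_le_mul ((Real.rpow_le_rpow_of_exponent_le hp (min_le_right _ _)).trans
        (Real.rpow_one p).le) (Real.rpow_le_rpow_of_exponent_le hZ (min_le_left _ _))
        (by positivity) p0.le
    have a2 : p ^ (8 / 5 : ℝ) ≤ p ^ 2 := by
      rw [← Real.rpow_natCast]
      exact Real.rpow_le_rpow_of_exponent_le hp (by norm_num)
    have a3 : H ^ (8 / 7 : ℝ) + (p * L) ^ (8 / 5 : ℝ) ≤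
        p ^ 2 * (H ^ (8 / 7 : ℝ) + L ^ (8 / 5 : ℝ)) := by
      rw [Real.mul_rpow p0.le L0.le, mul_add]
      exact add_le_add (le_mul_of_one_le_left (by positivity) (one_le_pow₀ hp)) (by gcongr)
    calc _ ≤ C * Bd * (p * Z ^ ε) * (p * L) * (p ^ 2 * (H ^ (8 / 7 : ℝ) + L ^ (8 / 5 : ℝ))) := by
          gcongr
      _ = _ := by rw [hD]; ring
  obtain ⟨m0, m3, i0, i3, b0, b3, hm⟩ := hW.ex
  set f : O → O → ℂ := fun h n => τ n * θ n * sym2 n h * Wst (N n / (T * N h ^ 2)) with hf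
  have k0 : ∑ h ∈ ballN H, ‖∑ n ∈ ballO L, f h n‖ ^ 2 ≤ M ^ 2 * (1 ^ 2 * (1 ^ 4 * D)) :=
    dualB_blk (σ := 0) (s := fun t => t * Complex.I) hT one_pos (by positivity) hθ (hq 1 le_rfl) i0 b0
      (by fun_prop) (by simp) (fun x hx => (hm x hx).1) (by rw [one_mul]) (by simp) (by simp)
  have k1 : ∀ j : ℕ, ∑ h ∈ ballN H, ‖∑ n ∈ ballO (2 ^ (j + 1) * L) \ ballO (2 ^ j * L), f h n‖ ^ 2 ≤
      M ^ 2 * ((((2 : ℝ) ^ j)⁻¹ ^ 3) ^ 2 * ((2 ^ (j + 1)) ^ 4 * D)) := fun j =>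
    dualB_blk (σ := 3) (s := fun t => 3 + t * Complex.I) (P := 2 ^ j * L) hT (by positivity)
      (by positivity) hθ (hq _ (one_le_pow₀ (by norm_num))) i3 b3 (by fun_prop) (by simp)
      (fun x hx => (hm x hx).2) Finset.sdiff_subset
      (fun n hn => by
        obtain ⟨x, y⟩ := Finset.mem_sdiff.1 hn
        refine Real.rpow_le_one_of_one_le_of_nonpos ?_ (by norm_num)
        rw [one_le_div (by positivity)]
        by_contra h
        exact y (mem_ballO.2 ⟨(mem_ballO.1 x).1, (not_le.1 h).le⟩))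
      (fun h hh => by
        obtain ⟨x, y⟩ := mem_ballN.1 hh
        have := N_pos x.ne_zero
        have a : (2 : ℝ) ^ j ≤ 2 ^ j * L / (T * N h ^ 2) := by
          rw [le_div_iff₀ (by positivity), hL]
          gcongr
        refine (Real.rpow_le_rpow_of_nonpos (by positivity) a (by norm_num)).trans (le_of_eq ?_)
        rw [Real.rpow_neg (by positivity), inv_pow, ← Real.rpow_natCast _ 3]
        norm_num)
  have g2 : ∀ J, ∑ j ∈ Finset.range J, ((2 : ℝ) ^ j)⁻¹ ≤ 2 := fun J => by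
    simpa using sum_geometric_two_le J
  have k2 : ∀ J : ℕ, ∑ h ∈ ballN H, ‖∑ n ∈ ballO (2 ^ J * L), f h n‖ ^ 2 ≤ 130 * M ^ 2 * D := by
    intro J
    calc _ ≤ ∑ h ∈ ballN H, (2 * ‖∑ n ∈ ballO L, f h n‖ ^ 2 + 4 * ∑ j ∈ Finset.range J,
          ‖∑ n ∈ ballO (2 ^ (j + 1) * L) \ ballO (2 ^ j * L), f h n‖ ^ 2 / (2 ^ j)⁻¹) := by
          refine Finset.sum_le_sum fun h _ => ?_
          rw [dualB_tel _ L0]
          have a := (qls2_cs (Finset.range J) (fun j => ((2 : ℝ) ^ j)⁻¹) (fun j _ => by positivity)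
            fun j => ∑ n ∈ ballO (2 ^ (j + 1) * L) \ ballO (2 ^ j * L), f h n).trans
            (mul_le_mul_of_nonneg_right (g2 J) (Finset.sum_nonneg fun _ _ => by positivity))
          refine (pow_le_pow_left₀ (norm_nonneg _) (norm_add_le _ _) 2).trans
            ((add_sq_le).trans ?_)
          linarith
      _ = 2 * ∑ h ∈ ballN H, ‖∑ n ∈ ballO L, f h n‖ ^ 2 + 4 * ∑ j ∈ Finset.range J, (∑ h ∈ ballN H,
          ‖∑ n ∈ ballO (2 ^ (j + 1) * L) \ ballO (2 ^ j * L), f h n‖ ^ 2) / (2 ^ j)⁻¹ := by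
          rw [Finset.sum_add_distrib, ← Finset.mul_sum, ← Finset.mul_sum, Finset.sum_comm]
          simp only [Finset.sum_div]
      _ ≤ 2 * (M ^ 2 * (1 ^ 2 * (1 ^ 4 * D))) +
          4 * ∑ j ∈ Finset.range J, 16 * M ^ 2 * D * (2 ^ j)⁻¹ := by
          gcongr with j
          rw [div_le_iff₀ (by positivity)]
          refine (k1 j).trans (le_of_eq ?_)
          field_simp
          ring
      _ ≤ _ := by
          rw [← Finset.mul_sum]
          have := mul_le_mul_of_nonneg_left (g2 J) (by positivity : 0 ≤ 16 * M ^ 2 * D)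
          linarith
  have lim : Tendsto (fun J : ℕ => ∑ h ∈ ballN H, ‖∑ n ∈ ballO (2 ^ J * L), f h n‖ ^ 2) atTop
      (𝓝 (∑ h ∈ ballN H, ‖∑' n, f h n‖ ^ 2)) := by
    refine tendsto_finsetSum _ fun h hh => (Tendsto.norm ?_).pow 2
    have h0 := N_pos (mem_ballN.1 hh).1.ne_zero
    refine (tendsto_sum_ballO ?_ (by simp [hf, t0])).comp
      ((tendsto_pow_atTop_atTop_of_one_lt one_lt_two).atTop_mul_const L0)
    refine Summable.of_norm_bounded (((summable_of_sq_bound t3 (s := 3) (by norm_num))).mul_left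
      (M * (T * N h ^ 2) ^ (3 : ℝ))) fun n => ?_
    by_cases hn : n = 0
    · simp [hf, hn, t0]
    have n0 := N_pos hn
    have a := hW.norm_le (div_pos n0 (by positivity : 0 < T * N h ^ 2))
    rw [Real.div_rpow n0.le (by positivity), Real.rpow_neg (by positivity : 0 ≤ T * N h ^ 2),
      div_inv_eq_mul] at a
    have b : ‖τ n * θ n * sym2 n h‖ ≤ ‖τ n‖ := by
      rw [norm_mul, norm_mul, mul_assoc]
      exact mul_le_of_le_one_right (norm_nonneg _)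
        (mul_le_one₀ (hθ n) (norm_nonneg _) (norm_sym2_le _ _))
    rw [hf, norm_mul]
    refine (mul_le_mul b a (norm_nonneg _) (norm_nonneg _)).trans (le_of_eq ?_)
    ring
  refine (le_of_tendsto' lim k2).trans (le_of_eq ?_)
  rw [hD]; ring

end

end Vale.Agent.P026
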