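import Vale.Agent.P026.Rs

namespace Vale.Agent.P026

open Complex MeasureTheory Filter Topology UniqueFactorizationMonoid
open scoped Classical ComplexConjugate Real MatrixGroups

noncomputable section

/-! generic facts on products over prime factors -/

theorem sym_rel {f : O → ℂ} (hf : ∀ p q, Associated p q → f p = f q) {s t : Multiset O}
    (h : Multiset.Rel Associated s t) : (s.map f).prod = (t.map f).prod := by
  congr 1
  rw [← Multiset.rel_eq, Multiset.rel_map]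
  exact h.mono fun a _ b _ hab => hf a b hab

theorem sym_J_mul {f : O → ℂ} (hf : ∀ p q, Associated p q → f p = f q) {n m : O} (hn : n ≠ 0)
    (hm : m ≠ 0) : ((factors (n * m)).map f).prod =
      ((factors n).map f).prod * ((factors m).map f).prod := by
  rw [sym_rel hf (factors_mul hn hm), Multiset.map_add, Multiset.prod_add]

theorem sym_J_prime {f : O → ℂ} (hf : ∀ p q, Associated p q → f p = f q) {p : O} (hp : Prime p) :
    ((factors p).map f).prod = f p := by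
  obtain ⟨b, hb, h⟩ := factors_eq_singleton_of_irreducible hp.irreducible
  rw [h, Multiset.map_singleton, Multiset.prod_singleton, hf p b hb]

theorem sym_J_zero {f : O → ℂ} {x : O} (hf : ∀ p, f p = 0 ↔ p ∣ x)
    {n : O} (hn : n ≠ 0) : ((factors n).map f).prod = 0 ↔ ¬ IsCoprime x n := by
  rw [Multiset.prod_eq_zero_iff, Multiset.mem_map, isCoprime_iff_no_prime (Or.inr hn)]
  constructor
  · rintro ⟨p, hp, h⟩ hc
    exact hc p (prime_of_factor p hp) ((hf p).1 h) (dvd_of_mem_factors hp)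
  · intro h
    push Not at h
    obtain ⟨p, hp, h1, h2⟩ := h
    obtain ⟨q, hq, hpq⟩ := exists_mem_factors_of_dvd hn hp.irreducible h2
    exact ⟨q, hq, (hf q).2 (hpq.dvd_iff_dvd_left.1 h1)⟩

theorem sym_not_dvd {x n p : O} (h : IsCoprime x n) (hp : p ∈ factors n) : ¬ p ∣ x := fun hx =>
  (prime_of_factor p hp).not_unit (h.isUnit_of_dvd' hx (dvd_of_mem_factors hp))

theorem sym_Nm_assoc {p q : O} (h : Associated p q) : Nm p = Nm q := by
  obtain ⟨u, rfl⟩ := h
  rw [Nm_mul, isUnit_iff_Nm.1 u.isUnit, mul_one]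

theorem sym_Nm_two_le {p : O} (hp : Prime p) : 2 ≤ Nm p := by
  have h0 : Nm p ≠ 0 := fun h => hp.ne_zero (Nm_eq_zero.1 h)
  have h1 : Nm p ≠ 1 := fun h => hp.not_unit (isUnit_iff_Nm.2 h)
  omega

theorem sym_pow_congr {p x y : O} (h : p ∣ x - y) (k : ℕ) (z : O) :
    p ∣ x ^ k - z ↔ p ∣ y ^ k - z := by
  apply dvd_iff_dvd_of_dvd_sub
  rw [sub_sub_sub_cancel_right]
  exact h.trans (sub_dvd_pow_sub_pow x y k)

theorem sym_star_dvd {p x : O} : star p ∣ star x ↔ p ∣ x :=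
  ⟨fun h => by
    have : star (star p) ∣ star (star x) := map_dvd (starRingEnd O) h
    rwa [star_star, star_star] at this, fun h => map_dvd (starRingEnd O) h⟩

theorem sym_star_prime {p : O} (hp : Prime p) : Prime (star p) :=
  (MulEquiv.prime_iff (starRingAut (R := O))).2 hp

theorem sym_exists_pow_ne {p : O} (hp : Prime p) {k : ℕ} (h0 : k ≠ 0) (hk : k < Nm p - 1) :
    ∃ x, ¬ p ∣ x ∧ ¬ p ∣ x ^ k - 1 := by
  haveI := finite_quot hp.ne_zero
  haveI : (Ideal.span {p}).IsPrime := (Ideal.span_singleton_prime hp.ne_zero).2 hp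
  letI : Field (O ⧸ Ideal.span {p}) := (Finite.isField_of_domain _).toField
  obtain ⟨a, ha⟩ := exists_pow_ne_one_of_isCyclic (G := (O ⧸ Ideal.span {p})ˣ) h0
    (by rw [Nat.card_units, natCard_quot hp.ne_zero]; exact hk)
  obtain ⟨x, hx⟩ := Ideal.Quotient.mk_surjective (a : O ⧸ Ideal.span {p})
  refine ⟨x, fun h => a.ne_zero ?_, fun h => ha ?_⟩
  · rw [← hx, Ideal.Quotient.eq_zero_iff_mem, Ideal.mem_span_singleton]; exact h
  · rw [← Ideal.mem_span_singleton, ← Ideal.Quotient.eq, map_pow, map_one, hx] at h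
    exact Units.ext (by simpa using h)

/-! the cubic symbol at a prime -/

theorem sym_omC_ne_zero : omC ≠ 0 := fun h => by simpa [h] using omC_cube

theorem sym3p_assoc (x p q : O) (h : Associated p q) : sym3p x p = sym3p x q := by
  simp only [sym3p, sym_Nm_assoc h, h.dvd_iff_dvd_left]

theorem sym3p_congr {x y p : O} (h : p ∣ x - y) : sym3p x p = sym3p y p := by
  simp only [sym3p, dvd_iff_dvd_of_dvd_sub h, sym_pow_congr h]

theorem sym3p_eq_zero (x p : O) : sym3p x p = 0 ↔ p ∣ x := by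
  have := sym_omC_ne_zero
  unfold sym3p
  split_ifs <;> simp_all

theorem sym3p_cube {x p : O} (h : ¬ p ∣ x) : sym3p x p ^ 3 = 1 := by
  unfold sym3p
  split_ifs
  · simp
  · exact omC_cube
  · rw [← pow_mul, mul_comm, pow_mul, omC_cube, one_pow]

theorem sym3p_lam {x p : O} (hp : Prime p) (hl : lam ∣ p) (h : ¬ p ∣ x) : sym3p x p = 1 := by
  have h1 : Nm p = Nm lam := (sym_Nm_assoc (prime_lam.associated_of_dvd hp hl)).symm
  have h2 : Nm lam = 3 := by decide
  simp [sym3p, h, h1, h2]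

theorem sym_Nm_mod {p : O} (hl : ¬ lam ∣ p) : Nm p % 3 = 1 := by
  obtain ⟨u, hu, h⟩ := exists_prim_assoc hl
  have := h.Nm_mod
  rwa [Nm_mul, isUnit_iff_Nm.1 hu, one_mul] at this

theorem sym_root_unique {p ζ η : O} (hp : Prime p) (hl : ¬ lam ∣ p) (h1 : ζ ^ 3 = 1)
    (h2 : η ^ 3 = 1) (h : p ∣ ζ - η) : ζ = η := by
  by_contra hne
  have h3 : ζ ^ 2 + ζ * η + η ^ 2 = 0 := by
    apply mul_left_cancel₀ (sub_ne_zero.2 hne)
    linear_combination h1 - h2
  have h4 : p ∣ lam ^ 2 := by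
    have e : lam ^ 2 = (ζ - η) * ((ζ + 2 * η) * η) := by
      rw [lam_sq]; linear_combination (-η) * h3 + 3 * h2
    rw [e]; exact h.mul_right _
  exact hl (hp.associated_of_dvd prime_lam (hp.dvd_of_dvd_pow h4)).symm.dvd

theorem sym3p_spec {p x : O} (hp : Prime p) (hl : ¬ lam ∣ p) (hx : ¬ p ∣ x) :
    ∃ ζ : O, ζ ^ 3 = 1 ∧ toC ζ = sym3p x p ∧ p ∣ x ^ ((Nm p - 1) / 3) - ζ := by
  unfold sym3p
  rw [if_neg hx]
  split_ifs with h1 h2
  · exact ⟨1, one_pow 3, map_one _, h1⟩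
  · exact ⟨om, om_cube, toC_om, h2⟩
  · refine ⟨om ^ 2, by rw [← pow_mul, mul_comm, pow_mul, om_cube, one_pow],
      by rw [map_pow, toC_om], ?_⟩
    have h3 := fermat hp hx
    have h4 := sym_Nm_mod hl
    have e : Nm p - 1 = (Nm p - 1) / 3 * 3 := by omega
    rw [e, pow_mul] at h3
    generalize x ^ ((Nm p - 1) / 3) = y at *
    have e2 : y ^ 3 - 1 = (y - 1) * ((y - om) * (y - om ^ 2)) := by
      linear_combination (y ^ 2 - y) * om_sq + (1 - y) * om_cube
    rw [e2] at h3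
    exact ((hp.dvd_or_dvd ((hp.dvd_or_dvd h3).resolve_left h1)).resolve_left h2)

theorem sym_k_pos {p : O} (hp : Prime p) (hl : ¬ lam ∣ p) : (Nm p - 1) / 3 ≠ 0 := by
  have := sym_Nm_mod hl
  have := sym_Nm_two_le hp
  omega

theorem sym3p_eq_of {p x ζ : O} (hp : Prime p) (hl : ¬ lam ∣ p) (hζ : ζ ^ 3 = 1)
    (h : p ∣ x ^ ((Nm p - 1) / 3) - ζ) : sym3p x p = toC ζ := by
  have hx : ¬ p ∣ x := fun hx => by
    have h1 : p ∣ ζ := (dvd_iff_dvd_of_dvd_sub h).1 (dvd_pow hx (sym_k_pos hp hl))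
    have h2 : p ∣ ζ ^ 3 := dvd_pow h1 (by norm_num)
    rw [hζ] at h2
    exact hp.not_dvd_one h2
  obtain ⟨η, h1, h2, h3⟩ := sym3p_spec hp hl hx
  rw [← h2, sym_root_unique hp hl h1 hζ (by simpa using dvd_sub h h3)]

theorem sym3p_mul {p : O} (hp : Prime p) (x y : O) :
    sym3p (x * y) p = sym3p x p * sym3p y p := by
  by_cases hx : p ∣ x
  · rw [(sym3p_eq_zero x p).2 hx, (sym3p_eq_zero _ p).2 (hx.mul_right y), zero_mul]
  by_cases hy : p ∣ y
  · rw [(sym3p_eq_zero y p).2 hy, (sym3p_eq_zero _ p).2 (hy.mul_left x), mul_zero]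
  by_cases hl : lam ∣ p
  · rw [sym3p_lam hp hl hx, sym3p_lam hp hl hy,
      sym3p_lam hp hl fun h => (hp.dvd_or_dvd h).elim hx hy, mul_one]
  obtain ⟨ζ, a1, a2, a3⟩ := sym3p_spec hp hl hx
  obtain ⟨η, b1, b2, b3⟩ := sym3p_spec hp hl hy
  rw [← a2, ← b2, ← map_mul]
  refine sym3p_eq_of hp hl (by rw [mul_pow, a1, b1, one_mul]) ?_
  rw [mul_pow]
  generalize x ^ ((Nm p - 1) / 3) = a at *
  generalize y ^ ((Nm p - 1) / 3) = b at *
  have e : a * b - ζ * η = (a - ζ) * b + (b - η) * ζ := by ring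
  rw [e]
  exact dvd_add (a3.mul_right _) (b3.mul_right _)

theorem sym3p_star {p : O} (hp : Prime p) (x : O) :
    sym3p (star x) (star p) = conj (sym3p x p) := by
  by_cases hx : p ∣ x
  · rw [(sym3p_eq_zero x p).2 hx, (sym3p_eq_zero _ _).2 (sym_star_dvd.2 hx), map_zero]
  have hx' : ¬ star p ∣ star x := fun h => hx (sym_star_dvd.1 h)
  have hll : lam ∣ star p ↔ lam ∣ p := by
    have e : star lam = -lam := by decide
    rw [← sym_star_dvd (p := lam) (x := p), e, neg_dvd]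
  by_cases hl : lam ∣ p
  · rw [sym3p_lam hp hl hx, sym3p_lam (sym_star_prime hp) (hll.2 hl) hx', map_one]
  obtain ⟨ζ, a1, a2, a3⟩ := sym3p_spec hp hl hx
  rw [← a2, ← toC_star]
  refine sym3p_eq_of (sym_star_prime hp) (fun h => hl (hll.1 h))
    (by rw [← star_pow, a1, star_one]) ?_
  rw [Nm_star, ← star_pow, ← star_sub]
  exact sym_star_dvd.2 a3

/-! the quadratic symbol at a prime -/

theorem sym2p_assoc (x p q : O) (h : Associated p q) : sym2p x p = sym2p x q := by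
  simp only [sym2p, sym_Nm_assoc h, h.dvd_iff_dvd_left]

theorem sym2p_congr {x y p : O} (h : p ∣ x - y) : sym2p x p = sym2p y p := by
  simp only [sym2p, dvd_iff_dvd_of_dvd_sub h, sym_pow_congr h]

theorem sym2p_eq_zero (x p : O) : sym2p x p = 0 ↔ p ∣ x := by
  unfold sym2p
  split_ifs <;> simp_all

theorem sym2p_sq {x p : O} (h : ¬ p ∣ x) : sym2p x p ^ 2 = 1 := by
  unfold sym2p
  split_ifs <;> simp

theorem sym_not_dvd_two {p : O} (hp : Prime p) (ho : OddO p) : ¬ p ∣ 2 := fun h =>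
  ho (hp.associated_of_dvd prime_two h).symm.dvd

theorem sym2p_eq_of {p x : O} (hp : Prime p) (ho : OddO p) (hx : ¬ p ∣ x) (e : ℕ)
    (h : p ∣ x ^ ((Nm p - 1) / 2) - (-1) ^ e) : sym2p x p = (-1) ^ e := by
  unfold sym2p
  rw [if_neg hx]
  rcases Nat.even_or_odd e with he | he
  · rw [he.neg_one_pow] at h
    rw [if_pos h, he.neg_one_pow]
  · rw [he.neg_one_pow] at h
    rw [if_neg, he.neg_one_pow]
    intro h1
    apply sym_not_dvd_two hp ho
    have := dvd_sub h h1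
    rwa [show ∀ a : O, a - -1 - (a - 1) = 2 from fun a => by ring] at this

theorem sym2p_spec {p x : O} (hp : Prime p) (ho : OddO p) (hx : ¬ p ∣ x) :
    ∃ e : ℕ, p ∣ x ^ ((Nm p - 1) / 2) - (-1) ^ e := by
  have h3 := fermat hp hx
  have h4 := Nat.odd_iff.1 (oddO_iff_Nm.1 ho)
  have e : Nm p - 1 = (Nm p - 1) / 2 * 2 := by omega
  rw [e, pow_mul] at h3
  generalize x ^ ((Nm p - 1) / 2) = y at *
  have e2 : y ^ 2 - 1 = (y - (-1) ^ 0) * (y - (-1) ^ 1) := by ring
  rw [e2] at h3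
  exact (hp.dvd_or_dvd h3).elim (fun h => ⟨0, h⟩) fun h => ⟨1, h⟩

theorem sym2p_mul {p : O} (hp : Prime p) (ho : OddO p) (x y : O) :
    sym2p (x * y) p = sym2p x p * sym2p y p := by
  by_cases hx : p ∣ x
  · rw [(sym2p_eq_zero x p).2 hx, (sym2p_eq_zero _ p).2 (hx.mul_right y), zero_mul]
  by_cases hy : p ∣ y
  · rw [(sym2p_eq_zero y p).2 hy, (sym2p_eq_zero _ p).2 (hy.mul_left x), mul_zero]
  obtain ⟨e, a3⟩ := sym2p_spec hp ho hx
  obtain ⟨f, b3⟩ := sym2p_spec hp ho hy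
  rw [sym2p_eq_of hp ho hx e a3, sym2p_eq_of hp ho hy f b3, ← pow_add]
  refine sym2p_eq_of hp ho (fun h => (hp.dvd_or_dvd h).elim hx hy) _ ?_
  rw [mul_pow, pow_add]
  generalize x ^ ((Nm p - 1) / 2) = a at *
  generalize y ^ ((Nm p - 1) / 2) = b at *
  have e : a * b - (-1) ^ e * (-1) ^ f = (a - (-1) ^ e) * b + (b - (-1) ^ f) * (-1) ^ e := by ring
  rw [e]
  exact dvd_add (a3.mul_right _) (b3.mul_right _)

theorem sym2p_euler {p x : O} (hp : Prime p) (ho : OddO p) (hx : ¬ p ∣ x)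
    (h : p ∣ x ^ ((Nm p - 1) / 2) - 1) : ∃ y, p ∣ x - y ^ 2 := by
  haveI := finite_quot hp.ne_zero
  haveI : (Ideal.span {p}).IsPrime := (Ideal.span_singleton_prime hp.ne_zero).2 hp
  letI : Field (O ⧸ Ideal.span {p}) := (Finite.isField_of_domain _).toField
  letI : Fintype (O ⧸ Ideal.span {p}) := Fintype.ofFinite _
  have hc : Fintype.card (O ⧸ Ideal.span {p}) = Nm p := by
    rw [← Nat.card_eq_fintype_card, natCard_quot hp.ne_zero]
  have h4 := Nat.odd_iff.1 (oddO_iff_Nm.1 ho)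
  have hch : ringChar (O ⧸ Ideal.span {p}) ≠ 2 := by
    rw [Ne, FiniteField.even_card_iff_char_two, hc]; omega
  have h0 : Ideal.Quotient.mk (Ideal.span {p}) x ≠ 0 := by
    rw [Ne, Ideal.Quotient.eq_zero_iff_mem, Ideal.mem_span_singleton]; exact hx
  have e : Nm p / 2 = (Nm p - 1) / 2 := by omega
  rw [← Ideal.mem_span_singleton, ← Ideal.Quotient.eq, map_pow, map_one] at h
  obtain ⟨r, hr⟩ := (FiniteField.isSquare_iff hch h0).2 (by rw [hc, e]; exact h)
  obtain ⟨y, rfl⟩ := Ideal.Quotient.mk_surjective r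
  refine ⟨y, ?_⟩
  rw [← Ideal.mem_span_singleton, ← Ideal.Quotient.eq, sq, map_mul]
  exact hr

end

end Vale.Agent.P026
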