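import Vale.Agent.P026.Rs
import Vale.Agent.P026.Sym1

namespace Vale.Agent.P026

open Complex MeasureTheory Filter Topology
open scoped Classical ComplexConjugate Real MatrixGroups

noncomputable section

open UniqueFactorizationMonoid

theorem sym3_prime {p : O} (hp : Prime p) (x : O) : sym3 x p = sym3p x p :=
  sym_J_prime (sym3p_assoc x) hp
theorem sym3_mul_left (x y n : O) : sym3 (x * y) n = sym3 x n * sym3 y n := by
  unfold sym3
  rw [← Multiset.prod_map_mul]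
  exact congrArg _ (Multiset.map_congr rfl fun p hp => sym3p_mul (prime_of_factor p hp) x y)
theorem sym3_mul_right (x : O) {n m : O} (hn : n ≠ 0) (hm : m ≠ 0) :
    sym3 x (n * m) = sym3 x n * sym3 x m := sym_J_mul (sym3p_assoc x) hn hm
theorem sym3_one_left (n : O) : sym3 1 n = 1 := by
  refine Multiset.prod_eq_one fun z hz => ?_
  obtain ⟨p, hp, rfl⟩ := Multiset.mem_map.1 hz
  simp [sym3p, (prime_of_factor p hp).not_dvd_one]
theorem sym3_unit_right (x : O) {u : O} (hu : IsUnit u) : sym3 x u = 1 := by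
  simp [sym3, factors_of_isUnit hu]
theorem sym3_pow_left (x n : O) (k : ℕ) : sym3 (x ^ k) n = sym3 x n ^ k := by
  induction k with
  | zero => rw [pow_zero, pow_zero, sym3_one_left]
  | succ k ih => rw [pow_succ, pow_succ, sym3_mul_left, ih]
theorem sym3_pow_right (x : O) {n : O} (hn : n ≠ 0) (k : ℕ) :
    sym3 x (n ^ k) = sym3 x n ^ k := by
  induction k with
  | zero => rw [pow_zero, pow_zero, sym3_unit_right x isUnit_one]
  | succ k ih => rw [pow_succ, pow_succ, sym3_mul_right x (pow_ne_zero _ hn) hn, ih]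
theorem sym3_congr {x y n : O} (h : n ∣ x - y) : sym3 x n = sym3 y n :=
  congrArg _ (Multiset.map_congr rfl fun _ hp => sym3p_congr ((dvd_of_mem_factors hp).trans h))
theorem sym3_assoc (x : O) {n m : O} (h : Associated n m) : sym3 x n = sym3 x m :=
  sym_rel (sym3p_assoc x) (factors_rel_of_associated h)
theorem sym3_eq_zero_iff {x n : O} (hn : n ≠ 0) : sym3 x n = 0 ↔ ¬ IsCoprime x n :=
  sym_J_zero (sym3p_eq_zero x) hn
theorem sym3_cube {x n : O} (h : IsCoprime x n) : sym3 x n ^ 3 = 1 := by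
  unfold sym3
  rw [← Multiset.prod_map_pow]
  refine Multiset.prod_eq_one fun z hz => ?_
  obtain ⟨p, hp, rfl⟩ := Multiset.mem_map.1 hz
  exact sym3p_cube (sym_not_dvd h hp)
theorem sym3_neg_one (n : O) : sym3 (-1) n = 1 := by
  have h1 := sym3_pow_left (-1) n 3
  rw [sym3_cube isCoprime_one_left.neg_left] at h1
  rw [← h1]; norm_num
theorem sym_sym3_cases (x n : O) : sym3 x n = 0 ∨ sym3 x n ^ 3 = 1 := by
  rcases eq_or_ne n 0 with rfl | hn
  · right; simp [sym3]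
  by_cases h : IsCoprime x n
  · exact Or.inr (sym3_cube h)
  · exact Or.inl ((sym3_eq_zero_iff hn).2 h)
theorem sym3_cases (x n : O) :
    sym3 x n = 0 ∨ sym3 x n = 1 ∨ sym3 x n = omC ∨ sym3 x n = omC ^ 2 := by
  refine (sym_sym3_cases x n).imp_right fun h => ?_
  generalize sym3 x n = z at h
  have e : (z - 1) * ((z - omC) * (z - omC ^ 2)) = 0 := by
    linear_combination h - (z ^ 2 - z) * omC_mul + (z - 1) * omC_cube
  simpa only [mul_eq_zero, sub_eq_zero] using e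
theorem sym_norm_of_pow {z : ℂ} {k : ℕ} (hk : k ≠ 0) (h : z ^ k = 1) : ‖z‖ = 1 := by
  have := congrArg norm h
  rw [norm_pow, norm_one] at this
  exact (pow_eq_one_iff_of_nonneg (norm_nonneg _) hk).1 this
theorem norm_sym3_le (x n : O) : ‖sym3 x n‖ ≤ 1 := by
  rcases sym_sym3_cases x n with h | h
  · simp [h]
  · exact (sym_norm_of_pow (by norm_num) h).le
theorem norm_sym3 {x n : O} (h : IsCoprime x n) : ‖sym3 x n‖ = 1 :=
  sym_norm_of_pow (by norm_num) (sym3_cube h)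
theorem conj_sym3 (x n : O) : conj (sym3 x n) = sym3 x n ^ 2 := by
  rcases sym_sym3_cases x n with h | h
  · simp [h]
  · have h1 := Complex.mul_conj' (sym3 x n)
    rw [sym_norm_of_pow (by norm_num) h] at h1
    push_cast at h1
    linear_combination (sym3 x n) ^ 2 * h1 - conj (sym3 x n) * h
theorem sym3_star (x n : O) : sym3 (star x) (star n) = conj (sym3 x n) := by
  induction n using induction_on_prime with
  | h₁ => simp [sym3]
  | h₂ u hu => rw [sym3_unit_right _ hu, sym3_unit_right _ hu.star, map_one]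
  | h₃ a p ha hp ih =>
    rw [star_mul', sym3_mul_right _ hp.ne_zero ha,
      sym3_mul_right _ (sym_star_prime hp).ne_zero (star_ne_zero.2 ha), map_mul, ih,
      sym3_prime hp, sym3_prime (sym_star_prime hp), sym3p_star hp]
theorem sym3_spec {p : O} (hp : Prime p) (hP : Prim p) (x : O) :
    ∃ ζ : O, toC ζ = sym3 x p ∧ p ∣ x ^ ((Nm p - 1) / 3) - ζ := by
  rw [sym3_prime hp]
  by_cases hx : p ∣ x
  · exact ⟨0, by rw [(sym3p_eq_zero x p).2 hx, map_zero],
      by rw [sub_zero]; exact dvd_pow hx (sym_k_pos hp hP.not_lam_dvd)⟩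
  · obtain ⟨ζ, -, h⟩ := sym3p_spec hp hP.not_lam_dvd hx
    exact ⟨ζ, h⟩
theorem sym3_eq_of {p x ζ : O} (hp : Prime p) (hP : Prim p) (hζ : ζ ^ 3 = 1)
    (h : p ∣ x ^ ((Nm p - 1) / 3) - ζ) : sym3 x p = toC ζ := by
  rw [sym3_prime hp]; exact sym3p_eq_of hp hP.not_lam_dvd hζ h
theorem sym3_om {n : O} (hn : Prim n) : sym3 om n = omC ^ ((Nm n - 1) / 3) := by
  refine Prim.induction (P := fun n => sym3 om n = omC ^ ((Nm n - 1) / 3)) ?_
    (fun p n hp hP hn ih => ?_) n hn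
  · rw [sym3_unit_right _ isUnit_one, isUnit_iff_Nm.1 isUnit_one]; simp
  · rw [sym3_mul_right _ hp.ne_zero hn.ne_zero, ih,
      sym3_eq_of (ζ := om ^ ((Nm p - 1) / 3)) hp hP
        (by rw [← pow_mul, mul_comm, pow_mul, om_cube, one_pow]) (by simp), map_pow, toC_om,
      Nm_mul]
    obtain ⟨a, ha⟩ : ∃ a, Nm p = 3 * a + 1 := ⟨Nm p / 3, by have := hP.Nm_mod; omega⟩
    obtain ⟨b, hb⟩ : ∃ b, Nm n = 3 * b + 1 := ⟨Nm n / 3, by have := hn.Nm_mod; omega⟩
    have e : ((3 * a + 1) * (3 * b + 1) - 1) / 3 = 3 * (a * b) + (a + b) := by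
      have : (3 * a + 1) * (3 * b + 1) = 9 * (a * b) + 3 * a + 3 * b + 1 := by ring
      omega
    have e1 : (3 * a + 1 - 1) / 3 = a := by omega
    have e2 : (3 * b + 1 - 1) / 3 = b := by omega
    rw [ha, hb, e, e1, e2, pow_add, pow_add, pow_mul, omC_cube, one_pow, one_mul]
theorem exists_sym3_ne {p : O} (hp : Prime p) (hP : Prim p) :
    ∃ x, ¬ p ∣ x ∧ sym3 x p ≠ 1 := by
  have h0 := sym_k_pos hp hP.not_lam_dvd
  obtain ⟨x, h1, h2⟩ := sym_exists_pow_ne hp h0 (by omega)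
  refine ⟨x, h1, fun h => h2 ?_⟩
  obtain ⟨ζ, h3, h4⟩ := sym3_spec hp hP x
  rw [h, ← map_one toC] at h3
  rwa [toC_inj h3] at h4

theorem sym2_prime {p : O} (hp : Prime p) (x : O) : sym2 x p = sym2p x p :=
  sym_J_prime (sym2p_assoc x) hp
theorem sym2_mul_left (x y : O) {n : O} (hn : OddO n) :
    sym2 (x * y) n = sym2 x n * sym2 y n := by
  unfold sym2
  rw [← Multiset.prod_map_mul]
  exact congrArg _ (Multiset.map_congr rfl fun p hp =>
    sym2p_mul (prime_of_factor p hp) (hn.of_dvd (dvd_of_mem_factors hp)) x y)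
theorem sym2_mul_right (x : O) {n m : O} (hn : n ≠ 0) (hm : m ≠ 0) :
    sym2 x (n * m) = sym2 x n * sym2 x m := sym_J_mul (sym2p_assoc x) hn hm
theorem sym2_one_left (n : O) : sym2 1 n = 1 := by
  refine Multiset.prod_eq_one fun z hz => ?_
  obtain ⟨p, hp, rfl⟩ := Multiset.mem_map.1 hz
  simp [sym2p, (prime_of_factor p hp).not_dvd_one]
theorem sym2_pow_left (x : O) {n : O} (hn : OddO n) (k : ℕ) :
    sym2 (x ^ k) n = sym2 x n ^ k := by
  induction k with
  | zero => rw [pow_zero, pow_zero, sym2_one_left]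
  | succ k ih => rw [pow_succ, pow_succ, sym2_mul_left _ _ hn, ih]
theorem sym2_congr {x y n : O} (h : n ∣ x - y) : sym2 x n = sym2 y n :=
  congrArg _ (Multiset.map_congr rfl fun _ hp => sym2p_congr ((dvd_of_mem_factors hp).trans h))
theorem sym2_unit_right (x : O) {u : O} (hu : IsUnit u) : sym2 x u = 1 := by
  simp [sym2, factors_of_isUnit hu]
theorem sym2_assoc (x : O) {n m : O} (h : Associated n m) : sym2 x n = sym2 x m :=
  sym_rel (sym2p_assoc x) (factors_rel_of_associated h)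
theorem sym2_eq_zero_iff {x n : O} (hn : n ≠ 0) : sym2 x n = 0 ↔ ¬ IsCoprime x n :=
  sym_J_zero (sym2p_eq_zero x) hn
theorem sym2_sq {x n : O} (h : IsCoprime x n) : sym2 x n ^ 2 = 1 := by
  unfold sym2
  rw [← Multiset.prod_map_pow]
  refine Multiset.prod_eq_one fun z hz => ?_
  obtain ⟨p, hp, rfl⟩ := Multiset.mem_map.1 hz
  exact sym2p_sq (sym_not_dvd h hp)
theorem sym2_cases (x n : O) : sym2 x n = 0 ∨ sym2 x n = 1 ∨ sym2 x n = -1 := by
  rcases eq_or_ne n 0 with rfl | hn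
  · right; left; simp [sym2]
  by_cases h : IsCoprime x n
  · exact Or.inr (sq_eq_one_iff.1 (sym2_sq h))
  · exact Or.inl ((sym2_eq_zero_iff hn).2 h)
theorem conj_sym2 (x n : O) : conj (sym2 x n) = sym2 x n := by
  rcases sym2_cases x n with h | h | h <;> simp [h]
theorem norm_sym2_le (x n : O) : ‖sym2 x n‖ ≤ 1 := by
  rcases sym2_cases x n with h | h | h <;> simp [h]
theorem norm_sym2 {x n : O} (h : IsCoprime x n) : ‖sym2 x n‖ = 1 :=
  sym_norm_of_pow (by norm_num) (sym2_sq h)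
theorem sym2_eq_one_iff {p x : O} (hp : Prime p) (ho : OddO p) (hx : ¬ p ∣ x) :
    sym2 x p = 1 ↔ ∃ y, p ∣ x - y ^ 2 := by
  constructor
  · intro h
    refine sym2p_euler hp ho hx ?_
    by_contra h1
    rw [sym2_prime hp, sym2p, if_neg hx, if_neg h1] at h
    norm_num at h
  · rintro ⟨y, hy⟩
    have h1 : ¬ p ∣ y := fun h => hx ((dvd_iff_dvd_of_dvd_sub hy).2 (dvd_pow h two_ne_zero))
    rw [sym2_congr hy, sym2_pow_left _ ho, sym2_prime hp, sym2p_sq h1]
theorem exists_sym2_ne {p : O} (hp : Prime p) (ho : OddO p) :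
    ∃ x, ¬ p ∣ x ∧ sym2 x p ≠ 1 := by
  have h4 := Nat.odd_iff.1 (oddO_iff_Nm.1 ho)
  have h5 := sym_Nm_two_le hp
  obtain ⟨x, h1, h2⟩ := sym_exists_pow_ne (k := (Nm p - 1) / 2) hp (by omega) (by omega)
  refine ⟨x, h1, ?_⟩
  rw [sym2_prime hp, sym2p, if_neg h1, if_neg h2]
  norm_num
theorem sym2_neg_one {n : O} (hn : OddO n) : sym2 (-1) n = (-1) ^ ((Nm n - 1) / 2) := by
  induction n using induction_on_prime with
  | h₁ => exact absurd rfl hn.ne_zero
  | h₂ u hu => rw [sym2_unit_right _ hu, isUnit_iff_Nm.1 hu]; simp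
  | h₃ n p ha hp ih =>
    obtain ⟨ho, hn'⟩ := oddO_mul.1 hn
    rw [sym2_mul_right _ hp.ne_zero ha, ih hn', sym2_prime hp,
      sym2p_eq_of hp ho (by simpa using hp.not_dvd_one) ((Nm p - 1) / 2) (by simp), Nm_mul]
    obtain ⟨a, ha⟩ := oddO_iff_Nm.1 ho
    obtain ⟨b, hb⟩ := oddO_iff_Nm.1 hn'
    have e : ((2 * a + 1) * (2 * b + 1) - 1) / 2 = 2 * (a * b) + (a + b) := by
      have : (2 * a + 1) * (2 * b + 1) = 4 * (a * b) + 2 * a + 2 * b + 1 := by ring
      omega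
    have e1 : (2 * a + 1 - 1) / 2 = a := by omega
    have e2 : (2 * b + 1 - 1) / 2 = b := by omega
    rw [ha, hb, e, e1, e2, pow_add, pow_add, pow_mul, neg_one_sq, one_pow, one_mul]
theorem sym2_neg_one_congr {n n' : O} (hn : OddO n) (h : (4 : O) ∣ n - n') :
    sym2 (-1) n = sym2 (-1) n' := by
  have hn' : OddO n' := hn.congr (Dvd.dvd.trans ⟨2, by norm_num⟩ h)
  rw [sym2_neg_one hn, sym2_neg_one hn']
  obtain ⟨⟨a, ha⟩, ⟨b, hb⟩⟩ := (intCast_dvd_iff 4 (n - n')).1 (by exact_mod_cast h)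
  rw [QuadraticAlgebra.re_sub] at ha
  rw [QuadraticAlgebra.im_sub] at hb
  have h1 : (4 : ℤ) ∣ (Nm n : ℤ) - Nm n' := by
    rw [Nm_cast, Nm_cast, eq_add_of_sub_eq ha, eq_add_of_sub_eq hb]
    exact ⟨4 * a ^ 2 + 2 * a * n'.re - 4 * a * b - a * n'.im - b * n'.re + 4 * b ^ 2 +
      2 * b * n'.im, by ring⟩
  have h2 := Nat.odd_iff.1 (oddO_iff_Nm.1 hn)
  have h3 := Nat.odd_iff.1 (oddO_iff_Nm.1 hn')
  rw [neg_one_pow_eq_pow_mod_two, neg_one_pow_eq_pow_mod_two ((Nm n' - 1) / 2)]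
  congr 1
  omega

theorem chi6_mul_left (x y : O) {n : O} (hn : OddO n) :
    chi6 (x * y) n = chi6 x n * chi6 y n := by
  simp only [chi6, sym3_mul_left, sym2_mul_left _ _ hn]; ring
theorem chi6_pow_left (x : O) {n : O} (hn : OddO n) (k : ℕ) :
    chi6 (x ^ k) n = chi6 x n ^ k := by
  simp only [chi6, sym3_pow_left, sym2_pow_left _ hn]; ring
theorem chi6_mul_right (x : O) {n m : O} (hn : n ≠ 0) (hm : m ≠ 0) :
    chi6 x (n * m) = chi6 x n * chi6 x m := by
  simp only [chi6, sym3_mul_right _ hn hm, sym2_mul_right _ hn hm]; ring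
theorem chi6_congr {x y n : O} (h : n ∣ x - y) : chi6 x n = chi6 y n := by
  simp only [chi6, sym3_congr h, sym2_congr h]
theorem chi6_one_left (n : O) : chi6 1 n = 1 := by
  simp [chi6, sym3_one_left, sym2_one_left]
theorem chi6_one_right (x : O) : chi6 x 1 = 1 := by
  simp [chi6, sym3_unit_right x isUnit_one, sym2_unit_right x isUnit_one]
theorem chi6_neg_one (n : O) : chi6 (-1) n = sym2 (-1) n := by
  simp [chi6, sym3_neg_one]
theorem norm_chi6_le (x n : O) : ‖chi6 x n‖ ≤ 1 := by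
  rw [chi6, norm_mul, norm_pow]
  exact mul_le_one₀ (pow_le_one₀ (norm_nonneg _) (norm_sym3_le x n)) (norm_nonneg _)
    (norm_sym2_le x n)
theorem norm_chi6 {x n : O} (h : IsCoprime x n) : ‖chi6 x n‖ = 1 := by
  rw [chi6, norm_mul, norm_pow, norm_sym3 h, norm_sym2 h]; norm_num
theorem chi6_eq_zero_iff {x n : O} (hn : n ≠ 0) : chi6 x n = 0 ↔ ¬ IsCoprime x n := by
  rw [chi6, mul_eq_zero, pow_eq_zero_iff two_ne_zero, sym3_eq_zero_iff hn, sym2_eq_zero_iff hn,
    or_self]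
theorem chi6_pow_six {x n : O} (hn : n ≠ 0) :
    chi6 x n ^ 6 = if IsCoprime x n then 1 else 0 := by
  split_ifs with h
  · have e : chi6 x n ^ 6 = (sym3 x n ^ 3) ^ 4 * (sym2 x n ^ 2) ^ 3 := by rw [chi6]; ring
    rw [e, sym3_cube h, sym2_sq h]; norm_num
  · rw [(chi6_eq_zero_iff hn).2 h]; norm_num
theorem chi6_pow_add_six (x : O) {n : O} (hn : n ≠ 0) {k : ℕ} (hk : 1 ≤ k) :
    chi6 x n ^ (k + 6) = chi6 x n ^ k := by
  rw [pow_add, chi6_pow_six hn]
  split_ifs with h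
  · rw [mul_one]
  · rw [(chi6_eq_zero_iff hn).2 h, zero_pow (by omega), mul_zero]
theorem chi6_pow_five (x : O) {n : O} (hn : n ≠ 0) : chi6 x n ^ 5 = conj (chi6 x n) := by
  by_cases h : IsCoprime x n
  · have h1 := Complex.mul_conj' (chi6 x n)
    have h2 := chi6_pow_six (x := x) hn
    rw [if_pos h] at h2
    rw [norm_chi6 h] at h1
    push_cast at h1
    linear_combination conj (chi6 x n) * h2 - (chi6 x n) ^ 5 * h1
  · rw [(chi6_eq_zero_iff hn).2 h]; simp
theorem conj_chi6_pow (x : O) {n : O} (hn : n ≠ 0) {k : ℕ} (h1 : 1 ≤ k) (h5 : k ≤ 5) :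
    conj (chi6 x n ^ k) = chi6 x n ^ (6 - k) := by
  rw [map_pow, ← chi6_pow_five x hn, ← pow_mul]
  have e : 5 * k = 6 - k + 6 * (k - 1) := by omega
  rw [e]
  generalize k - 1 = j
  induction j with
  | zero => simp
  | succ j ih => rw [Nat.mul_succ, ← add_assoc, chi6_pow_add_six x hn (by omega), ih]
theorem chi6_sq (x : O) {n : O} (hn : n ≠ 0) : chi6 x n ^ 2 = sym3 x n := by
  by_cases h : IsCoprime x n
  · have e : chi6 x n ^ 2 = sym3 x n ^ 3 * sym2 x n ^ 2 * sym3 x n := by rw [chi6]; ring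
    rw [e, sym3_cube h, sym2_sq h]; ring
  · rw [(chi6_eq_zero_iff hn).2 h, (sym3_eq_zero_iff hn).2 h]; simp
theorem chi6_cube (x : O) {n : O} (hn : n ≠ 0) : chi6 x n ^ 3 = sym2 x n := by
  by_cases h : IsCoprime x n
  · have e : chi6 x n ^ 3 = (sym3 x n ^ 3) ^ 2 * sym2 x n ^ 2 * sym2 x n := by rw [chi6]; ring
    rw [e, sym3_cube h, sym2_sq h]; ring
  · rw [(chi6_eq_zero_iff hn).2 h, (sym2_eq_zero_iff hn).2 h]; simp
theorem chi6_mul_sym3 (x : O) {n : O} (hn : n ≠ 0) : chi6 x n * sym3 x n = sym2 x n := by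
  rw [← chi6_sq x hn, ← chi6_cube x hn]; ring
theorem exists_chi6_pow_ne {p : O} (hp : Prime p) (hN : NN p) {k : ℕ} (h1 : 1 ≤ k) (h5 : k ≤ 5) :
    ∃ x, ¬ p ∣ x ∧ chi6 x p ^ k ≠ 1 := by
  by_cases h3 : k = 3
  · obtain ⟨x, hx, h⟩ := exists_sym2_ne hp hN.2.2
    exact ⟨x, hx, by rwa [h3, chi6_cube x hp.ne_zero]⟩
  obtain ⟨x, hx, h⟩ := exists_sym3_ne hp hN.1
  refine ⟨x, hx, fun hk => h ?_⟩
  have a1 : sym3 x p ^ k = 1 := by
    rw [← chi6_sq x hp.ne_zero, ← pow_mul, mul_comm, pow_mul, hk, one_pow]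
  have a2 : sym3 x p ^ 3 = 1 := by rw [sym3_prime hp]; exact sym3p_cube hx
  generalize sym3 x p = z at a1 a2
  interval_cases k
  · simpa using a1
  · linear_combination a2 - z * a1
  · exact absurd rfl h3
  · linear_combination a1 - z * a2
  · linear_combination (1 + z ^ 3) * a2 - z * a1

end

end Vale.Agent.P026
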