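import Vale.Agent.P026.Lat
import Vale.Agent.P026.Sym

namespace Vale.Agent.P026

open Complex MeasureTheory Filter Topology
open scoped Classical ComplexConjugate Real MatrixGroups

noncomputable section

theorem norm_W (w : ℂ) (x : ℝ) : ‖W w x‖ = Real.exp (w.re * Real.log x - Real.log x ^ 2) := by
  rw [W, norm_exp, ← ofReal_pow]; simp only [sub_re, re_mul_ofReal, ofReal_re]
theorem W_le (a R0 : ℝ) : ∃ C : ℝ, 0 < C ∧ ∀ (w : ℂ) (x : ℝ), |w.re| ≤ R0 → 0 < x →
    ‖W w x‖ ≤ C * x ^ a := by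
  refine ⟨Real.exp ((R0 + |a|) ^ 2), Real.exp_pos _, fun w x hw hx => ?_⟩
  rw [norm_W, Real.rpow_def_of_pos hx, ← Real.exp_add, Real.exp_le_exp]
  have h : (w.re - a) ^ 2 ≤ (R0 + |a|) ^ 2 :=
    sq_le_sq' (by linarith [abs_le.1 hw, le_abs_self a]) (by linarith [abs_le.1 hw, neg_abs_le a])
  nlinarith [sq_nonneg (w.re - a - 2 * Real.log x), sq_nonneg (w.re - a)]
theorem W_mul (w : ℂ) {x r : ℝ} (hx : 0 < x) (hr : 0 < r) :
    W w (x * r) = W w r * W (w - 2 * (Real.log r : ℂ)) x := by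
  rw [W, W, W, Real.log_mul hx.ne' hr.ne', ← Complex.exp_add]
  congr 1; push_cast; ring
theorem wb_cpow {x : ℝ} (hx : 0 < x) (s : ℂ) : (x : ℂ) ^ s = cexp (Real.log x * s) := by
  rw [cpow_def_of_ne_zero (ofReal_ne_zero.2 hx.ne'), ← ofReal_log hx.le]
theorem W_cpow (w s : ℂ) {x : ℝ} (hx : 0 < x) : W w x * (x : ℂ) ^ s = W (w + s) x := by
  rw [W, W, wb_cpow hx, ← Complex.exp_add]
  congr 1; ring
theorem wb_contAt (w : ℂ) {x : ℝ} (hx : 0 < x) : ContinuousAt (W w) x := by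
  have := hx.ne'
  unfold W
  fun_prop (disch := assumption)
theorem W_mellin (w s : ℂ) : MellinConvergent (W w) s ∧
    mellin (W w) s = (√π : ℝ) * Complex.exp ((s + w) ^ 2 / 4) := by
  have big : ∀ a : ℝ, ∀ l : Filter ℝ, (∀ᶠ x in l, 0 < x) → W w =O[l] (· ^ (-a)) :=
    fun a l hl => by
      obtain ⟨C, -, h⟩ := W_le (-a) |w.re|
      exact Asymptotics.IsBigO.of_bound C (hl.mono fun x hx => by
        rw [Real.norm_of_nonneg (by positivity)]; exact h w x le_rfl hx)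
  refine ⟨mellinConvergent_of_isBigO_rpow (ContinuousOn.locallyIntegrableOn
    (fun x hx => (wb_contAt w hx).continuousWithinAt) measurableSet_Ioi)
    (big (s.re + 1) _ (eventually_gt_atTop 0)) (lt_add_one _)
    (big (s.re - 1) _ eventually_mem_nhdsWithin) (sub_one_lt _), ?_⟩
  rw [mellin, ← Real.range_exp, ← Set.image_univ, integral_image_eq_integral_abs_deriv_smul
    MeasurableSet.univ (fun x _ => (Real.hasDerivAt_exp x).hasDerivWithinAt)
    Real.exp_injective.injOn, Measure.restrict_univ]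
  have e : ∀ u : ℝ, |Real.exp u| • ((Real.exp u : ℂ) ^ (s - 1) • W w (Real.exp u)) =
      cexp ((-1 : ℂ) * u ^ 2 + (s + w) * u + 0) := fun u => by
    rw [abs_of_pos (Real.exp_pos u), wb_cpow (Real.exp_pos u), W, Real.log_exp, real_smul,
      smul_eq_mul, ofReal_exp, ← Complex.exp_add, ← Complex.exp_add]
    congr 1; ring
  simp only [e]
  rw [integral_cexp_quadratic (by simp), Real.sqrt_eq_rpow, ofReal_cpow Real.pi_pos.le]
  congr 2
  · simp
  · simp
  · ring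
theorem wb_gauss (w : ℂ) (σ : ℝ) :
    Integrable fun τ : ℝ => Complex.exp ((σ + τ * Complex.I + w) ^ 2 / 4) := by
  refine (integrable_cexp_quadratic' (b := -1 / 4) (by norm_num) ((σ + w) * Complex.I / 2)
    ((σ + w) ^ 2 / 4)).congr (ae_of_all _ fun τ => ?_)
  simp only
  congr 1
  linear_combination (-τ ^ 2 / 4) * I_sq
theorem W_inv_mellin (w : ℂ) (σ : ℝ) {x : ℝ} (hx : 0 < x) :
    W w x = 1 / (2 * π) * ∫ τ : ℝ, (√π : ℝ) * Complex.exp ((σ + τ * Complex.I + w) ^ 2 / 4) *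
      (x : ℂ) ^ (-(σ + τ * Complex.I)) := by
  have h := mellinInv_mellin_eq σ (W w) hx (W_mellin w σ).1 (by
    simpa only [VerticalIntegrable, (W_mellin w _).2] using (wb_gauss w σ).const_mul _)
    (wb_contAt w hx)
  rw [← h, mellinInv]
  simp only [(W_mellin w _).2, smul_eq_mul, real_smul]
  push_cast
  congr 2
  ext τ
  ring

theorem wb_tail {s : ℝ} (hs : 1 < s) (R : ℝ) :
    Summable fun n : O => if R < N n then N n ^ (-s) else 0 :=
  (summable_N_rpow hs).of_nonneg_of_le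
    (fun n => by have := N_nonneg n; positivity)
    (fun n => by have := N_nonneg n; split_ifs; exacts [le_rfl, by positivity])

theorem wb_div {x X : ℝ} (hx : 0 ≤ x) (hX : 0 < X) (a : ℝ) : (x / X) ^ (-a) = X ^ a * x ^ (-a) := by
  rw [Real.div_rpow hx hX.le, Real.rpow_neg hX.le, div_inv_eq_mul, mul_comm]

theorem sum_W_le {b : ℝ} (hb : 0 ≤ b) (R0 : ℝ) : ∃ C : ℝ, 0 < C ∧ ∀ (w : ℂ) (X : ℝ),
    |w.re| ≤ R0 → 0 < X →
    Summable (fun n : O => if n ≠ 0 then N n ^ b * ‖W w (N n / X)‖ else 0) ∧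
      ∑' n : O, (if n ≠ 0 then N n ^ b * ‖W w (N n / X)‖ else 0) ≤ C * X ^ (1 + b) := by
  obtain ⟨C0, hC0, h0⟩ := W_le 0 R0
  obtain ⟨C1, hC1, h1⟩ := W_le (-(b + 2)) R0
  obtain ⟨C2, hC2, h2⟩ := sum_N_rpow_le (a := b) (by linarith)
  obtain ⟨C3, hC3, h3⟩ := tail_N_rpow_le (s := 2) one_lt_two
  refine ⟨C0 * C2 + C1 * C3, by positivity, fun w X hw hX => ?_⟩
  have g1 : HasSum (fun n : O => if n ∈ ballO X then C0 * N n ^ b else 0)
      (∑ n ∈ ballO X, C0 * N n ^ b) := by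
    have := hasSum_sum_of_ne_finset_zero (L := .unconditional O) (s := ballO X)
      (f := fun n : O => if n ∈ ballO X then C0 * N n ^ b else 0) fun n hn => if_neg hn
    rwa [Finset.sum_congr rfl fun n hn => if_pos hn] at this
  have g := g1.add ((wb_tail one_lt_two X).hasSum.mul_left (C1 * X ^ (b + 2)))
  have hle : ∀ n : O, (if n ≠ 0 then N n ^ b * ‖W w (N n / X)‖ else 0) ≤
      (if n ∈ ballO X then C0 * N n ^ b else 0) +
        C1 * X ^ (b + 2) * if X < N n then N n ^ (-2 : ℝ) else 0 := fun n => by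
    have hN := N_nonneg n
    by_cases hn : n = 0
    · rw [if_neg (not_not.2 hn)]; positivity
    have hp := N_pos hn
    rw [if_pos hn]
    rcases le_or_gt (N n) X with k | k
    · rw [if_pos (mem_ballO.2 ⟨hn, k⟩), if_neg k.not_gt, mul_zero, add_zero, mul_comm]
      exact mul_le_mul_of_nonneg_right (by simpa using h0 w _ hw (div_pos hp hX)) (by positivity)
    · rw [if_neg fun h => k.not_ge (mem_ballO.1 h).2, if_pos k, zero_add]
      refine (mul_le_mul_of_nonneg_left (h1 w _ hw (div_pos hp hX)) (by positivity)).trans_eq ?_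
      rw [wb_div hN hX, show (-2 : ℝ) = b + -(b + 2) by ring, Real.rpow_add hp]
      ring
  have hs := g.summable.of_nonneg_of_le (fun n => by have := N_nonneg n; positivity) hle
  refine ⟨hs, (hasSum_le hle hs.hasSum g).trans ?_⟩
  rw [← Finset.mul_sum, add_mul, mul_assoc, mul_assoc, mul_assoc]
  refine add_le_add (by gcongr; exact h2 X hX.le) (mul_le_mul_of_nonneg_left ?_ hC1.le)
  refine (mul_le_mul_of_nonneg_left (h3 X hX) (by positivity)).trans_eq ?_
  rw [mul_left_comm, ← Real.rpow_add hX]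
  congr 2; ring
theorem sum_W_sq_le (R0 : ℝ) {b : ℝ} (hb : 0 ≤ b) : ∃ C : ℝ, 0 < C ∧ ∀ (w : ℂ) (X : ℝ),
    |w.re| ≤ R0 → 0 < X →
    Summable (fun n : O => if n ≠ 0 then N n ^ b * ‖W w (N n / X)‖ ^ 2 else 0) ∧
      ∑' n : O, (if n ≠ 0 then N n ^ b * ‖W w (N n / X)‖ ^ 2 else 0) ≤ C * X ^ (1 + b) := by
  obtain ⟨C0, hC0, h0⟩ := W_le 0 R0
  obtain ⟨C1, hC1, h1⟩ := sum_W_le hb R0
  refine ⟨C0 * C1, by positivity, fun w X hw hX => ?_⟩
  obtain ⟨h2, h3⟩ := h1 w X hw hX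
  have g := h2.hasSum.mul_left C0
  have hle : ∀ n : O, (if n ≠ 0 then N n ^ b * ‖W w (N n / X)‖ ^ 2 else 0) ≤
      C0 * if n ≠ 0 then N n ^ b * ‖W w (N n / X)‖ else 0 := fun n => by
    split_ifs with hn
    · have hp := N_pos hn
      rw [sq, mul_left_comm]
      exact mul_le_mul_of_nonneg_right (by simpa using h0 w _ hw (div_pos hp hX)) (by positivity)
    · simp
  have hs := g.summable.of_nonneg_of_le (fun n => by have := N_nonneg n; positivity) hle
  refine ⟨hs, (hasSum_le hle hs.hasSum g).trans ?_⟩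
  rw [mul_assoc]; gcongr
theorem wb_tailW {X R : ℝ} (w : ℂ) (hX : 0 < X) (hR : 0 < R) :
    Summable fun n : O => if R < N n then ‖W w (N n / X)‖ else 0 := by
  obtain ⟨C, -, h⟩ := sum_W_le le_rfl |w.re|
  refine (h w X le_rfl hX).1.of_nonneg_of_le (fun n => by positivity) fun n => ?_
  split_ifs with h1 h2 h2
  · simp
  · rw [not_not.1 h2, N_zero] at h1; linarith
  · simp
  · rfl
theorem tail_W_le {a : ℝ} (ha : 2 ≤ a) (R0 : ℝ) : ∃ C : ℝ, 0 < C ∧ ∀ (w : ℂ) (X R : ℝ),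
    |w.re| ≤ R0 → 0 < X → 0 < R →
    ∑' n : O, (if R < N n then ‖W w (N n / X)‖ else 0) ≤ C * R * (X / R) ^ a := by
  have ha' : 1 < a := by linarith
  obtain ⟨C1, hC1, h1⟩ := W_le (-a) R0
  obtain ⟨C3, hC3, h3⟩ := tail_N_rpow_le ha'
  refine ⟨C1 * C3, by positivity, fun w X R hw hX hR => ?_⟩
  refine (hasSum_le (fun n => ?_) (wb_tailW w hX hR).hasSum
    ((wb_tail ha' R).hasSum.mul_left (C1 * X ^ a))).trans
    ((mul_le_mul_of_nonneg_left (h3 R hR) (by positivity)).trans_eq ?_)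
  · split_ifs with k
    · rw [mul_assoc, ← wb_div (N_nonneg n) hX]
      exact h1 w _ hw (div_pos (hR.trans k) hX)
    · simp
  · rw [Real.div_rpow hX.le hR.le, Real.rpow_sub hR, Real.rpow_one]; ring
theorem wb_term {α : O → ℂ} (hα : ∀ n, NN n → ‖α n‖ ≤ 1) (k : ℕ) (m : O) {n : O} (hn : NN n)
    (z : ℂ) : ‖α n * chi6 m n ^ k * z‖ ≤ ‖z‖ := by
  rw [norm_mul, norm_mul, norm_pow]
  exact mul_le_of_le_one_left (norm_nonneg _) (mul_le_one₀ (hα n hn) (by positivity)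
    (pow_le_one₀ (norm_nonneg _) (norm_chi6_le _ _)))
theorem wb_le {α : O → ℂ} (hα : ∀ n, NN n → ‖α n‖ ≤ 1) (k : ℕ) (X : ℝ) (w : ℂ) (m : O) {b : ℝ}
    (hb : 0 ≤ b) (n : O) : ‖if NN n then α n * chi6 m n ^ k * W w (N n / X) else 0‖ ≤
      if n ≠ 0 then N n ^ b * ‖W w (N n / X)‖ else 0 := by
  by_cases h : NN n
  · rw [if_pos h, if_pos h.ne_zero]
    exact (wb_term hα k m h _).trans (le_mul_of_one_le_left (norm_nonneg _)
      (Real.one_le_rpow (one_le_N h.ne_zero) hb))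
  · have := N_nonneg n
    rw [if_neg h, norm_zero]; positivity
theorem summable_AA {α : O → ℂ} (hα : ∀ n, NN n → ‖α n‖ ≤ 1) (k : ℕ) {X : ℝ} (hX : 0 < X) (w : ℂ)
    (m : O) : Summable (fun n : O => if NN n then α n * chi6 m n ^ k * W w (N n / X) else 0) := by
  obtain ⟨C, -, h⟩ := sum_W_le le_rfl |w.re|
  exact .of_norm_bounded (h w X le_rfl hX).1 (wb_le hα k X w m le_rfl)
theorem norm_AA_le {a : ℝ} (ha : 1 ≤ a) (R0 : ℝ) : ∃ C : ℝ, 0 < C ∧
    ∀ (α : O → ℂ) (k : ℕ) (X : ℝ) (w : ℂ) (m : O), (∀ n, NN n → ‖α n‖ ≤ 1) → 0 < X →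
      |w.re| ≤ R0 → ‖AA α k X w m‖ ≤ C * X ^ a := by
  obtain ⟨C, hC, h⟩ := sum_W_le (sub_nonneg.2 ha) R0
  refine ⟨C, hC, fun α k X w m hα hX hw => ?_⟩
  obtain ⟨h1, h2⟩ := h w X hw hX
  rw [add_sub_cancel] at h2
  exact (tsum_of_norm_bounded h1.hasSum (wb_le hα k X w m (sub_nonneg.2 ha))).trans h2
theorem AA_trunc {a : ℝ} (ha : 2 ≤ a) (R0 : ℝ) : ∃ C : ℝ, 0 < C ∧
    ∀ (α : O → ℂ) (k : ℕ) (X R : ℝ) (w : ℂ) (m : O), (∀ n, NN n → ‖α n‖ ≤ 1) → 0 < X → 0 < R →
      |w.re| ≤ R0 →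
      ‖AA α k X w m - ∑ n ∈ ballN R, α n * chi6 m n ^ k * W w (N n / X)‖ ≤
        C * R * (X / R) ^ a := by
  obtain ⟨C, hC, h⟩ := tail_W_le ha R0
  refine ⟨C, hC, fun α k X R w m hα hX hR hw => le_trans ?_ (h w X R hw hX hR)⟩
  have g := hasSum_sum_of_ne_finset_zero (L := .unconditional O) (s := ballN R)
    (f := fun n : O => if n ∈ ballN R then α n * chi6 m n ^ k * W w (N n / X) else 0)
    fun n hn => if_neg hn
  rw [Finset.sum_congr rfl fun n hn => if_pos hn] at g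
  refine ((summable_AA hα k hX w m).hasSum.sub g).norm_le_of_bounded
    (wb_tailW w hX hR).hasSum fun n => ?_
  by_cases h1 : n ∈ ballN R
  · rw [if_pos h1, if_pos (mem_ballN.1 h1).1, sub_self, norm_zero]; positivity
  rw [if_neg h1, sub_zero]
  by_cases h2 : NN n
  · rw [if_pos h2, if_pos (not_le.1 fun k => h1 (mem_ballN.2 ⟨h2, k⟩))]
    exact wb_term hα k m h2 _
  · rw [if_neg h2, norm_zero]; positivity
theorem tendsto_AA {α : O → ℂ} (hα : ∀ n, NN n → ‖α n‖ ≤ 1) (k : ℕ) {X : ℝ} (hX : 0 < X) (w : ℂ)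
    (m : O) : Tendsto (fun R : ℝ => ∑ n ∈ ballN R, α n * chi6 m n ^ k * W w (N n / X)) atTop
      (𝓝 (AA α k X w m)) := by
  simpa only [ballN, Finset.sum_filter, AA] using
    tendsto_sum_ballO (summable_AA hα k hX w m) (if_neg fun h => h.ne_zero rfl)
theorem differentiable_AA {α : O → ℂ} (hα : ∀ n, NN n → ‖α n‖ ≤ 1) (k : ℕ) {X : ℝ} (hX : 0 < X)
    (m : O) : Differentiable ℂ (fun w => AA α k X w m) := by
  intro w0
  obtain ⟨C, hC, h⟩ := W_le (-2) (|w0.re| + 1)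
  have ho : IsOpen {w : ℂ | |w.re| < |w0.re| + 1} := isOpen_lt (by fun_prop) continuous_const
  refine (differentiableOn_tsum_of_summable_norm
    ((summable_N_rpow one_lt_two).mul_left (C * X ^ (2 : ℝ))) (fun n => ?_) ho
    fun n w hw => ?_).differentiableAt (ho.mem_nhds (lt_add_one |w0.re|))
  · split_ifs
    · unfold W; fun_prop
    · fun_prop
  · have := N_nonneg n
    split_ifs with hn
    · rw [mul_assoc C, ← wb_div this hX]
      exact (wb_term hα k m hn _).trans (h w _ (le_of_lt hw) (div_pos (N_pos hn.ne_zero) hX))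
    · rw [norm_zero]; positivity
theorem wb_cs {g : ℝ → ℝ} (hg : Continuous g) :
    (∫ θ in (0 : ℝ)..(2 * π), g θ) ^ 2 ≤ 2 * π * ∫ θ in (0 : ℝ)..(2 * π), g θ ^ 2 := by
  set c := (∫ θ in (0 : ℝ)..(2 * π), g θ) / (2 * π) with hc
  have hp := Real.two_pi_pos
  have h : 0 ≤ ∫ θ in (0 : ℝ)..(2 * π), (g θ ^ 2 - 2 * c * g θ + c ^ 2) :=
    intervalIntegral.integral_nonneg hp.le fun θ _ => by nlinarith [sq_nonneg (g θ - c)]
  rw [intervalIntegral.integral_add (Continuous.intervalIntegrable (by fun_prop) _ _)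
    (Continuous.intervalIntegrable (by fun_prop) _ _), intervalIntegral.integral_sub
    (Continuous.intervalIntegrable (by fun_prop) _ _)
    (Continuous.intervalIntegrable (by fun_prop) _ _), intervalIntegral.integral_const_mul,
    intervalIntegral.integral_const, smul_eq_mul] at h
  rw [eq_div_iff hp.ne'] at hc
  rw [← hc] at h ⊢
  nlinarith
theorem wb_cauchy {f : ℂ → ℂ} (hf : Differentiable ℂ f) {w z : ℂ} (hz : ‖z - w‖ ≤ 2) :
    ‖f z‖ ≤ ∫ θ in (0 : ℝ)..(2 * π), ‖f (circleMap w 3 θ)‖ := by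
  have h := circleIntegral_sub_inv_smul_of_differentiable_on_off_countable (f := f) (c := w)
    (R := 3) Set.countable_empty (mem_ball_iff_norm.2 (by linarith : ‖z - w‖ < 3))
    hf.continuous.continuousOn fun x _ => hf x
  have h1 : ‖∮ y in C(w, 3), (y - z)⁻¹ • f y‖ ≤
      ∫ θ in (0 : ℝ)..(2 * π), 3 * ‖f (circleMap w 3 θ)‖ := by
    refine intervalIntegral.norm_integral_le_of_norm_le Real.two_pi_pos.le
      (ae_of_all _ fun θ _ => ?_) (Continuous.intervalIntegrable (by have := hf.continuous; fun_prop) _ _)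
    have k : 1 ≤ ‖circleMap w 3 θ - z‖ := by
      have := norm_sub_norm_le (circleMap w 3 θ - w) (z - w)
      rw [sub_sub_sub_cancel_right, circleMap_sub_center, norm_circleMap_zero] at this
      norm_num at this; linarith
    rw [norm_smul, norm_smul, deriv_circleMap, norm_mul, norm_I, norm_circleMap_zero, norm_inv]
    have := mul_le_of_le_one_left (norm_nonneg (f (circleMap w 3 θ))) (inv_le_one_of_one_le₀ k)
    norm_num; linarith
  rw [h, intervalIntegral.integral_const_mul, norm_smul] at h1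
  have : ‖(2 * π * Complex.I : ℂ)‖ = 2 * π := by simp [abs_of_pos Real.pi_pos]
  rw [this] at h1
  nlinarith [Real.pi_gt_three, norm_nonneg (f z)]
theorem AA_star (R0 : ℝ) : ∃ C : ℝ, 0 < C ∧
    ∀ (α : O → ℂ) (k : ℕ) (X r : ℝ) (w : ℂ) (m : O), (∀ n, NN n → ‖α n‖ ≤ 1) → 0 < X → 1 ≤ r →
      r ≤ 2 → |w.re| ≤ R0 →
      ‖AA α k (X / r) w m‖ ^ 2 ≤
        C * ∫ θ in (0 : ℝ)..(2 * π), ‖AA α k X (circleMap w 3 θ) m‖ ^ 2 := by
  obtain ⟨C, hC, h⟩ := W_le 0 R0
  refine ⟨C ^ 2 * (2 * π), by positivity, fun α k X r w m hα hX h1 h2 hw => ?_⟩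
  have hr : 0 < r := by linarith
  have e : AA α k (X / r) w m = W w r * AA α k X (w - 2 * (Real.log r : ℂ)) m := by
    rw [AA, AA, ← tsum_mul_left]
    refine tsum_congr fun n => ?_
    split_ifs with hn
    · rw [div_div_eq_mul_div, mul_div_right_comm, W_mul w (div_pos (N_pos hn.ne_zero) hX) hr]
      ring
    · simp
  have hd := differentiable_AA hα k hX m
  have h3 := wb_cauchy hd (w := w) (z := w - 2 * (Real.log r : ℂ)) (by
    have := Real.log_le_sub_one_of_pos hr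
    have := Real.log_nonneg h1
    rw [sub_sub_cancel_left, norm_neg, norm_mul, norm_real, Real.norm_of_nonneg this]
    simp; linarith)
  have h4 := wb_cs (g := fun θ => ‖AA α k X (circleMap w 3 θ) m‖)
    (hd.continuous.comp (continuous_circleMap w 3)).norm
  rw [e, norm_mul, mul_pow, mul_assoc]
  exact mul_le_mul (pow_le_pow_left₀ (norm_nonneg _) (by simpa using h w r hw hr) 2)
    ((pow_le_pow_left₀ (norm_nonneg _) h3 2).trans h4) (by positivity) (by positivity)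

end

end Vale.Agent.P026
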