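import Vale.Agent.P026.Bas

namespace Vale.Agent.P026

open Complex MeasureTheory Filter Topology
open scoped Classical ComplexConjugate Real MatrixGroups

noncomputable section

/-- holomorphy of parametric integrals -/
theorem bes_diff_int {X : Type*} [MeasurableSpace X] {ν : Measure X} {F : ℂ → X → ℂ} {s0 : ℂ}
    {r : ℝ} (hr : 0 < r) {g : X → ℝ} (hg : Integrable g ν)
    (hm : ∀ s ∈ Metric.ball s0 r, AEStronglyMeasurable (F s) ν)
    (hd : ∀ x, DifferentiableOn ℂ (fun s => F s x) (Metric.ball s0 r))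
    (hb : ∀ s ∈ Metric.ball s0 r, ∀ x, ‖F s x‖ ≤ g x) :
    DifferentiableAt ℂ (fun s => ∫ x, F s x ∂ν) s0 := by
  have h0 := Metric.mem_ball_self (x := s0) hr
  have hi : ∀ s ∈ Metric.ball s0 r, Integrable (F s) ν := fun s hs =>
    hg.mono' (hm s hs) (ae_of_all _ (hb s hs))
  have he : ∀ᶠ s in 𝓝[≠] s0, s ∈ Metric.ball s0 r :=
    mem_nhdsWithin_of_mem_nhds (Metric.ball_mem_nhds s0 hr)
  have h := tendsto_integral_filter_of_dominated_convergence (μ := ν) (l := 𝓝[≠] s0)
    (F := fun s x => slope (fun s => F s x) s0 s) (f := fun x => deriv (fun s => F s x) s0)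
    (fun x => (g x + g x) / r)
    (he.mono fun s hs => by
      simpa [slope_def_module] using ((hm s hs).sub (hm s0 h0)).const_mul _)
    ((he.and self_mem_nhdsWithin).mono fun s hs => ae_of_all _ fun x => by
      rw [← dslope_of_ne _ hs.2]
      refine norm_dslope_le_div_of_mapsTo_ball (hd x) (fun z hz => ?_) hs.1
      rw [mem_closedBall_iff_norm]
      exact (norm_sub_le _ _).trans (add_le_add (hb z hz x) (hb s0 h0 x)))
    ((hg.add hg).div_const r)
    (ae_of_all _ fun x =>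
      ((hd x).differentiableAt (Metric.ball_mem_nhds s0 hr)).hasDerivAt.tendsto_slope)
  refine (hasDerivAt_iff_tendsto_slope.2 (h.congr' (he.mono fun s hs => ?_))).differentiableAt
  simp only [slope_def_module, smul_eq_mul]
  rw [integral_const_mul, integral_sub (hi s hs) (hi s0 h0)]

def bes_e (x u : ℝ) : ℝ := Real.exp (-u - 4 * π ^ 2 * x / u)

theorem bes_e_pos (x u : ℝ) : 0 < bes_e x u := Real.exp_pos _

theorem bes_e_anti {x y u : ℝ} (h : x ≤ y) (hu : 0 < u) : bes_e y u ≤ bes_e x u := by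
  unfold bes_e; gcongr

theorem bes_e_le {x u : ℝ} (hx : 0 ≤ x) (hu : 0 < u) : bes_e x u ≤ Real.exp (-u) := by
  simpa [bes_e] using bes_e_anti hx hu

theorem bes_e_cont (x : ℝ) : ContinuousOn (bes_e x) (Set.Ioi 0) := fun u hu => by
  have : u ≠ 0 := ne_of_gt hu
  unfold bes_e
  exact ContinuousAt.continuousWithinAt (by fun_prop (disch := assumption))

theorem bes_exp_le {a y : ℝ} (ha : 0 ≤ a) (hy : 0 < y) :
    Real.exp (-y) ≤ (a + 1) ^ a * y ^ (-a) := by
  have h1 : 0 < a + 1 := by linarith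
  rw [Real.rpow_def_of_pos h1, Real.rpow_def_of_pos hy, ← Real.exp_add, Real.exp_le_exp]
  have h2 := Real.log_le_sub_one_of_pos (div_pos hy h1)
  rw [Real.log_div hy.ne' h1.ne'] at h2
  have h3 : a * (y / (a + 1)) ≤ y := by
    rw [← mul_div_assoc, div_le_iff₀ h1]; nlinarith
  nlinarith

theorem bes_e_le' {a x u : ℝ} (ha : 0 ≤ a) (hx : 0 < x) (hu : 0 < u) :
    bes_e x u ≤ (a + 1) ^ a * (4 * π ^ 2) ^ (-a) * x ^ (-a) * (Real.exp (-u) * u ^ a) := by
  have h := bes_exp_le ha (y := 4 * π ^ 2 * x / u) (by positivity)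
  rw [Real.div_rpow (by positivity) hu.le, Real.mul_rpow (by positivity) hx.le,
    Real.rpow_neg hu.le, div_inv_eq_mul] at h
  rw [bes_e, sub_eq_add_neg, Real.exp_add]
  refine (mul_le_mul_of_nonneg_left h (Real.exp_pos _).le).trans_eq ?_
  ring

theorem bes_meas (x : ℝ) (s : ℂ) : AEStronglyMeasurable
    (fun u : ℝ => (u : ℂ) ^ (s - 2) * (bes_e x u : ℂ)) (volume.restrict (Set.Ioi 0)) := by
  refine ContinuousOn.aestronglyMeasurable (ContinuousOn.mul (fun u hu => ?_)
    (continuous_ofReal.comp_continuousOn (bes_e_cont x))) measurableSet_Ioi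
  exact (continuousAt_ofReal_cpow_const _ _ (Or.inr (ne_of_gt hu))).continuousWithinAt

theorem bes_norm (x : ℝ) (s : ℂ) {u : ℝ} (hu : 0 < u) :
    ‖(u : ℂ) ^ (s - 2) * (bes_e x u : ℂ)‖ = u ^ (s.re - 2) * bes_e x u := by
  rw [norm_mul, norm_cpow_eq_rpow_re_of_pos hu, norm_real, Real.norm_of_nonneg (bes_e_pos _ _).le]
  simp

theorem bes_bb (x : ℝ) (s : ℂ) :
    bb x s = π / Complex.Gamma s * ∫ u in Set.Ioi (0 : ℝ), (u : ℂ) ^ (s - 2) * (bes_e x u : ℂ) :=
  rfl

theorem bes_bound {x : ℝ} (hx : 0 ≤ x) (s : ℂ) : ∀ᵐ u : ℝ ∂volume.restrict (Set.Ioi 0),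
    ‖(u : ℂ) ^ (s - 2) * (bes_e x u : ℂ)‖ ≤ Real.exp (-u) * u ^ (s.re - 1 - 1) :=
  (ae_restrict_mem measurableSet_Ioi).mono fun u hu => by
    rw [bes_norm x s hu, mul_comm, sub_sub, one_add_one_eq_two]
    exact mul_le_mul_of_nonneg_right (bes_e_le hx hu) (Real.rpow_nonneg (le_of_lt hu) _)

theorem differentiableOn_bb {x : ℝ} (hx : 0 ≤ x) : DifferentiableOn ℂ (bb x) {s | 1 < s.re} := by
  intro s hs
  have e : bb x = fun s => π * (Complex.Gamma s)⁻¹ * mellin (fun u => (bes_e x u : ℂ)) (s - 1) := by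
    ext s; simp only [bes_bb, mellin, sub_sub, one_add_one_eq_two, smul_eq_mul, div_eq_mul_inv]
  have hb : ∀ u : ℝ, 0 < u → ‖(bes_e x u : ℂ)‖ ≤ Real.exp (-u) := fun u hu => by
    rw [norm_real, Real.norm_of_nonneg (bes_e_pos _ _).le]; exact bes_e_le hx hu
  have hm := mellin_differentiableAt_of_isBigO_rpow_exp (a := 1) (b := 0) one_pos
    (f := fun u => (bes_e x u : ℂ)) (s := s - 1)
    ((continuous_ofReal.comp_continuousOn (bes_e_cont x)).locallyIntegrableOn measurableSet_Ioi)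
    (Asymptotics.IsBigO.of_bound 1 ((eventually_gt_atTop 0).mono fun u hu => by
      simpa using hb u hu))
    (Asymptotics.IsBigO.of_bound 1 (eventually_mem_nhdsWithin.mono fun u hu => by
      have := (hb u hu).trans (Real.exp_le_one_iff.2 (neg_nonpos.2 (le_of_lt hu)))
      simpa using this)) (by simpa using hs)
  rw [e]
  exact (((Complex.differentiable_one_div_Gamma s).const_mul _).mul
    (hm.comp s (f := fun s => s - 1) (by fun_prop))).differentiableWithinAt

theorem norm_bb_le {x : ℝ} (hx : 0 ≤ x) {s : ℂ} (hs : 1 < s.re) :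
    ‖bb x s‖ ≤ ‖π / Complex.Gamma s‖ * Real.Gamma (s.re - 1) := by
  rw [bes_bb, norm_mul, Real.Gamma_eq_integral (sub_pos.2 hs)]
  exact mul_le_mul_of_nonneg_left (norm_integral_le_of_norm_le
    (Real.GammaIntegral_convergent (sub_pos.2 hs)) (bes_bound hx s)) (norm_nonneg _)

theorem continuousOn_bb {s : ℂ} (hs : 1 < s.re) :
    ContinuousOn (fun x => bb x s) (Set.Ici 0) := by
  refine continuousOn_const.mul (continuousOn_of_dominated (fun x _ => bes_meas x s)
    (fun x hx => bes_bound hx s) (Real.GammaIntegral_convergent (sub_pos.2 hs))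
    (ae_of_all _ fun u => Continuous.continuousOn ?_))
  fun_prop

theorem bes_int {x σ : ℝ} (hx : 0 ≤ x) (hs : 1 < σ) :
    IntegrableOn (fun u : ℝ => u ^ (σ - 2) * bes_e x u) (Set.Ioi 0) := by
  have h := ((Real.GammaIntegral_convergent (sub_pos.2 hs)).mono' (bes_meas x σ)
    (bes_bound hx σ)).norm
  exact (integrableOn_congr_fun (fun u hu => bes_norm x σ hu) measurableSet_Ioi).1 h

theorem bb_real : ∃ b : ℝ → ℝ, (∀ x, 0 ≤ x → bb x (4 / 3) = b x ∧ 0 < b x) ∧
    AntitoneOn b (Set.Ici 0) := by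
  have hG := Real.Gamma_pos_of_pos (s := 4 / 3) (by norm_num)
  have h43 : (1 : ℝ) < 4 / 3 := by norm_num
  have hn : ∀ x, ∀ u ∈ Set.Ioi (0 : ℝ), 0 < u ^ ((4 : ℝ) / 3 - 2) * bes_e x u := fun x u hu =>
    mul_pos (Real.rpow_pos_of_pos hu _) (bes_e_pos _ _)
  refine ⟨fun x => π / Real.Gamma (4 / 3) * ∫ u in Set.Ioi (0 : ℝ),
    u ^ ((4 : ℝ) / 3 - 2) * bes_e x u, fun x hx => ⟨?_, mul_pos (by positivity) ?_⟩,
    fun x hx y hy h => mul_le_mul_of_nonneg_left (setIntegral_mono_on (bes_int hy h43)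
      (bes_int hx h43) measurableSet_Ioi fun u hu => mul_le_mul_of_nonneg_left (bes_e_anti h hu)
        (Real.rpow_nonneg (le_of_lt hu) _)) (by positivity)⟩
  · rw [bes_bb, ofReal_mul, ofReal_div, ← Gamma_ofReal, ← integral_complex_ofReal]
    congr 1
    · norm_num
    refine setIntegral_congr_fun measurableSet_Ioi fun u hu => ?_
    simp only [ofReal_mul, ofReal_cpow (le_of_lt hu)]
    norm_num
  · rw [setIntegral_pos_iff_support_of_nonneg_ae ((ae_restrict_mem measurableSet_Ioi).mono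
      fun u hu => (hn x u hu).le) (bes_int hx h43), Set.inter_eq_right.2]
    · simp
    · exact fun u hu => (hn x u hu).ne'

theorem bb_decay {a : ℝ} (ha : 0 ≤ a) :
    ∃ C : ℝ, 0 < C ∧ ∀ x : ℝ, 0 < x → ‖bb x (4 / 3)‖ ≤ C * x ^ (-a) := by
  have h1 : 0 < a + 1 / 3 := by linarith
  have hG := Real.Gamma_pos_of_pos h1
  refine ⟨(‖π / Complex.Gamma (4 / 3)‖ + 1) * ((a + 1) ^ a * (4 * π ^ 2) ^ (-a) *
    Real.Gamma (a + 1 / 3)), by positivity, fun x hx => ?_⟩
  rw [bes_bb, norm_mul, mul_assoc]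
  refine mul_le_mul (by linarith) ?_ (norm_nonneg _) (by positivity)
  rw [Real.Gamma_eq_integral h1, mul_right_comm, ← integral_const_mul]
  refine norm_integral_le_of_norm_le ((Real.GammaIntegral_convergent h1).const_mul _)
    ((ae_restrict_mem measurableSet_Ioi).mono fun u hu => ?_)
  rw [bes_norm _ _ hu]
  refine (mul_le_mul_of_nonneg_left (bes_e_le' ha hx hu)
    (Real.rpow_nonneg (le_of_lt hu) _)).trans_eq ?_
  rw [show a + 1 / 3 - 1 = a + ((4 / 3 : ℂ).re - 2) by norm_num; ring, Real.rpow_add hu]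
  ring

theorem continuousOn_kk : ContinuousOn kk (Set.Ici 0) :=
  (continuous_ofReal.comp (Real.continuous_rpow_const (by norm_num))).continuousOn.mul
    (continuousOn_bb (by norm_num))

theorem kk_decay {a : ℝ} (ha : -(1 / 3) ≤ a) :
    ∃ C : ℝ, 0 < C ∧ ∀ x : ℝ, 0 < x → ‖kk x‖ ≤ C * x ^ (-a) := by
  obtain ⟨C, hC, h⟩ := bb_decay (a := a + 1 / 3) (by linarith)
  refine ⟨C, hC, fun x hx => ?_⟩
  rw [kk, norm_mul, norm_real, Real.norm_of_nonneg (by positivity)]
  refine (mul_le_mul_of_nonneg_left (h x hx) (by positivity)).trans_eq ?_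
  rw [mul_left_comm, ← Real.rpow_add hx]
  congr 2; ring

theorem bes_arg (m n : O) (t : ℝ) : 0 ≤ N n * Real.exp t ^ 2 / (3 * N m) := by
  have := N_nonneg n
  have := N_nonneg m
  positivity

theorem bes_cont (m n : O) {s : ℂ} (hs : 1 < s.re) :
    Continuous fun t : ℝ => bb (N n * Real.exp t ^ 2 / (3 * N m)) s :=
  (continuousOn_bb hs).comp_continuous (by fun_prop) (bes_arg m n)

theorem bes_cpow (t : ℝ) (s : ℂ) : ((Real.exp t : ℝ) : ℂ) ^ s = Complex.exp (t * s) := by
  rw [cpow_def_of_ne_zero (by simp), ← ofReal_log (Real.exp_pos t).le, Real.log_exp]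

theorem differentiableOn_betaF (m n : O) {φ : ℝ → ℂ} (hφ : Tst φ) :
    DifferentiableOn ℂ (betaF m n φ) {s | 1 < s.re} := by
  intro s0 hs0
  obtain ⟨hm, Bd, T, hB, hT⟩ := hφ
  have hs0' : 1 < s0.re := hs0
  have hr : 0 < (s0.re - 1) / 2 := by linarith
  have hre : ∀ s ∈ Metric.closedBall s0 ((s0.re - 1) / 2), 1 < s.re ∧ s.re ≤ 2 * s0.re :=
    fun s hs => by
      have := abs_le.1 ((abs_re_le_norm (s - s0)).trans (mem_closedBall_iff_norm.1 hs))
      rw [sub_re] at this
      constructor <;> linarith [this.1, this.2]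
  have hc : ContinuousOn (fun s : ℂ => ‖π / Complex.Gamma s‖ * Real.Gamma (s.re - 1))
      (Metric.closedBall s0 ((s0.re - 1) / 2)) := fun s hs => by
    refine ContinuousAt.continuousWithinAt (ContinuousAt.mul ?_ ?_)
    · simp only [div_eq_mul_inv]
      exact ((Complex.differentiable_one_div_Gamma s).const_mul _).continuousAt.norm
    · refine ContinuousAt.comp (f := fun s : ℂ => s.re - 1)
        (Real.differentiableAt_Gamma fun k h => ?_).continuousAt (by fun_prop)
      linarith [Nat.cast_nonneg (α := ℝ) k, (hre s hs).1]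
  obtain ⟨K, hK⟩ := (isCompact_closedBall _ _).exists_bound_of_continuousOn hc
  refine (bes_diff_int hr (g := (Set.Icc (-T) T).indicator
    fun _ => Bd * Real.exp (T * (2 * s0.re)) * K) ?_ (fun s hs => ?_) (fun t => ?_)
    fun s hs t => ?_).differentiableWithinAt
  · exact (integrable_indicator_iff measurableSet_Icc).2 (integrableOn_const (by simp))
  · have := bes_cont m n (hre s (Metric.ball_subset_closedBall hs)).1
    simp only [bes_cpow]
    exact ((hm.mul (by fun_prop)).mul (by fun_prop)).aestronglyMeasurable.mul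
      this.aestronglyMeasurable
  · simp only [bes_cpow]
    exact DifferentiableOn.mul (by fun_prop) ((differentiableOn_bb (bes_arg m n t)).mono
      fun s hs => (hre s (Metric.ball_subset_closedBall hs)).1)
  · have hs' := Metric.ball_subset_closedBall hs
    rcases lt_or_ge T |t| with h | h
    · rw [hT t h, Set.indicator_of_notMem fun k => absurd (abs_le.2 (Set.mem_Icc.1 k)) h.not_ge]
      simp
    rw [Set.indicator_of_mem (Set.mem_Icc.2 (abs_le.1 h)), norm_mul, mul_assoc (φ t), norm_mul]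
    have hB0 := (norm_nonneg _).trans (hB t)
    refine mul_le_mul (mul_le_mul (hB t) ?_ (norm_nonneg _) hB0) ((norm_bb_le (bes_arg m n t)
      (hre s hs').1).trans ((le_abs_self _).trans (hK s hs'))) (norm_nonneg _) (by positivity)
    rw [bes_cpow, ofReal_exp, ← Complex.exp_add, norm_exp, Real.exp_le_exp]
    simp
    nlinarith [abs_le.1 h, hre s hs', abs_nonneg t]

theorem tst_ind : Tst ((Set.Icc (0 : ℝ) 1).indicator (fun _ => (1 : ℂ))) :=
  ⟨measurable_const.indicator measurableSet_Icc, 1, 1,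
    fun t => by simpa using norm_indicator_le_norm_self (fun _ => (1 : ℂ)) t,
    fun t ht => Set.indicator_of_notMem (fun k => by
      rw [abs_of_nonneg k.1] at ht; exact absurd k.2 ht.not_ge) _⟩

theorem betaF_ne (m n : O) :
    betaF m n ((Set.Icc (0 : ℝ) 1).indicator (fun _ => (1 : ℂ))) (4 / 3) ≠ 0 := by
  obtain ⟨b, hb, -⟩ := bb_real
  have hc : Continuous fun t : ℝ => b (N n * Real.exp t ^ 2 / (3 * N m)) := by
    refine (continuous_re.comp (bes_cont m n (s := 4 / 3) (by norm_num))).congr fun t => ?_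
    rw [Function.comp, (hb _ (bes_arg m n _)).1, ofReal_re]
  have e : betaF m n ((Set.Icc (0 : ℝ) 1).indicator (fun _ => (1 : ℂ))) (4 / 3) =
      ((∫ t in (0 : ℝ)..1, Real.exp (-(4 / 3) * t) * b (N n * Real.exp t ^ 2 / (3 * N m)) : ℝ) : ℂ) := by
    rw [intervalIntegral.integral_of_le zero_le_one, ← integral_Icc_eq_integral_Ioc,
      ← integral_complex_ofReal, ← integral_indicator measurableSet_Icc, betaF]
    congr 1
    ext t
    by_cases h : t ∈ Set.Icc (0 : ℝ) 1
    · rw [Set.indicator_of_mem h, Set.indicator_of_mem h, (hb _ (bes_arg m n _)).1, bes_cpow,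
        one_mul, ofReal_mul, ofReal_exp, ofReal_exp, ← Complex.exp_add]
      congr 2
      push_cast; ring
    · simp [h]
  rw [e, ofReal_ne_zero]
  exact (intervalIntegral.intervalIntegral_pos_of_pos (Continuous.intervalIntegrable
    (Continuous.mul (by fun_prop) hc) _ _) (fun t => mul_pos (Real.exp_pos _) (hb _ (bes_arg m n _)).2) one_pos).ne'

end

end Vale.Agent.P026
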