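import Vale.Agent.P026.Defs

namespace Vale.Agent.P026

open Complex MeasureTheory Filter Topology
open scoped Classical ComplexConjugate Real MatrixGroups

noncomputable section

theorem bas_sqrt3 : √3 * √3 = 3 := Real.mul_self_sqrt (by norm_num)
theorem bas_sqrt3_pos : 0 < √3 := Real.sqrt_pos.2 (by norm_num)
theorem bas_toC (x : O) : toC x = (x.re : ℂ) + (x.im : ℂ) * omC := rfl
theorem bas_toC_re (x : O) : (toC x).re = x.re - x.im / 2 := by
  simp [bas_toC, omC]; ring
theorem bas_toC_im (x : O) : (toC x).im = x.im * (√3 / 2) := by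
  simp [bas_toC, omC]
theorem bas_N (x : O) : N x = (x.re : ℝ) ^ 2 - x.re * x.im + (x.im : ℝ) ^ 2 := by
  unfold N; exact_mod_cast Nm_cast x
theorem bas_om_sq : om ^ 2 = ⟨-1, -1⟩ := by
  rw [sq]; ext <;> simp [om]
theorem bas_one : (1 : O) = ⟨1, 0⟩ := rfl
theorem bas_three : (3 : O) = ((3 : ℤ) : O) := by norm_num
theorem bas_two : (2 : O) = ((2 : ℤ) : O) := by norm_num

theorem normSq_toC (x : O) : normSq (toC x) = N x := by
  rw [normSq_apply, bas_toC_re, bas_toC_im, bas_N]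
  linear_combination ((x.im : ℝ) ^ 2 / 4) * bas_sqrt3
theorem toC_ne_zero {x : O} (hx : x ≠ 0) : toC x ≠ 0 := by
  intro h
  have h1 := normSq_toC x
  rw [h, map_zero] at h1
  apply hx
  apply Nm_eq_zero.1
  unfold N at h1
  exact_mod_cast h1.symm
theorem toC_inj : Function.Injective toC := by
  intro x y h
  by_contra hne
  exact toC_ne_zero (sub_ne_zero.2 hne) (by rw [map_sub, h, sub_self])
theorem norm_toC_sq (x : O) : ‖toC x‖ ^ 2 = N x := by
  rw [← normSq_toC, Complex.normSq_eq_norm_sq]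
theorem norm_toC (x : O) : ‖toC x‖ = √(N x) := by
  rw [← norm_toC_sq, Real.sqrt_sq (norm_nonneg _)]
theorem toC_star (x : O) : toC (star x) = conj (toC x) := by
  apply Complex.ext
  · simp only [bas_toC_re, conj_re, QuadraticAlgebra.re_star, QuadraticAlgebra.im_star]
    push_cast; ring
  · simp only [bas_toC_im, conj_im, QuadraticAlgebra.im_star]
    push_cast; ring
theorem toC_om : toC om = omC := by simp [bas_toC, om]
theorem toC_lam : toC lam = (√3 : ℝ) * Complex.I := by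
  apply Complex.ext
  · rw [bas_toC_re]; simp [lam]
  · rw [bas_toC_im]; simp [lam]; ring
theorem omC_cube : omC ^ 3 = 1 := by
  linear_combination (omC - 1) * omC_mul
theorem omC_ne_one : omC ≠ 1 := by
  intro h
  have := congrArg Complex.re h
  simp [omC] at this
  norm_num at this
theorem norm_omC : ‖omC‖ = 1 := by
  rw [← toC_om, norm_toC, bas_N]; simp [om]
theorem conj_omC : conj omC = omC ^ 2 := by
  rw [sq, omC_mul]
  apply Complex.ext
  · simp [omC]; norm_num
  · simp [omC]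
theorem lam_sq : lam ^ 2 = -3 := by
  rw [sq]; ext <;> simp [lam, QuadraticAlgebra.re_ofNat, QuadraticAlgebra.im_ofNat]
theorem om_sq : om ^ 2 + om + 1 = 0 := by
  rw [bas_om_sq, bas_one]; ext <;> simp [om]
theorem om_cube : om ^ 3 = 1 := by
  linear_combination (om - 1) * om_sq
theorem N_mul (x y : O) : N (x * y) = N x * N y := by
  unfold N; rw [Nm_mul]; push_cast; rfl
theorem bas_Nm_one : Nm 1 = 1 := by rw [bas_one]; simp [Nm]
theorem N_one : N 1 = 1 := by unfold N; rw [bas_Nm_one]; simp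
theorem Nm_pow (x : O) (k : ℕ) : Nm (x ^ k) = Nm x ^ k := by
  induction k with
  | zero => simp [bas_Nm_one]
  | succ k ih => rw [pow_succ, Nm_mul, ih, pow_succ]
theorem N_pow (x : O) (k : ℕ) : N (x ^ k) = N x ^ k := by
  unfold N; rw [Nm_pow]; push_cast; rfl
theorem N_zero : N 0 = 0 := by
  unfold N; rw [Nm_eq_zero.2 rfl]; simp
theorem N_nonneg (x : O) : 0 ≤ N x := Nat.cast_nonneg _
theorem bas_Nm_pos {x : O} (hx : x ≠ 0) : 0 < Nm x :=
  Nat.pos_of_ne_zero (fun h => hx (Nm_eq_zero.1 h))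
theorem N_pos {x : O} (hx : x ≠ 0) : 0 < N x := by
  unfold N; exact_mod_cast bas_Nm_pos hx
theorem one_le_N {x : O} (hx : x ≠ 0) : 1 ≤ N x := by
  unfold N; exact_mod_cast bas_Nm_pos hx
theorem N_neg (x : O) : N (-x) = N x := by
  simp only [bas_N, QuadraticAlgebra.re_neg, QuadraticAlgebra.im_neg]; push_cast; ring
theorem N_star (x : O) : N (star x) = N x := by
  simp only [bas_N, QuadraticAlgebra.re_star, QuadraticAlgebra.im_star]; push_cast; ring
theorem Nm_star (x : O) : Nm (star x) = Nm x := by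
  have := N_star x
  unfold N at this
  exact_mod_cast this
theorem N_natCast (k : ℕ) : N (k : O) = (k : ℝ) ^ 2 := by
  simp [bas_N]
theorem Nm_natCast (k : ℕ) : Nm (k : O) = k ^ 2 := by
  have := N_natCast k
  unfold N at this
  exact_mod_cast this
theorem N_ofNat (k : ℕ) [k.AtLeastTwo] : N (OfNat.ofNat k : O) = (OfNat.ofNat k : ℝ) ^ 2 :=
  N_natCast k
theorem N_lam : N lam = 3 := by
  rw [bas_N]; simp [lam]; norm_num
theorem bas_Nm_lam : Nm lam = 3 := by
  have := N_lam
  unfold N at this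
  exact_mod_cast this
theorem mul_star_eq (x : O) : x * star x = (Nm x : O) := by
  have h := Nm_cast x
  ext
  · simp only [QuadraticAlgebra.re_mul, QuadraticAlgebra.re_star, QuadraticAlgebra.im_star,
      QuadraticAlgebra.re_natCast, h]
    ring
  · simp only [QuadraticAlgebra.im_mul, QuadraticAlgebra.re_star, QuadraticAlgebra.im_star,
      QuadraticAlgebra.im_natCast]
    ring
theorem isUnit_iff_Nm {x : O} : IsUnit x ↔ Nm x = 1 := by
  constructor
  · intro h
    obtain ⟨y, hy⟩ := h.exists_right_inv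
    have := Nm_mul x y
    rw [hy, bas_Nm_one] at this
    exact Nat.eq_one_of_mul_eq_one_right this.symm
  · intro h
    have := mul_star_eq x
    rw [h, Nat.cast_one] at this
    exact IsUnit.of_mul_eq_one _ this
theorem N_unit {u : O} (hu : IsUnit u) : N u = 1 := by
  unfold N; rw [isUnit_iff_Nm.1 hu]; simp
theorem bas_unit_coord {u : O} (hu : IsUnit u) :
    u = ⟨1, 0⟩ ∨ u = ⟨-1, 0⟩ ∨ u = ⟨0, 1⟩ ∨ u = ⟨0, -1⟩ ∨ u = ⟨-1, -1⟩ ∨ u = ⟨1, 1⟩ := by
  have h := Nm_cast u
  rw [isUnit_iff_Nm.1 hu] at h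
  obtain ⟨a, b⟩ := u
  simp only [Nat.cast_one] at h
  have h1 : a ≤ 1 := by nlinarith [sq_nonneg (2 * b - a)]
  have h2 : -1 ≤ a := by nlinarith [sq_nonneg (2 * b - a)]
  have h3 : b ≤ 1 := by nlinarith [sq_nonneg (2 * a - b)]
  have h4 : -1 ≤ b := by nlinarith [sq_nonneg (2 * a - b)]
  interval_cases a <;> interval_cases b <;> first | (exfalso; omega) | simp
theorem unit_cases {u : O} (hu : IsUnit u) :
    u = 1 ∨ u = -1 ∨ u = om ∨ u = -om ∨ u = om ^ 2 ∨ u = -om ^ 2 := by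
  rw [bas_om_sq, bas_one]
  rcases bas_unit_coord hu with h | h | h | h | h | h <;> rw [h] <;> simp [om]
theorem unit_pow_six {u : O} (hu : IsUnit u) : u ^ 6 = 1 := by
  have h := om_cube
  rcases unit_cases hu with h | h | h | h | h | h <;> rw [h]
  · ring
  · ring
  · linear_combination (om ^ 3 + 1) * om_cube
  · linear_combination (om ^ 3 + 1) * om_cube
  · linear_combination (om ^ 9 + om ^ 6 + om ^ 3 + 1) * om_cube
  · linear_combination (om ^ 9 + om ^ 6 + om ^ 3 + 1) * om_cube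
theorem mem_ballO_one {u : O} : u ∈ ballO 1 ↔ IsUnit u := by
  rw [mem_ballO, isUnit_iff_Nm]
  constructor
  · rintro ⟨h0, h1⟩
    have h2 := bas_Nm_pos h0
    have h3 : Nm u ≤ 1 := by unfold N at h1; exact_mod_cast h1
    omega
  · intro h
    refine ⟨fun h0 => ?_, by unfold N; rw [h]; simp⟩
    rw [Nm_eq_zero.2 h0] at h
    exact absurd h (by norm_num)
theorem card_ballO_one : (ballO 1).card = 6 := by
  have h : ballO 1 = ({(1, 0), (-1, 0), (0, 1), (0, -1), (-1, -1), (1, 1)} : Finset (ℤ × ℤ)).image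
      (fun p => (⟨p.1, p.2⟩ : O)) := by
    ext u
    rw [mem_ballO_one]
    constructor
    · intro hu
      rcases bas_unit_coord hu with h | h | h | h | h | h <;> rw [h] <;> simp
    · intro hu
      simp only [Finset.image_insert, Finset.image_singleton, Finset.mem_insert,
        Finset.mem_singleton] at hu
      rw [isUnit_iff_Nm]
      rcases hu with h | h | h | h | h | h <;> rw [h] <;> simp [Nm]
  rw [h, Finset.card_image_of_injective]
  · decide
  · intro p q hpq
    simp only [QuadraticAlgebra.mk.injEq] at hpq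
    exact Prod.ext hpq.1 hpq.2
theorem N_le_of_dvd {a b : O} (h : a ∣ b) (hb : b ≠ 0) : N a ≤ N b := by
  obtain ⟨c, rfl⟩ := h
  rw [N_mul]
  exact le_mul_of_one_le_right (N_nonneg a) (one_le_N (right_ne_zero_of_mul hb))
theorem intCast_dvd_iff (k : ℤ) (x : O) : (k : O) ∣ x ↔ k ∣ x.re ∧ k ∣ x.im := by
  constructor
  · rintro ⟨y, rfl⟩
    simp
  · rintro ⟨⟨a, ha⟩, ⟨b, hb⟩⟩
    refine ⟨⟨a, b⟩, ?_⟩
    ext <;> simp [ha, hb]
theorem bas_lam_dvd (x : O) : lam ∣ x ↔ 3 ∣ x.re + x.im := by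
  constructor
  · rintro ⟨y, rfl⟩
    simp only [lam, QuadraticAlgebra.re_mul, QuadraticAlgebra.im_mul]
    exact ⟨y.re - y.im, by ring⟩
  · rintro ⟨k, hk⟩
    refine ⟨⟨x.im - k, k - x.re⟩, ?_⟩
    ext
    · simp only [lam, QuadraticAlgebra.re_mul]; linarith
    · simp only [lam, QuadraticAlgebra.im_mul]; linarith
theorem bas_prim_iff (x : O) : Prim x ↔ 3 ∣ x.re - 1 ∧ 3 ∣ x.im := by
  unfold Prim
  rw [bas_three, intCast_dvd_iff, bas_one]
  simp
theorem bas_two_dvd (x : O) : (2 : O) ∣ x ↔ Even (Nm x) := by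
  rw [bas_two, intCast_dvd_iff, ← Int.even_coe_nat, Nm_cast, ← even_iff_two_dvd,
    ← even_iff_two_dvd]
  simp only [parity_simps]
  tauto
theorem bas_prime_of_Nm {x : O} (h : (Nm x).Prime) : Prime x := by
  apply Irreducible.prime
  refine ⟨fun hu => ?_, fun a b hab => ?_⟩
  · rw [isUnit_iff_Nm.1 hu] at h
    exact Nat.not_prime_one h
  · rw [hab, Nm_mul] at h
    rw [isUnit_iff_Nm, isUnit_iff_Nm]
    have := h.isUnit_or_isUnit rfl
    simpa using this
theorem prime_lam : Prime lam := bas_prime_of_Nm (by rw [bas_Nm_lam]; norm_num)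
theorem prime_two : Prime (2 : O) := by
  have h4 : Nm 2 = 4 := Nm_natCast 2
  refine ⟨fun h => ?_, fun h => ?_, fun a b hab => ?_⟩
  · rw [Nm_eq_zero.2 h] at h4; norm_num at h4
  · rw [isUnit_iff_Nm.1 h] at h4; norm_num at h4
  · rw [bas_two_dvd] at hab ⊢
    rw [bas_two_dvd]
    rw [Nm_mul] at hab
    exact Nat.even_mul.1 hab
theorem norm_ang {n : O} (hn : n ≠ 0) : ‖ang n‖ = 1 := by
  unfold ang
  rw [norm_div, Complex.norm_real, norm_norm, div_self (norm_ne_zero_iff.2 (toC_ne_zero hn))]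
theorem ang_zero : ang 0 = 0 := by simp [ang]
theorem norm_ang_le (n : O) : ‖ang n‖ ≤ 1 := by
  by_cases hn : n = 0
  · rw [hn, ang_zero]; simp
  · exact (norm_ang hn).le
theorem ang_mul (a b : O) : ang (a * b) = ang a * ang b := by
  unfold ang
  rw [map_mul, norm_mul, div_mul_div_comm]; push_cast; rfl

theorem prim_one : Prim 1 := by simp [Prim]
theorem prim_neg_two : Prim (-2) := ⟨-1, by norm_num⟩
theorem Prim.mul {a b : O} (ha : Prim a) (hb : Prim b) : Prim (a * b) := by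
  have : a * b - 1 = (a - 1) * b + (b - 1) := by ring
  unfold Prim at *
  rw [this]
  exact dvd_add (dvd_mul_of_dvd_left ha _) hb
theorem Prim.pow {a : O} (ha : Prim a) (k : ℕ) : Prim (a ^ k) := by
  induction k with
  | zero => simpa using prim_one
  | succ k ih => rw [pow_succ]; exact ih.mul ha
theorem Prim.not_lam_dvd {a : O} (ha : Prim a) : ¬ lam ∣ a := by
  rw [bas_lam_dvd]
  rw [bas_prim_iff] at ha
  omega
theorem Prim.ne_zero {a : O} (ha : Prim a) : a ≠ 0 := by
  rintro rfl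
  exact ha.not_lam_dvd (dvd_zero _)
theorem Prim.star {a : O} (ha : Prim a) : Prim (star a) := by
  rw [bas_prim_iff] at ha ⊢
  simp only [QuadraticAlgebra.re_star, QuadraticAlgebra.im_star]
  omega
theorem Prim.of_mul {a b : O} (hab : Prim (a * b)) (ha : Prim a) : Prim b := by
  have : b - 1 = (a * b - 1) - (a - 1) * b := by ring
  unfold Prim at *
  rw [this]
  exact dvd_sub hab (dvd_mul_of_dvd_left ha _)
theorem Prim.coprime_three {a : O} (ha : Prim a) : IsCoprime a 3 := by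
  obtain ⟨k, hk⟩ := ha
  exact ⟨1, -k, by linear_combination hk⟩
theorem Prim.cube {a : O} (ha : Prim a) : (9 : O) ∣ a ^ 3 - 1 := by
  obtain ⟨k, hk⟩ := ha
  have : a = 1 + 3 * k := by linear_combination hk
  exact ⟨k + 3 * k ^ 2 + 3 * k ^ 3, by rw [this]; ring⟩
theorem Prim.congr {a b : O} (ha : Prim a) (h : (3 : O) ∣ a - b) : Prim b := by
  have : b - 1 = (a - 1) - (a - b) := by ring
  unfold Prim at *
  rw [this]
  exact dvd_sub ha h
theorem Prim.eq_one_of_isUnit {a : O} (ha : Prim a) (h : IsUnit a) : a = 1 := by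
  rw [bas_prim_iff] at ha
  rcases bas_unit_coord h with h | h | h | h | h | h <;> rw [h] at ha ⊢
  · rfl
  all_goals (exfalso; simp only at ha; omega)
theorem Prim.eq_of_associated {a b : O} (ha : Prim a) (hb : Prim b) (h : Associated a b) :
    a = b := by
  obtain ⟨u, rfl⟩ := h
  rw [(hb.of_mul ha).eq_one_of_isUnit u.isUnit, mul_one]
theorem Prim.Nm_mod {a : O} (ha : Prim a) : Nm a % 3 = 1 := by
  rw [bas_prim_iff] at ha
  obtain ⟨⟨k, hk⟩, ⟨l, hl⟩⟩ := ha
  have h := Nm_cast a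
  have hk' : a.re = 3 * k + 1 := by linarith
  rw [hk', hl] at h
  have h2 : (Nm a : ℤ) = 3 * (3 * k ^ 2 + 2 * k - (3 * k + 1) * l + 3 * l ^ 2) + 1 := by
    rw [h]; ring
  omega
theorem four_le_N_of_prime {p : O} (hp : Prime p) (hP : Prim p) : 4 ≤ N p := by
  have h1 := hP.Nm_mod
  have h2 : Nm p ≠ 1 := fun h => hp.not_isUnit (isUnit_iff_Nm.2 h)
  have h3 : 4 ≤ Nm p := by omega
  unfold N; exact_mod_cast h3
theorem exists_prim_assoc {x : O} (h : ¬ lam ∣ x) : ∃ u : O, IsUnit u ∧ Prim (u * x) := by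
  rw [bas_lam_dvd] at h
  have key : ∀ a b : ℤ, Nm ⟨a, b⟩ = 1 → 3 ∣ a * x.re - b * x.im - 1 →
      3 ∣ a * x.im + b * x.re - b * x.im → ∃ u : O, IsUnit u ∧ Prim (u * x) := by
    intro a b h1 h2 h3
    refine ⟨⟨a, b⟩, isUnit_iff_Nm.2 h1, ?_⟩
    rw [bas_prim_iff]
    simp only [QuadraticAlgebra.re_mul, QuadraticAlgebra.im_mul]
    constructor
    · convert h2 using 1; ring
    · convert h3 using 1; ring
  have h1 : x.re % 3 = 0 ∨ x.re % 3 = 1 ∨ x.re % 3 = 2 := by omega
  have h2 : x.im % 3 = 0 ∨ x.im % 3 = 1 ∨ x.im % 3 = 2 := by omega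
  rcases h1 with h1 | h1 | h1 <;> rcases h2 with h2 | h2 | h2
  · exfalso; omega
  · exact key (-1) (-1) (by simp [Nm]) (by omega) (by omega)
  · exact key 1 1 (by simp [Nm]) (by omega) (by omega)
  · exact key 1 0 (by simp [Nm]) (by omega) (by omega)
  · exact key 0 (-1) (by simp [Nm]) (by omega) (by omega)
  · exfalso; omega
  · exact key (-1) 0 (by simp [Nm]) (by omega) (by omega)
  · exfalso; omega
  · exact key 0 1 (by simp [Nm]) (by omega) (by omega)
theorem exists_unit_lam_prim {x : O} (hx : x ≠ 0) :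
    ∃ (u : O) (k : ℕ) (y : O), IsUnit u ∧ Prim y ∧ x = u * lam ^ k * y := by
  obtain ⟨k, a, ha, rfl⟩ := WfDvdMonoid.max_power_factor hx prime_lam.irreducible
  obtain ⟨u, hu, hP⟩ := exists_prim_assoc ha
  refine ⟨u ^ 5, k, u * a, hu.pow 5, hP, ?_⟩
  linear_combination (-(lam ^ k * a)) * unit_pow_six hu
theorem bas_lam_exp_le {u u' y y' : O} {k k' : ℕ} (hu : IsUnit u)
    (hy : Prim y) (h : u * lam ^ k * y = u' * lam ^ k' * y') : k' ≤ k := by
  by_contra hlt
  obtain ⟨j, rfl⟩ := Nat.exists_eq_add_of_lt (not_le.1 hlt)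
  have h1 : lam ^ k * (u * y) = lam ^ k * (lam * (u' * lam ^ j * y')) := by
    linear_combination h
  have h2 := mul_left_cancel₀ (pow_ne_zero k prime_lam.ne_zero) h1
  have h3 : lam ∣ u * y := ⟨_, h2⟩
  exact hy.not_lam_dvd (hu.dvd_mul_left.1 h3)
theorem unit_lam_prim_unique {u u' y y' : O} {k k' : ℕ} (hu : IsUnit u) (hu' : IsUnit u')
    (hy : Prim y) (hy' : Prim y') (h : u * lam ^ k * y = u' * lam ^ k' * y') :
    u = u' ∧ k = k' ∧ y = y' := by
  have hk : k = k' := le_antisymm (bas_lam_exp_le hu' hy' h.symm) (bas_lam_exp_le hu hy h)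
  subst hk
  have h1 : lam ^ k * (u * y) = lam ^ k * (u' * y') := by linear_combination h
  have h2 := mul_left_cancel₀ (pow_ne_zero k prime_lam.ne_zero) h1
  have h3 : Associated y y' := by
    have a1 : Associated (u * y) y := associated_unit_mul_left y u hu
    have a2 : Associated (u' * y') y' := associated_unit_mul_left y' u' hu'
    exact a1.symm.trans (h2 ▸ a2)
  have h4 := hy.eq_of_associated hy' h3
  subst h4
  exact ⟨mul_right_cancel₀ hy.ne_zero h2, rfl, rfl⟩
theorem bas_prime_factor {n : O} (hn : Prim n) (h1 : n ≠ 1) :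
    ∃ p m, Prime p ∧ Prim p ∧ Prim m ∧ n = p * m := by
  obtain ⟨p, hp, hpn⟩ := WfDvdMonoid.exists_irreducible_factor
    (fun h => h1 (hn.eq_one_of_isUnit h)) hn.ne_zero
  obtain ⟨u, hu, hP⟩ := exists_prim_assoc (fun h => hn.not_lam_dvd (h.trans hpn))
  have hp' : Prime (u * p) := (associated_unit_mul_left p u hu).symm.prime hp.prime
  obtain ⟨m, hm⟩ : u * p ∣ n := (associated_unit_mul_left p u hu).dvd.trans hpn
  exact ⟨u * p, m, hp', hP, Prim.of_mul (hm ▸ hn) hP, hm⟩
theorem Prim.induction {P : O → Prop} (h1 : P 1)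
    (hmul : ∀ p n, Prime p → Prim p → Prim n → P n → P (p * n)) : ∀ n, Prim n → P n := by
  intro n
  induction hk : Nm n using Nat.strong_induction_on generalizing n with
  | _ k ih =>
    intro hn
    by_cases h : n = 1
    · rw [h]; exact h1
    · obtain ⟨p, m, hp, hP, hm, rfl⟩ := bas_prime_factor hn h
      refine hmul p m hp hP hm (ih (Nm m) ?_ m rfl hm)
      rw [← hk, Nm_mul]
      have h4 : 4 ≤ Nm p := by
        have := four_le_N_of_prime hp hP
        unfold N at this; exact_mod_cast this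
      have := bas_Nm_pos hm.ne_zero
      nlinarith
theorem exists_prim_gcd {a : O} (ha : Prim a) (b : O) :
    ∃ g : O, Prim g ∧ g ∣ a ∧ g ∣ b ∧ ∀ d, d ∣ a → d ∣ b → d ∣ g := by
  have h1 := EuclideanDomain.gcd_dvd_left a b
  have h2 := EuclideanDomain.gcd_dvd_right a b
  obtain ⟨u, hu, hP⟩ := exists_prim_assoc (fun h => ha.not_lam_dvd (h.trans h1))
  have hd := (associated_unit_mul_left (EuclideanDomain.gcd a b) u hu).dvd
  exact ⟨_, hP, hd.trans h1, hd.trans h2,
    fun d h3 h4 => dvd_mul_of_dvd_right (EuclideanDomain.dvd_gcd h3 h4) _⟩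
theorem isCoprime_iff_no_prime {a b : O} (hab : a ≠ 0 ∨ b ≠ 0) :
    IsCoprime a b ↔ ∀ p, Prime p → p ∣ a → ¬ p ∣ b := by
  constructor
  · intro h p hp h1 h2
    exact hp.not_isUnit (h.isUnit_of_dvd' h1 h2)
  · intro h
    exact isCoprime_of_prime_dvd (fun h0 => hab.elim (fun h => h h0.1) (fun h => h h0.2)) h

theorem oddO_mul {a b : O} : OddO (a * b) ↔ OddO a ∧ OddO b := by
  unfold OddO
  rw [prime_two.dvd_mul, not_or]
theorem oddO_iff_coprime {a : O} : OddO a ↔ IsCoprime a 2 := by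
  unfold OddO
  rw [isCoprime_comm, prime_two.coprime_iff_not_dvd]
theorem oddO_iff_Nm {a : O} : OddO a ↔ Odd (Nm a) := by
  unfold OddO
  rw [bas_two_dvd, Nat.not_even_iff_odd]
theorem OddO.ne_zero {a : O} (ha : OddO a) : a ≠ 0 := by
  rintro rfl
  exact ha (dvd_zero _)
theorem OddO.of_dvd {a b : O} (hb : OddO b) (h : a ∣ b) : OddO a :=
  fun h2 => hb (h2.trans h)
theorem OddO.congr {a b : O} (ha : OddO a) (h : (2 : O) ∣ a - b) : OddO b := by
  intro hb
  apply ha
  have := dvd_add h hb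
  rwa [sub_add_cancel] at this
theorem OddO.pow {a : O} (ha : OddO a) (k : ℕ) : OddO (a ^ k) :=
  fun h => ha (prime_two.dvd_of_dvd_pow h)
theorem nn_one : NN 1 :=
  ⟨prim_one, squarefree_one, fun h => prime_two.not_isUnit (isUnit_of_dvd_one h)⟩
theorem NN.ne_zero {a : O} (ha : NN a) : a ≠ 0 := ha.1.ne_zero
theorem nn_mul_iff {a b : O} (ha : Prim a) (hb : Prim b) :
    NN (a * b) ↔ NN a ∧ NN b ∧ IsCoprime a b := by
  unfold NN
  rw [squarefree_mul_iff, oddO_mul, isRelPrime_iff_isCoprime]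
  have := ha.mul hb
  tauto
theorem NN.of_dvd {n d : O} (hn : NN n) (hd : Prim d) (h : d ∣ n) : NN d :=
  ⟨hd, hn.2.1.squarefree_of_dvd h, hn.2.2.of_dvd h⟩
theorem NN.induction {P : O → Prop} (h1 : P 1)
    (hmul : ∀ p n, Prime p → NN p → NN n → ¬ p ∣ n → P n → P (p * n)) : ∀ n, NN n → P n := by
  have key : ∀ n, Prim n → NN n → P n := by
    apply Prim.induction (P := fun n => NN n → P n) (fun _ => h1)
    intro p n hp hP hn ih hpn
    obtain ⟨a1, a2, a3⟩ := (nn_mul_iff hP hn).1 hpn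
    exact hmul p n hp a1 a2 (hp.coprime_iff_not_dvd.1 a3) (ih a2)
  exact fun n hn => key n hn.1 hn
theorem mem_ballN {R : ℝ} {x : O} : x ∈ ballN R ↔ NN x ∧ N x ≤ R := by
  unfold ballN
  rw [Finset.mem_filter, mem_ballO]
  exact ⟨fun h => ⟨h.2, h.1.2⟩, fun h => ⟨⟨h.1.ne_zero, h.2⟩, h.1⟩⟩
theorem ballO_mono {R R' : ℝ} (h : R ≤ R') : ballO R ⊆ ballO R' := by
  intro x hx
  rw [mem_ballO] at hx ⊢
  exact ⟨hx.1, hx.2.trans h⟩
theorem ballN_mono {R R' : ℝ} (h : R ≤ R') : ballN R ⊆ ballN R' := by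
  intro x hx
  rw [mem_ballN] at hx ⊢
  exact ⟨hx.1, hx.2.trans h⟩
theorem ballO_eq_empty {R : ℝ} (h : R < 1) : ballO R = ∅ := by
  apply Finset.eq_empty_of_forall_notMem
  intro x hx
  rw [mem_ballO] at hx
  linarith [one_le_N hx.1, hx.2]
theorem mem_trip {R : ℝ} {t : O × O × O} :
    t ∈ trip R ↔ NN t.1 ∧ NN t.2.1 ∧ NN t.2.2 ∧ NN (t.1 * t.2.1 * t.2.2) ∧
      N (t.1 * t.2.1 * t.2.2) ≤ R := by
  unfold trip
  simp only [Finset.mem_filter, Finset.mem_product, mem_ballN]
  constructor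
  · rintro ⟨⟨a, b, c⟩, d⟩
    exact ⟨a.1, b.1, c.1, d.1, d.2⟩
  · rintro ⟨a, b, c, d, e⟩
    have h0 := d.ne_zero
    refine ⟨⟨⟨a, le_trans (N_le_of_dvd ?_ h0) e⟩, ⟨b, le_trans (N_le_of_dvd ?_ h0) e⟩,
      ⟨c, le_trans (N_le_of_dvd ?_ h0) e⟩⟩, d, e⟩
    · exact ⟨t.2.1 * t.2.2, by ring⟩
    · exact ⟨t.1 * t.2.2, by ring⟩
    · exact ⟨t.1 * t.2.1, by ring⟩

theorem kap_pos : 0 < kap := by
  unfold kap
  have := bas_sqrt3_pos
  positivity
theorem psi_add (x y : ℂ) : psi (x + y) = psi x * psi y := by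
  unfold psi
  rw [← Complex.exp_add, map_add]
  congr 1; ring
theorem psi_zero : psi 0 = 1 := by simp [psi]
theorem psi_eq_im (x : ℂ) : psi x = Complex.exp (((2 * kap * x.im : ℝ) : ℂ) * Complex.I) := by
  unfold psi
  rw [Complex.sub_conj]
  congr 1; push_cast; ring
theorem norm_psi (x : ℂ) : ‖psi x‖ = 1 := by
  rw [psi_eq_im, Complex.norm_exp_ofReal_mul_I]
theorem psi_coord (a b : ℝ) :
    psi ((a : ℂ) + (b : ℂ) * omC) = Complex.exp (2 * π * Complex.I * b) := by
  rw [psi_eq_im]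
  have h1 : ((a : ℂ) + (b : ℂ) * omC).im = b * (√3 / 2) := by simp [omC]
  have h2 : 2 * kap * (b * (√3 / 2)) = 2 * π * b := by
    unfold kap
    have := bas_sqrt3_pos
    field_simp
  rw [h1, h2]
  congr 1; push_cast; ring
theorem psi_toC (x : O) : psi (toC x) = 1 := by
  have := psi_coord x.re x.im
  rw [bas_toC]
  push_cast at this
  rw [this, Complex.exp_eq_one_iff]
  exact ⟨x.im, by ring⟩
theorem psi_neg (x : ℂ) : psi (-x) = conj (psi x) := by
  unfold psi
  rw [← Complex.exp_conj]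
  congr 1
  simp only [map_mul, map_sub, map_neg, Complex.conj_ofReal, Complex.conj_conj]
  ring
theorem continuous_psi : Continuous psi := by
  unfold psi
  exact Complex.continuous_exp.comp
    (continuous_const.mul (continuous_id.sub Complex.continuous_conj))
theorem norm_psi_sub_le (x y : ℂ) : ‖psi x - psi y‖ ≤ 2 * kap * ‖x - y‖ := by
  have h1 : psi x - psi y = psi y * (psi (x - y) - 1) := by
    rw [mul_sub, ← psi_add, mul_one, add_sub_cancel]
  rw [h1, norm_mul, norm_psi, one_mul, psi_eq_im, mul_comm _ Complex.I]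
  refine le_trans Real.norm_exp_I_mul_ofReal_sub_one_le ?_
  rw [Real.norm_eq_abs, abs_mul, abs_of_pos (mul_pos two_pos kap_pos)]
  exact mul_le_mul_of_nonneg_left (Complex.abs_im_le_norm _) (mul_pos two_pos kap_pos).le
theorem psi_congr {q : O} (hq : q ≠ 0) {x y : O} (h : q ∣ x - y) :
    psi (toC x / toC q) = psi (toC y / toC q) := by
  obtain ⟨k, hk⟩ := h
  have h1 : x = y + q * k := by linear_combination hk
  have h2 := toC_ne_zero hq
  have h3 : toC x / toC q = toC y / toC q + toC k := by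
    rw [h1, map_add, map_mul]; field_simp
  rw [h3, psi_add, psi_toC, mul_one]
theorem bas_psi_div {m : O} {k : ℕ} (hk : k ≠ 0) (h : psi (toC m / k) = 1) : (k : ℤ) ∣ m.im := by
  have hk' : (k : ℂ) ≠ 0 := by exact_mod_cast hk
  have h1 : toC m / k = ((m.re / k : ℝ) : ℂ) + ((m.im / k : ℝ) : ℂ) * omC := by
    rw [bas_toC]; push_cast; field_simp
  rw [h1, psi_coord, Complex.exp_eq_one_iff] at h
  obtain ⟨j, hj⟩ := h
  have h2 : (2 * π * Complex.I : ℂ) ≠ 0 := Complex.two_pi_I_ne_zero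
  have h3 : ((m.im / k : ℝ) : ℂ) = j := by
    apply mul_left_cancel₀ h2
    rw [hj]; ring
  push_cast at h3
  rw [div_eq_iff hk'] at h3
  refine ⟨j, ?_⟩
  have h4 : (m.im : ℂ) = ((k * j : ℤ) : ℂ) := by rw [h3]; push_cast; ring
  exact_mod_cast h4
theorem psi_div_eq_one_iff {q : O} (hq : q ≠ 0) (n : O) :
    (∀ x : O, psi (toC n * toC x / toC q) = 1) ↔ q ∣ n := by
  have h2 := toC_ne_zero hq
  constructor
  · intro h
    have hs : star q ≠ 0 := by
      intro h0
      have := Nm_star q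
      rw [h0, Nm_eq_zero.2 rfl] at this
      exact hq (Nm_eq_zero.1 this.symm)
    have h3 := toC_ne_zero hs
    have key : ∀ x : O, (Nm q : ℤ) ∣ (n * star q * x).im := by
      intro x
      apply bas_psi_div (bas_Nm_pos hq).ne'
      rw [← h x]
      congr 1
      have h4 : ((Nm q : ℕ) : ℂ) = toC q * toC (star q) := by
        rw [← map_mul, mul_star_eq, map_natCast]
      rw [h4, map_mul, map_mul]
      field_simp
    have k1 := key 1
    have k2 := key om
    rw [mul_one] at k1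
    have k3 : (n * star q * om).im = (n * star q).re - (n * star q).im := by
      generalize n * star q = m
      simp [om]; ring
    rw [k3] at k2
    have k4 : (Nm q : ℤ) ∣ (n * star q).re := by
      have := dvd_add k2 k1
      rwa [sub_add_cancel] at this
    have k5 := (intCast_dvd_iff (Nm q) (n * star q)).2 ⟨k4, k1⟩
    rw [Int.cast_natCast, ← mul_star_eq] at k5
    exact (mul_dvd_mul_iff_right hs).1 k5
  · rintro ⟨k, rfl⟩ x
    have : toC (q * k) * toC x / toC q = toC (k * x) := by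
      rw [map_mul, map_mul]; field_simp
    rw [this, psi_toC]
theorem Per.mono {q q' : O} {f : O → ℂ} (hf : Per q f) (h : q ∣ q') : Per q' f :=
  fun x y hxy => hf x y (h.trans hxy)
theorem Wt.mono {q q' : O} {f : O → ℂ} (hf : Wt q f) (h : q ∣ q') : Wt q' f :=
  ⟨hf.1.mono h, hf.2⟩
theorem Wt.mul {q : O} {f g : O → ℂ} (hf : Wt q f) (hg : Wt q g) :
    Wt q (fun x => f x * g x) := by
  refine ⟨fun x y h => ?_, fun x => ?_⟩
  · simp only [hf.1 x y h, hg.1 x y h]
  · rw [norm_mul]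
    exact mul_le_one₀ (hf.2 x) (norm_nonneg _) (hg.2 x)
theorem Wt.comp_mul {q : O} {f : O → ℂ} (hf : Wt q f) (a : O) : Wt q (fun x => f (a * x)) := by
  refine ⟨fun x y h => hf.1 _ _ ?_, fun x => hf.2 _⟩
  rw [← mul_sub]
  exact dvd_mul_of_dvd_right h _
theorem Wt.conj {q : O} {f : O → ℂ} (hf : Wt q f) : Wt q (fun x => conj (f x)) := by
  refine ⟨fun x y h => ?_, fun x => ?_⟩
  · simp only [hf.1 x y h]
  · rw [Complex.norm_conj]; exact hf.2 x
theorem wt_class (q c : O) : Wt q (fun x => if q ∣ x - c then 1 else 0) := by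
  refine ⟨fun x y h => ?_, fun x => ?_⟩
  · have : q ∣ x - c ↔ q ∣ y - c := by
      have e : x - c = (x - y) + (y - c) := by ring
      rw [e]
      exact dvd_add_right h
    simp only [this]
  · dsimp only
    split_ifs <;> simp

end

end Vale.Agent.P026
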