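import Vale.Agent.P026.Bes

namespace Vale.Agent.P026

open Complex MeasureTheory Filter Topology
open scoped Classical ComplexConjugate Real MatrixGroups

noncomputable section

theorem bes2_swap {X : Type*} [MeasurableSpace X] {μ : Measure X} [SFinite μ] {r : X → ℝ}
    {c : X → ℂ} {a : ℂ} (ha : 0 < a.re) (hr : Measurable r) (hc : Measurable c)
    (h0 : ∀ᵐ x ∂μ, 0 < r x) (hi : Integrable (fun x => ‖c x‖ * (1 / r x) ^ a.re) μ) :
    ∫ x, c x * ((1 / (r x : ℂ)) ^ a * Complex.Gamma a) ∂μ =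
      ∫ t in Set.Ioi (0 : ℝ), ∫ x, c x * ((t : ℂ) ^ (a - 1) * cexp (-(r x * t))) ∂μ := by
  have hm : Measurable fun p : X × ℝ =>
      c p.1 * ((p.2 : ℂ) ^ (a - 1) * cexp (-(r p.1 * p.2))) := by fun_prop
  have hn : ∀ x, ∀ t ∈ Set.Ioi (0 : ℝ), ‖c x * ((t : ℂ) ^ (a - 1) * cexp (-(r x * t)))‖ =
      ‖c x‖ * (t ^ (a.re - 1) * Real.exp (-(r x * t))) := fun x t ht => by
    rw [norm_mul, norm_mul, norm_cpow_eq_rpow_re_of_pos ht, norm_exp]; simp
  rw [← integral_integral_swap]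
  · exact integral_congr_ae (h0.mono fun x hx => by
      simp only [integral_const_mul, integral_cpow_mul_exp_neg_mul_Ioi ha hx])
  refine (integrable_prod_iff hm.aestronglyMeasurable).2 ⟨h0.mono fun x hx => ?_, ?_⟩
  · refine (integrable_norm_iff (hm.comp measurable_prodMk_left).aestronglyMeasurable).1
      ((integrableOn_congr_fun (hn x) measurableSet_Ioi).2 (Integrable.const_mul ?_ _))
    refine .of_integral_ne_zero ?_
    have := Real.Gamma_pos_of_pos ha
    rw [Real.integral_rpow_mul_exp_neg_mul_Ioi ha hx]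
    positivity
  · refine (hi.mul_const (Real.Gamma a.re)).congr (h0.mono fun x hx => ?_)
    simp only
    rw [setIntegral_congr_fun measurableSet_Ioi (hn x), integral_const_mul,
      Real.integral_rpow_mul_exp_neg_mul_Ioi ha hx, mul_assoc]

theorem kk_mellin {s : ℂ} (hs : -(1 / 3) < s.re) : MellinConvergent kk s ∧
    mellin kk s = π / Complex.Gamma (4 / 3) * (4 * π ^ 2 : ℂ) ^ (-s - 1 / 3) *
      Complex.Gamma (s + 1 / 3) * Complex.Gamma (s + 2 / 3) := by
  have big : ∀ a : ℝ, -(1 / 3) ≤ a → ∀ l : Filter ℝ, (∀ᶠ x in l, 0 < x) →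
      kk =O[l] (· ^ (-a)) := fun a ha l hl => by
    obtain ⟨C, -, h⟩ := kk_decay ha
    exact Asymptotics.IsBigO.of_bound C (hl.mono fun x hx => by
      rw [Real.norm_of_nonneg (by positivity)]; exact h x hx)
  refine ⟨mellinConvergent_of_isBigO_rpow ((continuousOn_kk.mono
    Set.Ioi_subset_Ici_self).locallyIntegrableOn measurableSet_Ioi)
    (big (s.re + 1) (by linarith) _ (eventually_gt_atTop 0)) (lt_add_one _)
    (big _ le_rfl _ eventually_mem_nhdsWithin) hs, ?_⟩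
  have ha : 0 < (s + 1 / 3).re := by simp at hs ⊢; linarith
  have hb : 0 < (s + 2 / 3).re := by simp at hs ⊢; linarith
  have hp : 0 < 4 * π ^ 2 := by positivity
  have h := bes2_swap (μ := volume.restrict (Set.Ioi 0)) (r := fun u : ℝ => 4 * π ^ 2 / u)
    (c := fun u : ℝ => (Real.exp (-u) : ℂ) * (u : ℂ) ^ (4 / 3 - 2 : ℂ)) ha (by fun_prop)
    (by fun_prop) ((ae_restrict_mem measurableSet_Ioi).mono fun u hu => div_pos hp hu) (by
      refine (integrableOn_congr_fun (fun u hu => ?_) measurableSet_Ioi).1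
        ((Real.GammaIntegral_convergent hb).mul_const ((4 * π ^ 2)⁻¹ ^ (s + 1 / 3).re))
      have hu' : 0 < u := hu
      rw [norm_mul, norm_cpow_eq_rpow_re_of_pos hu, norm_real,
        Real.norm_of_nonneg (Real.exp_pos _).le, one_div_div, div_eq_mul_inv u,
        Real.mul_rpow hu'.le (by positivity),
        show (s + 2 / 3).re - 1 = (4 / 3 - 2 : ℂ).re + (s + 1 / 3).re by norm_num; ring,
        Real.rpow_add hu]
      ring)
  have e1 : mellin kk s = π / Complex.Gamma (4 / 3) * ∫ t in Set.Ioi (0 : ℝ),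
      ∫ u in Set.Ioi (0 : ℝ), (Real.exp (-u) : ℂ) * (u : ℂ) ^ (4 / 3 - 2 : ℂ) *
        ((t : ℂ) ^ (s + 1 / 3 - 1) * cexp (-(((4 * π ^ 2 / u : ℝ) : ℂ) * t))) := by
    rw [mellin, ← integral_const_mul]
    refine setIntegral_congr_fun measurableSet_Ioi fun t ht => ?_
    have ht' : (t : ℂ) ≠ 0 := ofReal_ne_zero.2 (ne_of_gt ht)
    simp only [kk, bb, smul_eq_mul]
    rw [← mul_assoc, mul_left_comm, ← integral_const_mul]
    congr 2
    ext u
    rw [ofReal_cpow (le_of_lt ht), add_sub_right_comm, cpow_add _ _ ht', sub_eq_add_neg (-u),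
      Real.exp_add, ofReal_mul, ofReal_exp (-(_ / u))]
    push_cast
    ring_nf
  rw [e1, ← h, Complex.Gamma_eq_integral hb, GammaIntegral, mul_assoc, mul_assoc]
  congr 1
  rw [← integral_const_mul, ← integral_const_mul]
  refine setIntegral_congr_fun measurableSet_Ioi fun u hu => ?_
  have hu' : (u : ℂ) ≠ 0 := ofReal_ne_zero.2 (ne_of_gt hu)
  have e2 : (1 / ((4 * π ^ 2 / u : ℝ) : ℂ)) ^ (s + 1 / 3) =
      (u : ℂ) ^ (s + 1 / 3) * (4 * π ^ 2 : ℂ) ^ (-s - 1 / 3) := by
    rw [one_div, ← ofReal_inv, inv_div, div_eq_mul_inv, ofReal_mul,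
      mul_cpow_ofReal_nonneg (le_of_lt hu) (by positivity), ofReal_inv,
      inv_cpow _ _ (arg_ofReal_of_nonneg hp.le ▸ Real.pi_pos.ne), ← cpow_neg, neg_add']
    push_cast; rfl
  rw [e2, show s + 2 / 3 - 1 = (4 / 3 - 2) + (s + 1 / 3) by ring, cpow_add (4 / 3 - 2) _ hu']
  ring

theorem fourier_bb {s : ℂ} (hs : 1 < s.re) (ξ : ℂ) :
    Integrable (fun ζ : ℂ => ((normSq ζ + 1 : ℝ) : ℂ) ^ (-s)) ∧
    ∫ ζ : ℂ, ((normSq ζ + 1 : ℝ) : ℂ) ^ (-s) * psi (ξ * ζ) = bb (normSq ξ / 3) s := by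
  have hp : ∀ ζ : ℂ, 0 < normSq ζ + 1 := fun ζ => by linarith [normSq_nonneg ζ]
  have hm : Measurable fun ζ : ℂ => normSq ζ + 1 := (continuous_normSq.add continuous_const).measurable
  have hi : Integrable fun ζ : ℂ => (normSq ζ + 1) ^ (-s.re) := by
    have := integrable_rpow_neg_one_add_norm_sq (E := ℂ) (μ := volume) (r := 2 * s.re)
      (by simp; linarith)
    refine this.congr (ae_of_all _ fun ζ => ?_)
    simp only [Complex.sq_norm, add_comm]
    congr 1; ring
  refine ⟨hi.mono' (Measurable.aestronglyMeasurable (by fun_prop)) (ae_of_all _ fun ζ => by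
    rw [norm_cpow_eq_rpow_re_of_pos (hp ζ), neg_re]), ?_⟩
  have ha : 0 < s.re := by linarith
  have hG := Complex.Gamma_ne_zero_of_re_pos ha
  have h := bes2_swap (μ := volume) (c := fun ζ => psi (ξ * ζ)) ha hm
    (continuous_psi.comp (by fun_prop)).measurable (ae_of_all _ hp) (by
      simpa only [norm_psi, one_mul, one_div, Real.inv_rpow (hp _).le, Real.rpow_neg (hp _).le]
        using hi)
  refine mul_right_cancel₀ hG ?_
  rw [← integral_mul_const, bb, mul_right_comm, div_mul_cancel₀ _ hG, ← integral_const_mul]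
  refine Eq.trans (integral_congr_ae (ae_of_all _ fun ζ => ?_)) (h.trans
    (setIntegral_congr_fun measurableSet_Ioi fun t ht => ?_))
  · simp only
    rw [one_div, inv_cpow _ _ (arg_ofReal_of_nonneg (hp ζ).le ▸ Real.pi_pos.ne), cpow_neg]
    ring
  have ht' : (t : ℂ) ≠ 0 := ofReal_ne_zero.2 (ne_of_gt ht)
  have g := GaussianFourier.integral_cexp_neg_mul_sq_norm_add (V := ℂ) (b := t) (by simpa using ht)
    (2 * kap * Complex.I) (Complex.I * conj ξ)
  have e : ∀ ζ : ℂ, psi (ξ * ζ) * ((t : ℂ) ^ (s - 1) * cexp (-(((normSq ζ + 1 : ℝ) : ℂ) * t))) =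
      (t : ℂ) ^ (s - 1) * cexp (-t) * cexp (-t * ‖ζ‖ ^ 2 +
        2 * kap * Complex.I * (inner ℝ (Complex.I * conj ξ) ζ : ℝ)) := fun ζ => by
    have : inner ℝ (Complex.I * conj ξ) ζ = (ξ * ζ).im := by
      rw [Complex.inner]; simp; ring
    rw [psi_eq_im, this, mul_left_comm, mul_assoc ((t : ℂ) ^ _), ← Complex.exp_add,
      ← Complex.exp_add, normSq_eq_norm_sq]
    congr 2
    push_cast; ring
  simp only [e]
  rw [integral_const_mul, g, show s - 1 = s - 2 + 1 by ring, cpow_add _ _ ht', ofReal_exp,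
    Complex.finrank_real_complex]
  have k : (2 * kap * Complex.I) ^ 2 * (‖Complex.I * conj ξ‖ : ℂ) ^ 2 / (4 * t) =
      -((4 * π ^ 2 * (normSq ξ / 3) / t : ℝ) : ℂ) := by
    have h3 : ((√3 : ℝ) : ℂ) ^ 2 = 3 := by
      rw [← ofReal_pow, Real.sq_sqrt (by norm_num)]; simp
    rw [norm_mul, norm_I, one_mul, norm_conj, normSq_eq_norm_sq, kap, mul_pow, I_sq]
    push_cast
    rw [mul_pow, div_pow, h3]
    ring
  rw [k, ofReal_sub, sub_eq_add_neg ((-t : ℝ) : ℂ), Complex.exp_add]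
  simp
  field_simp

end

end Vale.Agent.P026
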