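import Vale.Agent.P026.Grp
import Vale.Agent.P026.Sup

namespace Vale.Agent.P026

open Complex MeasureTheory Filter Topology
open scoped Classical ComplexConjugate Real MatrixGroups

noncomputable section

theorem kub_three_nine : (3 : O) ∣ 9 := ⟨3, by norm_num⟩

theorem kub_prim_of_nine {t : O} (ht : (9 : O) ∣ t - 1) : Prim t := kub_three_nine.trans ht

theorem kub_nine_mul {x y : O} (hx : (3 : O) ∣ x) (hy : (3 : O) ∣ y) : (9 : O) ∣ x * y := by
  obtain ⟨a, rfl⟩ := hx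
  obtain ⟨b, rfl⟩ := hy
  exact ⟨a * b, by ring⟩

theorem kub_sym3_one (x : O) : sym3 x 1 = 1 := sym3_unit_right x isUnit_one

theorem kub_sym3_ne {x n : O} (h : IsCoprime x n) : sym3 x n ≠ 0 := by
  intro h0
  have := norm_sym3 h
  rw [h0, norm_zero] at this
  exact zero_ne_one this

theorem kub_sym3_neg (x n : O) : sym3 (-x) n = sym3 x n := by
  rw [neg_eq_neg_one_mul, sym3_mul_left, sym3_neg_one, one_mul]

theorem kub_mul_cop {γ γ' : SLO} (h : γ ∈ Gam 3) (h' : γ' ∈ Gam 3)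
    (hc : IsCoprime (γ 1 0) (γ' 1 1)) : kap0 (γ * γ') = kap0 γ * kap0 γ' := by
  have h'' : γ * γ' ∈ Gam 3 := mul_mem h h'
  obtain ⟨-, -, hc3, hd⟩ := mem_Gam.1 h
  obtain ⟨-, hb', -, hd'⟩ := mem_Gam.1 h'
  obtain ⟨-, -, -, hd''⟩ := mem_Gam.1 h''
  have det' := det_SLO γ'
  unfold kap0
  have ec := SLO_mul γ γ' 1 0
  have ed := SLO_mul γ γ' 1 1
  set c := γ 1 0
  set d := γ 1 1
  set a' := γ' 0 0
  set b' := γ' 0 1
  set c' := γ' 1 0
  set d' := γ' 1 1
  set c'' := (γ * γ') 1 0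
  set d'' := (γ * γ') 1 1
  have Pd : Prim d := hd
  have Pd' : Prim d' := hd'
  have Pd'' : Prim d'' := hd''
  have e1 : sym3 c'' d'' * sym3 d' d'' = sym3 c d'' := by
    rw [← sym3_mul_left]
    apply sym3_congr
    exact ⟨c', by rw [ec, ed]; linear_combination c * det'⟩
  have e2 : sym3 c d'' = sym3 c d * sym3 c d' := by
    rw [← sym3_mul_right c Pd.ne_zero Pd'.ne_zero]
    have : d'' - d * d' = c * b' := by rw [ed]; ring
    apply sym3_SYM Pd'' (Pd.mul Pd')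
    · rw [this]; exact kub_nine_mul hc3 hb'
    · rw [this]; exact dvd_mul_right _ _
  have e3 : sym3 d' d'' = sym3 c d' * sym3 b' d' := by
    rw [cubic_recip Pd' Pd'', ← sym3_mul_left]
    apply sym3_congr
    exact ⟨d, by rw [ed]; ring⟩
  have e4 : sym3 b' d' * sym3 c' d' = 1 := by
    rw [← sym3_mul_left, ← sym3_neg_one d']
    apply sym3_congr
    exact ⟨a', by linear_combination -det'⟩
  have e5 : sym3 c d' ≠ 0 := kub_sym3_ne hc
  apply mul_left_cancel₀ e5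
  rw [e3, e2] at e1
  linear_combination sym3 c' d' * e1 - sym3 c d' * sym3 c'' d'' * e4

theorem kub_T {γ : SLO} (h : γ ∈ Gam 3) {x : O} (hx : (9 : O) ∣ γ 1 0 * x) :
    kap0 (γ * Tm x) = kap0 γ := by
  obtain ⟨-, -, -, hd⟩ := mem_Gam.1 h
  obtain ⟨a1, a2, a3, a4⟩ := Tm_apply x
  unfold kap0
  have e1 : (γ * Tm x) 1 0 = γ 1 0 := by rw [SLO_mul, a1, a3]; ring
  have e2 : (γ * Tm x) 1 1 = γ 1 1 + γ 1 0 * x := by rw [SLO_mul, a2, a4]; ring
  rw [e1, e2]
  have Pd : Prim (γ 1 1) := hd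
  have e3 : γ 1 1 + γ 1 0 * x - γ 1 1 = γ 1 0 * x := by ring
  apply sym3_SYM _ Pd
  · rw [e3]; exact hx
  · rw [e3]; exact dvd_mul_right _ _
  · apply Pd.congr
    have : γ 1 1 - (γ 1 1 + γ 1 0 * x) = -(γ 1 0 * x) := by ring
    rw [this, dvd_neg]
    exact kub_three_nine.trans hx

theorem kap0_mul {γ γ' : SLO} (h : γ ∈ Gam 3) (h' : γ' ∈ Gam 3) :
    kap0 (γ * γ') = kap0 γ * kap0 γ' := by
  by_cases hc : γ 1 0 = 0
  · obtain ⟨-, -, -, hd⟩ := mem_Gam.1 h
    have Pd : Prim (γ 1 1) := hd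
    have det := det_SLO γ
    rw [hc] at det
    have hd1 : γ 1 1 = 1 :=
      Pd.eq_one_of_isUnit (IsUnit.of_mul_eq_one (γ 0 0) (by linear_combination det))
    unfold kap0
    rw [SLO_mul, SLO_mul, hc, hd1, kub_sym3_one]
    simp
  · obtain ⟨-, -, hc', hd'⟩ := mem_Gam.1 h'
    have Pd' : Prim (γ' 1 1) := hd'
    have hcop : IsCoprime (γ' 1 1) (3 * γ' 1 0) :=
      IsCoprime.mul_right Pd'.coprime_three (coprime_row γ').symm
    obtain ⟨k, hk⟩ := exists_coprime_shift hc hcop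
    have hT : Tm (3 * k) ∈ Gam 3 := Tm_mem_Gam.2 (dvd_mul_right _ _)
    obtain ⟨a1, a2, a3, a4⟩ := Tm_apply (3 * k)
    have e2 : (γ' * Tm (3 * k)) 1 1 = γ' 1 1 + k * (3 * γ' 1 0) := by
      rw [SLO_mul, a2, a4]; ring
    have key := kub_mul_cop h (mul_mem h' hT) (by rw [e2]; exact hk)
    rw [← mul_assoc, kub_T (mul_mem h h') (kub_nine_mul (mem_Gam.1 (mul_mem h h')).2.2.1
      (dvd_mul_right _ _)), kub_T h' (kub_nine_mul hc' (dvd_mul_right _ _))] at key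
    exact key

theorem norm_kap0 {γ : SLO} (h : γ ∈ Gam 3) : ‖kap0 γ‖ = 1 := norm_sym3 (coprime_row γ)

theorem kub_cnj (σ : SLO) : ∀ γ ∈ Gam 9, kap0 (σ * γ * σ⁻¹) = kap0 γ := by
  induction σ using SLO_induction with
  | h0 σ hb hc =>
    intro γ hγ
    obtain ⟨-, -, -, hd⟩ := mem_Gam.1 hγ
    obtain ⟨i1, i2, i3, i4⟩ := SLO_inv σ
    have det := det_SLO σ
    rw [hb] at det
    have hu : IsUnit (σ 1 1) := IsUnit.of_mul_eq_one (σ 0 0) (by linear_combination det)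
    unfold kap0
    have e1 : (σ * γ * σ⁻¹) 1 0 = σ 1 1 * σ 1 1 * γ 1 0 := by
      rw [SLO_mul, SLO_mul, SLO_mul, i1, i3, hc]; ring
    have e2 : (σ * γ * σ⁻¹) 1 1 = γ 1 1 := by
      rw [SLO_mul, SLO_mul, SLO_mul, i2, i4, hc, hb]; linear_combination γ 1 1 * det
    rw [e1, e2, sym3_mul_left, sym3_unit_of_nine hd (hu.mul hu), one_mul]
  | hT x σ ih =>
    intro γ hγ
    rw [← ih γ hγ]
    have hδ : σ * γ * σ⁻¹ ∈ Gam 9 := (Gam_normal 9).conj_mem γ hγ σ
    have e : Tm x * σ * γ * (Tm x * σ)⁻¹ = Tm x * (σ * γ * σ⁻¹ * Tm (-x)) := by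
      rw [← Tm_inv]; group
    rw [e, ← kub_T (x := -x) (Gam_mono kub_three_nine hδ)
      ((mem_Gam.1 hδ).2.2.1.mul_right _)]
    have hr := (row_eq_iff (γ := σ * γ * σ⁻¹ * Tm (-x))).2 ⟨x, rfl⟩
    have h1 := congrArg Prod.fst hr
    have h2 := congrArg Prod.snd hr
    unfold row at h1 h2
    simp only at h1 h2
    unfold kap0
    rw [h1, h2]
  | hS S σ s1 s2 s3 s4 ih =>
    intro γ hγ
    rw [← ih γ hγ]
    have hδ : σ * γ * σ⁻¹ ∈ Gam 9 := (Gam_normal 9).conj_mem γ hγ σ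
    have e : S * σ * γ * (S * σ)⁻¹ = S * (σ * γ * σ⁻¹) * S⁻¹ := by group
    rw [e]
    generalize σ * γ * σ⁻¹ = δ at hδ
    obtain ⟨ha, hb, hc, hd⟩ := mem_Gam.1 hδ
    obtain ⟨i1, i2, i3, i4⟩ := SLO_inv S
    have det := det_SLO δ
    unfold kap0
    have e1 : (S * δ * S⁻¹) 1 0 = -δ 0 1 := by
      rw [SLO_mul, SLO_mul, SLO_mul, i1, i3, s3, s4]; ring
    have e2 : (S * δ * S⁻¹) 1 1 = δ 0 0 := by
      rw [SLO_mul, SLO_mul, SLO_mul, i2, i4, s1, s2, s3, s4]; ring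
    rw [e1, e2, kub_sym3_neg]
    have Pa := kub_prim_of_nine ha
    have Pd := kub_prim_of_nine hd
    have f1 : sym3 (δ 0 1) (δ 0 0) * sym3 (δ 1 0) (δ 0 0) = 1 := by
      rw [← sym3_mul_left, ← sym3_neg_one (δ 0 0)]
      apply sym3_congr
      exact ⟨δ 1 1, by linear_combination -det⟩
    have f2 : sym3 (δ 1 0) (δ 0 0) * sym3 (δ 1 0) (δ 1 1) = 1 := by
      rw [← sym3_mul_right _ Pa.ne_zero Pd.ne_zero, ← kub_sym3_one (δ 1 0)]
      have : δ 0 0 * δ 1 1 - 1 = δ 0 1 * δ 1 0 := by linear_combination det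
      apply sym3_SYM (Pa.mul Pd) prim_one
      · rw [this]; exact hb.mul_right _
      · rw [this]; exact dvd_mul_left _ _
    linear_combination (-sym3 (δ 0 1) (δ 0 0)) * f2 + sym3 (δ 1 0) (δ 1 1) * f1

theorem mulS_kap0 {m : O} (hm : (9 : O) ∣ m) : MulS m kap0 := by
  have h3 : Gam m ≤ Gam 3 := Gam_mono (kub_three_nine.trans hm)
  refine ⟨fun γ hγ => norm_kap0 (h3 hγ), fun γ hγ γ' hγ' => kap0_mul (h3 hγ) (h3 hγ'),
    fun σ γ hγ => kub_cnj σ γ (Gam_mono hm hγ), fun k => ?_⟩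
  exact kub_sym3_one _

theorem kub_cond {γ : SLO} (h : γ ∈ Gam 3) {x : O × O} (hx : (3 : O) ∣ x.1 ∧ Prim x.2) :
    (3 : O) ∣ (rmul x γ).1 ∧ Prim (rmul x γ).2 := by
  obtain ⟨-, hb, hc, hd⟩ := mem_Gam.1 h
  obtain ⟨h1, h2⟩ := hx
  have Pd : Prim (γ 1 1) := hd
  refine ⟨dvd_add (h1.mul_right _) (hc.mul_left _), (h2.mul Pd).congr ?_⟩
  have : x.2 * γ 1 1 - (rmul x γ).2 = -(x.1 * γ 0 1) := by unfold rmul; ring
  rw [this, dvd_neg]
  exact h1.mul_right _

theorem kub_Phi1_row {γ : SLO} (h : γ ∈ Gam 3) : Phi1 (row γ) = kap0 γ := by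
  obtain ⟨-, -, hc, hd⟩ := mem_Gam.1 h
  unfold Phi1
  rw [if_pos ⟨hc, hd⟩]
  rfl

theorem kub_Phi1_supp (x : O × O) (hx : ¬ IsCoprime x.1 x.2) : Phi1 x = 0 := by
  unfold Phi1
  split_ifs with h
  · exact (sym3_eq_zero_iff h.2.ne_zero).2 hx
  · rfl

theorem Phi1_rmul {γ : SLO} (h : γ ∈ Gam 3) (x : O × O) :
    Phi1 (rmul x γ) = kap0 γ * Phi1 x := by
  by_cases hx : (3 : O) ∣ x.1 ∧ Prim x.2
  · by_cases hc : IsCoprime x.1 x.2
    · obtain ⟨u, v, huv⟩ : IsCoprime x.2 (3 * x.1) :=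
        IsCoprime.mul_right hx.2.coprime_three hc.symm
      obtain ⟨δ, d1, d2, d3, d4⟩ := exists_SLO (a := u) (b := -(3 * v)) (c := x.1) (d := x.2)
        (by linear_combination huv)
      have hδ : δ ∈ Gam 3 := by
        rw [mem_Gam, d1, d2, d3, d4]
        refine ⟨?_, ⟨-v, by ring⟩, hx.1, hx.2⟩
        obtain ⟨w, hw⟩ := hx.2
        exact ⟨-(v * x.1) - u * w, by linear_combination huv - u * hw⟩
      have hr : row δ = x := by unfold row; rw [d3, d4]
      rw [← hr, ← row_mul, kub_Phi1_row (mul_mem hδ h), kub_Phi1_row hδ, kap0_mul hδ h, mul_comm]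
    · rw [kub_Phi1_supp x hc, kub_Phi1_supp _ (fun h' => hc ((coprime_rmul γ).1 h')), mul_zero]
  · have hx' : ¬ ((3 : O) ∣ (rmul x γ).1 ∧ Prim (rmul x γ).2) := by
      intro h'
      have := kub_cond (inv_mem h) h'
      rw [← rmul_mul, mul_inv_cancel, rmul_one] at this
      exact hx this
    unfold Phi1
    rw [if_neg hx, if_neg hx', mul_zero]

theorem equi_Phi1 {m : O} (hm : (9 : O) ∣ m) : Equi m kap0 Phi1 := by
  refine ⟨fun x => ?_, kub_Phi1_supp,
    fun γ hγ x => Phi1_rmul (Gam_mono (kub_three_nine.trans hm) hγ) x⟩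
  unfold Phi1
  split_ifs
  · exact norm_sym3_le _ _
  · simp

theorem equi_tw {m : O} (hm : (9 : O) ∣ m) (σ : SLO) : Equi m kap0 (tw Phi1 σ) :=
  (equi_Phi1 hm).tw (mulS_kap0 hm) σ

theorem equi_Phil (σ : SLO) (p : O) : Equi (9 * p) kap0 (Phil σ p) := by
  have E := equi_tw (dvd_mul_right (9 : O) p) σ
  refine ⟨fun x => ?_, fun x hx => ?_, fun γ hγ x => ?_⟩
  · unfold Phil
    rw [norm_mul]
    refine mul_le_one₀ (E.bd x) (norm_nonneg _) ?_
    have hN := N_nonneg p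
    have h1 : 0 ≤ 1 / (N p + 1) := by positivity
    have h2 : 1 / (N p + 1) ≤ 1 := by rw [div_le_one (by linarith)]; linarith
    split_ifs
    · have : (1 : ℂ) - 1 / (((N p : ℝ) : ℂ) + 1) = ((1 - 1 / (N p + 1) : ℝ) : ℂ) := by
        push_cast; ring
      rw [this, Complex.norm_real, Real.norm_eq_abs, abs_le]
      constructor <;> linarith
    · have : (0 : ℂ) - 1 / (((N p : ℝ) : ℂ) + 1) = ((- (1 / (N p + 1)) : ℝ) : ℂ) := by
        push_cast; ring
      rw [this, Complex.norm_real, Real.norm_eq_abs, abs_le]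
      constructor <;> linarith
  · unfold Phil
    rw [E.supp x hx, zero_mul]
  · unfold Phil
    rw [E.eqv γ hγ x, mul_assoc]
    obtain ⟨ha, -, hc, -⟩ := mem_Gam.1 (Gam_mono (dvd_mul_left p 9) hγ)
    have hd : p ∣ (rmul x γ).1 - x.1 := by
      have : (rmul x γ).1 - x.1 = x.1 * (γ 0 0 - 1) + x.2 * γ 1 0 := by unfold rmul; ring
      rw [this]
      exact dvd_add (ha.mul_left _) (hc.mul_left _)
    have : p ∣ (rmul x γ).1 ↔ p ∣ x.1 := by
      constructor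
      · intro h; simpa using dvd_sub h hd
      · intro h; simpa using dvd_add hd h
    simp only [this]

theorem Phi_per (σ : SLO) {c d d' : O} (h : 9 * c ∣ d - d') :
    tw Phi1 σ (c, d) = tw Phi1 σ (c, d') := by
  obtain ⟨k, hk⟩ := h
  have := (equi_tw (dvd_refl (9 : O)) σ).per (mulS_kap0 dvd_rfl) c d' k
  rw [← this]
  congr 2
  linear_combination hk

theorem Phi_scale (σ : SLO) {c d d' t : O} (ht : (9 : O) ∣ t - 1) (h : 9 * c ∣ d' - t * d) :
    tw Phi1 σ (c, d') = sym3 c t * tw Phi1 σ (c, d) := by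
  have E := equi_tw (dvd_refl (9 : O)) σ
  have Pt := kub_prim_of_nine ht
  rw [Phi_per σ h]
  by_cases hc : IsCoprime c (t * d)
  · obtain ⟨u, v, huv⟩ := hc
    set l := u * (t - 1) with hl
    set k := v * (t - 1) with hk
    have h9l : (9 : O) ∣ l := ht.mul_left _
    have h9k : (9 : O) ∣ k := ht.mul_left _
    have key : c * l + d * t * k = t - 1 := by rw [hl, hk]; linear_combination (t - 1) * huv
    obtain ⟨γ, g1, g2, g3, g4⟩ := exists_SLO (a := 1 - d * k) (b := d * l) (c := c * k)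
      (d := t - c * l) (by linear_combination -key)
    have h9 : (9 : O) ∣ t - c * l - 1 := by
      have : t - c * l - 1 = d * t * k := by linear_combination -key
      rw [this]; exact h9k.mul_left _
    have hγ : γ ∈ Gam 9 := by
      rw [mem_Gam, g1, g2, g3, g4]
      refine ⟨?_, h9l.mul_left _, h9k.mul_left _, h9⟩
      have : 1 - d * k - 1 = -d * k := by ring
      rw [this]; exact h9k.mul_left _
    have hr : rmul (c, d) γ = (c, t * d) := by
      unfold rmul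
      rw [g1, g2, g3, g4]
      ext1 <;> simp only <;> ring
    rw [← hr, E.eqv γ hγ]
    congr 1
    unfold kap0
    have PD := kub_prim_of_nine h9
    rw [g3, g4, sym3_mul_left]
    have f1 : sym3 c (t - c * l) = sym3 c t := by
      have : t - c * l - t = c * (-l) := by ring
      apply sym3_SYM PD Pt
      · rw [this]; exact (dvd_neg.2 h9l).mul_left _
      · rw [this]; exact dvd_mul_right _ _
    have f2 : sym3 k (t - c * l) = 1 := by
      rw [← kub_sym3_one k]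
      apply sym3_SYM PD prim_one h9
      exact ⟨d * t, by linear_combination -key⟩
    rw [f1, f2, mul_one]
  · rw [E.supp _ hc]
    by_cases h1 : IsCoprime c t
    · rw [E.supp (c, d) (fun h2 => hc (h1.mul_right h2)), mul_zero]
    · rw [(sym3_eq_zero_iff Pt.ne_zero).2 h1, zero_mul]

theorem Phi_scale' (σ : SLO) {c d t : O} (ht : (9 : O) ∣ t - 1) :
    tw Phi1 σ (t * c, d) = sym3 d t * tw Phi1 σ (c, d) := by
  obtain ⟨S, s1, s2, s3, s4⟩ := exists_SLO (a := 0) (b := -1) (c := 1) (d := 0) (by ring)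
  have key : ∀ c d : O, tw Phi1 σ (c, d) = tw Phi1 (σ * S) (d, -c) := by
    intro c d
    have hr : rmul (c, d) S = (d, -c) := by
      unfold rmul
      rw [s1, s2, s3, s4]
      ext1 <;> simp
    unfold tw
    rw [← hr, ← rmul_mul]
    congr 2
    group
  rw [key, key c d]
  apply Phi_scale _ ht
  have : -(t * c) - t * -c = 0 := by ring
  rw [this]
  exact dvd_zero _

theorem tw_row {γ σ : SLO} (h : γ * σ⁻¹ ∈ Gam 3) : tw Phi1 σ (row γ) = kap0 (γ * σ⁻¹) := by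
  unfold tw
  rw [← row_mul, kub_Phi1_row h]

theorem tw_mult {γ σ : SLO} (h : γ * σ⁻¹ ∈ Gam 3) (x : O × O) :
    tw Phi1 γ x = conj (tw Phi1 σ (row γ)) * tw Phi1 σ x := by
  rw [tw_row h]
  have hinv : kap0 (γ * σ⁻¹)⁻¹ = conj (kap0 (γ * σ⁻¹)) := by
    have h1 := kap0_mul h (inv_mem h)
    have h0 : kap0 1 = 1 := kub_sym3_one _
    rw [mul_inv_cancel, h0] at h1
    have h2 : kap0 (γ * σ⁻¹) * conj (kap0 (γ * σ⁻¹)) = 1 := by
      rw [Complex.mul_conj, Complex.normSq_eq_norm_sq, norm_kap0 h]; simp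
    exact mul_left_cancel₀ (left_ne_zero_of_mul_eq_one h2) (h1.symm.trans h2.symm)
  rw [← hinv]
  unfold tw
  rw [← Phi1_rmul (inv_mem h), ← rmul_mul]
  congr 2
  group

end

end Vale.Agent.P026
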