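import Vale.Agent.P026.DL2

namespace Vale.Agent.P026

open Complex MeasureTheory Filter Topology
open scoped Classical ComplexConjugate Real MatrixGroups

noncomputable section

theorem hf_supp {τ : ℝ} (h : max (2 - Real.cosh τ) 0 ≠ 0) :
    Real.exp τ < 4 ∧ Real.exp (-τ) < 4 ∧ |τ| < 3 / 2 := by
  have h1 : Real.cosh τ < 2 := by
    by_contra e
    exact h (max_eq_right (by linarith))
  have h2 := Real.cosh_eq τ
  have h3 := Real.exp_pos τ
  have h4 := Real.exp_pos (-τ)
  have h5 : 4 < Real.exp (3 / 2) := by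
    have a := Real.add_one_le_exp (1 / 2 : ℝ)
    have b := Real.exp_one_gt_d9
    rw [show (3 / 2 : ℝ) = 1 + 1 / 2 by norm_num, Real.exp_add]
    nlinarith
  refine ⟨by linarith, by linarith, abs_lt.2 ⟨?_, ?_⟩⟩
  · exact neg_lt.1 (Real.exp_lt_exp.1 (by linarith))
  · exact Real.exp_lt_exp.1 (by linarith)

theorem hf_out {τ : ℝ} (h : τ ∉ Set.Icc (-2 : ℝ) 2) : max (2 - Real.cosh τ) 0 = 0 := by
  by_contra e
  have := abs_lt.1 (hf_supp e).2.2
  exact h ⟨by linarith, by linarith⟩

theorem hf_le (τ : ℝ) : max (2 - Real.cosh τ) 0 ≤ 1 :=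
  max_le (by linarith [Real.one_le_cosh τ]) zero_le_one

theorem hf_int {g : ℝ → ℝ} (hg : Continuous g) :
    Integrable fun τ => g τ * max (2 - Real.cosh τ) 0 :=
  Continuous.integrable_of_hasCompactSupport (by fun_prop)
    (HasCompactSupport.intro (isCompact_Icc (a := -2) (b := 2)) fun τ h => by rw [hf_out h, mul_zero])

theorem hf_diff (F : ℂ → ℝ → ℂ) (hm : ∀ s, Measurable (F s))
    (hd : ∀ x, Differentiable ℂ (fun s => F s x))
    (h0 : ∀ s τ, max (2 - Real.cosh τ) 0 = 0 → F s τ = 0)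
    (hb : ∀ R : ℝ, ∃ C : ℝ, ∀ s, ‖s‖ ≤ R → ∀ τ, max (2 - Real.cosh τ) 0 ≠ 0 → ‖F s τ‖ ≤ C) :
    Differentiable ℂ (fun s => ∫ x, F s x) := by
  have := dl_integral (volume.restrict (Set.Icc (-2 : ℝ) 2)) F hm hd fun R => by
    obtain ⟨C, hC⟩ := hb R
    refine ⟨max C 0, fun s hs τ => ?_⟩
    by_cases e : max (2 - Real.cosh τ) 0 = 0
    · rw [h0 s τ e, norm_zero]; exact le_max_right _ _
    · exact (hC s hs τ e).trans (le_max_left _ _)
  convert this using 2 with s
  exact (setIntegral_eq_integral_of_forall_compl_eq_zero fun τ h => h0 s τ (hf_out h)).symm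

theorem differentiable_hh : Differentiable ℂ hh := by
  refine (hf_diff _ (fun s => by fun_prop) (fun x => by fun_prop) (fun s τ h => by simp [h])
    fun R => ⟨Real.exp ((R + 1) * 2), fun s hs τ h => ?_⟩).const_mul _
  have h1 := (hf_supp h).2.2
  rw [norm_mul, Complex.norm_real, Real.norm_of_nonneg (le_max_right _ _)]
  refine (mul_le_of_le_one_right (norm_nonneg _) (hf_le τ)).trans
    ((Complex.norm_exp_le_exp_norm _).trans (Real.exp_le_exp.2 ?_))
  rw [norm_mul, Complex.norm_real, Real.norm_eq_abs]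
  have := norm_sub_le s 1
  rw [norm_one] at this
  exact mul_le_mul (by linarith) (by linarith) (abs_nonneg _) (by linarith [norm_nonneg s])

theorem hf_im (s : ℂ) : (hh s).im =
    2 * π * ∫ τ, Real.sinh ((s.re - 1) * τ) * Real.sin (s.im * τ) * max (2 - Real.cosh τ) 0 := by
  have hi : Integrable fun τ : ℝ =>
      Complex.exp ((s - 1) * τ) * ((max (2 - Real.cosh τ) 0 : ℝ) : ℂ) :=
    Continuous.integrable_of_hasCompactSupport (by fun_prop)
      (HasCompactSupport.intro (isCompact_Icc (a := -2) (b := 2)) fun τ h => by simp [hf_out h])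
  have h1 := integral_im hi
  simp only [RCLike.im_to_complex, mul_im, ofReal_im, mul_zero, ofReal_re, zero_add, exp_im,
    mul_re, sub_re, one_re, sub_im, one_im, sub_zero] at h1
  have h2 := integral_neg_eq_self (fun τ : ℝ =>
    Real.exp ((s.re - 1) * τ) * Real.sin (s.im * τ) * max (2 - Real.cosh τ) 0) volume
  have h3 := integral_add (hf_int (g := fun τ => Real.exp ((s.re - 1) * τ) * Real.sin (s.im * τ))
    (by fun_prop)) (hf_int (g := fun τ => Real.exp ((s.re - 1) * -τ) * Real.sin (s.im * -τ))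
    (by fun_prop))
  simp only [Real.cosh_neg] at h2
  rw [h2, h1, ← two_mul] at h3
  have h4 : ∫ τ, Real.sinh ((s.re - 1) * τ) * Real.sin (s.im * τ) * max (2 - Real.cosh τ) 0 =
      2⁻¹ * ∫ τ, (Real.exp ((s.re - 1) * τ) * Real.sin (s.im * τ) * max (2 - Real.cosh τ) 0 +
        Real.exp ((s.re - 1) * -τ) * Real.sin (s.im * -τ) * max (2 - Real.cosh τ) 0) := by
    rw [← integral_const_mul]
    congr 1
    ext τ
    rw [Real.sinh_eq, mul_neg, mul_neg, Real.sin_neg]
    ring
  rw [h4, h3, hh, show (2 * π : ℂ) = ((2 * π : ℝ) : ℂ) by push_cast; rfl, im_ofReal_mul]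
  ring

theorem hf_half : 0 < max (2 - Real.cosh (1 / 2)) 0 := by
  refine lt_max_of_lt_left ?_
  have a := Real.exp_le_exp.2 (show (1 / 2 : ℝ) ≤ 1 by norm_num)
  have b := Real.exp_one_lt_d9
  have c := Real.exp_le_one_iff.2 (show -(1 / 2 : ℝ) ≤ 0 by norm_num)
  rw [Real.cosh_eq]
  linarith

theorem im_hh_pos {s : ℂ} (hs : s ∈ Om) : 0 < (hh s).im := by
  obtain ⟨h1, h2, h3⟩ := hs
  have hp := Real.pi_gt_three
  rw [hf_im]
  refine mul_pos (by positivity) (integral_pos_of_integrable_nonneg_nonzero (x := 1 / 2)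
    (by fun_prop) (hf_int (by fun_prop)) (fun τ => ?_) ?_)
  · by_cases e : max (2 - Real.cosh τ) 0 = 0
    · simp [e]
    have := abs_lt.1 (hf_supp e).2.2
    refine mul_nonneg ?_ (le_max_right _ _)
    rcases le_total 0 τ with h | h
    · exact mul_nonneg (Real.sinh_nonneg_iff.2 (mul_nonneg (by linarith) h))
        (Real.sin_nonneg_of_nonneg_of_le_pi (by positivity) (by nlinarith))
    · exact mul_nonneg_of_nonpos_of_nonpos (Real.sinh_nonpos_iff.2 (by nlinarith))
        (Real.sin_nonpos_of_nonpos_of_neg_pi_le (by nlinarith) (by nlinarith))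
  · exact (mul_pos (mul_pos (Real.sinh_pos_iff.2 (by nlinarith))
      (Real.sin_pos_of_pos_of_lt_pi (by positivity) (by linarith))) hf_half).ne'

theorem im_hh_ge : ∃ c : ℝ, 0 < c ∧
    ∀ ε : ℝ, 0 < ε → ε ≤ 1 → c * ε ≤ (hh (4 / 3 + ε * Complex.I)).im := by
  have hp := Real.pi_gt_three
  refine ⟨2 * π * ∫ τ, Real.sinh (1 / 3 * τ) * (2 / π * τ) * max (2 - Real.cosh τ) 0,
    mul_pos (by positivity) (integral_pos_of_integrable_nonneg_nonzero (x := 1 / 2)
    (by fun_prop) (hf_int (by fun_prop)) (fun τ => mul_nonneg ?_ (le_max_right _ _)) ?_),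
    fun ε h0 h1 => ?_⟩
  · rcases le_total 0 τ with h | h
    · exact mul_nonneg (Real.sinh_nonneg_iff.2 (by positivity)) (by positivity)
    · exact mul_nonneg_of_nonpos_of_nonpos (Real.sinh_nonpos_iff.2 (by linarith))
        (mul_nonpos_of_nonneg_of_nonpos (by positivity) h)
  · exact (mul_pos (mul_pos (Real.sinh_pos_iff.2 (by norm_num)) (by positivity)) hf_half).ne'
  · rw [hf_im, mul_assoc, ← integral_mul_const]
    have e1 : (4 / 3 + ε * Complex.I : ℂ).re - 1 = 1 / 3 := by simp; norm_num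
    have e2 : (4 / 3 + ε * Complex.I : ℂ).im = ε := by simp
    rw [e1, e2]
    refine mul_le_mul_of_nonneg_left (integral_mono ((hf_int (by fun_prop)).mul_const _)
      (hf_int (by fun_prop)) fun τ => ?_) (by positivity)
    by_cases e : max (2 - Real.cosh τ) 0 = 0
    · simp [e]
    have := abs_lt.1 (hf_supp e).2.2
    dsimp only
    rw [mul_right_comm]
    refine mul_le_mul_of_nonneg_right ?_ (le_max_right _ _)
    rw [mul_assoc, mul_assoc, mul_comm τ]
    rcases le_total 0 τ with h | h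
    · exact mul_le_mul_of_nonneg_left (Real.mul_le_sin (by positivity) (by nlinarith))
        (Real.sinh_nonneg_iff.2 (by positivity))
    · refine mul_le_mul_of_nonpos_left ?_ (Real.sinh_nonpos_iff.2 (by linarith))
      have := Real.mul_le_sin (x := -(ε * τ)) (by nlinarith) (by nlinarith)
      rw [Real.sin_neg] at this
      linarith

theorem hh_real : (hh (4 / 3)).im = 0 ∧ 0 < (hh (4 / 3)).re := by
  refine ⟨by rw [hf_im]; simp, ?_⟩
  have : hh (4 / 3) = ((2 * π * ∫ τ, Real.exp (1 / 3 * τ) * max (2 - Real.cosh τ) 0 : ℝ) : ℂ) := by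
    rw [hh, ofReal_mul, ← integral_complex_ofReal]
    push_cast
    norm_num
  rw [this, ofReal_re]
  exact mul_pos (by positivity) (integral_pos_of_integrable_nonneg_nonzero (x := 1 / 2)
    (by fun_prop) (hf_int (by fun_prop)) (fun τ => by positivity)
    (mul_pos (Real.exp_pos _) hf_half).ne')

theorem measurable_Gs (s : ℂ) : Measurable (Gs s) :=
  Measurable.ite measurableSet_Ici (measurable_ofReal.pow_const _) measurable_const

theorem norm_Gs (s : ℂ) (q : ℝ) : ‖Gs s q‖ = if 1 ≤ q then q ^ (-s.re) else 0 := by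
  unfold Gs
  split_ifs with h
  · rw [norm_cpow_eq_rpow_re_of_pos (by linarith), neg_re]
  · exact norm_zero

theorem hf_Gs_le {s : ℂ} {R x Q : ℝ} (hs : ‖s‖ ≤ R) (hx : x ≤ Q) (hQ : 0 ≤ Q) :
    ‖Gs s x‖ ≤ Q ^ R := by
  rw [norm_Gs]
  split_ifs with h
  · exact (Real.rpow_le_rpow_of_exponent_le h (by linarith [neg_abs_le s.re, abs_re_le_norm s])).trans
      (Real.rpow_le_rpow (by linarith) hx ((norm_nonneg s).trans hs))
  · positivity

theorem measurable_pis (s : ℂ) : Measurable (pis s) := by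
  have := measurable_Gs s
  refine Measurable.sub (Measurable.const_mul (StronglyMeasurable.integral_prod_right
    (Measurable.stronglyMeasurable ?_)).measurable _) (this.const_mul _)
  exact (this.comp (by fun_prop)).mul (by fun_prop)

theorem pis_support (s : ℂ) {q : ℝ} (hq : 0 < q) (h : q < 1 / 4 ∨ 4 < q) : pis s q = 0 := by
  rw [pis, sub_eq_zero, LL, hh, mul_assoc, mul_assoc, mul_assoc, ← integral_mul_const]
  congr 3
  ext τ
  by_cases e : max (2 - Real.cosh τ) 0 = 0
  · simp [e]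
  obtain ⟨h1, h2, -⟩ := hf_supp e
  have h3 := Real.exp_pos (-τ)
  rcases h with h | h
  · rw [Gs, Gs, if_neg (by nlinarith), if_neg (by linarith), zero_mul, mul_zero]
  · have h4 : Real.exp τ * Real.exp (-τ) = 1 := by rw [← Real.exp_add]; simp
    rw [Gs, Gs, if_pos (by nlinarith), if_pos (by linarith),
      cpow_def_of_ne_zero (ofReal_ne_zero.2 (by positivity)),
      cpow_def_of_ne_zero (ofReal_ne_zero.2 hq.ne'), ← ofReal_log (by positivity),
      ← ofReal_log hq.le, Real.log_mul hq.ne' h3.ne', Real.log_exp, ofReal_mul, ofReal_exp,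
      ← mul_assoc, mul_right_comm _ _ (cexp _), ← Complex.exp_add, ← Complex.exp_add]
    congr 2
    push_cast
    ring

theorem hf_dGs (x : ℝ) : Differentiable ℂ fun s => Gs s x := by
  unfold Gs
  split_ifs with h
  · exact differentiable_id.neg.const_cpow (Or.inl (ofReal_ne_zero.2 (by linarith)))
  · exact differentiable_const _

theorem hf_bd {s : ℂ} {R q τ : ℝ} (hs : ‖s‖ ≤ R) (hq : 0 < q) :
    ‖Gs s (q * Real.exp (-τ)) * ((Real.exp (-τ) * max (2 - Real.cosh τ) 0 : ℝ) : ℂ)‖ ≤
      (q * 4) ^ R * 4 := by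
  by_cases e : max (2 - Real.cosh τ) 0 = 0
  · rw [e, mul_zero, ofReal_zero, mul_zero, norm_zero]; positivity
  obtain ⟨-, h2, -⟩ := hf_supp e
  rw [norm_mul, Complex.norm_real, Real.norm_of_nonneg (by positivity)]
  exact mul_le_mul (hf_Gs_le hs (by gcongr) (by positivity))
    ((mul_le_of_le_one_right (by positivity) (hf_le τ)).trans h2.le) (by positivity) (by positivity)

theorem differentiable_pis {q : ℝ} (hq : 0 < q) : Differentiable ℂ (fun s => pis s q) := by
  refine ((hf_diff _ (fun s => ?_) (fun x => (hf_dGs _).mul_const _) (fun s τ h => by simp [h])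
    fun R => ⟨_, fun s hs τ _ => hf_bd hs hq⟩).const_mul _).sub (differentiable_hh.mul (hf_dGs q))
  exact ((measurable_Gs s).comp (by fun_prop)).mul (by fun_prop)

theorem pis_bound (R : ℝ) : ∃ C : ℝ, ∀ s, ‖s‖ ≤ R → ∀ q, 0 < q → ‖pis s q‖ ≤ C := by
  obtain ⟨B, hB⟩ := (isCompact_closedBall (0 : ℂ) R).exists_bound_of_continuousOn
    differentiable_hh.continuous.continuousOn
  refine ⟨‖(2 * π : ℂ)‖ * ((4 * 4) ^ R * 4 * volume.real (Set.Icc (-2 : ℝ) 2)) + B * 4 ^ R,
    fun s hs q hq => ?_⟩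
  have h1 := hB s (mem_closedBall_zero_iff.2 hs)
  have h2 := (norm_nonneg _).trans h1
  rcases lt_or_ge 4 q with h | h
  · rw [pis_support s hq (Or.inr h), norm_zero]; positivity
  refine (norm_sub_le _ _).trans (add_le_add ?_ ?_)
  · rw [LL, norm_mul, ← setIntegral_eq_integral_of_forall_compl_eq_zero (s := Set.Icc (-2 : ℝ) 2)
      fun τ h => by simp [hf_out h]]
    refine mul_le_mul_of_nonneg_left (norm_setIntegral_le_of_norm_le_const measure_Icc_lt_top
      fun τ _ => (hf_bd hs hq).trans ?_) (norm_nonneg _)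
    have := (norm_nonneg s).trans hs
    gcongr
  · rw [norm_mul]
    exact mul_le_mul h1 (hf_Gs_le hs h (by norm_num)) (norm_nonneg _) h2

end

end Vale.Agent.P026
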