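import Vale.Agent.P026.Fmp

namespace Vale.Agent.P026

open Complex MeasureTheory Filter Topology
open scoped Classical ComplexConjugate Real MatrixGroups

noncomputable section

theorem pars_lin {m : O} (hm : m ≠ 0) (z0 : ℂ) :
    MeasurePreserving (fun x : Fin 2 → ℝ => z0 + toC m * (x 0 + x 1 * omC)) volume
      (ENNReal.ofReal (√3 / 2 * N m)⁻¹ • volume) := by
  have h0 : 0 < √3 / 2 * N m := mul_pos (by positivity) (N_pos hm)
  have h1 : MeasurePreserving (fmpL m) volume (ENNReal.ofReal (√3 / 2 * N m)⁻¹ • volume) :=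
    ⟨(fmpL m).continuous_of_finiteDimensional.measurable, by
      rw [Measure.map_linearMap_addHaar_eq_smul_addHaar _ (fmp_det m ▸ h0.ne'), fmp_det,
        abs_of_pos (inv_pos.2 h0)]⟩
  have h2 := (((measurePreserving_add_left volume z0).smul_measure _).comp h1).comp
    volume_preserving_equiv_pi.symm
  refine (congrArg (fun f => MeasurePreserving f _ _) (funext fun x => ?_)).mp h2
  simp [fmpL]

theorem pars_key {m : O} (hm : m ≠ 0) (z0 : ℂ) : ∃ T : UnitAddTorus (Fin 2) → ℂ,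
    MeasurableEmbedding T ∧ MeasurePreserving T (Measure.pi fun _ => AddCircle.haarAddCircle)
      (ENNReal.ofReal (√3 / 2 * N m)⁻¹ • volume.restrict (Fm m z0)) ∧
    ∀ n t, psi (toC n * T t / toC m) =
      psi (toC n * z0 / toC m) * UnitAddTorus.mFourier ![n.im, n.re - n.im] t := by
  have hm' := toC_ne_zero hm
  have he : MeasurableEmbedding fun x : Fin 2 → ℝ => z0 + toC m * (x 0 + x 1 * omC) :=
    Continuous.measurableEmbedding (by fun_prop) fun x y h => funext (Fin.forall_fin_two.2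
      (fmp_inj (mul_left_cancel₀ hm' (add_left_cancel h))))
  have hs : MeasurableSet {x : Fin 2 → ℝ | ∀ i, x i ∈ Set.Ioc (0 : ℝ) (0 + 1)} :=
    MeasurableSet.univ_pi' fun _ => measurableSet_Ioc
  have h1 := (pars_lin hm z0).restrict_image_emb he (Set.univ.pi fun _ => Set.Ico 0 1)
  have e1 : (fun x : Fin 2 → ℝ => z0 + toC m * (x 0 + x 1 * omC)) ''
      (Set.univ.pi fun _ => Set.Ico 0 1) = Fm m z0 :=
    Set.ext fun _ => ⟨fun ⟨p, h1, h⟩ => ⟨p 0, p 1, h1 0 trivial, h1 1 trivial, h.symm⟩,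
      fun ⟨x, y, h1, h2, h⟩ => ⟨![x, y], Set.mem_univ_pi.2 (Fin.forall_fin_two.2 ⟨h1, h2⟩), h.symm⟩⟩
  have e2 : (Set.univ.pi fun _ : Fin 2 => Set.Ico (0 : ℝ) 1) =ᵐ[volume]
      {x : Fin 2 → ℝ | ∀ i, x i ∈ Set.Ioc (0 : ℝ) (0 + 1)} := by
    refine Measure.univ_pi_Ico_ae_eq_Icc.trans (Measure.univ_pi_Ioc_ae_eq_Icc.symm.trans
      (Eq.eventuallyEq (Set.ext fun x => ?_)))
    simp
  rw [e1, Measure.restrict_smul, Measure.restrict_congr_set e2] at h1
  refine ⟨_, (he.comp (MeasurableEmbedding.subtype_coe hs)).comp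
    (UnitAddTorus.measurableEquivPiIoc _).measurableEmbedding,
    (h1.comp (measurePreserving_subtype_coe hs)).comp
      (UnitAddTorus.measurePreserving_equivPiIoc fun _ => 0), fun n t => ?_⟩
  obtain ⟨⟨x, hx⟩, rfl⟩ := (UnitAddTorus.measurableEquivPiIoc fun _ : Fin 2 => (0 : ℝ)).symm.surjective t
  have e3 : toC n * (z0 + toC m * (x 0 + x 1 * omC)) / toC m = toC n * z0 / toC m +
      (((n.re * x 0 - n.im * x 1 : ℝ) : ℂ) +
        ((n.im * x 0 + (n.re - n.im) * x 1 : ℝ) : ℂ) * omC) := by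
    rw [show toC n = n.re + n.im * omC from rfl]
    push_cast
    field_simp
    linear_combination (n.im : ℂ) * x 1 * toC m * omC_mul
  simp only [Function.comp, MeasurableEquiv.apply_symm_apply]
  rw [e3, psi_add, psi_coord]
  simp only [UnitAddTorus.mFourier, UnitAddTorus.coe_symm_measurableEquivPiIoc_apply,
    ContinuousMap.coe_mk, Fin.prod_univ_two, fourier_coe_apply, ← Complex.exp_add]
  congr 2
  simp
  ring

theorem pars_int {m : O} (hm : m ≠ 0) (z0 : ℂ) {T : UnitAddTorus (Fin 2) → ℂ}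
    (he : MeasurableEmbedding T) {μ : Measure (UnitAddTorus (Fin 2))} (hT : MeasurePreserving T μ
      (ENNReal.ofReal (√3 / 2 * N m)⁻¹ • volume.restrict (Fm m z0))) {E : Type}
    [NormedAddCommGroup E] [NormedSpace ℝ E] (F : ℂ → E) :
    ∫ z in Fm m z0, F z = (√3 / 2 * N m) • ∫ t, F (T t) ∂μ := by
  have h0 : 0 < √3 / 2 * N m := mul_pos (by positivity) (N_pos hm)
  rw [hT.integral_comp he, integral_smul_measure, ENNReal.toReal_ofReal (inv_pos.2 h0).le,
    smul_inv_smul₀ h0.ne']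

theorem integral_psi_Fm {m : O} (hm : m ≠ 0) (z0 : ℂ) (n : O) :
    ∫ z in Fm m z0, psi (toC n * z / toC m) =
      if n = 0 then ((√3 / 2 * N m : ℝ) : ℂ) else 0 := by
  obtain ⟨T, he, hT, h⟩ := pars_key hm z0
  have h1 := orthonormal_iff_ite.1 UnitAddTorus.orthonormal_mFourier 0 ![n.im, n.re - n.im]
  simp only [ContinuousMap.inner_toLp, UnitAddTorus.mFourier_zero, ContinuousMap.one_apply, map_one,
    mul_one] at h1
  rw [pars_int hm z0 he hT]
  simp only [h]
  rw [integral_const_mul]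
  refine (congrArg (fun x => (√3 / 2 * N m) • (psi (toC n * z0 / toC m) * x)) h1).trans ?_
  by_cases hn : n = 0
  · rw [if_pos hn, if_pos (funext (Fin.forall_fin_two.2 (by simp [hn])))]
    simp [hn, psi_zero]
  · rw [if_neg hn, if_neg fun h => hn ?_, mul_zero, smul_zero]
    have h2 : 0 = n.im := congrFun h 0
    have h3 : 0 = n.re - n.im := congrFun h 1
    exact QuadraticAlgebra.ext (show n.re = 0 by omega) h2.symm
theorem parseval_Fm {m : O} (hm : m ≠ 0) (z0 : ℂ) {f : ℂ → ℂ}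
    (hf : MemLp f 2 (volume.restrict (Fm m z0))) :
    HasSum (fun n : O => ‖∫ z in Fm m z0, f z * psi (-(toC n * z / toC m))‖ ^ 2)
      (√3 / 2 * N m * ∫ z in Fm m z0, ‖f z‖ ^ 2) := by
  obtain ⟨T, he, hT, h⟩ := pars_key hm z0
  have h0 : 0 < √3 / 2 * N m := mul_pos (by positivity) (N_pos hm)
  have hg := (hf.smul_measure ENNReal.ofReal_ne_top).comp_measurePreserving hT
  have h1 := (UnitAddTorus.hasSum_sq_mFourierCoeff hg.toLp).mul_left ((√3 / 2 * N m) ^ 2)
  let e : O ≃ (Fin 2 → ℤ) := ⟨fun n => ![n.im, n.re - n.im], fun k => ⟨k 1 + k 0, k 0⟩,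
    fun n => by simp, fun k => funext (Fin.forall_fin_two.2 (by simp))⟩
  have h2 : ∫ t, ‖hg.toLp _ t‖ ^ 2 ∂(Measure.pi fun _ => AddCircle.haarAddCircle) =
      ∫ t, ‖f (T t)‖ ^ 2 ∂(Measure.pi fun _ => AddCircle.haarAddCircle) :=
    integral_congr_ae (hg.coeFn_toLp.mono fun t ht => by simp [ht])
  rw [pars_int hm z0 he hT, smul_eq_mul, ← mul_assoc, ← sq, ← h2]
  refine (e.hasSum_iff.2 h1).congr_fun fun n => ?_
  have h3 : UnitAddTorus.mFourierCoeff (hg.toLp _) (e n) = psi (toC n * z0 / toC m) *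
      ∫ t, f (T t) * psi (-(toC n * T t / toC m)) ∂(Measure.pi fun _ => AddCircle.haarAddCircle) := by
    rw [← integral_const_mul]
    refine integral_congr_ae (hg.coeFn_toLp.mono fun t ht => ?_)
    have h4 := mul_conj' (psi (toC n * z0 / toC m))
    rw [norm_psi, ofReal_one] at h4
    simp only [ht, psi_neg, h, map_mul, UnitAddTorus.mFourier_neg, smul_eq_mul, Function.comp]
    linear_combination -(f (T t) * conj (UnitAddTorus.mFourier (e n) t)) * h4
  rw [pars_int hm z0 he hT, Function.comp, h3, norm_mul, norm_psi, one_mul, norm_smul, mul_pow,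
    Real.norm_eq_abs, sq_abs]

end

end Vale.Agent.P026
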