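import Vale.Agent.P026.Rs
import Vale.Agent.P026.Lat

namespace Vale.Agent.P026

open Complex MeasureTheory Filter Topology
open scoped Classical ComplexConjugate Real MatrixGroups

noncomputable section

theorem fmp_inj {x y x' y' : ℝ} (h : (x : ℂ) + y * omC = x' + y' * omC) : x = x' ∧ y = y' := by
  have h1 : y = y' := by simpa [omC] using congrArg im h
  subst h1
  exact ⟨ofReal_injective (add_right_cancel h), rfl⟩

theorem fmp_coord (u : ℂ) : ∃ x y : ℝ, u = x + y * omC := by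
  refine ⟨u.re + u.im / √3, 2 * (u.im / √3), Complex.ext ?_ ?_⟩ <;>
    simp only [omC, add_re, add_im, mul_re, mul_im, ofReal_re, ofReal_im] <;> field_simp <;> ring

theorem fmp_image (m : O) (z0 : ℂ) : Fm m z0 = (fun p : ℝ × ℝ => z0 + toC m * (p.1 + p.2 * omC)) ''
    (Set.Ico 0 1 ×ˢ Set.Ico 0 1) :=
  Set.ext fun _ => ⟨fun ⟨x, y, h1, h2, h⟩ => ⟨(x, y), ⟨h1, h2⟩, h.symm⟩,
    fun ⟨p, h1, h⟩ => ⟨p.1, p.2, h1.1, h1.2, h.symm⟩⟩

theorem measurableSet_Fm (m : O) (z0 : ℂ) : MeasurableSet (Fm m z0) := by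
  rw [fmp_image]
  by_cases hm : m = 0
  · exact Set.Subsingleton.measurableSet (by rintro _ ⟨p, -, rfl⟩ _ ⟨q, -, rfl⟩; simp [hm])
  · exact (measurableSet_Ico.prod measurableSet_Ico).image_of_continuousOn_injOn (by fun_prop)
      fun p _ q _ h => Prod.ext_iff.2
        (fmp_inj (mul_left_cancel₀ (toC_ne_zero hm) (add_left_cancel h)))
theorem isBounded_Fm (m : O) (z0 : ℂ) : Bornology.IsBounded (Fm m z0) := by
  rw [fmp_image]
  exact ((isCompact_Icc.prod isCompact_Icc).image (by fun_prop)).isBounded.subset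
    (Set.image_mono (Set.prod_mono Set.Ico_subset_Icc_self Set.Ico_subset_Icc_self))
def fmpL (m : O) : ℂ →ₗ[ℝ] ℂ where
  toFun u := toC m * (u.re + u.im * omC)
  map_add' u v := by simp; ring
  map_smul' c u := by simp; ring

theorem fmp_det (m : O) : LinearMap.det (fmpL m) = √3 / 2 * N m := by
  rw [← LinearMap.det_toMatrix basisOneI, Matrix.det_fin_two, ← normSq_toC, normSq_apply]
  simp [LinearMap.toMatrix_apply, fmpL, omC]
  ring

theorem fmp_shift (m : O) (z0 a : ℂ) : (fun z => z + a) ⁻¹' Fm m (z0 + a) = Fm m z0 := by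
  ext z
  simp only [Fm, Set.mem_preimage, Set.mem_setOf_eq, add_right_comm z0 a, add_left_inj]

theorem volume_Fm (m : O) (z0 : ℂ) : volume (Fm m z0) = ENNReal.ofReal (√3 / 2 * N m) := by
  have h : Fm m 0 = fmpL m '' (measurableEquivRealProd ⁻¹' (Set.Ico 0 1 ×ˢ Set.Ico 0 1)) :=
    Set.ext fun _ => ⟨fun ⟨x, y, h1, h2, h⟩ => ⟨⟨x, y⟩, ⟨h1, h2⟩, ((h.trans (zero_add _))).symm⟩,
      fun ⟨p, h1, h⟩ => ⟨p.re, p.im, h1.1, h1.2, h.symm.trans (zero_add _).symm⟩⟩
  rw [← zero_add z0, ← measure_preimage_add_right _ z0, fmp_shift, h,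
    Measure.addHaar_image_linearMap, fmp_det, volume_preserving_equiv_real_prod.measure_preimage_equiv,
    Measure.volume_eq_prod, Measure.prod_prod, abs_of_nonneg (by unfold N; positivity)]
  simp
theorem Fm_unique {m : O} (hm : m ≠ 0) (z0 z : ℂ) : ∃! k : O, z + toC (m * k) ∈ Fm m z0 := by
  obtain ⟨x, y, h⟩ := fmp_coord ((z - z0) / toC m)
  have hm' := toC_ne_zero hm
  rw [div_eq_iff hm', sub_eq_iff_eq_add] at h
  have e : ∀ k : O, z + toC (m * k) =
      z0 + toC m * (((x + k.re : ℝ) : ℂ) + ((y + k.im : ℝ) : ℂ) * omC) := fun k => by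
    rw [h, map_mul, show toC k = k.re + k.im * omC from rfl]
    push_cast
    ring
  refine ⟨⟨-⌊x⌋, -⌊y⌋⟩, ⟨_, _, ?_, ?_, e _⟩, fun k ⟨a, b, ha, hb, hk⟩ => ?_⟩
  · rw [← Int.floor_eq_zero_iff, Int.floor_add_intCast, add_neg_cancel]
  · rw [← Int.floor_eq_zero_iff, Int.floor_add_intCast, add_neg_cancel]
  · obtain ⟨rfl, rfl⟩ := fmp_inj (mul_left_cancel₀ hm' (add_left_cancel ((e k).symm.trans hk)))
    rw [← Int.floor_eq_zero_iff, Int.floor_add_intCast] at ha hb
    exact QuadraticAlgebra.ext (eq_neg_of_add_eq_zero_right ha) (eq_neg_of_add_eq_zero_right hb)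
theorem Fm_card {m : O} (hm : m ≠ 0) (z0 z : ℂ) :
    {k : O | z + toC k ∈ Fm m z0}.Finite ∧ {k : O | z + toC k ∈ Fm m z0}.ncard = Nm m := by
  choose j hj hu using fun d => Fm_unique hm z0 (z + toC d)
  have h : {k : O | z + toC k ∈ Fm m z0} = (fun d => d + m * j d) '' rs m := by
    ext k
    refine ⟨fun hk => ?_, ?_⟩
    · obtain ⟨d, hd, i, hi⟩ := rs_exists hm k
      rw [sub_eq_iff_eq_add'] at hi
      exact ⟨d, hd, by rw [hi, hu d i (by simpa [hi, add_assoc] using hk)]⟩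
    · rintro ⟨d, -, rfl⟩
      simpa [add_assoc] using hj d
  rw [h]
  refine ⟨(Finset.finite_toSet _).image _, ?_⟩
  rw [Set.InjOn.ncard_image fun a ha b hb hab => rs_inj ha hb ⟨j b - j a, by
    linear_combination (hab : a + m * j a = b + m * j b)⟩, Set.ncard_coe_finset, card_rs hm]
theorem fmp_part {m : O} (hm : m ≠ 0) (z0 : ℂ) :
    Pairwise (Function.onFun Disjoint fun k => Fm m (z0 + toC (m * k))) ∧
      ⋃ k : O, Fm m (z0 + toC (m * k)) = Set.univ := by
  have e : ∀ z k, z ∈ Fm m (z0 + toC (m * k)) ↔ z + toC (m * -k) ∈ Fm m z0 := fun z k => by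
    rw [← fmp_shift m z0 (toC (m * k))]
    simp
  refine ⟨fun k l hkl => Set.disjoint_left.2 fun z h1 h2 => hkl (neg_injective
    ((Fm_unique hm z0 z).unique ((e _ _).1 h1) ((e _ _).1 h2))), Set.eq_univ_of_forall fun z => ?_⟩
  obtain ⟨k, hk, -⟩ := Fm_unique hm z0 z
  exact Set.mem_iUnion.2 ⟨-k, (e _ _).2 (by rwa [neg_neg])⟩

theorem iUnion_Fm {m : O} (hm : m ≠ 0) : ⋃ k : O, Fm m (toC (m * k)) = Set.univ := by
  simpa only [zero_add] using (fmp_part hm 0).2
theorem lintegral_Fm {m : O} (hm : m ≠ 0) (z0 : ℂ) {F : ℂ → ENNReal} (hF : Measurable F) :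
    ∫⁻ z in Fm m z0, ∑' k : O, F (z + toC (m * k)) = ∫⁻ z, F z := by
  rw [lintegral_tsum fun k => Measurable.aemeasurable (by fun_prop),
    ← setLIntegral_univ F, ← (fmp_part hm z0).2,
    lintegral_iUnion (fun _ => measurableSet_Fm _ _) (fmp_part hm z0).1]
  refine tsum_congr fun k => ?_
  rw [← (measurePreserving_add_right volume (toC (m * k))).setLIntegral_comp_preimage
    (measurableSet_Fm _ _) hF, fmp_shift]
theorem hasSum_integral_Fm {m : O} (hm : m ≠ 0) (z0 : ℂ) {F : ℂ → ℂ} (hF : Integrable F) :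
    HasSum (fun k : O => ∫ z in Fm m z0, F (z + toC (m * k))) (∫ z, F z) := by
  have h := hasSum_integral_iUnion (fun _ => measurableSet_Fm _ _) (fmp_part hm z0).1
    hF.integrableOn
  rw [(fmp_part hm z0).2, setIntegral_univ] at h
  refine h.congr_fun fun k => Eq.symm ?_
  rw [← (measurePreserving_add_right volume (toC (m * k))).setIntegral_preimage_emb
    (measurableEmbedding_addRight _), fmp_shift]

end

end Vale.Agent.P026
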