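import Vale.Agent.P026.Wgt
import Vale.Agent.P026.Fmp

namespace Vale.Agent.P026

open Complex MeasureTheory Filter Topology
open scoped Classical ComplexConjugate Real MatrixGroups

noncomputable section

theorem strip_congr (m n : O) (z0 : ℂ) (σ : SLO) (φ : ℝ → ℂ) {f f' : Hs → ℂ}
    (h : f =ᵐ[nu m] f') : strip m n z0 σ φ f = strip m n z0 σ φ f' := by
  have h1 := (measurePreserving_actO σ).quasiMeasurePreserving.ae_eq_comp ((ac_nu m).ae_eq h)
  refine integral_congr_ae (ae_restrict_of_ae ?_)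
  filter_upwards [h1] with w hw
  rw [show f (actO σ w) = f' (actO σ w) from hw]

theorem strip_cpt (m : O) (z0 : ℂ) (T : ℝ) :
    IsCompact (closure (Fm m z0) ×ˢ Set.Icc (-T) T : Set Hs) :=
  (isBounded_Fm m z0).isCompact_closure.prod isCompact_Icc

instance strip_finite (m : O) (z0 : ℂ) (T : ℝ) :
    IsFiniteMeasure (muH.restrict (Fm m z0 ×ˢ Set.Icc (-T) T)) :=
  isFiniteMeasure_restrict.2 ((measure_mono (Set.prod_mono subset_closure subset_rfl)).trans_lt
    (strip_cpt m z0 T).measure_lt_top).ne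

theorem strip_le (m : O) (z0 : ℂ) (σ : SLO) (T : ℝ) : ∃ C : NNReal,
    muH.restrict (actO σ '' (Fm m z0 ×ˢ Set.Icc (-T) T)) ≤ (C : ENNReal) • nu m := by
  obtain ⟨C, hC⟩ := muH_le_nu m ((strip_cpt m z0 T).image (continuous_actO σ))
  exact ⟨C, (Measure.restrict_mono (Set.image_mono (Set.prod_mono subset_closure subset_rfl))
    le_rfl).trans hC⟩

theorem strip_memLp' (m : O) (z0 : ℂ) (σ : SLO) (T : ℝ) {f : Hs → ℂ} (hf : MemLp f 2 (nu m)) :
    MemLp (fun w : Hs => f (actO σ w)) 2 (muH.restrict (Fm m z0 ×ˢ Set.Icc (-T) T)) := by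
  obtain ⟨C, hC⟩ := strip_le m z0 σ T
  exact (hf.of_measure_le_smul ENNReal.coe_ne_top hC).comp_measurePreserving
    ((measurePreserving_actO σ).restrict_image_emb (measurableEmbedding_actO σ) _)

theorem strip_meas (m n : O) {φ : ℝ → ℂ} (hφ : Measurable φ) :
    Measurable fun w : Hs => psi (-(toC n * w.1 / toC m)) * φ w.2 :=
  (continuous_psi.measurable.comp (by fun_prop)).mul (hφ.comp measurable_snd)

theorem strip_zero {φ : ℝ → ℂ} {T : ℝ} (h : ∀ t, T < |t| → φ t = 0) {S : Set ℂ} {w : Hs}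
    (hw : w ∈ (S ×ˢ (Set.univ : Set ℝ)) \ (S ×ˢ Set.Icc (-T) T)) : φ w.2 = 0 :=
  h _ (lt_of_not_ge fun c => hw.2 ⟨hw.1.1, abs_le.1 c⟩)

theorem strip_integrable (m n : O) (z0 : ℂ) (σ : SLO) {φ : ℝ → ℂ} (hφ : Tst φ) {f : Hs → ℂ}
    (hf : MemLp f 2 (nu m)) :
    IntegrableOn (fun w : Hs => f (actO σ w) * psi (-(toC n * w.1 / toC m)) * φ w.2)
      (Fm m z0 ×ˢ (Set.univ : Set ℝ)) muH := by
  obtain ⟨hm, Bd, T, hb, hT⟩ := hφ
  refine IntegrableOn.of_forall_sdiff_eq_zero (s := Fm m z0 ×ˢ Set.Icc (-T) T) ?_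
    ((measurableSet_Fm m z0).prod .univ) fun w hw => by rw [strip_zero hT hw, mul_zero]
  simp only [mul_assoc]
  exact ((strip_memLp' m z0 σ T hf).integrable one_le_two).mul_bdd (c := Bd)
    (strip_meas m n hm).aestronglyMeasurable
    (.of_forall fun w => by rw [norm_mul, norm_psi, one_mul]; exact hb _)

theorem strip_memLp (m : O) (z0 : ℂ) (σ : SLO) (T : ℝ) {f : Hs → ℂ} (hf : MemLp f 2 (nu m)) :
    MemLp (fun w : Hs => f (actO σ w)) 2 (muH.restrict (Fm m z0 ×ˢ Set.Icc (-T) T)) :=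
  strip_memLp' m z0 σ T hf

theorem strip_inner (m n : O) (z0 : ℂ) (σ : SLO) {φ : ℝ → ℂ} (hφ : Tst φ) :
    ∃ y : Lp ℂ 2 (nu m), ∀ f : Lp ℂ 2 (nu m), strip m n z0 σ φ f = inner ℂ y f := by
  obtain ⟨hm, Bd, T, hb, hT⟩ := hφ
  obtain ⟨C, hC⟩ := strip_le m z0 σ T
  have mp := (measurePreserving_actO σ).restrict_image_emb (measurableEmbedding_actO σ)
    (Fm m z0 ×ˢ Set.Icc (-T) T)
  have hy : MemLp (fun w : Hs => conj (psi (-(toC n * w.1 / toC m)) * φ w.2)) 2
      (muH.restrict (Fm m z0 ×ˢ Set.Icc (-T) T)) :=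
    .of_bound (continuous_conj.measurable.comp (strip_meas m n hm)).aestronglyMeasurable Bd
      (.of_forall fun w => by rw [RCLike.norm_conj, norm_mul, norm_psi, one_mul]; exact hb _)
  have e : ∀ f : Lp ℂ 2 (nu m), strip m n z0 σ φ f = inner ℂ (hy.toLp _)
      (Lp.compMeasurePreservingₗᵢ ℂ _ mp (Lp.LpToLpOfMeasureLeSMul ENNReal.coe_ne_top hC f)) := by
    intro f
    rw [strip, setIntegral_eq_of_subset_of_forall_sdiff_eq_zero
      (s := Fm m z0 ×ˢ Set.Icc (-T) T) ((measurableSet_Fm m z0).prod .univ)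
      (Set.prod_mono subset_rfl (Set.subset_univ _)) fun w hw => by
        rw [strip_zero hT hw, mul_zero], L2.inner_def]
    refine integral_congr_ae ?_
    filter_upwards [hy.coeFn_toLp, Lp.coeFn_compMeasurePreserving
      (Lp.LpToLpOfMeasureLeSMul ENNReal.coe_ne_top hC f) mp, mp.quasiMeasurePreserving.ae_eq_comp
      (Lp.coeFn_LpToLpOfMeasureLeSMul ENNReal.coe_ne_top hC f)] with w h1 h2 h3
    rw [h1, RCLike.inner_apply, conj_conj, mul_assoc]
    exact congrArg (· * _) (h2.trans h3).symm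
  let L : Lp ℂ 2 (nu m) →L[ℂ] ℂ :=
    { toFun := fun f => strip m n z0 σ φ f
      map_add' := fun f g => by simp only [e, map_add, inner_add_right]
      map_smul' := fun c f => by
        rw [strip_congr m n z0 σ φ (Lp.coeFn_smul c f), strip, strip, RingHom.id_apply, smul_eq_mul,
          ← integral_const_mul]
        simp only [Pi.smul_apply, smul_eq_mul, mul_assoc]
      cont := by
        simp only [e]
        exact continuous_const.inner ((LinearIsometry.continuous _).comp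
          (ContinuousLinearMap.continuous _)) }
  exact ⟨(InnerProductSpace.toDual ℂ _).symm L, fun f =>
    (InnerProductSpace.toDual_symm_apply (y := L) (x := f)).symm⟩

end

end Vale.Agent.P026
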