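import Vale.Agent.P026.Unf
import Vale.Agent.P026.Strip

namespace Vale.Agent.P026

open Complex MeasureTheory Filter Topology
open scoped Classical ComplexConjugate Real MatrixGroups

noncomputable section

theorem unf2_one {m : O} (hm : m ≠ 0) (w : Hs) {x : O × O} (hx : IsCoprime x.1 x.2) :
    HasSum (fun a : Gam m × (SLO ⧸ Gam m) => if (actO (a.2.out * a.1) w).1 ∈ Fm m 0 ∧
      row (a.2.out * a.1) = x then (1 : ℂ) else 0) (Nm m) := by
  have h1 := row_count hm w (fun y => if y = x then 1 else 0)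
  rw [tsum_eq_single x (fun y hy => by simp [hy]), if_pos hx, if_pos rfl, mul_one,
    ENNReal.tsum_comm, ← ENNReal.tsum_prod] at h1
  have h2 := ENNReal.hasSum_toReal (h1 ▸ ENNReal.natCast_ne_top (Nm m))
  rw [← ENNReal.tsum_toReal_eq (fun a => by split_ifs <;> simp), h1] at h2
  convert Complex.hasSum_ofReal.2 h2 using 2 with a
  · by_cases h3 : (actO (a.2.out * a.1) w).1 ∈ Fm m 0 <;>
      by_cases h4 : row (a.2.out * a.1) = x <;> simp [h3, h4]
  · simp

theorem unf2_count {m : O} (hm : m ≠ 0) (w : Hs) [Fintype (SLO ⧸ Gam m)] {f : O × O → ℂ}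
    (S : Finset (O × O)) (hS : ∀ x ∉ S, f x = 0) (hc : ∀ x ∈ S, IsCoprime x.1 x.2) :
    ∑' γ : Gam m, ∑ i : SLO ⧸ Gam m, (if (actO (i.out * γ) w).1 ∈ Fm m 0 then
      f (row (i.out * γ)) else 0) = Nm m * ∑' x, f x := by
  have h1 := hasSum_sum fun x (hx : x ∈ S) => (unf2_one hm w (hc x hx)).mul_right (f x)
  rw [tsum_eq_sum hS, Finset.mul_sum]
  refine (h1.prod_fiberwise fun γ => ?_).tsum_eq
  convert hasSum_fintype _ using 2 with i
  by_cases h3 : (actO (i.out * γ) w).1 ∈ Fm m 0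
  · by_cases h4 : row (i.out * γ) ∈ S <;> simp [h3, h4, hS]
  · simp [h3]

theorem inc_orth {m : O} (hm : m ≠ 0) {κ : SLO → ℂ} (hκ : MulS m κ) {Φ : O × O → ℂ}
    (hΦ : Equi m κ Φ) {u : Hs → ℂ} (hu : Measurable u) (ha : Aut m κ u)
    (h2 : MemLp u 2 (nu m)) {G : ℝ → ℂ} (hG : Measurable G) {Bd q0 q1 : ℝ} (hq : 0 < q0)
    (hb : ∀ q, 0 < q → ‖G q‖ ≤ Bd) (hs : ∀ q, 0 < q → q < q0 ∨ q1 < q → G q = 0)
    (h : ∀ σ : SLO, strip m 0 0 σ (fun t => conj (G (Real.exp (-t)))) u = 0) :
    ∫ w, conj (u w) * Inc Φ G w ∂(nu m) = 0 := by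
  have := finite_quot_Gam hm
  let _ := Fintype.ofFinite (SLO ⧸ Gam m)
  have hφ : Tst fun t => conj (G (Real.exp (-t))) := by
    refine ⟨continuous_conj.measurable.comp (hG.comp (by fun_prop)), Bd, |Real.log q0| + |q1|,
      fun t => by simpa using hb _ (Real.exp_pos _), fun t ht => ?_⟩
    beta_reduce
    rw [hs _ (Real.exp_pos _), map_zero]
    have h1 := abs_nonneg (Real.log q0)
    have h2 := abs_nonneg q1
    rcases lt_abs.1 ht with h3 | h3
    · left
      rw [← Real.lt_log_iff_exp_lt hq]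
      linarith [neg_abs_le (Real.log q0)]
    · right
      linarith [Real.add_one_le_exp (-t), le_abs_self q1]
  have hM : MeasurableSet (Fm m 0 ×ˢ (Set.univ : Set ℝ)) := (measurableSet_Fm m 0).prod .univ
  let H : SLO → Hs → ℂ := fun σ => (Fm m 0 ×ˢ (Set.univ : Set ℝ)).indicator fun w =>
    Φ (row σ) * conj (u (actO σ⁻¹ w) * psi (-(toC 0 * w.1 / toC m)) * conj (G (Real.exp (-w.2))))
  have hH : ∀ σ, Integrable (H σ) muH := fun σ => (integrable_indicator_iff hM).2
    (Integrable.const_mul ((LinearIsometryEquiv.integrable_comp_iff conjLIE).2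
      (strip_integrable m 0 0 σ⁻¹ hφ h2)) _)
  have hH0 : ∀ σ, ∫ w, H σ (actO σ w) ∂muH = 0 := fun σ => by
    rw [(measurePreserving_actO σ).integral_comp (measurableEmbedding_actO σ),
      integral_indicator hM, integral_const_mul, integral_conj]
    exact mul_eq_zero_of_right _ ((congrArg conj (h σ⁻¹)).trans (map_zero _))
  have hI := fun σ => (measurePreserving_actO σ).integrable_comp_of_integrable (hH σ)
  have h3 := (integral_unfold m (integrable_finsetSum Finset.univ
    fun (i : SLO ⧸ Gam m) _ => hI i.out)).2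
  rw [integral_finsetSum _ fun i _ => hI _] at h3
  simp only [Function.comp_apply, hH0, Finset.sum_const_zero] at h3
  have hN : (Nm m : ℂ) ≠ 0 := Nat.cast_ne_zero.2 (mt Nm_eq_zero.1 hm)
  refine mul_left_cancel₀ hN ?_
  rw [mul_zero, ← integral_const_mul, ← h3]
  congr 1
  funext w
  obtain ⟨C, -, hC⟩ := count_prim
  rw [Inc, ← tsum_mul_left, ← unf2_count hm w (hC w |q1| (abs_nonneg _)).1.toFinset
    (fun x hx => ?_) fun x hx => ((Set.Finite.mem_toFinset _).1 hx).1]
  · refine tsum_congr fun γ => Finset.sum_congr rfl fun i _ => ?_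
    have e1 : Real.exp (-(actO (i.out * γ) w).2) = Qr w (row (i.out * γ)) := by
      rw [Real.exp_neg, ← inv_inv (Qr w _), ← ht_actO, ht]
    have e2 : actO i.out⁻¹ (actO (i.out * γ) w) = actO γ w := by
      rw [← actO_mul, inv_mul_cancel_left]
    simp only [H, ← actO_mul, Set.indicator_apply, Set.mem_prod, Set.mem_univ, and_true]
    split_ifs
    · rw [e1, actO_mul i.out⁻¹, e2, ha γ γ.2, row_mul, hΦ.eqv γ γ.2]
      simp [psi_zero]
      ring
    · rfl
  · by_cases hc : IsCoprime x.1 x.2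
    · rw [hs _ (Qr_pos w hc) (Or.inr ?_), mul_zero, mul_zero]
      exact (le_abs_self q1).trans_lt (not_le.1 fun h4 => hx (by simp [hc, h4]))
    · rw [hΦ.supp x hc, zero_mul, mul_zero]

end

end Vale.Agent.P026
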