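import Vale.Agent.P026.Slice
import Vale.Agent.P026.Pars
import Vale.Agent.P026.Unf2
import Vale.Agent.P026.Hfun

namespace Vale.Agent.P026

open Complex MeasureTheory Filter Topology
open scoped Classical ComplexConjugate Real MatrixGroups

noncomputable section

theorem thb_l2 {X : Type*} [MeasurableSpace X] {μ : Measure X} {f : X → ℂ} (hf : MemLp f 2 μ) :
    ∫⁻ x, ‖f x‖ₑ ^ 2 ∂μ = ENNReal.ofReal (∫ x, ‖f x‖ ^ 2 ∂μ) := by
  rw [ofReal_integral_eq_lintegral_ofReal ((memLp_two_iff_integrable_sq_norm hf.1).1 hf)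
    (Eventually.of_forall fun x => by positivity)]
  refine lintegral_congr fun x => ?_
  rw [ENNReal.ofReal_pow (norm_nonneg _), ofReal_norm_eq_enorm]

theorem uout_bound {m : O} (hm : m ≠ 0) {κ : SLO → ℂ} (hκ : MulS m κ) {Φ : O × O → ℂ}
    {u : Hs → ℂ} {ρ : SLO → O → ℂ} (h : UOut m κ Φ u ρ) :
    ∃ C : ℝ, ∀ σ, ∀ R : ℝ, 1 ≤ R → ∑ n ∈ ballO R, ‖ρ σ n‖ ^ 2 ≤ C * R ^ (2 / 3 : ℝ) := by
  obtain ⟨C, hC, hmb⟩ := mult_bound hm hκ
  obtain ⟨b, hb1, hb2⟩ := bb_real
  have m1 := one_le_N hm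
  set V := √3 / 2 * N m with hV
  have V0 : 0 < V := by positivity
  set M := ∫ w, ‖u w‖ ^ 2 ∂(nu m) with hM
  have M0 : 0 ≤ M := integral_nonneg fun _ => by positivity
  set b0 := b (Real.exp 2) with hb0
  have b00 : 0 < b0 := (hb1 _ (Real.exp_pos 2).le).2
  refine ⟨C * M * V * Real.exp 2 / b0 ^ 2, fun σ R hR => ?_⟩
  have R0 : 0 < R := by linarith
  set S := ∑ n ∈ ballO R, ‖ρ σ n‖ ^ 2 with hS
  have S0 : 0 ≤ S := Finset.sum_nonneg fun _ _ => by positivity
  set t0 := -(Real.log R / 2) with ht0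
  have et0 : Real.exp t0 = (√R)⁻¹ := by
    rw [ht0, Real.exp_neg, Real.exp_half, Real.exp_log R0]
  have sR : √R ^ 2 = R := Real.sq_sqrt R0.le
  have sR0 : 0 < √R := Real.sqrt_pos.2 R0
  have hb := hmb u σ 0 (√R) h.meas h.aut (Real.one_le_sqrt.2 hR)
  have ms : MeasurableSet (Fm m 0 ×ˢ {t : ℝ | (√R)⁻¹ ≤ Real.exp t}) :=
    (measurableSet_Fm m 0).prod (measurableSet_le measurable_const Real.measurable_exp)
  have mf : Measurable fun w : Hs => ‖u (actO σ w)‖ₑ ^ 2 :=
    ((h.meas.comp (continuous_actO σ).measurable).enorm).pow_const 2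
  rw [← lintegral_indicator ms, lintegral_muH (mf.indicator ms), thb_l2 h.mem, ← hM, sR,
    ← ENNReal.ofReal_mul (by positivity)] at hb
  set K := S * b0 ^ 2 * (R ^ (2 / 3 : ℝ))⁻¹ / V * (R / Real.exp 2) with hK
  have low : ∫⁻ t, (Set.Icc t0 (t0 + 1)).indicator (fun _ => ENNReal.ofReal K) t ≤
      ENNReal.ofReal (C * R * M) := by
    refine le_trans (lintegral_mono_ae ?_) hb
    filter_upwards [uout_slice hm h σ 0] with t ht
    by_cases hI : t ∈ Set.Icc t0 (t0 + 1)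
    swap
    · rw [Set.indicator_of_notMem hI]
      exact zero_le
    rw [Set.indicator_of_mem hI]
    have a1 : (√R)⁻¹ ≤ Real.exp t := et0 ▸ Real.exp_le_exp.2 hI.1
    have a2 : Real.exp t ^ 2 * R ≤ Real.exp 2 := by
      have : Real.exp t ≤ Real.exp (t0 + 1) := Real.exp_le_exp.2 hI.2
      rw [Real.exp_add, et0] at this
      have h2 := pow_le_pow_left₀ (Real.exp_pos t).le this 2
      rw [mul_pow, inv_pow, sR, ← Real.exp_nat_mul 1 2, ← div_eq_inv_mul, le_div_iff₀ R0] at h2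
      simpa using h2
    have e1 : ∫⁻ z : ℂ, (Fm m 0 ×ˢ {t : ℝ | (√R)⁻¹ ≤ Real.exp t}).indicator
        (fun w : Hs => ‖u (actO σ w)‖ₑ ^ 2) (z, t) = ∫⁻ z in Fm m 0, ‖u (actO σ (z, t))‖ₑ ^ 2 := by
      rw [← lintegral_indicator (measurableSet_Fm m 0)]
      refine lintegral_congr fun z => ?_
      by_cases hz : z ∈ Fm m 0
      · rw [Set.indicator_of_mem hz]
        exact Set.indicator_of_mem (s := Fm m 0 ×ˢ {t : ℝ | (√R)⁻¹ ≤ Real.exp t}) (a := (z, t))
          ⟨hz, a1⟩ _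
      · rw [Set.indicator_of_notMem hz, Set.indicator_of_notMem fun hc => hz hc.1]
    rw [e1, thb_l2 ht.1, ← ENNReal.ofReal_mul (Real.exp_pos _).le]
    refine ENNReal.ofReal_le_ofReal ?_
    have par := parseval_Fm hm 0 ht.1
    simp_rw [ht.2] at par
    have s1 := sum_le_hasSum (ballO R) (fun _ _ => by positivity) par
    have a3 : (R ^ (2 / 3 : ℝ))⁻¹ ≤ (Real.exp t ^ (2 / 3 : ℝ)) ^ 2 := by
      rw [← Real.inv_rpow R0.le, ← Real.rpow_natCast, ← Real.rpow_mul (Real.exp_pos t).le,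
        mul_comm, Real.rpow_mul (Real.exp_pos t).le, Real.rpow_natCast]
      refine Real.rpow_le_rpow (by positivity) ?_ (by norm_num)
      rw [← sR, ← inv_pow]
      exact pow_le_pow_left₀ (by positivity) a1 2
    have s2 : S * b0 ^ 2 * (R ^ (2 / 3 : ℝ))⁻¹ ≤ V * ∫ z in Fm m 0, ‖u (actO σ (z, t))‖ ^ 2 := by
      refine le_trans ?_ s1
      rw [hS, Finset.sum_mul, Finset.sum_mul]
      refine Finset.sum_le_sum fun n hn => ?_
      have n0 := N_nonneg n
      have nR := (mem_ballO.1 hn).2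
      have p1 : 0 ≤ N n * Real.exp t ^ 2 / (3 * N m) := by positivity
      have p2 : b0 ≤ b (N n * Real.exp t ^ 2 / (3 * N m)) := by
        refine hb2 p1 (Real.exp_pos 2).le ((div_le_self (by positivity) (by linarith)).trans ?_)
        refine le_trans ?_ a2
        rw [mul_comm]
        gcongr
      rw [(hb1 _ p1).1, norm_mul, norm_mul, Complex.norm_real, Complex.norm_real,
        Real.norm_of_nonneg (by positivity), Real.norm_of_nonneg (hb1 _ p1).2.le, mul_pow, mul_pow,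
        mul_assoc, mul_comm (b0 ^ 2)]
      gcongr
    have a4 : R / Real.exp 2 ≤ Real.exp (-2 * t) := by
      rw [div_le_iff₀ (Real.exp_pos 2), neg_mul, Real.exp_neg, ← div_eq_inv_mul,
        le_div_iff₀ (Real.exp_pos _), mul_comm]
      refine le_trans (le_of_eq ?_) a2
      rw [← Real.exp_nat_mul]
      norm_num
    rw [hK, mul_comm]
    refine mul_le_mul a4 ?_ (by positivity) (Real.exp_pos _).le
    rwa [div_le_iff₀' V0]
  rw [lintegral_indicator measurableSet_Icc, setLIntegral_const, Real.volume_Icc, add_sub_cancel_left,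
    ENNReal.ofReal_one, mul_one, ENNReal.ofReal_le_ofReal_iff (by positivity), hK] at low
  have r0 : 0 < R ^ (2 / 3 : ℝ) := by positivity
  have e2 := Real.exp_pos 2
  have : S = S * b0 ^ 2 * (R ^ (2 / 3 : ℝ))⁻¹ / V * (R / Real.exp 2) *
      (V * Real.exp 2 / b0 ^ 2 * R ^ (2 / 3 : ℝ) / R) := by field_simp
  rw [this]
  refine (mul_le_mul_of_nonneg_right low (by positivity)).trans (le_of_eq ?_)
  field_simp
theorem uout_van {m : O} (hm : m ≠ 0) {κ : SLO → ℂ} (hκ : MulS m κ) {Φ : O × O → ℂ}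
    (hΦ : Equi m κ Φ) {u : Hs → ℂ} {ρ : SLO → O → ℂ} (h : UOut m κ Φ u ρ)
    (h0 : ∀ σ, ρ σ 0 = 0) : ∀ σ n, ρ σ n = 0 := by
  have hu : u =ᵐ[nu m] 0 := h.van fun s => by
    obtain ⟨B, hB⟩ := pis_bound ‖s‖
    refine inc_orth hm hκ hΦ h.meas h.aut h.mem (measurable_pis s) (q0 := 1 / 4) (q1 := 4)
      (by norm_num) (hB s le_rfl) (fun q hq hh => pis_support s hq hh) fun σ => ?_
    rw [h.coef σ 0 0 _ ⟨?_, B, 3, fun t => ?_, fun t ht => ?_⟩, h0, zero_mul]
    · exact continuous_conj.measurable.comp ((measurable_pis s).comp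
        (Real.measurable_exp.comp measurable_neg))
    · rw [Complex.norm_conj]
      exact hB s le_rfl _ (Real.exp_pos _)
    · rw [pis_support s (Real.exp_pos _), map_zero]
      rcases lt_abs.1 ht with h1 | h1
      · left
        rw [Real.exp_neg, inv_lt_comm₀ (Real.exp_pos _) (by norm_num)]
        linarith [Real.add_one_le_exp t]
      · right
        linarith [Real.add_one_le_exp (-t)]
  intro σ n
  have e := h.coef σ n 0 _ tst_ind
  rw [strip_congr m n 0 σ _ hu] at e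
  refine (mul_eq_zero.1 (e.symm.trans ?_)).resolve_right (betaF_ne m n)
  simp [strip]

end

end Vale.Agent.P026
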