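import Vale.Agent.P026.Grp

namespace Vale.Agent.P026

open Complex MeasureTheory Filter Topology
open scoped Classical ComplexConjugate Real MatrixGroups

noncomputable section

theorem ht_pos (w : Hs) : 0 < ht w := by
  exact Real.exp_pos _
theorem QQ_nonneg (w : Hs) (c d : ℂ) : 0 ≤ QQ w c d := by
  exact div_nonneg (add_nonneg (normSq_nonneg _) (mul_nonneg (normSq_nonneg _) (sq_nonneg _)))
    (ht_pos w).le
theorem geo_num_pos (w : Hs) {c d : ℂ} (h : c ≠ 0 ∨ d ≠ 0) :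
    0 < normSq (c * w.1 + d) + normSq c * ht w ^ 2 := by
  have := ht_pos w
  by_cases hc : c = 0
  · simpa [hc] using h.resolve_left (not_not.2 hc)
  · exact add_pos_of_nonneg_of_pos (normSq_nonneg _) (mul_pos (normSq_pos.2 hc) (by positivity))

theorem QQ_pos (w : Hs) {c d : ℂ} (h : c ≠ 0 ∨ d ≠ 0) : 0 < QQ w c d := by
  exact div_pos (geo_num_pos w h) (ht_pos w)
theorem Qr_pos (w : Hs) {x : O × O} (h : IsCoprime x.1 x.2) : 0 < Qr w x := by
  exact QQ_pos w (h.ne_zero_or_ne_zero.imp toC_ne_zero toC_ne_zero)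
theorem Qr_ge (w : Hs) {x : O × O} (h : IsCoprime x.1 x.2) : Real.exp (-|w.2|) ≤ Qr w x := by
  have hv := ht_pos w
  rw [Qr, QQ, le_div_iff₀ hv]
  by_cases hc : x.1 = 0
  · have h1 : 1 ≤ N x.2 := one_le_N (h.ne_zero_or_ne_zero.resolve_left (not_not.2 hc))
    rw [hc, map_zero, zero_mul, zero_add, normSq_toC, map_zero, zero_mul, add_zero, ht,
      ← Real.exp_add]
    exact (Real.exp_le_one_iff.2 (by linarith [le_abs_self w.2])).trans h1
  · have h1 : 1 ≤ N x.1 := one_le_N hc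
    have h2 : Real.exp (-|w.2|) ≤ ht w := Real.exp_le_exp.2 (neg_abs_le _)
    rw [normSq_toC]
    nlinarith [normSq_nonneg (toC x.1 * w.1 + toC x.2), mul_le_mul_of_nonneg_right h2 hv.le,
      mul_le_mul_of_nonneg_right h1 (sq_nonneg (ht w))]
theorem Qr_unit (w : Hs) {u : O} (hu : IsUnit u) : Qr w (0, u) = (ht w)⁻¹ := by
  simp [Qr, QQ, normSq_toC, N_unit hu]
theorem act_one (w : Hs) : act 1 w = w := by
  ext <;> simp [act, QQ, ht]
theorem geo_det (g : SL(2, ℂ)) : g 0 0 * g 1 1 - g 0 1 * g 1 0 = 1 := by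
  have := g.det_coe
  rwa [Matrix.det_fin_two] at this

theorem geo_ne (g : SL(2, ℂ)) : g 1 0 ≠ 0 ∨ g 1 1 ≠ 0 := by
  by_contra! h
  simpa [h.1, h.2] using geo_det g

theorem geo_ht (g : SL(2, ℂ)) (w : Hs) : ht (act g w) = (QQ w (g 1 0) (g 1 1))⁻¹ := by
  rw [ht, act, Real.exp_neg, Real.exp_log (QQ_pos w (geo_ne g))]

theorem geo_key {a b c d : ℂ} (z C E : ℂ) (v D : ℝ) (hdet : a * d - b * c = 1) (hv : v ≠ 0)
    (h0 : D ≠ 0) (hD : D = normSq (c * z + d) + normSq c * v ^ 2) :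
    (normSq (C * (((a * z + b) * conj (c * z + d) + a * conj c * ((v ^ 2 : ℝ) : ℂ)) / (D : ℂ)) + E) +
      normSq C * (D / v)⁻¹ ^ 2) / (D / v)⁻¹ =
      (normSq ((C * a + E * c) * z + (C * b + E * d)) + normSq (C * a + E * c) * v ^ 2) / v := by
  have hdet' := congrArg conj hdet
  have hD' := congrArg ofReal hD
  have h0' : (D : ℂ) ≠ 0 := ofReal_ne_zero.2 h0
  have hv' : (v : ℂ) ≠ 0 := ofReal_ne_zero.2 hv
  apply ofReal_injective
  push_cast at hD' ⊢
  simp only [normSq_eq_conj_mul_self, map_add, map_sub, map_mul, map_div₀, map_pow, map_one,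
    conj_ofReal, conj_conj] at hdet' hD' ⊢
  field_simp
  linear_combination (E * conj E * D - C * conj C * ((a * z + b) * (conj a * conj z + conj b) +
    a * conj a * v ^ 2)) * hD' - C * conj C * v ^ 2 *
      ((conj a * conj d - conj b * conj c) * hdet + hdet')

theorem geo_ext {w w' : Hs} (h : ∀ c d, QQ w c d = QQ w' c d) : w = w' := by
  have h1 : ht w = ht w' := by simpa [QQ] using h 0 1
  have h2 := h 1 (-w.1)
  rw [QQ, QQ, h1, div_left_inj' (ht_pos w').ne', add_left_inj] at h2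
  refine Prod.ext ?_ (Real.exp_injective h1)
  simp only [one_mul, add_neg_cancel, map_zero] at h2
  exact (add_neg_eq_zero.1 (normSq_eq_zero.1 h2.symm)).symm

theorem QQ_act (g : SL(2, ℂ)) (w : Hs) (c d : ℂ) :
    QQ (act g w) c d = QQ w (c * g 0 0 + d * g 1 0) (c * g 0 1 + d * g 1 1) := by
  rw [QQ, geo_ht]
  exact geo_key w.1 c d (ht w) _ (geo_det g) (ht_pos w).ne' (geo_num_pos w (geo_ne g)).ne' rfl
theorem ht_act (g : SL(2, ℂ)) (w : Hs) : ht (act g w) = (QQ w (g 1 0) (g 1 1))⁻¹ := by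
  exact geo_ht g w
theorem act_mul (g g' : SL(2, ℂ)) (w : Hs) : act (g * g') w = act g (act g' w) := by
  refine geo_ext fun c d => ?_
  rw [QQ_act, QQ_act, QQ_act]
  congr 1 <;> simp [Matrix.mul_apply, Fin.sum_univ_two] <;> ring
theorem geo_uu (w w' : Hs) : (uu w w' : ℂ) = (QQ w 1 0 * QQ w' 0 1 + QQ w' 1 0 * QQ w 0 1 -
    (w.1 / ht w * conj (w'.1 / ht w') + conj (w.1 / ht w) * (w'.1 / ht w'))) / 2 := by
  have h1 : (ht w : ℂ) ≠ 0 := ofReal_ne_zero.2 (ht_pos w).ne'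
  have h2 : (ht w' : ℂ) ≠ 0 := ofReal_ne_zero.2 (ht_pos w').ne'
  simp only [uu, QQ, map_one, map_zero]
  push_cast
  simp only [normSq_eq_conj_mul_self, map_add, map_sub, map_mul, map_div₀, map_one, map_zero,
    conj_ofReal]
  field_simp
  ring

theorem geo_be (g : SL(2, ℂ)) (w : Hs) : (act g w).1 / ht (act g w) =
    ((g 0 0 * w.1 + g 0 1) * conj (g 1 0 * w.1 + g 1 1) +
      g 0 0 * conj (g 1 0) * (ht w : ℂ) ^ 2) / ht w := by
  have h1 : (ht w : ℂ) ≠ 0 := ofReal_ne_zero.2 (ht_pos w).ne'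
  have h2 := ofReal_ne_zero.2 (geo_num_pos w (geo_ne g)).ne'
  rw [geo_ht, QQ, act, ofReal_inv, ofReal_div, ofReal_pow, div_inv_eq_mul, mul_div_assoc',
    div_mul_cancel₀ _ h2]

theorem uu_act (g : SL(2, ℂ)) (w w' : Hs) : uu (act g w) (act g w') = uu w w' := by
  have h1 : (ht w : ℂ) ≠ 0 := ofReal_ne_zero.2 (ht_pos w).ne'
  have h2 : (ht w' : ℂ) ≠ 0 := ofReal_ne_zero.2 (ht_pos w').ne'
  have hdet := geo_det g
  have hdet' := congrArg conj hdet
  apply ofReal_injective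
  rw [geo_uu, geo_be, geo_be]
  simp only [QQ_act]
  simp only [uu, QQ]
  push_cast
  simp only [normSq_eq_conj_mul_self, map_add, map_sub, map_mul, map_div₀, map_one, map_pow,
    conj_ofReal, conj_conj, one_mul, zero_mul, add_zero, zero_add] at hdet' ⊢
  field_simp
  linear_combination ((w.1 - w'.1) * (conj w.1 - conj w'.1) + ht w ^ 2 + ht w' ^ 2) *
    ((conj (g 0 0) * conj (g 1 1) - conj (g 0 1) * conj (g 1 0)) * hdet + hdet')
theorem geo_cont_ht : Continuous ht := Real.continuous_exp.comp continuous_snd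

theorem geo_cont_QQ (c d : ℂ) : Continuous fun w => QQ w c d := by
  have := geo_cont_ht
  exact Continuous.div (by fun_prop) this fun w => (ht_pos w).ne'

theorem continuous_act (g : SL(2, ℂ)) : Continuous (act g) := by
  have := geo_cont_ht
  exact (Continuous.div (by fun_prop) (by fun_prop) fun w =>
    ofReal_ne_zero.2 (geo_num_pos w (geo_ne g)).ne').prodMk
      ((geo_cont_QQ _ _).log fun w => (QQ_pos w (geo_ne g)).ne').neg
theorem actO_one (w : Hs) : actO 1 w = w := by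
  rw [actO, map_one, act_one]
theorem actO_mul (γ σ : SLO) (w : Hs) : actO (γ * σ) w = actO γ (actO σ w) := by
  rw [actO, map_mul, act_mul]; rfl
theorem geo_map (γ : SLO) (i j : Fin 2) : Matrix.SpecialLinearGroup.map toC γ i j = toC (γ i j) :=
  rfl

theorem Qr_actO (γ : SLO) (w : Hs) (x : O × O) : Qr (actO γ w) x = Qr w (rmul x γ) := by
  simp only [Qr, actO, QQ_act, rmul, geo_map, map_add, map_mul]
theorem ht_actO (γ : SLO) (w : Hs) : ht (actO γ w) = (Qr w (row γ))⁻¹ := by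
  exact ht_act _ w
theorem uu_actO (γ : SLO) (w w' : Hs) : uu (actO γ w) (actO γ w') = uu w w' := by
  exact uu_act _ w w'
theorem continuous_actO (γ : SLO) : Continuous (actO γ) := by
  exact continuous_act _
theorem actO_Tm (k : O) (w : Hs) : actO (Tm k) w = (w.1 + toC k, w.2) := by
  obtain ⟨h1, h2, h3, h4⟩ := Tm_apply k
  simp [actO, act, geo_map, h1, h2, h3, h4, QQ, ht]
theorem uu_symm (w w' : Hs) : uu w w' = uu w' w := by
  rw [uu, uu, ← normSq_neg, neg_sub]; ring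
theorem one_le_uu (w w' : Hs) : 1 ≤ uu w w' := by
  have := ht_pos w
  have := ht_pos w'
  rw [uu, le_div_iff₀ (by positivity)]
  nlinarith [normSq_nonneg (w.1 - w'.1), sq_nonneg (ht w - ht w')]
theorem uu_actO_j (γ : SLO) (w : Hs) :
    uu (actO γ w) (0, 0) = (Qr w (γ 0 0, γ 0 1) + Qr w (row γ)) / 2 := by
  have h : ∀ w : Hs, uu w (0, 0) = (Qr w (1, 0) + Qr w (0, 1)) / 2 := fun w => by
    have := ht_pos w
    have h0 : ht (0, 0) = 1 := Real.exp_zero
    simp only [uu, Qr, QQ, h0]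
    simp
    field_simp
  rw [h, Qr_actO, Qr_actO]
  simp [rmul, row]
theorem continuous_uu : Continuous (fun p : Hs × Hs => uu p.1 p.2) := by
  have := geo_cont_ht
  exact Continuous.div (by fun_prop) (by fun_prop) fun p =>
    (mul_pos (mul_pos two_pos (ht_pos _)) (ht_pos _)).ne'
theorem continuous_Qr (x : O × O) : Continuous (fun w => Qr w x) := by
  exact geo_cont_QQ _ _
theorem exists_upper (w : Hs) :
    ∃ g : SL(2, ℂ), act g (0, 0) = w ∧ ∀ w', ht (act g w') = ht w * ht w' := by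
  obtain ⟨s, hs, e⟩ : ∃ s : ℝ, 0 < s ∧ ht w = s ^ 2 :=
    ⟨Real.exp (w.2 / 2), Real.exp_pos _, by rw [sq, ← Real.exp_add, add_halves, ht]⟩
  have hs' : (s : ℂ) ≠ 0 := ofReal_ne_zero.2 hs.ne'
  let g : SL(2, ℂ) := ⟨!![(s : ℂ), w.1 / s; 0, (s : ℂ)⁻¹], by simp [Matrix.det_fin_two, hs']⟩
  have h : ∀ w', ht (act g w') = ht w * ht w' := fun w' => by
    have := ht_pos w'
    rw [ht_act, e]
    simp [g, QQ]
    field_simp
  refine ⟨g, Prod.ext ?_ (Real.exp_injective ((h _).trans (by simp [ht]))), h⟩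
  simp [act, g]
  field_simp
theorem actO_cusp (γ : SLO) (hc : γ 1 0 ≠ 0) (ζ : ℂ) (t : ℝ) :
    actO γ (-(toC (γ 1 1) / toC (γ 1 0)) + ζ, t) =
      (toC (γ 0 0) / toC (γ 1 0) - conj (toC (γ 1 0)) / toC (γ 1 0) * conj ζ /
          ((N (γ 1 0) * (normSq ζ + Real.exp t ^ 2) : ℝ) : ℂ),
        -Real.log (N (γ 1 0) * (normSq ζ + Real.exp t ^ 2) / Real.exp t)) := by
  have hdet := congrArg toC (det_SLO γ)
  have hc' := toC_ne_zero hc
  have e : toC (γ 1 0) * (-(toC (γ 1 1) / toC (γ 1 0)) + ζ) + toC (γ 1 1) = toC (γ 1 0) * ζ := by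
    field_simp; ring
  have h0 : ((normSq ζ + Real.exp t ^ 2 : ℝ) : ℂ) ≠ 0 := ofReal_ne_zero.2
    (add_pos_of_nonneg_of_pos (normSq_nonneg _) (by positivity)).ne'
  simp only [actO, act, geo_map, QQ, ht, e, map_mul, normSq_toC, ← mul_add]
  congr 1
  rw [← normSq_toC, ofReal_mul, normSq_eq_conj_mul_self]
  have h1 : conj (toC (γ 1 0)) ≠ 0 := (map_ne_zero _).2 hc'
  simp only [map_sub, map_mul, map_one] at hdet
  generalize hD : ((normSq ζ + Real.exp t ^ 2 : ℝ) : ℂ) = D at h0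
  rw [ofReal_add, normSq_eq_conj_mul_self] at hD
  field_simp
  linear_combination toC (γ 0 0) * toC (γ 1 0) * hD - conj ζ * hdet

end

end Vale.Agent.P026
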