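import Vale.Agent.P026.Pars
import Vale.Agent.P026.Bes
import Vale.Agent.P026.Geo

namespace Vale.Agent.P026

open Complex MeasureTheory Filter Topology
open scoped Classical ComplexConjugate Real MatrixGroups

noncomputable section

theorem thf_summ {ρ : O → ℂ} {Bd : ℝ}
    (hb : ∀ R : ℝ, 1 ≤ R → ∑ n ∈ ballO R, ‖ρ n‖ ^ 2 ≤ Bd * R) {x : ℝ} (hx : 0 < x) :
    Summable (fun n : O => (1 + N n) * (‖ρ n‖ * ‖bb (N n * x) (4 / 3)‖)) := by
  obtain ⟨C, hC, h⟩ := bb_decay (a := 3) (by norm_num)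
  refine Summable.of_norm_bounded_eventually
    ((summable_of_sq_bound hb (s := 2) (by norm_num)).mul_left (2 * C * x ^ (-3 : ℝ))) ?_
  filter_upwards [(Set.finite_singleton (0 : O)).compl_mem_cofinite] with n hn
  have n1 : 1 ≤ N n := one_le_N hn
  have n0 : 0 < N n := by linarith
  rw [Real.norm_of_nonneg (by positivity)]
  have a := h (N n * x) (by positivity)
  rw [Real.mul_rpow n0.le hx.le] at a
  have e : N n ^ (-2 : ℝ) = N n * N n ^ (-3 : ℝ) := by
    rw [← Real.rpow_one_add' n0.le (by norm_num)]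
    norm_num
  rw [e]
  calc (1 + N n) * (‖ρ n‖ * ‖bb (N n * x) (4 / 3)‖)
      ≤ (2 * N n) * (‖ρ n‖ * (C * (N n ^ (-3 : ℝ) * x ^ (-3 : ℝ)))) := by
        gcongr
        linarith
    _ = _ := by ring

theorem summable_thetaF {m : O} (hm : m ≠ 0) {ρ : O → ℂ} {Bd : ℝ}
    (hb : ∀ R : ℝ, 1 ≤ R → ∑ n ∈ ballO R, ‖ρ n‖ ^ 2 ≤ Bd * R) (w : Hs) :
    Summable (fun n : O => N n * ‖ρ n * bb (N n * ht w ^ 2 / (3 * N m)) (4 / 3)‖) ∧
    Summable (fun n : O => ‖ρ n * ((ht w ^ (2 / 3 : ℝ) : ℝ) : ℂ) *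
      bb (N n * ht w ^ 2 / (3 * N m)) (4 / 3) * psi (toC n * w.1 / toC m)‖) := by
  have m0 := N_pos hm
  have w0 := ht_pos w
  have h := thf_summ hb (x := ht w ^ 2 / (3 * N m)) (by positivity)
  simp_rw [← mul_div_assoc] at h
  constructor
  · refine Summable.of_nonneg_of_le (fun n => mul_nonneg (N_nonneg n) (norm_nonneg _))
      (fun n => ?_) h
    rw [norm_mul]
    exact mul_le_mul_of_nonneg_right (by linarith) (by positivity)
  · refine Summable.of_nonneg_of_le (fun n => norm_nonneg _) (fun n => ?_)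
      (h.mul_left (ht w ^ (2 / 3 : ℝ)))
    rw [norm_mul, norm_mul, norm_mul, norm_psi, mul_one, Complex.norm_real,
      Real.norm_of_nonneg (by positivity), mul_comm ‖ρ n‖, mul_assoc]
    refine mul_le_mul_of_nonneg_left (le_mul_of_one_le_left (by positivity) ?_) (by positivity)
    linarith [N_nonneg n]
theorem continuous_thetaF {m : O} (hm : m ≠ 0) {ρ : O → ℂ} {Bd : ℝ}
    (hb : ∀ R : ℝ, 1 ≤ R → ∑ n ∈ ballO R, ‖ρ n‖ ^ 2 ≤ Bd * R) : Continuous (thetaF m ρ) := by
  have m0 := N_pos hm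
  obtain ⟨b, hb1, hb2⟩ := bb_real
  have cht : Continuous ht := Real.continuous_exp.comp continuous_snd
  refine continuous_iff_continuousAt.2 fun w0 => ?_
  have ho : IsOpen {w : Hs | w.2 ∈ Set.Ioo (w0.2 - 1) (w0.2 + 1)} := isOpen_Ioo.preimage continuous_snd
  have h := (thf_summ hb (x := Real.exp (w0.2 - 1) ^ 2 / (3 * N m)) (by positivity)).mul_left
    (Real.exp (w0.2 + 1) ^ (2 / 3 : ℝ))
  refine (continuousOn_tsum (fun n => Continuous.continuousOn ?_) h fun n w hw => ?_).continuousAt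
    (ho.mem_nhds ⟨by linarith, by linarith⟩)
  · refine ((continuous_const.mul (continuous_ofReal.comp
      (cht.rpow_const fun w => Or.inl (ht_pos w).ne'))).mul ?_).mul
      (continuous_psi.comp ((continuous_const.mul continuous_fst).div_const _))
    refine (continuousOn_bb (s := 4 / 3) (by norm_num)).comp_continuous
      ((continuous_const.mul (cht.pow 2)).div_const _) fun w => ?_
    have := N_nonneg n
    show 0 ≤ N n * ht w ^ 2 / (3 * N m)
    positivity
  · have n0 := N_nonneg n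
    have w1 := ht_pos w
    have a1 : Real.exp (w0.2 - 1) ≤ ht w := Real.exp_le_exp.2 hw.1.le
    have a2 : ht w ≤ Real.exp (w0.2 + 1) := Real.exp_le_exp.2 hw.2.le
    have p1 : 0 ≤ N n * ht w ^ 2 / (3 * N m) := by positivity
    have p2 : 0 ≤ N n * (Real.exp (w0.2 - 1) ^ 2 / (3 * N m)) := by positivity
    have a3 : ‖bb (N n * ht w ^ 2 / (3 * N m)) (4 / 3)‖ ≤
        ‖bb (N n * (Real.exp (w0.2 - 1) ^ 2 / (3 * N m))) (4 / 3)‖ := by
      rw [(hb1 _ p1).1, (hb1 _ p2).1, Complex.norm_real, Complex.norm_real,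
        Real.norm_of_nonneg (hb1 _ p1).2.le, Real.norm_of_nonneg (hb1 _ p2).2.le]
      refine hb2 p2 p1 ?_
      rw [mul_div_assoc]
      gcongr
    rw [norm_mul, norm_mul, norm_mul, norm_psi, mul_one, Complex.norm_real,
      Real.norm_of_nonneg (by positivity), mul_comm ‖ρ n‖, mul_assoc]
    refine mul_le_mul (Real.rpow_le_rpow w1.le a2 (by norm_num)) ?_ (by positivity) (by positivity)
    exact (mul_le_mul_of_nonneg_left a3 (norm_nonneg _)).trans
      (le_mul_of_one_le_left (by positivity) (by linarith))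
theorem thetaF_coef {m : O} (hm : m ≠ 0) {ρ : O → ℂ} {Bd : ℝ}
    (hb : ∀ R : ℝ, 1 ≤ R → ∑ n ∈ ballO R, ‖ρ n‖ ^ 2 ≤ Bd * R) (z0 : ℂ) (t : ℝ) (n : O) :
    ∫ z in Fm m z0, thetaF m ρ (z, t) * psi (-(toC n * z / toC m)) =
      ((√3 / 2 * N m : ℝ) : ℂ) * (ρ n * (((Real.exp t ^ (2 / 3 : ℝ) : ℝ) : ℂ) *
        bb (N n * Real.exp t ^ 2 / (3 * N m)) (4 / 3))) := by
  haveI : IsFiniteMeasure (volume.restrict (Fm m z0)) :=
    isFiniteMeasure_restrict.2 (by rw [volume_Fm]; exact ENNReal.ofReal_ne_top)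
  set a : O → ℂ := fun k => ρ k * (((Real.exp t ^ (2 / 3 : ℝ) : ℝ) : ℂ) *
    bb (N k * Real.exp t ^ 2 / (3 * N m)) (4 / 3)) with ha
  have sa : Summable fun k => ‖a k‖ := (summable_thetaF hm hb (0, t)).2.congr fun k => by
    rw [norm_mul, norm_psi, mul_one, mul_assoc]
    rfl
  have e : ∀ z : ℂ, thetaF m ρ (z, t) * psi (-(toC n * z / toC m)) =
      ∑' k : O, a k * psi (toC (k - n) * z / toC m) := fun z => by
    unfold thetaF
    rw [← tsum_mul_right]
    refine tsum_congr fun k => ?_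
    rw [mul_assoc, ← psi_add, mul_assoc (ρ k), map_sub, sub_mul, sub_div, sub_eq_add_neg]
    rfl
  simp_rw [e]
  rw [← integral_tsum_of_summable_integral_norm]
  · simp_rw [integral_const_mul, integral_psi_Fm hm, sub_eq_zero]
    rw [tsum_eq_single n fun k hk => by rw [if_neg hk, mul_zero], if_pos rfl, mul_comm]
  · intro k
    refine Integrable.of_bound (Continuous.aestronglyMeasurable ?_) ‖a k‖
      (Eventually.of_forall fun z => by rw [norm_mul, norm_psi, mul_one])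
    exact continuous_const.mul
      (continuous_psi.comp ((continuous_const.mul continuous_id).div_const _))
  · simp_rw [norm_mul, norm_psi, mul_one, integral_const, smul_eq_mul]
    exact sa.mul_left _
theorem thetaF_eq_zero {m : O} (hm : m ≠ 0) {ρ : O → ℂ} {Bd : ℝ}
    (hb : ∀ R : ℝ, 1 ≤ R → ∑ n ∈ ballO R, ‖ρ n‖ ^ 2 ≤ Bd * R) (h : ∀ w, thetaF m ρ w = 0) :
    ∀ n, ρ n = 0 := by
  intro n
  have m0 := N_pos hm
  have n0 := N_nonneg n
  obtain ⟨b, hb1, -⟩ := bb_real
  have e := thetaF_coef hm hb 0 0 n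
  simp_rw [h, zero_mul, integral_zero] at e
  have p := hb1 (N n * Real.exp 0 ^ 2 / (3 * N m)) (by positivity)
  rw [p.1] at e
  refine (mul_eq_zero.1 ((mul_eq_zero.1 e.symm).resolve_left ?_)).resolve_right (mul_ne_zero ?_ ?_)
  · exact ofReal_ne_zero.2 (by positivity)
  · exact ofReal_ne_zero.2 (by positivity)
  · exact ofReal_ne_zero.2 p.2.ne'

end

end Vale.Agent.P026
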