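import Vale.Agent.P026.ThA3
import Vale.Agent.P026.ThB
import Vale.Agent.P026.ThF

namespace Vale.Agent.P026

open Complex MeasureTheory Filter Topology
open scoped Classical ComplexConjugate Real MatrixGroups

noncomputable section

theorem thc_bd {m : O} (hm : m ≠ 0) {κ : SLO → ℂ} (hκ : MulS m κ) {Φ : O × O → ℂ}
    {u : Hs → ℂ} {ρ : SLO → O → ℂ} (h : UOut m κ Φ u ρ) :
    ∃ C : ℝ, ∀ σ, ∀ R : ℝ, 1 ≤ R → ∑ n ∈ ballO R, ‖ρ σ n‖ ^ 2 ≤ C * R := by
  obtain ⟨C, hC⟩ := uout_bound hm hκ h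
  refine ⟨max C 0, fun σ R hR => (hC σ R hR).trans ?_⟩
  refine (mul_le_mul_of_nonneg_right (le_max_left C 0) (by positivity)).trans
    (mul_le_mul_of_nonneg_left ?_ (le_max_right _ _))
  simpa using Real.rpow_le_rpow_of_exponent_le hR (show (2 / 3 : ℝ) ≤ 1 by norm_num)

theorem thc_ae {m : O} (hm : m ≠ 0) {κ : SLO → ℂ} (hκ : MulS m κ) {Φ : O × O → ℂ}
    {u : Hs → ℂ} {ρ : SLO → O → ℂ} (h : UOut m κ Φ u ρ) (σ : SLO) :
    (fun w => ((√3 / 2 * N m : ℝ) : ℂ) * u (actO σ w)) =ᵐ[muH] thetaF m (ρ σ) := by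
  obtain ⟨C, hC⟩ := thc_bd hm hκ h
  have ct := continuous_thetaF hm (hC σ)
  have hV : 0 < √3 / 2 * N m := by have := N_pos hm; positivity
  have ms : MeasurableSet {w : Hs | ((√3 / 2 * N m : ℝ) : ℂ) * u (actO σ w) = thetaF m (ρ σ) w} :=
    measurableSet_eq_fun ((h.meas.comp (continuous_actO σ).measurable).const_mul _) ct.measurable
  refine muH_ac.ae_le ?_
  rw [Measure.volume_eq_prod]
  refine (Measure.ae_prod_iff_ae_ae ms).2 ((Measure.ae_ae_comm (p := fun z t =>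
    ((√3 / 2 * N m : ℝ) : ℂ) * u (actO σ (z, t)) = thetaF m (ρ σ) (z, t)) ms).2 ?_)
  filter_upwards [ae_all_iff.2 fun k : O => uout_slice hm h σ (toC (m * k))] with t ht
  rw [← Measure.restrict_univ (μ := (volume : Measure ℂ)), ← iUnion_Fm hm, ae_restrict_iUnion_iff]
  intro k
  obtain ⟨h1, h2⟩ := ht k
  set z0 := toC (m * k)
  haveI : IsFiniteMeasure (volume.restrict (Fm m z0)) :=
    isFiniteMeasure_restrict.2 (by rw [volume_Fm]; exact ENNReal.ofReal_ne_top)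
  have c1 : Continuous fun z : ℂ => thetaF m (ρ σ) (z, t) := ct.comp (by fun_prop)
  obtain ⟨B, hB⟩ := (isBounded_Fm m z0).isCompact_closure.exists_bound_of_continuousOn
    c1.continuousOn
  have h3 : MemLp (fun z : ℂ => thetaF m (ρ σ) (z, t)) 2 (volume.restrict (Fm m z0)) :=
    .of_bound c1.aestronglyMeasurable B ((ae_restrict_iff' (measurableSet_Fm m z0)).2
      (.of_forall fun z hz => hB z (subset_closure hz)))
  have h4 := (h1.const_mul ((√3 / 2 * N m : ℝ) : ℂ)).sub h3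
  have ps : ∀ {f : ℂ → ℂ}, MemLp f 2 (volume.restrict (Fm m z0)) → ∀ n : O,
      Integrable (fun z => f z * psi (-(toC n * z / toC m))) (volume.restrict (Fm m z0)) :=
    fun hf n => (hf.integrable one_le_two).mul_bdd (c := 1)
      (continuous_psi.comp (by fun_prop)).aestronglyMeasurable
      (.of_forall fun z => (norm_psi _).le)
  have h5 := parseval_Fm hm z0 h4
  have e : ∀ n : O, ∫ z in Fm m z0, ((fun z => ((√3 / 2 * N m : ℝ) : ℂ) * u (actO σ (z, t))) -
      fun z => thetaF m (ρ σ) (z, t)) z * psi (-(toC n * z / toC m)) = 0 := fun n => by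
    simp only [Pi.sub_apply, sub_mul, mul_assoc]
    rw [integral_sub ((ps h1 n).const_mul _) (ps h3 n), integral_const_mul, h2,
      thetaF_coef hm (hC σ), sub_self]
  simp only [e, norm_zero, ne_eq, OfNat.ofNat_ne_zero, not_false_eq_true, zero_pow] at h5
  have h6 := (mul_eq_zero.1 (h5.unique hasSum_zero)).resolve_left hV.ne'
  rw [integral_eq_zero_iff_of_nonneg (fun _ => by positivity)
    ((memLp_two_iff_integrable_sq_norm h4.1).1 h4)] at h6
  filter_upwards [h6] with z hz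
  simpa [sub_eq_zero] using hz

theorem uout_aut {m : O} (hm : m ≠ 0) {κ : SLO → ℂ} (hκ : MulS m κ) {Φ : O × O → ℂ}
    {u : Hs → ℂ} {ρ : SLO → O → ℂ} (h : UOut m κ Φ u ρ) (σ : SLO) (w : Hs) :
    thetaF m (ρ 1) (actO σ w) = thetaF m (ρ σ) w := by
  obtain ⟨C, hC⟩ := thc_bd hm hκ h
  have a := (measurePreserving_actO σ).quasiMeasurePreserving.ae_eq_comp (thc_ae hm hκ h 1)
  simp only [actO_one] at a
  exact congrFun ((Continuous.ae_eq_iff_eq muH ((continuous_thetaF hm (hC 1)).comp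
    (continuous_actO σ)) (continuous_thetaF hm (hC σ))).1 (a.symm.trans (thc_ae hm hκ h σ))) w

theorem theta_machine {m : O} (hm : m ≠ 0) {κ : SLO → ℂ} (hκ : MulS m κ) {Φ : O × O → ℂ}
    (hΦ : Equi m κ Φ) : ∃ ρ, ThetaOut m Φ ρ := by
  obtain ⟨u, ρ, h⟩ := exists_UOut hm hκ hΦ
  exact ⟨ρ, h.res, uout_bound hm hκ h, uout_aut hm hκ h, uout_van hm hκ hΦ h⟩

end

end Vale.Agent.P026
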