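import Vale.Agent.P026.Defs

namespace Vale.Agent.P026

open Complex MeasureTheory Filter Topology
open scoped Classical ComplexConjugate Real MatrixGroups

noncomputable section

theorem gamB_line {F : ℂ → ℂ} {c : ℝ} (hF : ∀ s : ℂ, s.re = c → DifferentiableAt ℂ F s)
    {g : ℝ → ℝ} (hg : Integrable g) (hb : ∀ s : ℂ, s.re = c → ‖F s‖ ≤ g s.im) :
    Integrable fun τ : ℝ => F (c + τ * Complex.I) := by
  refine hg.mono' (Continuous.aestronglyMeasurable (continuous_iff_continuousAt.2 fun τ => ?_))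
    (ae_of_all _ fun τ => by simpa using hb (c + τ * Complex.I) (by simp))
  exact ContinuousAt.comp (f := fun τ : ℝ => c + τ * Complex.I)
    (hF _ (by simp)).continuousAt (by fun_prop)

theorem shift_strip {F : ℂ → ℂ} {a b : ℝ} (hab : a ≤ b)
    (hF : ∀ s : ℂ, a ≤ s.re → s.re ≤ b → DifferentiableAt ℂ F s) {g : ℝ → ℝ}
    (hg : Integrable g) (hg0 : Tendsto g (cocompact ℝ) (𝓝 0))
    (hb : ∀ s : ℂ, a ≤ s.re → s.re ≤ b → ‖F s‖ ≤ g s.im) :
    ∫ τ : ℝ, F (a + τ * Complex.I) = ∫ τ : ℝ, F (b + τ * Complex.I) := by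
  have ia := gamB_line (c := a) (fun s h => hF s h.ge (h.le.trans hab)) hg
    fun s h => hb s h.ge (h.le.trans hab)
  have ib := gamB_line (c := b) (fun s h => hF s (hab.trans h.ge) h.le) hg
    fun s h => hb s (hab.trans h.ge) h.le
  have ta := intervalIntegral_tendsto_integral ia tendsto_neg_atTop_atBot tendsto_id
  have tb := intervalIntegral_tendsto_integral ib tendsto_neg_atTop_atBot tendsto_id
  have hor : ∀ T : ℝ, ‖∫ x : ℝ in a..b, F (x + T * Complex.I)‖ ≤ g T * |b - a| := fun T =>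
    intervalIntegral.norm_integral_le_of_norm_le_const fun x hx => by
      rw [Set.uIoc_of_le hab] at hx
      simpa using hb (x + T * Complex.I) (by simpa using hx.1.le) (by simpa using hx.2)
  have g1 : Tendsto g atTop (𝓝 0) := hg0.mono_left atTop_le_cocompact
  have g2 : Tendsto (fun T => g (-T)) atTop (𝓝 0) :=
    (hg0.mono_left atBot_le_cocompact).comp tendsto_neg_atTop_atBot
  have t0 : Tendsto (fun T : ℝ => (∫ τ : ℝ in -T..T, F (a + τ * Complex.I)) -
      ∫ τ : ℝ in -T..T, F (b + τ * Complex.I)) atTop (𝓝 0) := by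
    refine squeeze_zero_norm (a := fun T => g (-T) * |b - a| + g T * |b - a|) (fun T => ?_)
      (by simpa using (g2.mul_const _).add (g1.mul_const _))
    have h := integral_boundary_rect_eq_zero_of_differentiableOn F ⟨a, -T⟩ ⟨b, T⟩ fun s hs => by
      have := (mem_reProdIm.1 hs).1
      rw [Set.uIcc_of_le hab] at this
      exact (hF s this.1 this.2).differentiableWithinAt
    dsimp only at h
    rw [← one_mul ‖_‖, ← norm_I, ← norm_smul, smul_sub, show ∀ A B C D : ℂ, A - B + C - D = 0 →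
      D - C = A - B from fun A B C D h => by linear_combination -h]
    · exact (norm_sub_le _ _).trans (add_le_add (hor (-T)) (hor T))
    · exact h
  exact sub_eq_zero.1 (tendsto_nhds_unique (ta.sub tb) t0)

theorem norm_Gamma_le {s : ℂ} (hs : 0 < s.re) : ‖Complex.Gamma s‖ ≤ Real.Gamma s.re := by
  rw [Complex.Gamma_eq_integral hs, Real.Gamma_eq_integral hs, GammaIntegral]
  refine (norm_integral_le_integral_norm _).trans (le_of_eq ?_)
  refine setIntegral_congr_fun measurableSet_Ioi fun x hx => ?_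
  simp only [norm_mul, norm_real, Real.norm_of_nonneg (Real.exp_pos _).le,
    norm_cpow_eq_rpow_re_of_pos hx, sub_re, one_re]

theorem gamB_ne {s : ℂ} (hs : 0 < s.re) (m : ℕ) : s ≠ -m := fun h => by
  rw [h] at hs; simp at hs; linarith [Nat.cast_nonneg (α := ℝ) m]

theorem gamB_diff {s : ℂ} (hs : 0 < s.re) : DifferentiableAt ℂ Complex.Gamma s :=
  Complex.differentiableAt_Gamma s (gamB_ne hs)

theorem Gamma_strip_le {a b : ℝ} (ha : 0 < a) :
    ∃ C : ℝ, 0 < C ∧ ∀ s : ℂ, a ≤ s.re → s.re ≤ b → ‖Complex.Gamma s‖ ≤ C := by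
  have hc : ContinuousOn Real.Gamma (Set.Icc a b) := fun x hx =>
    (Real.differentiableAt_Gamma fun m h => by
      have := hx.1
      linarith [Nat.cast_nonneg (α := ℝ) m]).continuousAt.continuousWithinAt
  obtain ⟨C, hC⟩ := isCompact_Icc.exists_bound_of_continuousOn hc
  exact ⟨max C 1, by positivity, fun s h1 h2 => (norm_Gamma_le (ha.trans_le h1)).trans
    (((le_abs_self _).trans (hC _ ⟨h1, h2⟩)).trans (le_max_left _ _))⟩

theorem gamB_sin (z : ℂ) : ‖Complex.sin z‖ ≤ Real.exp |z.im| := by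
  rw [Complex.sin, norm_div, norm_mul, norm_I, mul_one, Complex.norm_two,
    div_le_iff₀ two_pos, mul_two]
  refine (norm_sub_le _ _).trans (add_le_add ?_ ?_) <;> rw [norm_exp, Real.exp_le_exp]
  · simpa using le_abs_self _
  · simpa using neg_le_abs _

theorem gamB_far (n : ℕ) : ∀ a : ℝ, ∃ C : ℝ, 0 < C ∧ ∀ s : ℂ, a ≤ s.re → s.re ≤ n → 1 ≤ |s.im| →
    ‖(Complex.Gamma s)⁻¹‖ ≤ C * Real.exp (π * |s.im|) := by
  induction n with
  | zero =>
    intro a
    obtain ⟨C, hC, h⟩ := Gamma_strip_le (a := 1) (b := 1 - a) one_pos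
    refine ⟨C, hC, fun s h1 h2 _ => ?_⟩
    have h3 : 1 ≤ (1 - s).re := by simpa using h2
    have h4 := Complex.Gamma_ne_zero_of_re_pos (one_pos.trans_le h3)
    have h5 := Complex.Gamma_mul_Gamma_one_sub s
    have e : (Complex.Gamma s)⁻¹ = Complex.Gamma (1 - s) * (Complex.sin (π * s) / π) := by
      rw [← inv_div, ← h5, mul_inv, mul_left_comm, mul_inv_cancel₀ h4, mul_one]
    rw [e, norm_mul, norm_div, norm_real, Real.norm_of_nonneg Real.pi_pos.le]
    refine mul_le_mul (h _ h3 (by simp; linarith)) ?_ (by positivity) hC.le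
    refine (div_le_self (norm_nonneg _) (by linarith [Real.pi_gt_three])).trans
      ((gamB_sin _).trans_eq ?_)
    simp [abs_mul, abs_of_pos Real.pi_pos]
  | succ n ih =>
    intro a
    obtain ⟨C, hC, h⟩ := ih (a - 1)
    refine ⟨C, hC, fun s h1 h2 h3 => ?_⟩
    have h4 : 1 ≤ ‖s - 1‖ := h3.trans (by simpa using abs_im_le_norm (s - 1))
    have h5 := Complex.Gamma_add_one (s - 1) (by rintro h; simp [h] at h4; linarith)
    rw [sub_add_cancel] at h5
    have h6 := h (s - 1) (by simpa using h1) (by simp at h2 ⊢; linarith) (by simpa using h3)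
    rw [h5, mul_inv, norm_mul, norm_inv]
    simp only [sub_im, one_im, sub_zero] at h6
    exact (mul_le_of_le_one_left (norm_nonneg _) (inv_le_one_of_one_le₀ h4)).trans h6

theorem inv_Gamma_le (a b : ℝ) : ∃ C : ℝ, 0 < C ∧ ∀ s : ℂ, a ≤ s.re → s.re ≤ b →
    ‖(Complex.Gamma s)⁻¹‖ ≤ C * Real.exp (π * |s.im|) := by
  obtain ⟨n, hn⟩ := exists_nat_ge b
  obtain ⟨C, hC, h⟩ := gamB_far n a
  obtain ⟨D, hD⟩ := (isCompact_Icc.reProdIm isCompact_Icc :
    IsCompact (Set.Icc a b ×ℂ Set.Icc (-1 : ℝ) 1)).exists_bound_of_continuousOn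
    Complex.differentiable_one_div_Gamma.continuous.continuousOn
  refine ⟨max C D, by positivity, fun s h1 h2 => ?_⟩
  rcases le_total 1 |s.im| with k | k
  · exact (h s h1 (h2.trans hn) k).trans (by gcongr; exact le_max_left _ _)
  · refine ((hD s ⟨⟨h1, h2⟩, abs_le.1 k⟩).trans (le_max_right C D)).trans
      (le_mul_of_one_le_right (by positivity) (Real.one_le_exp (by positivity)))

theorem integrable_Gamma_line {σ : ℝ} (hσ : 0 < σ) :
    Integrable (fun τ : ℝ => Complex.Gamma (σ + τ * Complex.I)) := by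
  have hm : 0 < min 1 (σ ^ 2) := by positivity
  refine gamB_line (F := Complex.Gamma) (fun s h => gamB_diff (h ▸ hσ))
    (integrable_inv_one_add_sq.const_mul (Real.Gamma (σ + 2) / min 1 (σ ^ 2))) fun s h => ?_
  have h0 : s ≠ 0 := by rintro rfl; simp at h; linarith
  have h1 : s + 1 ≠ 0 := fun k => by
    have := congrArg Complex.re k
    simp at this; linarith
  have h2 := norm_Gamma_le (s := s + 1 + 1) (by simp; linarith)
  rw [Complex.Gamma_add_one _ h1, Complex.Gamma_add_one _ h0, norm_mul, norm_mul,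
    show (s + 1 + 1).re = σ + 2 by simp [h]; ring] at h2
  have h3 : ‖s‖ ^ 2 = σ ^ 2 + s.im ^ 2 := by rw [Complex.sq_norm, normSq_apply, h]; ring
  have h4 : ‖s‖ ≤ ‖s + 1‖ := by
    refine (pow_le_pow_iff_left₀ (norm_nonneg _) (norm_nonneg _) two_ne_zero).1 ?_
    rw [h3, Complex.sq_norm, normSq_apply]
    simp [h]; nlinarith
  have h5 : min 1 (σ ^ 2) * (1 + s.im ^ 2) ≤ ‖s + 1‖ * ‖s‖ := by
    have := min_le_left 1 (σ ^ 2)
    have := min_le_right 1 (σ ^ 2)
    nlinarith [sq_nonneg s.im, norm_nonneg s]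
  rw [← div_eq_mul_inv, div_div, le_div_iff₀ (by positivity)]
  nlinarith [norm_nonneg (Complex.Gamma s)]

theorem exp_mellin {σ x : ℝ} (hσ : 0 < σ) (hx : 0 < x) :
    ((Real.exp (-x) : ℝ) : ℂ) = 1 / (2 * π) *
      ∫ τ : ℝ, Complex.Gamma (σ + τ * Complex.I) * (x : ℂ) ^ (-(σ + τ * Complex.I)) := by
  have e : ∀ τ : ℝ, mellin (fun x => ((Real.exp (-x) : ℝ) : ℂ)) (σ + τ * Complex.I) =
      Complex.Gamma (σ + τ * Complex.I) := fun τ => by
    rw [Complex.Gamma_eq_integral (by simpa using hσ), GammaIntegral_eq_mellin]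
  have h := mellinInv_mellin_eq σ (fun x => ((Real.exp (-x) : ℝ) : ℂ)) hx
    (by simpa [MellinConvergent, mul_comm] using
      Complex.GammaIntegral_convergent (s := σ) (by simpa using hσ))
    (by simpa only [VerticalIntegrable, e] using integrable_Gamma_line hσ) (by fun_prop)
  rw [← h, mellinInv]
  simp only [e, smul_eq_mul, real_smul, mul_comm (Complex.Gamma _)]
  push_cast
  rfl

end

end Vale.Agent.P026
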