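import Vale.Agent.P026.QuadA
import Vale.Agent.P026.Gau
import Vale.Agent.P026.Sup

namespace Vale.Agent.P026

open Complex MeasureTheory Filter Topology
open scoped Classical ComplexConjugate Real MatrixGroups

noncomputable section

theorem quadb_per {n : O} (hn : n ≠ 0) (t : O) : Per n (fun x => psi (toC t * toC x / toC n)) := by
  intro x y h
  beta_reduce
  rw [← map_mul, ← map_mul]
  exact psi_congr hn (by rw [← mul_sub]; exact h.mul_left _)

theorem quadb_unit {u : O} (hu : IsUnit u) (x : O) : psi (toC x / toC u) = 1 := by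
  rw [psi_congr hu.ne_zero (y := 0) hu.dvd, map_zero, zero_div, psi_zero]

theorem quadb_Gq_unit {u : O} (hu : IsUnit u) (t : O) : Gq t u = 1 := by
  unfold Gq
  simp_rw [← map_pow, ← map_mul, quadb_unit hu]
  rw [Finset.sum_const, card_rs hu.ne_zero, isUnit_iff_Nm.1 hu, one_smul]

theorem quadb_crt {a b : O} (ha : a ≠ 0) (hb : b ≠ 0) (h : IsCoprime a b) (t : O) :
    Gq t (a * b) = Gq (t * b) a * Gq (t * a) b := by
  unfold Gq
  rw [sum_rs_crt ha hb h (quada_per2 (mul_ne_zero ha hb) t), Finset.sum_mul_sum]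
  refine Finset.sum_congr rfl fun x _ => Finset.sum_congr rfl fun y _ => ?_
  have a0 := toC_ne_zero ha
  have b0 := toC_ne_zero hb
  rw [← mul_one (psi _ * psi _), ← psi_toC (2 * t * x * y), ← psi_add, ← psi_add]
  congr 1
  simp only [map_mul, map_add, map_ofNat]
  field_simp
  ring

theorem quadb_count {p : O} (hp : Prime p) (ho : OddO p) (y : O) (z : ℂ) :
    ∑ x ∈ rs p, (if p ∣ x ^ 2 - y then z else 0) = (1 + sym2 y p) * z := by
  have p0 := hp.ne_zero
  by_cases hy : p ∣ y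
  · have : sym2 y p = 0 := (sym2_eq_zero_iff p0).2 fun h =>
      hp.not_isUnit (h.isUnit_of_dvd' hy dvd_rfl)
    rw [this, add_zero, one_mul]
    refine Eq.trans (Finset.sum_congr rfl fun x _ => ?_) (sum_class p0 0 z)
    refine if_congr ?_ rfl rfl
    rw [zero_sub, dvd_neg, dvd_sub_left hy]
    exact ⟨hp.dvd_of_dvd_pow, fun h => h.trans (dvd_pow_self x two_ne_zero)⟩
  · by_cases h1 : sym2 y p = 1
    · obtain ⟨w, hw⟩ := (sym2_eq_one_iff hp ho hy).1 h1
      rw [h1, add_mul, one_mul]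
      conv_rhs => rw [← sum_class p0 w z]
      conv_rhs => enter [2]; rw [sum_class p0 w z, ← sum_class p0 (-w) z]
      rw [← Finset.sum_add_distrib]
      refine Finset.sum_congr rfl fun x _ => ?_
      have e : p ∣ x ^ 2 - y ↔ p ∣ w - x ∨ p ∣ -w - x := by
        rw [← hp.dvd_mul]
        have : (w - x) * (-w - x) = (x ^ 2 - y) + (y - w ^ 2) := by ring
        rw [this, dvd_add_left hw]
      have nb : ¬ (p ∣ w - x ∧ p ∣ -w - x) := fun h => by
        have h2 : p ∣ 2 * w := by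
          have := dvd_sub h.1 h.2
          rwa [show w - x - (-w - x) = 2 * w by ring] at this
        rcases hp.dvd_mul.1 h2 with h3 | h3
        · exact hp.not_isUnit ((oddO_iff_coprime.1 ho).isUnit_of_dvd' dvd_rfl h3)
        · exact hy ((dvd_sub_left (h3.trans (dvd_pow_self w two_ne_zero))).1 hw)
      by_cases a : p ∣ w - x <;> by_cases b : p ∣ -w - x <;> simp_all
    · have h2 : sym2 y p = -1 := by
        rcases sym2_cases y p with h | h | h
        · exact absurd (hp.coprime_iff_not_dvd.2 hy).symm ((sym2_eq_zero_iff p0).1 h)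
        · exact absurd h h1
        · exact h
      rw [h2, add_neg_cancel, zero_mul]
      refine Finset.sum_eq_zero fun x _ => if_neg fun h => h1 ?_
      exact (sym2_eq_one_iff hp ho hy).2 ⟨x, dvd_sub_comm.1 h⟩

theorem quadb_prime {p t : O} (hp : Prime p) (ho : OddO p) (ht : ¬ p ∣ t) :
    Gq t p = sym2 t p * g2 1 p := by
  have p0 := hp.ne_zero
  have hc : IsCoprime t p := (hp.coprime_iff_not_dvd.2 ht).symm
  have e1 : Gq t p = ∑ x ∈ rs p, ∑ y ∈ rs p,
      (if p ∣ x ^ 2 - y then psi (toC t * toC y / toC p) else 0) := by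
    refine Finset.sum_congr rfl fun x _ => ?_
    rw [← sum_class p0 (x ^ 2) (psi _)]
    refine Finset.sum_congr rfl fun y _ => ?_
    split_ifs with h
    · rw [← map_pow]
      exact quadb_per p0 t _ _ h
    · rfl
  rw [e1, Finset.sum_comm]
  simp_rw [quadb_count hp ho, add_mul, one_mul]
  rw [Finset.sum_add_distrib, sum_psi p0, if_neg ht, zero_add]
  have hper : Per p (fun x => sym2 x p * psi (toC 1 * toC x / toC p)) := fun x y h => by
    beta_reduce
    rw [sym2_congr h]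
    congr 1
    exact quadb_per p0 1 x y h
  unfold g2
  rw [← sum_rs_mul p0 hc hper, Finset.mul_sum]
  refine Finset.sum_congr rfl fun x _ => ?_
  rw [sym2_mul_left _ _ ho, ← mul_assoc, ← mul_assoc, ← sq, sym2_sq hc, one_mul, map_one, one_mul,
    map_mul]

theorem quadb_sq {p t m : O} (hp : Prime p) (ho : OddO p) (ht : ¬ p ∣ t) (hm : m ≠ 0) :
    Gq t (p * (m * p)) = ((N p : ℝ) : ℂ) * Gq t m := by
  have p0 := hp.ne_zero
  have p1 := toC_ne_zero p0
  have m1 := toC_ne_zero hm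
  have mp := mul_ne_zero hm p0
  rw [← sum_class p0 0 (((N p : ℝ) : ℂ) * Gq t m), Gq,
    sum_rs_split p0 mp (quada_per2 (mul_ne_zero p0 mp) t)]
  refine Finset.sum_congr rfl fun x _ => ?_
  have hper : Per (m * p) (fun j => psi (toC t * toC (x + p * j) ^ 2 / toC (p * (m * p)))) :=
    fun a b h => quada_per2 (mul_ne_zero p0 mp) t _ _ (by
      rw [show x + p * a - (x + p * b) = p * (a - b) by ring]
      exact mul_dvd_mul_left p h)
  rw [sum_rs_split hm p0 hper]
  have e : ∀ j k : O, psi (toC t * toC (x + p * (j + m * k)) ^ 2 / toC (p * (m * p))) =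
      psi (toC t * toC (x + p * j) ^ 2 / toC (p * (m * p))) *
        psi (toC (2 * t * x) * toC k / toC p) := fun j k => by
    rw [← mul_one (psi _ * psi _), ← psi_toC (2 * t * j * k + t * m * k ^ 2), ← psi_add, ← psi_add]
    congr 1
    simp only [map_mul, map_add, map_ofNat, map_pow]
    field_simp
    ring
  simp_rw [e, ← Finset.mul_sum, sum_psi p0]
  have e2 : p ∣ 2 * t * x ↔ p ∣ 0 - x := by
    rw [zero_sub, dvd_neg, hp.dvd_mul, hp.dvd_mul]
    refine ⟨fun h => ?_, Or.inr⟩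
    rcases h with (h | h) | h
    · exact absurd ((oddO_iff_coprime.1 ho).isUnit_of_dvd' dvd_rfl h) hp.not_isUnit
    · exact absurd h ht
    · exact h
  simp only [e2]
  split_ifs with h
  · rw [zero_sub, dvd_neg] at h
    obtain ⟨y, rfl⟩ := h
    rw [← Finset.sum_mul, mul_comm, Gq, ← sum_rs_add hm (quada_per2 hm t) y]
    congr 1
    refine Finset.sum_congr rfl fun j _ => ?_
    congr 1
    simp only [map_mul, map_add]
    field_simp
    ring
  · simp

theorem quadb_lt {p n : O} (hp : Prime p) (hn : n ≠ 0) : Nm n < Nm (p * n) := by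
  rw [Nm_mul]
  have h0 : Nm p ≠ 0 := fun h => hp.ne_zero (Nm_eq_zero.1 h)
  have h1 : Nm p ≠ 1 := fun h => hp.not_isUnit (isUnit_iff_Nm.2 h)
  have h2 : 0 < Nm n := Nat.pos_of_ne_zero fun h => hn (Nm_eq_zero.1 h)
  exact lt_mul_of_one_lt_left h2 (by omega)

theorem Gq_twist {t n : O} (hn : OddO n) (h : IsCoprime t n) :
    Gq t n = sym2 t n * Gq 1 n := by
  induction hk : Nm n using Nat.strong_induction_on generalizing n t with
  | _ k ih =>
  by_cases hu : IsUnit n
  · rw [quadb_Gq_unit hu, quadb_Gq_unit hu, sym2_unit_right _ hu, one_mul]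
  obtain ⟨p, hp, n', rfl⟩ := WfDvdMonoid.exists_irreducible_factor hu hn.ne_zero
  have hp' : Prime p := hp.prime
  obtain ⟨o1, o2⟩ := oddO_mul.1 hn
  obtain ⟨c1, c2⟩ := IsCoprime.mul_right_iff.1 h
  have nt : ¬ p ∣ t := hp'.coprime_iff_not_dvd.1 c1.symm
  have n1 : ¬ p ∣ 1 := hp'.not_dvd_one
  by_cases hd : p ∣ n'
  · obtain ⟨m, rfl⟩ := hd
    obtain ⟨-, o3⟩ := oddO_mul.1 o2
    obtain ⟨-, c3⟩ := IsCoprime.mul_right_iff.1 c2
    have := ih (Nm m) (hk ▸ (quadb_lt hp' o3.ne_zero).trans (quadb_lt hp' o2.ne_zero)) o3 c3 rfl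
    rw [sym2_mul_right _ o1.ne_zero o2.ne_zero, sym2_mul_right _ o1.ne_zero o3.ne_zero,
      ← mul_assoc (sym2 t p), ← sq, sym2_sq c1, one_mul, mul_comm p m,
      quadb_sq hp' o1 nt o3.ne_zero, quadb_sq hp' o1 n1 o3.ne_zero, this]
    ring
  · have hc : IsCoprime p n' := hp'.coprime_iff_not_dvd.2 hd
    have lt : Nm n' < k := hk ▸ quadb_lt hp' o2.ne_zero
    rw [quadb_crt o1.ne_zero o2.ne_zero hc, quadb_crt o1.ne_zero o2.ne_zero hc, one_mul, one_mul,
      quadb_prime hp' o1 hd, quadb_prime hp' o1 (fun h => (hp'.dvd_mul.1 h).elim nt hd),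
      ih _ lt o2 hc rfl, ih _ lt o2 (c2.mul_left hc) rfl, sym2_mul_left _ _ o1,
      sym2_mul_left _ _ o2, sym2_mul_right _ o1.ne_zero o2.ne_zero]
    ring

theorem quadb_norm {n : O} (hn : OddO n) : Gq 1 n * conj (Gq 1 n) = ((N n : ℝ) : ℂ) := by
  have n0 := hn.ne_zero
  have n1 := toC_ne_zero n0
  unfold Gq
  rw [map_sum, Finset.mul_sum]
  have e : ∀ y : O, (∑ x ∈ rs n, psi (toC 1 * toC x ^ 2 / toC n)) *
      conj (psi (toC 1 * toC y ^ 2 / toC n)) = ∑ x ∈ rs n, psi (toC 1 * toC x ^ 2 / toC n) *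
        psi (toC (2 * x) * toC y / toC n) := fun y => by
    rw [← sum_rs_add n0 (quada_per2 n0 1) y, Finset.sum_mul]
    refine Finset.sum_congr rfl fun x _ => ?_
    rw [← psi_neg, ← psi_add, ← psi_add]
    congr 1
    simp only [map_mul, map_add, map_ofNat, map_one]
    field_simp
    ring
  simp_rw [e]
  rw [Finset.sum_comm]
  simp_rw [← Finset.mul_sum, sum_psi n0]
  refine Eq.trans (Finset.sum_congr rfl fun x _ => ?_) (sum_class n0 0 _)
  have e2 : n ∣ 2 * x ↔ n ∣ 0 - x := by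
    rw [zero_sub, dvd_neg]
    exact ⟨(oddO_iff_coprime.1 hn).dvd_of_dvd_mul_left, fun h => h.mul_left _⟩
  simp only [e2]
  split_ifs with h
  · have : psi (toC 1 * toC x ^ 2 / toC n) = psi (toC 1 * toC 0 ^ 2 / toC n) :=
      quada_per2 n0 1 x 0 (dvd_sub_comm.1 h)
    rw [this, map_zero, zero_pow two_ne_zero, mul_zero, zero_div, psi_zero, one_mul]
  · rw [mul_zero]

theorem quadb_G1 {n : O} (hn : n ≠ 0) : Gq 1 n = (‖toC n‖ : ℂ) * F1 n := Gq_eq one_ne_zero hn

theorem norm_F1 {n : O} (hn : OddO n) : ‖F1 n‖ = 1 := by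
  have h := congrArg norm (quadb_norm hn)
  have n0 := norm_pos_iff.2 (toC_ne_zero hn.ne_zero)
  rw [norm_mul, Complex.norm_conj, quadb_G1 hn.ne_zero, norm_mul, ← norm_toC_sq, Complex.norm_real,
    Complex.norm_real, norm_norm, Real.norm_of_nonneg (by positivity)] at h
  have h2 : ‖F1 n‖ ^ 2 = 1 := by
    have : ‖toC n‖ ^ 2 * ‖F1 n‖ ^ 2 = ‖toC n‖ ^ 2 * 1 := by linarith
    exact mul_left_cancel₀ (by positivity) this
  exact (pow_eq_one_iff_of_nonneg (norm_nonneg _) two_ne_zero).1 h2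
theorem norm_F1_le (n : O) : ‖F1 n‖ ≤ 2 := by
  unfold F1 Ft
  have h : ‖∑ h ∈ rs (2 * 1), psi (-(toC n * toC h ^ 2 / (4 * toC 1)))‖ ≤ 4 := by
    refine (norm_sum_le _ _).trans (le_of_eq ?_)
    simp_rw [norm_psi]
    rw [Finset.sum_const, card_rs (by decide), nsmul_one]
    have : Nm (2 * 1) = 4 := by decide
    rw [this]
    norm_num
  rw [norm_mul]
  have e : ‖(1 / (2 * (‖toC 1‖ : ℂ)) : ℂ)‖ = 1 / 2 := by simp
  rw [e]
  linarith
theorem F1_per : Per 4 F1 := by
  have := Ft_per (t := 1) one_ne_zero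
  rwa [mul_one] at this
theorem F1_mul_sq (n : O) {x : O} (hx : OddO x) : F1 (n * x ^ 2) = F1 n := by
  unfold F1 Ft
  congr 1
  rw [← sum_rs_mul (q := 2 * 1) (t := x) (by decide) (by rw [mul_one]; exact oddO_iff_coprime.1 hx)
    (quada_per one_ne_zero n)]
  refine Finset.sum_congr rfl fun h _ => ?_
  simp only [map_mul, map_pow]
  rw [mul_pow, mul_assoc]
theorem F1_one : F1 1 = 1 := by
  have := quadb_G1 (n := 1) one_ne_zero
  rw [quadb_Gq_unit isUnit_one] at this
  simpa using this.symm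
theorem F1_mul_of_congr {a b : O} (ha : OddO a) (h : (4 : O) ∣ a - b) : F1 (a * b) = 1 := by
  rw [← F1_one, ← F1_mul_sq 1 ha]
  refine F1_per _ _ ?_
  rw [show a * b - 1 * a ^ 2 = (a - b) * -a by ring]
  exact h.mul_right _

theorem quadb_g2 {a b : O} (ha : OddO a) (hb : OddO b) (h : IsCoprime a b) :
    g2 1 (a * b) = sym2 b a * g2 1 a * (sym2 a b * g2 1 b) := by
  have a0 := ha.ne_zero
  have b0 := hb.ne_zero
  have a1 := toC_ne_zero a0
  have b1 := toC_ne_zero b0
  have hper : Per (a * b) (fun x => sym2 x (a * b) * psi (toC 1 * toC x / toC (a * b))) :=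
    fun x y h => by
      beta_reduce
      rw [sym2_congr h]
      congr 1
      exact quadb_per (mul_ne_zero a0 b0) 1 x y h
  unfold g2
  rw [sum_rs_crt a0 b0 h hper, Finset.mul_sum, Finset.mul_sum, Finset.sum_mul_sum]
  refine Finset.sum_congr rfl fun x _ => Finset.sum_congr rfl fun y _ => ?_
  have e : psi (toC 1 * toC (x * b + y * a) / toC (a * b)) =
      psi (toC 1 * toC x / toC a) * psi (toC 1 * toC y / toC b) := by
    rw [← psi_add]
    congr 1
    simp only [map_mul, map_add, map_one]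
    field_simp
  rw [e, sym2_mul_right _ a0 b0, sym2_congr (y := x * b) (n := a) ⟨y, by ring⟩,
    sym2_congr (y := y * a) (n := b) ⟨x, by ring⟩, sym2_mul_left _ _ ha, sym2_mul_left _ _ hb]
  ring

theorem g2_eq {n : O} (hn : OddO n) (hs : Squarefree n) : g2 1 n = (‖toC n‖ : ℂ) * F1 n := by
  rw [← quadb_G1 hn.ne_zero]
  induction n using UniqueFactorizationMonoid.induction_on_prime with
  | h₁ => exact absurd rfl hn.ne_zero
  | h₂ u hu =>
    rw [quadb_Gq_unit hu]
    unfold g2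
    simp_rw [← map_mul, quadb_unit hu, sym2_unit_right _ hu, mul_one]
    rw [Finset.sum_const, card_rs hu.ne_zero, isUnit_iff_Nm.1 hu, one_smul]
  | h₃ a p ha hp ih =>
    obtain ⟨o1, o2⟩ := oddO_mul.1 hn
    have hd : ¬ p ∣ a := fun h => hp.not_isUnit (hs p (mul_dvd_mul_left p h))
    have hc : IsCoprime p a := hp.coprime_iff_not_dvd.2 hd
    rw [quadb_g2 o1 o2 hc, quadb_crt o1.ne_zero ha hc, one_mul, one_mul, quadb_prime hp o1 hd,
      Gq_twist o2 hc, ih o2 hs.of_mul_right]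
theorem sym2_recip {a b : O} (ha : OddO a) (hb : OddO b) (h : IsCoprime a b) :
    sym2 a b * sym2 b a = eps a b := by
  have e := quadb_crt ha.ne_zero hb.ne_zero h 1
  rw [one_mul, one_mul, Gq_twist ha h.symm, Gq_twist hb h, quadb_G1 ha.ne_zero, quadb_G1 hb.ne_zero,
    quadb_G1 (mul_ne_zero ha.ne_zero hb.ne_zero), map_mul, norm_mul] at e
  have a1 : (‖toC a‖ : ℂ) ≠ 0 := by exact_mod_cast norm_ne_zero_iff.2 (toC_ne_zero ha.ne_zero)
  have b1 : (‖toC b‖ : ℂ) ≠ 0 := by exact_mod_cast norm_ne_zero_iff.2 (toC_ne_zero hb.ne_zero)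
  have e2 : F1 (a * b) = sym2 a b * sym2 b a * F1 a * F1 b := by
    push_cast at e
    apply mul_left_cancel₀ (mul_ne_zero a1 b1)
    rw [e]
    ring
  have u1 : F1 a * conj (F1 a) = 1 := by rw [mul_conj, normSq_eq_norm_sq, norm_F1 ha]; simp
  have u2 : F1 b * conj (F1 b) = 1 := by rw [mul_conj, normSq_eq_norm_sq, norm_F1 hb]; simp
  unfold eps
  rw [e2]
  linear_combination (-(sym2 a b * sym2 b a)) * u1 - (sym2 a b * sym2 b a * F1 a * conj (F1 a)) * u2
theorem sym2_flip {a b : O} (ha : OddO a) (hb : OddO b) : sym2 a b = eps a b * sym2 b a := by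
  by_cases h : IsCoprime a b
  · rw [← sym2_recip ha hb h, mul_assoc, ← sq, sym2_sq h.symm, mul_one]
  · rw [(sym2_eq_zero_iff hb.ne_zero).2 h, (sym2_eq_zero_iff ha.ne_zero).2 fun h' => h h'.symm,
      mul_zero]
theorem eps_congr {a a' b b' : O} (h : (4 : O) ∣ a - a') (h' : (4 : O) ∣ b - b') :
    eps a b = eps a' b' := by
  unfold eps
  rw [F1_per a a' h, F1_per b b' h', F1_per (a * b) (a' * b')]
  rw [show a * b - a' * b' = (a - a') * b + a' * (b - b') by ring]
  exact dvd_add (h.mul_right _) (h'.mul_left _)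
theorem eps_comm (a b : O) : eps a b = eps b a := by
  unfold eps
  rw [mul_comm a b]
  ring
theorem norm_eps {a b : O} (ha : OddO a) (hb : OddO b) : ‖eps a b‖ = 1 := by
  unfold eps
  rw [norm_mul, norm_mul, Complex.norm_conj, Complex.norm_conj, norm_F1 ha, norm_F1 hb,
    norm_F1 (oddO_mul.2 ⟨ha, hb⟩)]
  norm_num

theorem quadb_Ft {t n : O} (ht : t ≠ 0) (hn : OddO n) (h : IsCoprime t n) :
    Ft t n = sym2 t n * F1 n := by
  have e := Gq_twist hn h
  rw [Gq_eq ht hn.ne_zero, quadb_G1 hn.ne_zero, mul_left_comm] at e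
  exact mul_left_cancel₀ (by exact_mod_cast norm_ne_zero_iff.2 (toC_ne_zero hn.ne_zero)) e

theorem quadb_sym_per {t n n' : O} (ht : t ≠ 0) (hn : OddO n) (h : 4 * t ∣ n - n') :
    sym2 t n = sym2 t n' := by
  have h4 : (4 : O) ∣ n - n' := (dvd_mul_right _ _).trans h
  have hn' : OddO n' := hn.congr (Dvd.dvd.trans ⟨2, by norm_num⟩ h4)
  obtain ⟨k, hk⟩ : t ∣ n - n' := (dvd_mul_left _ _).trans h
  have e : n = n' + t * k := by rw [← hk]; ring
  have hc : IsCoprime t n ↔ IsCoprime t n' := by rw [e, IsCoprime.add_mul_left_right_iff]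
  by_cases c : IsCoprime t n
  · have a := Ft_per ht n n' h
    rw [quadb_Ft ht hn c, quadb_Ft ht hn' (hc.1 c), F1_per n n' h4] at a
    exact mul_right_cancel₀ (norm_ne_zero_iff.1 (by rw [norm_F1 hn']; exact one_ne_zero)) a
  · rw [(sym2_eq_zero_iff hn.ne_zero).2 c, (sym2_eq_zero_iff hn'.ne_zero).2 fun h' => c (hc.2 h')]

theorem sym2_per {k q n n' : O} {j : ℕ} (hn : OddO n) (hq : q ≠ 0)
    (h : 4 * q ∣ n - n') (hk : k ∣ q ^ j) : sym2 k n = sym2 k n' := by
  have h4 : (4 : O) ∣ n - n' := (dvd_mul_right _ _).trans h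
  have hn' : OddO n' := hn.congr (Dvd.dvd.trans ⟨2, by norm_num⟩ h4)
  induction k using UniqueFactorizationMonoid.induction_on_prime with
  | h₁ => exact absurd (zero_dvd_iff.1 hk) (pow_ne_zero _ hq)
  | h₂ u hu => exact quadb_sym_per hu.ne_zero hn (hu.mul_right_dvd.2 h4)
  | h₃ a p ha hp ih =>
    rw [sym2_mul_left _ _ hn, sym2_mul_left _ _ hn', ih ((dvd_mul_left _ _).trans hk),
      quadb_sym_per hp.ne_zero hn ((mul_dvd_mul_left 4
        (hp.dvd_of_dvd_pow ((dvd_mul_right _ _).trans hk))).trans h)]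
theorem chi6_flip {a b : O} (ha : Prim a) (hb : Prim b) (ha' : OddO a) (hb' : OddO b) :
    chi6 a b = eps a b * chi6 b a := by
  unfold chi6
  rw [cubic_recip ha hb, sym2_flip ha' hb']
  ring
theorem chi6_per {k q n n' : O} {j : ℕ} (hn : Prim n) (ho : OddO n) (hq : q ≠ 0)
    (h : 36 * q ∣ n - n') (hk : k ∣ q ^ j) : chi6 k n = chi6 k n' := by
  have h9 : 9 * q ∣ n - n' := Dvd.dvd.trans ⟨4, by ring⟩ h
  have h4 : 4 * q ∣ n - n' := Dvd.dvd.trans ⟨9, by ring⟩ h
  have hn' : Prim n' := hn.congr (Dvd.dvd.trans ⟨12 * q, by ring⟩ h)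
  unfold chi6
  rw [sym3_per hn hn' hq h9 hk, sym2_per ho hq h4 hk]

end

end Vale.Agent.P026
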