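import Vale.Agent.P026.PV
import Vale.Agent.P026.QuadB

namespace Vale.Agent.P026

open Complex MeasureTheory Filter Topology
open scoped Classical ComplexConjugate Real MatrixGroups

noncomputable section

theorem duality {ι κ : Type*} (S : Finset ι) (T : Finset κ) (φ : ι → κ → ℂ) {D : ℝ} (hD : 0 ≤ D)
    (h : ∀ c : ι → ℂ, ∑ j ∈ T, ‖∑ i ∈ S, c i * φ i j‖ ^ 2 ≤ D * ∑ i ∈ S, ‖c i‖ ^ 2)
    (a : κ → ℂ) : ∑ i ∈ S, ‖∑ j ∈ T, a j * φ i j‖ ^ 2 ≤ D * ∑ j ∈ T, ‖a j‖ ^ 2 := by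
  set s : ι → ℂ := fun i => ∑ j ∈ T, a j * φ i j with hs
  set L : ℝ := ∑ i ∈ S, ‖s i‖ ^ 2 with hL
  have L0 : 0 ≤ L := Finset.sum_nonneg fun _ _ => by positivity
  have A0 : 0 ≤ ∑ j ∈ T, ‖a j‖ ^ 2 := Finset.sum_nonneg fun _ _ => by positivity
  have e : (L : ℂ) = ∑ j ∈ T, a j * ∑ i ∈ S, conj (s i) * φ i j := by
    simp only [Finset.mul_sum]
    rw [Finset.sum_comm, hL]
    push_cast
    refine Finset.sum_congr rfl fun i _ => ?_
    rw [← Complex.conj_mul']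
    conv_lhs => rw [hs]
    simp only [Finset.mul_sum]
    exact Finset.sum_congr rfl fun j _ => by ring
  have h1 : L ≤ ∑ j ∈ T, ‖a j‖ * ‖∑ i ∈ S, conj (s i) * φ i j‖ := by
    have : L = ‖(L : ℂ)‖ := by rw [Complex.norm_real, Real.norm_of_nonneg L0]
    rw [this, e]
    exact (norm_sum_le _ _).trans (le_of_eq (by simp only [norm_mul]))
  have h2 := h fun i => conj (s i)
  simp only [RCLike.norm_conj] at h2
  rw [← hL] at h2
  have h3 : L ^ 2 ≤ (∑ j ∈ T, ‖a j‖ ^ 2) * (D * L) :=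
    (pow_le_pow_left₀ L0 h1 2).trans ((Finset.sum_mul_sq_le_sq_mul_sq _ _ _).trans
      (mul_le_mul_of_nonneg_left h2 A0))
  rcases L0.eq_or_lt with h0 | h0
  · rw [← h0]; positivity
  · exact le_of_mul_le_mul_right (by nlinarith) h0

/-- splitting the coefficients into finitely many classes -/
theorem dual_split {ι κ γ : Type*} [DecidableEq γ] (S : Finset ι) (T : Finset κ) (J : Finset γ) (f : κ → γ)
    (hf : ∀ n ∈ T, f n ∈ J) (φ : ι → κ → ℂ) (a : κ → ℂ) {D : ℝ}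
    (h : ∀ j ∈ J, ∑ m ∈ S, ‖∑ n ∈ T, (if f n = j then a n else 0) * φ m n‖ ^ 2 ≤
      D * ∑ n ∈ T, ‖if f n = j then a n else 0‖ ^ 2) :
    ∑ m ∈ S, ‖∑ n ∈ T, a n * φ m n‖ ^ 2 ≤ J.card * D * ∑ n ∈ T, ‖a n‖ ^ 2 := by
  have e1 : ∀ m, ∑ n ∈ T, a n * φ m n =
      ∑ j ∈ J, ∑ n ∈ T, (if f n = j then a n else 0) * φ m n := fun m => by
    rw [Finset.sum_comm]
    refine Finset.sum_congr rfl fun n hn => ?_
    rw [← Finset.sum_mul, Finset.sum_ite_eq, if_pos (hf n hn)]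
  have e2 : ∑ j ∈ J, ∑ n ∈ T, ‖if f n = j then a n else 0‖ ^ 2 = ∑ n ∈ T, ‖a n‖ ^ 2 := by
    rw [Finset.sum_comm]
    refine Finset.sum_congr rfl fun n hn => ?_
    have : ∀ j, ‖if f n = j then a n else 0‖ ^ 2 = if f n = j then ‖a n‖ ^ 2 else 0 := fun j => by
      split_ifs <;> simp
    simp only [this]
    rw [Finset.sum_ite_eq, if_pos (hf n hn)]
  calc ∑ m ∈ S, ‖∑ n ∈ T, a n * φ m n‖ ^ 2
      ≤ ∑ m ∈ S, (J.card : ℝ) * ∑ j ∈ J, ‖∑ n ∈ T, (if f n = j then a n else 0) * φ m n‖ ^ 2 := by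
        refine Finset.sum_le_sum fun m _ => ?_
        rw [e1]
        exact (pow_le_pow_left₀ (norm_nonneg _) (norm_sum_le _ _) 2).trans sq_sum_le_card_mul_sum_sq
    _ = (J.card : ℝ) * ∑ j ∈ J, ∑ m ∈ S, ‖∑ n ∈ T, (if f n = j then a n else 0) * φ m n‖ ^ 2 := by
        rw [← Finset.mul_sum, Finset.sum_comm]
    _ ≤ (J.card : ℝ) * ∑ j ∈ J, D * ∑ n ∈ T, ‖if f n = j then a n else 0‖ ^ 2 :=
        mul_le_mul_of_nonneg_left (Finset.sum_le_sum h) (by positivity)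
    _ = _ := by rw [← Finset.mul_sum, e2, mul_assoc]

theorem dual_four_ne : (4 : O) ≠ 0 := by
  intro h
  have := congrArg N h
  rw [N_ofNat, N_zero] at this
  norm_num at this

/-- the class of `n` modulo four -/
def dual_cl (n : O) : O := (rs_exists dual_four_ne n).choose
theorem dual_cl_mem (n : O) : dual_cl n ∈ rs 4 := (rs_exists dual_four_ne n).choose_spec.1
theorem dual_cl_dvd (n : O) : (4 : O) ∣ n - dual_cl n := (rs_exists dual_four_ne n).choose_spec.2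
theorem dual_card : ((rs 4).card : ℝ) = 16 := by
  rw [card_rs dual_four_ne]
  have : N (4 : O) = 16 := by rw [N_ofNat]; norm_num
  exact this

theorem dual_flip {S T : Finset O} (hS : ∀ m ∈ S, OddO m) (hT : ∀ n ∈ T, OddO n) {D : ℝ}
    (φ φ' : O → O → ℂ) (e : ∀ m ∈ S, ∀ n ∈ T, φ' m n = eps m n * φ m n)
    (h : ∀ a : O → ℂ, ∑ m ∈ S, ‖∑ n ∈ T, a n * φ m n‖ ^ 2 ≤ D * ∑ n ∈ T, ‖a n‖ ^ 2)
    (a : O → ℂ) :
    ∑ m ∈ S, ‖∑ n ∈ T, a n * φ' m n‖ ^ 2 ≤ 16 * D * ∑ n ∈ T, ‖a n‖ ^ 2 := by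
  rw [← dual_card]
  refine dual_split S T (rs 4) dual_cl (fun n _ => dual_cl_mem n) φ' a fun c _ =>
    le_trans (Finset.sum_le_sum fun m hm => le_of_eq ?_) (h _)
  by_cases hc : ∃ n0 ∈ T, dual_cl n0 = c
  · obtain ⟨n0, h0, hc⟩ := hc
    have : ∑ n ∈ T, (if dual_cl n = c then a n else 0) * φ' m n =
        eps m n0 * ∑ n ∈ T, (if dual_cl n = c then a n else 0) * φ m n := by
      rw [Finset.mul_sum]
      refine Finset.sum_congr rfl fun n hn => ?_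
      split_ifs with h1
      · have : (4 : O) ∣ n - n0 := by
          have := dvd_sub (dual_cl_dvd n) (dual_cl_dvd n0)
          rw [h1, hc] at this
          simpa using this
        rw [e m hm n hn, eps_congr (a := m) (a' := m) (by simp) this]
        ring
      · simp
    rw [this, norm_mul, norm_eps (hS m hm) (hT n0 h0), one_mul]
  · push Not at hc
    rw [Finset.sum_eq_zero fun n hn => by simp [hc n hn],
      Finset.sum_eq_zero fun n hn => by simp [hc n hn]]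

/-- flipping the quadratic symbol costs a factor 16 -/
theorem flip_ls {S T : Finset O} (hS : ∀ m ∈ S, OddO m) (hT : ∀ n ∈ T, OddO n) {D : ℝ}
    (hD : 0 ≤ D)
    (h : ∀ a : O → ℂ, ∑ m ∈ S, ‖∑ n ∈ T, a n * sym2 m n‖ ^ 2 ≤ D * ∑ n ∈ T, ‖a n‖ ^ 2)
    (a : O → ℂ) :
    ∑ m ∈ S, ‖∑ n ∈ T, a n * sym2 n m‖ ^ 2 ≤ 16 * D * ∑ n ∈ T, ‖a n‖ ^ 2 := by
  have _ := hD
  exact dual_flip hS hT (fun m n => sym2 m n) (fun m n => sym2 n m)
    (fun m hm n hn => by rw [sym2_flip (hT n hn) (hS m hm), eps_comm]) h a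
theorem flip_ls' {S T : Finset O} (hS : ∀ m ∈ S, OddO m) (hT : ∀ n ∈ T, OddO n) {D : ℝ}
    (hD : 0 ≤ D)
    (h : ∀ a : O → ℂ, ∑ m ∈ S, ‖∑ n ∈ T, a n * sym2 n m‖ ^ 2 ≤ D * ∑ n ∈ T, ‖a n‖ ^ 2)
    (a : O → ℂ) :
    ∑ m ∈ S, ‖∑ n ∈ T, a n * sym2 m n‖ ^ 2 ≤ 16 * D * ∑ n ∈ T, ‖a n‖ ^ 2 := by
  have _ := hD
  exact dual_flip hS hT (fun m n => sym2 n m) (fun m n => sym2 m n)
    (fun m hm n hn => sym2_flip (hS m hm) (hT n hn)) h a

theorem dual_odd {R : ℝ} : ∀ n ∈ ballN R, OddO n := fun _ hn => (mem_ballN.1 hn).1.2.2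

theorem dual_sub (R : ℝ) : ballN R ⊆ ballO R := Finset.filter_subset _ _

theorem dual_cover {α β : Type*} (B : Finset α) (P : Finset β) (g : β → α) (F : α → ℝ)
    (hF : ∀ x, 0 ≤ F x) (h : ∀ b ∈ B, ∃ p ∈ P, g p = b) : ∑ b ∈ B, F b ≤ ∑ p ∈ P, F (g p) :=
  (Finset.sum_le_sum_of_subset_of_nonneg (fun b hb => Finset.mem_image.2 (h b hb))
    fun _ _ _ => hF _).trans (Finset.sum_image_le_of_nonneg fun _ _ => hF _)

theorem ls0 {ε : ℝ} (hε : 0 < ε) : ∃ C : ℝ, 0 < C ∧ ∀ (Z R K : ℝ) (a : O → ℂ),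
    1 ≤ Z → 0 < R → 0 < K → K ≤ Z →
    ∑ b ∈ (ballO K).filter Squarefree, ‖∑ n ∈ ballN R, a n * sym2 b n‖ ^ 2 ≤
      C * Z ^ ε * (R + K ^ 2) * ∑ n ∈ ballN R, ‖a n‖ ^ 2 := by
  obtain ⟨C, C0, hC⟩ := pv_sym2 hε
  refine ⟨((ballO 12).card + 1) * 16 * C, by positivity, fun Z R K a hZ hR hK hKZ => ?_⟩
  have D0 : 0 ≤ C * Z ^ ε * (R + K ^ 2) := by positivity
  have h1 := flip_ls' (S := ballN K) (T := ballN R) dual_odd dual_odd D0
    (duality (ballN K) (ballN R) (fun i j => sym2 j i) D0 fun c =>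
      (Finset.sum_le_sum_of_subset_of_nonneg (dual_sub R) fun _ _ _ => by positivity).trans
        (hC Z K R c hZ hK hKZ hR))
  have A0 : 0 ≤ ∑ n ∈ ballN R, ‖a n‖ ^ 2 := Finset.sum_nonneg fun _ _ => by positivity
  refine (dual_cover _ (ballO 12 ×ˢ ballN K) (fun p => p.1 * p.2)
    (fun b => ‖∑ n ∈ ballN R, a n * sym2 b n‖ ^ 2) (fun _ => by positivity) fun b hb => ?_).trans ?_
  · obtain ⟨hb1, hb2⟩ := Finset.mem_filter.1 hb
    obtain ⟨u, i, j, b0, hu, hi, hj, h0, rfl⟩ := sqfree_decomp hb2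
    obtain ⟨n0, n1⟩ := mem_ballO.1 hb1
    have s0 : u * (-2) ^ i * lam ^ j ≠ 0 := left_ne_zero_of_mul n0
    refine ⟨(u * (-2) ^ i * lam ^ j, b0), Finset.mem_product.2 ⟨mem_ballO.2 ⟨s0, ?_⟩,
      mem_ballN.2 ⟨h0, le_trans (N_le_of_dvd (dvd_mul_left _ _) n0) n1⟩⟩, rfl⟩
    have h2 : N (2 : O) = 4 := by rw [N_ofNat]; norm_num
    simp only [N_mul, N_pow, N_unit hu, N_neg, N_lam, h2]
    interval_cases i <;> interval_cases j <;> norm_num
  · rw [Finset.sum_product]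
    calc ∑ s ∈ ballO 12, ∑ b ∈ ballN K, ‖∑ n ∈ ballN R, a n * sym2 (s * b) n‖ ^ 2
        ≤ ∑ s ∈ ballO 12, 16 * (C * Z ^ ε * (R + K ^ 2)) * ∑ n ∈ ballN R, ‖a n‖ ^ 2 := by
          refine Finset.sum_le_sum fun s _ => le_trans (le_of_eq ?_)
            ((h1 fun n => a n * sym2 s n).trans (mul_le_mul_of_nonneg_left
              (Finset.sum_le_sum fun n _ => ?_) (by positivity)))
          · refine Finset.sum_congr rfl fun b _ => ?_
            congr 2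
            exact Finset.sum_congr rfl fun n hn => by
              rw [sym2_mul_left _ _ (dual_odd n hn), mul_assoc]
          · rw [norm_mul]
            exact pow_le_pow_left₀ (by positivity)
              (mul_le_of_le_one_right (norm_nonneg _) (norm_sym2_le _ _)) 2
      _ ≤ _ := by
          rw [Finset.sum_const, nsmul_eq_mul]
          nlinarith [mul_nonneg D0 A0]

end

end Vale.Agent.P026
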