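import Vale.Agent.P026.PP
import Vale.Agent.P026.Gm

namespace Vale.Agent.P026

open Complex MeasureTheory Filter Topology
open scoped Classical ComplexConjugate Real MatrixGroups

noncomputable section

theorem pv_zero {n1 n2 : O} (h1 : NN n1) (h2 : NN n2) (h : n1 ≠ n2) :
    chi6 0 n1 = 0 ∨ chi6 0 n2 = 0 := by
  by_contra hc
  rw [not_or, chi6_eq_zero_iff h1.ne_zero, chi6_eq_zero_iff h2.ne_zero, not_not, not_not,
    isCoprime_zero_left, isCoprime_zero_left] at hc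
  exact h ((h1.1.eq_one_of_isUnit hc.1).trans (h2.1.eq_one_of_isUnit hc.2).symm)

theorem pv_norm_gs {n : O} (hn : NN n) {k : ℕ} (h1 : 1 ≤ k) (h5 : k ≤ 5) :
    ‖gs k 1 n‖ = √(N n) := by
  have := norm_gt hn h1 h5
  rw [gt, norm_div, Complex.norm_real, norm_norm,
    div_eq_one_iff_eq (norm_ne_zero_iff.2 (toC_ne_zero hn.ne_zero))] at this
  rw [this, norm_toC]

theorem pv_off : ∃ C : ℝ, 0 < C ∧ ∀ (k : ℕ) (Y : ℝ) (n1 n2 : O), 1 ≤ k → k ≤ 5 → 0 < Y →
    NN n1 → NN n2 → n1 ≠ n2 →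
    ‖∑' m : O, chi6 m n1 ^ k * conj (chi6 m n2 ^ k) * ((Real.exp (-(kap * (N m / Y))) : ℝ) : ℂ)‖ ≤
      C * ((dv n1 * √(N n1)) * (dv n2 * √(N n2))) := by
  obtain ⟨C, hC0, hC⟩ := sum_exp_le kap_pos
  refine ⟨C, hC0, fun k Y n1 n2 hk1 hk5 hY h1 h2 hne => ?_⟩
  obtain ⟨g, hg, ⟨a, rfl⟩, ⟨b, rfl⟩, hd⟩ := exists_prim_gcd h1.1 n2
  obtain ⟨g1, a1, -⟩ := (nn_mul_iff hg (h1.1.of_mul hg)).1 h1
  obtain ⟨-, b1, hgb⟩ := (nn_mul_iff hg (h2.1.of_mul hg)).1 h2
  have hab : IsCoprime a b := (isCoprime_iff_no_prime (Or.inl a1.ne_zero)).2 fun p hp pa pb =>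
    hp.not_isUnit (isUnit_of_dvd_one ((mul_dvd_mul_iff_left g1.ne_zero).1 (by
      rw [mul_one]; exact hd _ (mul_dvd_mul_left g pa) (mul_dvd_mul_left g pb))))
  have hz := pv_zero a1 b1 fun e => hne (by rw [e])
  rw [pair_poisson poisPair_exp g1 a1 b1 hab hk1 hk5 hY]
  refine (norm_sum_le _ _).trans ((Finset.sum_le_card_nsmul _ _ (C * (√(N a) * √(N b)))
    fun e he => ?_).trans ?_)
  · have he0 := ((mem_divs g1.ne_zero).1 he).1.ne_zero
    have hT : 0 < Y / (N e * N a * N b) :=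
      div_pos hY (mul_pos (mul_pos (N_pos he0) (N_pos a1.ne_zero)) (N_pos b1.ne_zero))
    generalize Y / (N e * N a * N b) = T at hT
    obtain ⟨s1, s2⟩ := hC T⁻¹ (inv_pos.2 hT)
    have s3 : Summable fun h : O => if h ≠ 0 then Real.exp (-(kap * N h / T⁻¹)) else 0 :=
      Summable.of_nonneg_of_le (fun h => by positivity) (fun h => by
        split_ifs
        · exact le_rfl
        · positivity) s1
    have b2 := tsum_of_norm_bounded (f := fun h : O => chi6 b a ^ k * conj (chi6 a b ^ k) *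
        (chi6 h a ^ (6 - k) * gs k 1 a) * conj (chi6 (-h) b ^ (6 - k) * gs k 1 b) *
        ((Real.exp (-(kap * (N h * T))) : ℝ) : ℂ)) (s3.mul_left (√(N a) * √(N b))).hasSum
      fun h => by
        split_ifs with h0
        · have c1 : ‖chi6 b a ^ k * conj (chi6 a b ^ k)‖ ≤ 1 := by
            rw [norm_mul, Complex.norm_conj, norm_pow, norm_pow]
            exact mul_le_one₀ (pow_le_one₀ (norm_nonneg _) (norm_chi6_le _ _)) (by positivity)
              (pow_le_one₀ (norm_nonneg _) (norm_chi6_le _ _))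
          have c2 : ∀ {x n : O}, NN n → ‖chi6 x n ^ (6 - k) * gs k 1 n‖ ≤ √(N n) := fun hn => by
            rw [norm_mul, norm_pow, pv_norm_gs hn hk1 hk5]
            exact mul_le_of_le_one_left (Real.sqrt_nonneg _)
              (pow_le_one₀ (norm_nonneg _) (norm_chi6_le _ _))
          rw [norm_mul, norm_mul, norm_mul, Complex.norm_conj, Complex.norm_real,
            Real.norm_of_nonneg (Real.exp_pos _).le, div_inv_eq_mul, mul_assoc kap]
          refine mul_le_mul_of_nonneg_right (mul_le_mul ?_ (c2 b1) (norm_nonneg _)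
            (Real.sqrt_nonneg _)) (Real.exp_pos _).le
          exact (mul_le_of_le_one_left (norm_nonneg _) c1).trans (c2 a1)
        · rw [not_not] at h0
          have : 6 - k ≠ 0 := by omega
          rcases hz with hz | hz <;> simp [h0, hz, this]
    rw [tsum_mul_left] at b2
    rw [norm_mul, norm_mul, norm_mul, Complex.norm_real, Real.norm_of_nonneg hT.le]
    calc _ ≤ 1 * 1 * T * (√(N a) * √(N b) * (C * T⁻¹)) := by
          gcongr
          · exact norm_mu_le e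
          · exact pp_norm_le k e a b
          · exact b2.trans (by gcongr)
      _ = _ := by field_simp
  · rw [nsmul_eq_mul]
    have d1 := (card_divs_le g).trans (dv_le_of_dvd (dvd_mul_right g a) h1.ne_zero)
    have d2 := one_le_dv h2.ne_zero
    have d3 := Real.sqrt_le_sqrt (N_le_of_dvd (dvd_mul_left a g) h1.ne_zero)
    have d4 := Real.sqrt_le_sqrt (N_le_of_dvd (dvd_mul_left b g) h2.ne_zero)
    have d5 := one_le_dv h1.ne_zero
    calc _ = C * (((divs g).card * √(N a)) * (1 * √(N b))) := by ring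
      _ ≤ _ := by gcongr

theorem pv : ∃ C : ℝ, 0 < C ∧ ∀ (k : ℕ) (R Y : ℝ) (a : O → ℂ), 1 ≤ k → k ≤ 5 → 0 < Y →
    ∑ m ∈ ballO Y, ‖∑ n ∈ ballN R, a n * chi6 m n ^ k‖ ^ 2 ≤
      C * (Y * ∑ n ∈ ballN R, ‖a n‖ ^ 2 +
        (∑ n ∈ ballN R, ‖a n‖ * dv n * √(N n)) ^ 2) := by
  obtain ⟨C, hC0, hC⟩ := sum_exp_le kap_pos
  obtain ⟨D, hD0, hD⟩ := pv_off
  refine ⟨Real.exp kap * (C + D), by positivity, fun k R Y a hk1 hk5 hY => ?_⟩
  obtain ⟨s1, s2⟩ := hC Y hY
  set v : O → ℝ := fun h => if h ≠ 0 then Real.exp (-(kap * N h / Y)) else 0 with hv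
  have v0 : ∀ h, 0 ≤ v h := fun h => by simp only [hv]; positivity
  have s3 : Summable v := Summable.of_nonneg_of_le v0 (fun h => by
    simp only [hv]
    split_ifs
    · exact le_rfl
    · positivity) s1
  set T : O → O → ℂ := fun n1 n2 => ∑' m, chi6 m n1 ^ k * conj (chi6 m n2 ^ k) * (v m : ℂ) with hT
  have hS : HasSum (fun m => ((‖∑ n ∈ ballN R, a n * chi6 m n ^ k‖ ^ 2 * v m : ℝ) : ℂ))
      (∑ n1 ∈ ballN R, ∑ n2 ∈ ballN R, a n1 * conj (a n2) * T n1 n2) := by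
    have := hasSum_sum (s := ballN R) fun n1 _ => hasSum_sum (s := ballN R) fun n2 _ =>
      (pp_summable (fun m => pp_norm_le k m n1 n2) s3).hasSum.mul_left (a n1 * conj (a n2))
    refine this.congr_fun fun m => ?_
    rw [Complex.ofReal_mul, Complex.ofReal_pow, ← Complex.mul_conj', map_sum, Finset.sum_mul_sum,
      Finset.sum_mul]
    refine Finset.sum_congr rfl fun n1 _ => ?_
    rw [Finset.sum_mul]
    refine Finset.sum_congr rfl fun n2 _ => ?_
    rw [map_mul]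
    ring
  have hb : ∀ n1 ∈ ballN R, ∀ n2 ∈ ballN R, ‖a n1 * conj (a n2) * T n1 n2‖ ≤
      (if n1 = n2 then C * Y * ‖a n1‖ ^ 2 else 0) +
        D * ((‖a n1‖ * dv n1 * √(N n1)) * (‖a n2‖ * dv n2 * √(N n2))) := fun n1 m1 n2 m2 => by
    have h1 := (mem_ballN.1 m1).1
    have h2 := (mem_ballN.1 m2).1
    have d1 := one_le_dv h1.ne_zero
    have d2 := one_le_dv h2.ne_zero
    rw [norm_mul, norm_mul, Complex.norm_conj]
    split_ifs with e
    · subst e
      have := (tsum_of_norm_bounded s3.hasSum (f := fun m => chi6 m n1 ^ k * conj (chi6 m n1 ^ k) *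
        (v m : ℂ)) fun m => by
          rw [norm_mul, Complex.norm_real, Real.norm_of_nonneg (v0 m)]
          exact mul_le_of_le_one_left (v0 m) (pp_norm_le k m n1 n1)).trans s2
      refine le_add_of_le_of_nonneg ?_ (by positivity)
      rw [← pow_two, mul_comm]
      exact mul_le_mul_of_nonneg_right this (by positivity)
    · have : T n1 n2 = ∑' m : O, chi6 m n1 ^ k * conj (chi6 m n2 ^ k) *
          ((Real.exp (-(kap * (N m / Y))) : ℝ) : ℂ) := tsum_congr fun m => by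
        simp only [hv]
        split_ifs with h0
        · rw [mul_div_assoc]
        · rw [not_not] at h0
          have : k ≠ 0 := by omega
          rcases pv_zero h1 h2 e with hz | hz <;> simp [h0, hz, this]
      rw [this, zero_add]
      refine (mul_le_mul_of_nonneg_left (hD k Y n1 n2 hk1 hk5 hY h1 h2 e) (by positivity)).trans_eq ?_
      ring
  have h3 : ∑ m ∈ ballO Y, ‖∑ n ∈ ballN R, a n * chi6 m n ^ k‖ ^ 2 * v m ≤
      ‖∑ n1 ∈ ballN R, ∑ n2 ∈ ballN R, a n1 * conj (a n2) * T n1 n2‖ :=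
    (sum_le_hasSum _ (fun m _ => mul_nonneg (by positivity) (v0 m))
      (Complex.hasSum_re hS)).trans (Complex.re_le_norm _)
  have h4 := (norm_sum_le _ _).trans (Finset.sum_le_sum fun n1 m1 =>
    (norm_sum_le _ _).trans (Finset.sum_le_sum (hb n1 m1)))
  simp only [Finset.sum_add_distrib, Finset.sum_ite_eq, ← Finset.mul_sum, ← Finset.sum_mul] at h4
  rw [Finset.sum_congr rfl fun n hn => if_pos hn, ← Finset.mul_sum, ← pow_two] at h4
  have h5 : ∑ m ∈ ballO Y, ‖∑ n ∈ ballN R, a n * chi6 m n ^ k‖ ^ 2 ≤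
      Real.exp kap * ∑ m ∈ ballO Y, ‖∑ n ∈ ballN R, a n * chi6 m n ^ k‖ ^ 2 * v m := by
    rw [Finset.mul_sum]
    refine Finset.sum_le_sum fun m hm => ?_
    obtain ⟨m0, m1⟩ := mem_ballO.1 hm
    rw [mul_left_comm]
    refine le_mul_of_one_le_right (by positivity) ?_
    simp only [hv, if_pos m0]
    rw [← Real.exp_add]
    refine Real.one_le_exp ?_
    have := mul_le_of_le_one_right kap_pos.le ((div_le_one hY).2 m1)
    rw [mul_div_assoc]
    linarith
  refine h5.trans ?_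
  rw [mul_assoc]
  refine mul_le_mul_of_nonneg_left ((h3.trans h4).trans ?_) (Real.exp_pos _).le
  have p1 : 0 ≤ Y * ∑ n ∈ ballN R, ‖a n‖ ^ 2 := by positivity
  have p2 := sq_nonneg (∑ n ∈ ballN R, ‖a n‖ * dv n * √(N n))
  nlinarith [mul_nonneg hD0.le p1, mul_nonneg hC0.le p2]

theorem pv_sym2 {ε : ℝ} (hε : 0 < ε) : ∃ C : ℝ, 0 < C ∧ ∀ (Z R Y : ℝ) (a : O → ℂ),
    1 ≤ Z → 0 < R → R ≤ Z → 0 < Y →
    ∑ m ∈ ballO Y, ‖∑ n ∈ ballN R, a n * sym2 m n‖ ^ 2 ≤
      C * Z ^ ε * (Y + R ^ 2) * ∑ n ∈ ballN R, ‖a n‖ ^ 2 := by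
  obtain ⟨C, hC0, hC⟩ := pv
  obtain ⟨D, hD0, hD⟩ := dv_le (half_pos hε)
  obtain ⟨E, hE0, hE⟩ := card_ballO_le
  refine ⟨C * (1 + E * D ^ 2), by positivity, fun Z R Y a hZ hR hRZ hY => ?_⟩
  have h1 := hC 3 R Y a (by norm_num) (by norm_num) hY
  rw [Finset.sum_congr rfl fun m _ => by
    rw [Finset.sum_congr rfl fun n hn => by rw [chi6_cube m (mem_ballN.1 hn).1.ne_zero]]] at h1
  have hZε : 1 ≤ Z ^ ε := Real.one_le_rpow hZ hε.le
  have h2 : ∑ n ∈ ballN R, (dv n * √(N n)) ^ 2 ≤ E * R * (D ^ 2 * Z ^ ε * R) := by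
    refine (Finset.sum_le_card_nsmul _ _ (D ^ 2 * Z ^ ε * R) fun n hn => ?_).trans ?_
    · obtain ⟨n1, n2⟩ := mem_ballN.1 hn
      have := one_le_dv n1.ne_zero
      rw [mul_pow, Real.sq_sqrt (N_nonneg n)]
      refine mul_le_mul ?_ n2 (N_nonneg n) (by positivity)
      calc _ ≤ (D * Z ^ (ε / 2)) ^ 2 := by
            refine pow_le_pow_left₀ (by positivity) ((hD n n1.ne_zero).trans ?_) 2
            exact mul_le_mul_of_nonneg_left
              (Real.rpow_le_rpow (N_nonneg n) (n2.trans hRZ) (half_pos hε).le) hD0.le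
        _ = _ := by
            rw [mul_pow, ← Real.rpow_natCast (Z ^ _), ← Real.rpow_mul (by linarith)]
            norm_num
    · rw [nsmul_eq_mul]
      refine mul_le_mul_of_nonneg_right (le_trans ?_ (hE R hR.le)) (by positivity)
      exact Nat.cast_le.2 (Finset.card_filter_le _ _)
  have h3 := Finset.sum_mul_sq_le_sq_mul_sq (ballN R) (fun n => ‖a n‖) fun n => dv n * √(N n)
  simp only [← mul_assoc] at h3
  have p1 : 0 ≤ ∑ n ∈ ballN R, ‖a n‖ ^ 2 := by positivity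
  have h4 := h3.trans (mul_le_mul_of_nonneg_left h2 p1)
  refine h1.trans ?_
  generalize ∑ n ∈ ballN R, ‖a n‖ ^ 2 = S at p1 h4 ⊢
  generalize Z ^ ε = z at hZε h4 ⊢
  rw [mul_assoc, mul_assoc, mul_assoc]
  refine mul_le_mul_of_nonneg_left ((add_le_add le_rfl h4).trans ?_) hC0.le
  have q1 : 0 ≤ (z - 1) * Y * S := by have := sub_nonneg.2 hZε; positivity
  have q2 : 0 ≤ z * R ^ 2 * S := by positivity
  have q3 : 0 ≤ E * D ^ 2 * z * Y * S := by positivity
  nlinarith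

end

end Vale.Agent.P026
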