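import Vale.Agent.P026.Bas

namespace Vale.Agent.P026

open Complex MeasureTheory Filter Topology
open scoped Classical ComplexConjugate Real MatrixGroups

noncomputable section

theorem finite_quot {q : O} (hq : q ≠ 0) : Finite (O ⧸ Ideal.span {q}) :=
  Ideal.finiteQuotientOfFreeOfNeBot _ (by simpa using hq)
theorem natCard_quot {q : O} (hq : q ≠ 0) : Nat.card (O ⧸ Ideal.span {q}) = Nm q := by
  have _ := hq
  rw [← Submodule.cardQuot_apply, ← Ideal.absNorm_apply, Ideal.absNorm_span_singleton,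
    Algebra.norm_apply]
  have h := QuadraticAlgebra.det_toLinearMap_eq_norm q
  have h2 : (Algebra.lmul ℤ O q : O →ₗ[ℤ] O) = DistribSMul.toLinearMap ℤ O q := by
    ext1 x; rfl
  rw [h2, h, QuadraticAlgebra.norm_def]
  unfold Nm
  congr 1; ring
theorem rs_mk_eq {q x y : O} :
    Ideal.Quotient.mk (Ideal.span {q}) x = Ideal.Quotient.mk (Ideal.span {q}) y ↔ q ∣ x - y := by
  rw [Ideal.Quotient.eq, Ideal.mem_span_singleton]
theorem rs_mem {q : O} (hq : q ≠ 0) {x : O} :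
    x ∈ rs q ↔ ∃ y : O ⧸ Ideal.span {q}, y.out = x := by
  have := finite_quot hq
  unfold rs
  rw [dif_pos (Set.finite_range _)]
  simp
theorem rs_out_mem {q : O} (hq : q ≠ 0) (y : O ⧸ Ideal.span {q}) : y.out ∈ rs q :=
  (rs_mem hq).2 ⟨y, rfl⟩
theorem rs_dvd_out (q x : O) : q ∣ x - (Ideal.Quotient.mk (Ideal.span {q}) x).out := by
  rw [← rs_mk_eq, Ideal.Quotient.mk_out]
theorem rs_exists {q : O} (hq : q ≠ 0) (x : O) : ∃ y ∈ rs q, q ∣ x - y :=
  ⟨_, rs_out_mem hq _, rs_dvd_out q x⟩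
theorem rs_inj {q x y : O} (hx : x ∈ rs q) (hy : y ∈ rs q) (h : q ∣ x - y) : x = y := by
  unfold rs at hx hy
  split_ifs at hx hy with hf
  · simp only [Set.Finite.mem_toFinset, Set.mem_range] at hx hy
    obtain ⟨a, rfl⟩ := hx
    obtain ⟨b, rfl⟩ := hy
    rw [← rs_mk_eq, Ideal.Quotient.mk_out, Ideal.Quotient.mk_out] at h
    rw [h]
  · simp at hx
theorem rs_eq_image {q : O} (hq : q ≠ 0) [Fintype (O ⧸ Ideal.span {q})] :
    rs q = Finset.univ.image (fun y : O ⧸ Ideal.span {q} => y.out) := by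
  ext x
  rw [rs_mem hq]
  simp
theorem rs_out_inj (q : O) : Function.Injective (fun y : O ⧸ Ideal.span {q} => y.out) :=
  fun _ _ h => Quotient.out_injective h
theorem card_rs {q : O} (hq : q ≠ 0) : (rs q).card = Nm q := by
  have := finite_quot hq
  have := Fintype.ofFinite (O ⧸ Ideal.span {q})
  rw [rs_eq_image hq, Finset.card_image_of_injective _ (rs_out_inj q), ← natCard_quot hq,
    Nat.card_eq_fintype_card, Finset.card_univ]
theorem sum_rs_eq_sum_quot {q : O} (hq : q ≠ 0) [Fintype (O ⧸ Ideal.span {q})]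
    {M : Type*} [AddCommMonoid M] (F : O ⧸ Ideal.span {q} → M) :
    ∑ x ∈ rs q, F (Ideal.Quotient.mk _ x) = ∑ y, F y := by
  rw [rs_eq_image hq, Finset.sum_image (rs_out_inj q).injOn]
  simp only [Ideal.Quotient.mk_out]
theorem sum_rs_eq_of_complete {q : O} (hq : q ≠ 0) {ι : Type*} (s : Finset ι) (φ : ι → O)
    (hinj : ∀ i ∈ s, ∀ j ∈ s, q ∣ φ i - φ j → i = j) (hsurj : ∀ x, ∃ i ∈ s, q ∣ x - φ i)
    {f : O → ℂ} (hf : Per q f) : ∑ x ∈ rs q, f x = ∑ i ∈ s, f (φ i) := by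
  symm
  refine Finset.sum_bij (fun i _ => (Ideal.Quotient.mk (Ideal.span {q}) (φ i)).out)
    (fun i _ => rs_out_mem hq _) (fun i hi j hj h => ?_) (fun x hx => ?_) (fun i _ => ?_)
  · exact hinj i hi j hj (rs_mk_eq.1 (Quotient.out_injective h))
  · obtain ⟨i, hi, h⟩ := hsurj x
    refine ⟨i, hi, (rs_inj hx (rs_out_mem hq _) ?_).symm⟩
    have := dvd_add h (rs_dvd_out q (φ i))
    rwa [sub_add_sub_cancel] at this
  · exact hf _ _ (rs_dvd_out q _)
theorem sum_rs_add {q : O} (hq : q ≠ 0) {f : O → ℂ} (hf : Per q f) (a : O) :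
    ∑ x ∈ rs q, f (x + a) = ∑ x ∈ rs q, f x := by
  refine (sum_rs_eq_of_complete hq (rs q) (fun x => x + a) (fun i hi j hj h => ?_)
    (fun x => ?_) hf).symm
  · exact rs_inj hi hj (by simpa using h)
  · obtain ⟨y, hy, h⟩ := rs_exists hq (x - a)
    exact ⟨y, hy, by convert h using 1; ring⟩
theorem sum_rs_mul {q t : O} (hq : q ≠ 0) (ht : IsCoprime t q) {f : O → ℂ} (hf : Per q f) :
    ∑ x ∈ rs q, f (t * x) = ∑ x ∈ rs q, f x := by
  refine (sum_rs_eq_of_complete hq (rs q) (fun x => t * x) (fun i hi j hj h => ?_)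
    (fun x => ?_) hf).symm
  · rw [← mul_sub] at h
    exact rs_inj hi hj (ht.symm.dvd_of_dvd_mul_left h)
  · obtain ⟨a, b, hab⟩ := ht
    obtain ⟨y, hy, k, hk⟩ := rs_exists hq (a * x)
    exact ⟨y, hy, b * x + t * k, by linear_combination (-x) * hab + t * hk⟩
theorem sum_rs_assoc {q q' : O} (hq : q ≠ 0) (h : Associated q q') {f : O → ℂ} (hf : Per q f) :
    ∑ x ∈ rs q', f x = ∑ x ∈ rs q, f x := by
  have hq' : q' ≠ 0 := (h.ne_zero_iff).1 hq
  refine (sum_rs_eq_of_complete hq (rs q') (fun x => x) (fun i hi j hj hd => ?_)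
    (fun x => ?_) hf).symm
  · exact rs_inj hi hj (h.symm.dvd.trans hd)
  · obtain ⟨y, hy, hd⟩ := rs_exists hq' x
    exact ⟨y, hy, h.dvd.trans hd⟩
theorem sum_rs_crt {q1 q2 : O} (h1 : q1 ≠ 0) (h2 : q2 ≠ 0) (h : IsCoprime q1 q2) {f : O → ℂ}
    (hf : Per (q1 * q2) f) :
    ∑ x ∈ rs (q1 * q2), f x = ∑ x1 ∈ rs q1, ∑ x2 ∈ rs q2, f (x1 * q2 + x2 * q1) := by
  rw [← Finset.sum_product']
  refine sum_rs_eq_of_complete (mul_ne_zero h1 h2) (rs q1 ×ˢ rs q2)
    (fun p => p.1 * q2 + p.2 * q1) (fun i hi j hj hd => ?_) (fun x => ?_) hf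
  · rw [Finset.mem_product] at hi hj
    obtain ⟨k, hk⟩ := hd
    have a1 : q1 ∣ (i.1 - j.1) * q2 := ⟨q2 * k - (i.2 - j.2), by linear_combination hk⟩
    have a2 : q2 ∣ (i.2 - j.2) * q1 := ⟨q1 * k - (i.1 - j.1), by linear_combination hk⟩
    exact Prod.ext (rs_inj hi.1 hj.1 (h.dvd_of_dvd_mul_right a1))
      (rs_inj hi.2 hj.2 (h.symm.dvd_of_dvd_mul_right a2))
  · obtain ⟨a, b, hab⟩ := h
    obtain ⟨y1, hy1, k1, hk1⟩ := rs_exists h1 (b * x)
    obtain ⟨y2, hy2, k2, hk2⟩ := rs_exists h2 (a * x)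
    exact ⟨(y1, y2), Finset.mem_product.2 ⟨hy1, hy2⟩, k1 + k2,
      by linear_combination (-x) * hab + q2 * hk1 + q1 * hk2⟩
theorem sum_rs_split {q q' : O} (hq : q ≠ 0) (hq' : q' ≠ 0) {f : O → ℂ} (hf : Per (q * q') f) :
    ∑ x ∈ rs (q * q'), f x = ∑ x ∈ rs q, ∑ j ∈ rs q', f (x + q * j) := by
  rw [← Finset.sum_product']
  refine sum_rs_eq_of_complete (mul_ne_zero hq hq') (rs q ×ˢ rs q')
    (fun p => p.1 + q * p.2) (fun i hi j hj hd => ?_) (fun x => ?_) hf
  · rw [Finset.mem_product] at hi hj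
    obtain ⟨k, hk⟩ := hd
    have a1 : i.1 = j.1 := rs_inj hi.1 hj.1 ⟨q' * k - (i.2 - j.2), by linear_combination hk⟩
    have a2 : q * (i.2 - j.2) = q * (q' * k) := by linear_combination hk - a1
    exact Prod.ext a1 (rs_inj hi.2 hj.2 ⟨k, mul_left_cancel₀ hq a2⟩)
  · obtain ⟨y1, hy1, k1, hk1⟩ := rs_exists hq x
    obtain ⟨y2, hy2, k2, hk2⟩ := rs_exists hq' k1
    exact ⟨(y1, y2), Finset.mem_product.2 ⟨hy1, hy2⟩, k2,
      by linear_combination hk1 + q * hk2⟩
theorem rs_bij {q : O} (hq : q ≠ 0) :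
    Function.Bijective (fun p : rs q × O => (p.1 : O) + q * p.2) := by
  constructor
  · rintro ⟨⟨x, hx⟩, k⟩ ⟨⟨y, hy⟩, l⟩ h
    simp only at h
    have a1 : x = y := rs_inj hx hy ⟨l - k, by linear_combination h⟩
    subst a1
    have a2 : q * k = q * l := by linear_combination h
    rw [mul_left_cancel₀ hq a2]
  · intro n
    obtain ⟨y, hy, k, hk⟩ := rs_exists hq n
    exact ⟨(⟨y, hy⟩, k), by simp only; linear_combination -hk⟩
theorem tsum_rs {q : O} (hq : q ≠ 0) {F : O → ℂ} (hF : Summable F) :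
    ∑' n, F n = ∑ x ∈ rs q, ∑' k : O, F (x + q * k) := by
  let e := Equiv.ofBijective _ (rs_bij hq)
  have h1 : Summable (fun p => F (e p)) := (e.summable_iff (f := F)).2 hF
  rw [← e.tsum_eq F, h1.tsum_prod, tsum_fintype,
    ← Finset.sum_coe_sort (rs q) (fun x => ∑' k : O, F (x + q * k))]
  rfl
theorem rs_per_psi {q : O} (hq : q ≠ 0) (n : O) :
    Per q (fun x => psi (toC n * toC x / toC q)) := by
  intro x y h
  simp only [← map_mul]
  apply psi_congr hq
  rw [← mul_sub]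
  exact dvd_mul_of_dvd_right h _
theorem sum_psi {q : O} (hq : q ≠ 0) (n : O) :
    ∑ x ∈ rs q, psi (toC n * toC x / toC q) = if q ∣ n then ((N q : ℝ) : ℂ) else 0 := by
  split_ifs with h
  · rw [Finset.sum_congr rfl (fun x _ => (psi_div_eq_one_iff hq n).2 h x)]
    simp [card_rs hq, N]
  · rw [← psi_div_eq_one_iff hq] at h
    push Not at h
    obtain ⟨a, ha⟩ := h
    have h1 := sum_rs_add hq (rs_per_psi hq n) a
    have h2 : ∀ x : O, psi (toC n * toC (x + a) / toC q) =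
        psi (toC n * toC a / toC q) * psi (toC n * toC x / toC q) := by
      intro x
      rw [← psi_add, map_add]
      congr 1; ring
    simp only [h2] at h1
    rw [← Finset.mul_sum] at h1
    have h3 : (psi (toC n * toC a / toC q) - 1) * ∑ x ∈ rs q, psi (toC n * toC x / toC q) = 0 := by
      linear_combination h1
    exact (mul_eq_zero.1 h3).resolve_left (sub_ne_zero.2 ha)
theorem sum_class {q : O} (hq : q ≠ 0) (n : O) (z : ℂ) :
    ∑ c ∈ rs q, (if q ∣ n - c then z else 0) = z := by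
  obtain ⟨y, hy, h⟩ := rs_exists hq n
  rw [Finset.sum_eq_single_of_mem y hy, if_pos h]
  intro c hc hne
  rw [if_neg]
  intro h2
  apply hne
  apply rs_inj hc hy
  have := dvd_sub h h2
  convert this using 1; ring
theorem fourier_rs {M : O} (hM : M ≠ 0) {f : O → ℂ} (hf : Wt M f) :
    ∃ c : O → ℂ, Per M c ∧ ∑ x ∈ rs M, ‖c x‖ ^ 2 ≤ 1 ∧
      ∀ n, f n = ∑ x ∈ rs M, c x * psi (toC n * toC x / toC M) := by
  have hN : (0 : ℝ) < N M := N_pos hM
  have hN' : ((N M : ℝ) : ℂ) ≠ 0 := by exact_mod_cast hN.ne'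
  set c : O → ℂ := fun x => ((N M : ℝ) : ℂ)⁻¹ * ∑ y ∈ rs M, f y * psi (toC (-y) * toC x / toC M)
    with hc
  have inv : ∀ n, f n = ∑ x ∈ rs M, c x * psi (toC n * toC x / toC M) := by
    intro n
    have h1 : ∀ x : O, c x * psi (toC n * toC x / toC M) =
        ∑ y ∈ rs M, ((N M : ℝ) : ℂ)⁻¹ * f y * psi (toC (n - y) * toC x / toC M) := by
      intro x
      rw [hc]
      simp only
      rw [Finset.mul_sum, Finset.sum_mul]
      refine Finset.sum_congr rfl (fun y _ => ?_)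
      have : psi (toC (n - y) * toC x / toC M) =
          psi (toC (-y) * toC x / toC M) * psi (toC n * toC x / toC M) := by
        rw [← psi_add, map_sub, map_neg]; congr 1; ring
      rw [this]; ring
    simp only [h1]
    rw [Finset.sum_comm, ← sum_class hM n (f n)]
    refine Finset.sum_congr rfl (fun y _ => ?_)
    rw [← Finset.mul_sum, sum_psi hM]
    split_ifs with h
    · rw [hf.1 n y h]; field_simp
    · simp
  refine ⟨c, fun x y h => ?_, ?_, inv⟩
  · rw [hc]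
    simp only
    congr 1
    refine Finset.sum_congr rfl (fun z _ => ?_)
    have := rs_per_psi hM (-z) x y h
    simp only at this
    rw [this]
  · have h1 : ∀ x : O, ((‖c x‖ ^ 2 : ℝ) : ℂ) =
        ∑ y ∈ rs M, ((N M : ℝ) : ℂ)⁻¹ * conj (f y) * (c x * psi (toC y * toC x / toC M)) := by
      intro x
      have h2 : conj (c x) =
          ∑ y ∈ rs M, ((N M : ℝ) : ℂ)⁻¹ * conj (f y) * psi (toC y * toC x / toC M) := by
        rw [hc]
        simp only
        rw [map_mul, map_sum, Finset.mul_sum]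
        refine Finset.sum_congr rfl (fun y _ => ?_)
        rw [map_mul, ← psi_neg, map_inv₀, Complex.conj_ofReal, map_neg, mul_assoc]
        congr 3; ring
      rw [Complex.ofReal_pow, ← Complex.mul_conj', h2, Finset.mul_sum]
      exact Finset.sum_congr rfl (fun y _ => by ring)
    have h3 : ((∑ x ∈ rs M, ‖c x‖ ^ 2 : ℝ) : ℂ) = ((∑ y ∈ rs M, (N M)⁻¹ * ‖f y‖ ^ 2 : ℝ) : ℂ) := by
      rw [Complex.ofReal_sum, Complex.ofReal_sum]
      simp only [h1]
      rw [Finset.sum_comm]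
      refine Finset.sum_congr rfl (fun y _ => ?_)
      rw [← Finset.mul_sum, ← inv y, Complex.ofReal_mul, Complex.ofReal_pow, ← Complex.mul_conj',
        Complex.ofReal_inv]
      ring
    rw [Complex.ofReal_inj.1 h3]
    calc ∑ y ∈ rs M, (N M)⁻¹ * ‖f y‖ ^ 2 ≤ ∑ y ∈ rs M, (N M)⁻¹ := by
          refine Finset.sum_le_sum (fun y _ => ?_)
          exact mul_le_of_le_one_right (inv_nonneg.2 hN.le) (pow_le_one₀ (norm_nonneg _) (hf.2 y))
      _ = 1 := by
          rw [Finset.sum_const, card_rs hM, nsmul_eq_mul]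
          exact mul_inv_cancel₀ hN.ne'
theorem exists_crt {q1 q2 : O} (h : IsCoprime q1 q2) (a b : O) :
    ∃ x, q1 ∣ x - a ∧ q2 ∣ x - b := by
  obtain ⟨u, v, huv⟩ := h
  exact ⟨a * v * q2 + b * u * q1, ⟨(b - a) * u, by linear_combination a * huv⟩,
    ⟨(a - b) * v, by linear_combination b * huv⟩⟩
theorem exists_coprime_shift {c d e : O} (hc : c ≠ 0) (h : IsCoprime d e) :
    ∃ k, IsCoprime c (d + k * e) := by
  refine ⟨((UniqueFactorizationMonoid.factors c).filter (fun p => ¬ p ∣ d)).prod, ?_⟩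
  rw [isCoprime_iff_no_prime (Or.inl hc)]
  intro p hp hpc hpd
  by_cases hd : p ∣ d
  · rcases hp.dvd_or_dvd ((dvd_add_right hd).1 hpd) with h1 | h1
    · obtain ⟨r, hr, hpr⟩ := hp.exists_mem_multiset_dvd h1
      rw [Multiset.mem_filter] at hr
      have hr' := UniqueFactorizationMonoid.irreducible_of_factor r hr.1
      exact hr.2 ((hp.irreducible.associated_of_dvd hr' hpr).symm.dvd.trans hd)
    · exact hp.not_isUnit (h.isUnit_of_dvd' hd h1)
  · obtain ⟨r, hr, hpr⟩ := UniqueFactorizationMonoid.exists_mem_factors_of_dvd hc hp.irreducible hpc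
    have h1 : r ∈ (UniqueFactorizationMonoid.factors c).filter (fun p => ¬ p ∣ d) :=
      Multiset.mem_filter.2 ⟨hr, fun h => hd (hpr.dvd.trans h)⟩
    have h2 := hpr.dvd.trans (Multiset.dvd_prod h1)
    exact hd ((dvd_add_left (dvd_mul_of_dvd_left h2 e)).1 hpd)
/-- Fermat's little theorem -/
theorem fermat {p x : O} (hp : Prime p) (hx : ¬ p ∣ x) : p ∣ x ^ (Nm p - 1) - 1 := by
  have := finite_quot hp.ne_zero
  have := Fintype.ofFinite (O ⧸ Ideal.span {p})
  have hmax : (Ideal.span {p}).IsMaximal :=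
    PrincipalIdealRing.isMaximal_of_irreducible hp.irreducible
  let _ := Ideal.Quotient.field (Ideal.span {p})
  have h0 : Ideal.Quotient.mk (Ideal.span {p}) x ≠ 0 := by
    rw [Ne, Ideal.Quotient.eq_zero_iff_mem, Ideal.mem_span_singleton]; exact hx
  have h1 := FiniteField.pow_card_sub_one_eq_one _ h0
  rw [← Nat.card_eq_fintype_card, natCard_quot hp.ne_zero] at h1
  rw [← rs_mk_eq, map_pow, map_one]
  exact h1

end

end Vale.Agent.P026
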