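import Vale.Agent.P026.TL3a

namespace Vale.Agent.P026

open Complex MeasureTheory Filter Topology
open scoped Classical ComplexConjugate Real MatrixGroups

noncomputable section

theorem tl3_gauss (C' : ℝ) : Integrable (fun τ : ℝ => Real.exp (-τ ^ 2 / 4 + C' * |τ|)) := by
  have h := (integrable_exp_neg_mul_sq (b := 1 / 8) (by norm_num)).const_mul (Real.exp (2 * C' ^ 2))
  refine h.mono' (by fun_prop) (Filter.Eventually.of_forall fun τ => ?_)
  rw [Real.norm_eq_abs, abs_of_pos (Real.exp_pos _), ← Real.exp_add]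
  refine Real.exp_le_exp.2 ?_
  have h1 : |τ| ^ 2 = τ ^ 2 := sq_abs τ
  nlinarith [sq_nonneg (|τ| - 4 * C')]

theorem tl3_integrable {α : O → ℂ} (hα : ∀ n, NN n → ‖α n‖ ≤ 1) (k : ℕ) {X : ℝ} (hX : 0 < X)
    (w : ℂ) (σ : ℝ) (h : O) :
    Integrable (fun τ : ℝ => Real.exp (-τ ^ 2 / 4) *
      ‖AA α k X (w + (σ - 1 / 2 + τ * Complex.I)) h‖ ^ 2) := by
  obtain ⟨C, hC, hb⟩ := norm_AA_le (a := 1) le_rfl |w.re + (σ - 1 / 2)|
  have hg := (tl3_gauss 0).mul_const ((C * X ^ (1 : ℝ)) ^ 2)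
  have hc : Continuous (fun τ : ℝ => AA α k X (w + (σ - 1 / 2 + τ * Complex.I)) h) :=
    (differentiable_AA hα k hX h).continuous.comp (by fun_prop)
  refine hg.mono' (by fun_prop) (Filter.Eventually.of_forall fun τ => ?_)
  rw [Real.norm_eq_abs, abs_of_nonneg (by positivity)]
  simp only [zero_mul, add_zero]
  refine mul_le_mul_of_nonneg_left (pow_le_pow_left₀ (norm_nonneg _) (hb α k X _ h hα hX ?_) 2)
    (Real.exp_pos _).le
  apply le_of_eq
  congr 1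
  simp

theorem tl3_card_trip : ∃ C : ℝ, 0 < C ∧ ∀ R : ℝ, 0 ≤ R → ((trip R).card : ℝ) ≤ C * R ^ 3 := by
  obtain ⟨C, hC, h⟩ := card_ballO_le
  refine ⟨C ^ 3, by positivity, fun R hR => ?_⟩
  have h1 : trip R ⊆ ballO R ×ˢ ballO R ×ˢ ballO R := by
    intro t ht
    have := (Finset.mem_filter.1 ht).1
    simp only [Finset.mem_product, ballN, Finset.mem_filter] at this ⊢
    exact ⟨this.1.1, this.2.1.1, this.2.2.1⟩
  have h2 := Finset.card_le_card h1
  rw [Finset.card_product, Finset.card_product] at h2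
  have h3 : ((trip R).card : ℝ) ≤ ((ballO R).card : ℝ) ^ 3 := by
    have : ((trip R).card : ℝ) ≤ (((ballO R).card * ((ballO R).card * (ballO R).card) : ℕ) : ℝ) := by
      exact_mod_cast h2
    push_cast at this
    linarith [show ((ballO R).card : ℝ) ^ 3 =
      (ballO R).card * ((ballO R).card * (ballO R).card) by ring]
  calc ((trip R).card : ℝ) ≤ ((ballO R).card : ℝ) ^ 3 := h3
    _ ≤ (C * R) ^ 3 := pow_le_pow_left₀ (by positivity) (h R hR) 3
    _ = _ := by ring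

theorem tl3_err {X Z : ℝ} (hX : 0 < X) (hXZ : X ≤ Z) (hZ : 1 ≤ Z) :
    (Z ^ 3 * (X / Z ^ 3) ^ (4 : ℝ)) ^ 2 ≤ (Z ^ 10)⁻¹ := by
  have hZ0 : 0 < Z := by linarith
  have h1 : X / Z ^ 3 ≤ (Z ^ 2)⁻¹ := by
    rw [div_le_iff₀ (by positivity)]
    calc X ≤ Z := hXZ
      _ = (Z ^ 2)⁻¹ * Z ^ 3 := by field_simp
  have h2 : (X / Z ^ 3) ^ (4 : ℝ) = (X / Z ^ 3) ^ (4 : ℕ) := by
    rw [← Real.rpow_natCast]; norm_num
  rw [h2]
  calc (Z ^ 3 * (X / Z ^ 3) ^ 4) ^ 2 ≤ (Z ^ 3 * ((Z ^ 2)⁻¹) ^ 4) ^ 2 := by gcongr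
    _ = _ := by field_simp

theorem tl3_block {σ : ℝ} (hσ : 0 < σ) (hσ4 : σ ≤ 4) (R0 : ℝ) {C' : ℝ} (hC' : 0 ≤ C') :
    ∃ C : ℝ, 0 < C ∧
    ∀ (ι : Type) (I : Finset ι) (k : ℕ) (Z M : ℝ) (l X Y : ι → ℝ) (α : ι → O → ℂ) (w : ℂ)
      (K ρ : ℝ) (S : ι → O × O × O → Finset O) (L : ι → O × O × O → ℝ),
    k = 1 ∨ k = 5 → 1 ≤ Z → 0 ≤ M → |w.re| ≤ R0 → 1 ≤ K → 0 ≤ ρ →
    (∀ i ∈ I, 0 ≤ l i ∧ 1 ≤ X i ∧ X i ≤ Z ∧ 1 ≤ Y i ∧ ∀ n, NN n → ‖α i n‖ ≤ 1) →
    (∀ i ∈ I, ∀ t ∈ trip (Z ^ 3), S i t ⊆ ballO (K * Ht (X i) (Y i) t) ∧ 0 < L i t ∧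
      (∀ h ∈ S i t, L i t ≤ N h) ∧ (Ht (X i) (Y i) t / L i t) ^ σ ≤ ρ) →
    (∀ (w' : ℂ) (c : O), |w'.re| ≤ R0 + 4 →
      ∑ i ∈ I, l i * ∑ t ∈ trip (Z ^ 3), Y i * N t.1 / X i *
        ∑ h ∈ ballO (K * Ht (X i) (Y i) t),
          ‖AA (alp (α i) k t c) (6 - k) (X i / N (pr t)) w' h‖ ^ 2 ≤
        M * Real.exp (C' * |w'.im|) * K ^ (7 / 2 : ℝ)) →
    ∑ i ∈ I, l i * ∑ t ∈ trip (Z ^ 3), Y i / (N t.2.1 * N t.2.2) *
        ∑ h ∈ S i t, ‖Off (Z ^ 3) (fun n => α i n * W w (N n / X i)) k (Y i) t h‖ ≤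
      C * ρ * K ^ (7 / 2 : ℝ) *
        (∑ i ∈ I, l i * (X i * Y i) + M * Real.exp (C' * |w.im|)) := by
  obtain ⟨Ca, hCa, ha⟩ := tl3a hσ (a := 4) (by norm_num) (R0 + 4)
  obtain ⟨Cc, hCc, hc⟩ := card_ballO_le
  obtain ⟨Ct, hCt, ht⟩ := tl3_card_trip
  set J0 : ℝ := ∫ τ : ℝ, Real.exp (-τ ^ 2 / 4 + C' * |τ|) with hJ0
  have hJ : 0 ≤ J0 := integral_nonneg (fun _ => (Real.exp_pos _).le)
  refine ⟨Ca * (16 * J0 + Ct * Cc), by positivity, ?_⟩
  intro ι I k Z M l X Y α w K ρ S L hk hZ hM hw hK hρ hI hS hH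
  have hZ0 : 0 < Z := by linarith
  have hre : |w.re + (σ - 1 / 2)| ≤ R0 + 4 := by
    have := abs_le.1 hw
    rw [abs_le]; constructor <;> linarith
  set F : ι → O × O × O → ℝ → ℝ := fun i t τ => Real.exp (-τ ^ 2 / 4) * ∑ c ∈ rs 4, ∑ h ∈ S i t,
    ‖AA (alp (α i) k t c) (6 - k) (X i / N (pr t)) (w + (σ - 1 / 2 + τ * Complex.I)) h‖ ^ 2
    with hF
  have hN : ∀ t ∈ trip (Z ^ 3), 1 ≤ N t.1 ∧ 1 ≤ N t.2.1 ∧ 0 < N (pr t) := by
    intro t ht
    have := mem_trip.1 ht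
    exact ⟨one_le_N this.1.ne_zero, one_le_N this.2.1.ne_zero, N_pos this.2.2.2.1.ne_zero⟩
  have hFi : ∀ i ∈ I, ∀ t ∈ trip (Z ^ 3), Integrable (F i t) := by
    intro i hi t ht'
    have h3 := mem_trip.1 ht'
    have hX := (hI i hi).2.1
    simp only [hF, Finset.mul_sum]
    refine integrable_finsetSum _ (fun c _ => integrable_finsetSum _ (fun h _ => ?_))
    exact tl3_integrable (fun n hn => norm_alp_le (hI i hi).2.2.2.2 hk h3.1 h3.2.1 h3.2.2.1 c n hn)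
      _ (div_pos (by linarith) (hN t ht').2.2) w σ h
  have hK7 : K ≤ K ^ (7 / 2 : ℝ) := by
    conv_lhs => rw [← Real.rpow_one K]
    exact Real.rpow_le_rpow_of_exponent_le hK (by norm_num)
  have step1 : ∀ i ∈ I, ∑ t ∈ trip (Z ^ 3), Y i / (N t.2.1 * N t.2.2) *
        ∑ h ∈ S i t, ‖Off (Z ^ 3) (fun n => α i n * W w (N n / X i)) k (Y i) t h‖ ≤
      Ca * ρ * (∑ t ∈ trip (Z ^ 3), Y i * N t.1 / X i * (∫ τ, F i t τ) +
        Ct * Cc * K ^ (7 / 2 : ℝ) * (X i * Y i)) := by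
    intro i hi
    obtain ⟨-, hX, hXZ, hY, hα⟩ := hI i hi
    have hX0 : 0 < X i := by linarith
    have hY0 : 0 < Y i := by linarith
    have h1 : ∀ t ∈ trip (Z ^ 3), Y i / (N t.2.1 * N t.2.2) *
        ∑ h ∈ S i t, ‖Off (Z ^ 3) (fun n => α i n * W w (N n / X i)) k (Y i) t h‖ ≤
        Ca * ρ * (Y i * N t.1 / X i * (∫ τ, F i t τ) + Cc * K * (Z ^ 9)⁻¹) := by
      intro t ht'
      obtain ⟨hS1, hL, hS2, hρ'⟩ := hS i hi t ht'
      obtain ⟨g1, g2, g3⟩ := hN t ht'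
      have hb := ha k (Z ^ 3) (X i) (Y i) (L i t) (α i) w t (S i t) hk hX0 hY0 hL hα hre ht'
        (fun h hh => ⟨(mem_ballO.1 (hS1 hh)).1, hS2 h hh⟩)
      have hI0 : 0 ≤ ∫ τ, F i t τ := integral_nonneg (fun τ => by simp only [hF]; positivity)
      have hH0 : 0 < Ht (X i) (Y i) t := by unfold Ht; positivity
      have hcard : ((S i t).card : ℝ) ≤ Cc * (K * Ht (X i) (Y i) t) :=
        le_trans (by exact_mod_cast Finset.card_le_card hS1) (hc _ (by positivity))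
      have herr : Y i * N t.1 / X i * ((S i t).card * (Z ^ 3 * (X i / Z ^ 3) ^ (4 : ℝ)) ^ 2) ≤
          Cc * K * (Z ^ 9)⁻¹ := by
        have e1 : Y i * N t.1 / X i * Ht (X i) (Y i) t ≤ Z := by
          have : Y i * N t.1 / X i * Ht (X i) (Y i) t = X i / (N t.2.1 * N t.1) := by
            unfold Ht; field_simp
          rw [this]
          exact (div_le_self hX0.le (one_le_mul_of_one_le_of_one_le g2 g1)).trans hXZ
        calc Y i * N t.1 / X i * ((S i t).card * (Z ^ 3 * (X i / Z ^ 3) ^ (4 : ℝ)) ^ 2)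
            ≤ Y i * N t.1 / X i * (Cc * (K * Ht (X i) (Y i) t) * (Z ^ 10)⁻¹) := by
              gcongr
              exact tl3_err hX0 hXZ hZ
          _ = Cc * K * (Z ^ 10)⁻¹ * (Y i * N t.1 / X i * Ht (X i) (Y i) t) := by ring
          _ ≤ Cc * K * (Z ^ 10)⁻¹ * Z := by gcongr
          _ = _ := by field_simp
      refine hb.trans ?_
      calc Ca * (Y i * N t.1 / X i) * (Ht (X i) (Y i) t / L i t) ^ σ *
            ((∫ τ, F i t τ) + (S i t).card * (Z ^ 3 * (X i / Z ^ 3) ^ (4 : ℝ)) ^ 2)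
          ≤ Ca * (Y i * N t.1 / X i) * ρ *
            ((∫ τ, F i t τ) + (S i t).card * (Z ^ 3 * (X i / Z ^ 3) ^ (4 : ℝ)) ^ 2) := by gcongr
        _ = Ca * ρ * (Y i * N t.1 / X i * (∫ τ, F i t τ) + Y i * N t.1 / X i *
            ((S i t).card * (Z ^ 3 * (X i / Z ^ 3) ^ (4 : ℝ)) ^ 2)) := by ring
        _ ≤ _ := by gcongr
    refine (Finset.sum_le_sum h1).trans ?_
    rw [← Finset.mul_sum, Finset.sum_add_distrib, Finset.sum_const, nsmul_eq_mul]
    have h2 : ((trip (Z ^ 3)).card : ℝ) * (Cc * K * (Z ^ 9)⁻¹) ≤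
        Ct * Cc * K ^ (7 / 2 : ℝ) * (X i * Y i) := by
      calc ((trip (Z ^ 3)).card : ℝ) * (Cc * K * (Z ^ 9)⁻¹)
          ≤ Ct * (Z ^ 3) ^ 3 * (Cc * K * (Z ^ 9)⁻¹) := by gcongr; exact ht _ (by positivity)
        _ = Ct * Cc * K * 1 := by field_simp
        _ ≤ _ := by gcongr; exact one_le_mul_of_one_le_of_one_le hX hY
    gcongr
  have step2 : ∑ i ∈ I, l i * ∑ t ∈ trip (Z ^ 3), Y i * N t.1 / X i * (∫ τ, F i t τ) ≤
      16 * J0 * K ^ (7 / 2 : ℝ) * (M * Real.exp (C' * |w.im|)) := by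
    have e1 : ∑ i ∈ I, l i * ∑ t ∈ trip (Z ^ 3), Y i * N t.1 / X i * (∫ τ, F i t τ) =
        ∫ τ, ∑ i ∈ I, l i * ∑ t ∈ trip (Z ^ 3), Y i * N t.1 / X i * F i t τ := by
      rw [integral_finsetSum _ (fun i hi => (integrable_finsetSum _
        (fun t ht' => (hFi i hi t ht').const_mul _)).const_mul _)]
      refine Finset.sum_congr rfl (fun i hi => ?_)
      rw [integral_const_mul, integral_finsetSum _ (fun t ht' => (hFi i hi t ht').const_mul _)]
      simp only [integral_const_mul]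
    rw [e1]
    have hg := (tl3_gauss C').const_mul (16 * K ^ (7 / 2 : ℝ) * (M * Real.exp (C' * |w.im|)))
    refine (integral_mono (integrable_finsetSum _ (fun i hi => (integrable_finsetSum _
        (fun t ht' => (hFi i hi t ht').const_mul _)).const_mul _)) hg (fun τ => ?_)).trans ?_
    · have hcard : ((rs 4).card : ℝ) = 16 := by
        rw [card_rs (by norm_num)]
        have : Nm (4 : O) = 16 := by simpa using Nm_natCast 4
        rw [this]; norm_num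
      have hre' : |(w + (σ - 1 / 2 + τ * Complex.I)).re| ≤ R0 + 4 := by
        convert hre using 2; simp
      have him : |(w + (σ - 1 / 2 + τ * Complex.I)).im| ≤ |w.im| + |τ| := by
        have : (w + (σ - 1 / 2 + τ * Complex.I)).im = w.im + τ := by simp
        rw [this]; exact abs_add_le _ _
      calc ∑ i ∈ I, l i * ∑ t ∈ trip (Z ^ 3), Y i * N t.1 / X i * F i t τ
          = Real.exp (-τ ^ 2 / 4) * ∑ c ∈ rs 4, ∑ i ∈ I, l i * ∑ t ∈ trip (Z ^ 3),
              Y i * N t.1 / X i * ∑ h ∈ S i t, ‖AA (alp (α i) k t c) (6 - k) (X i / N (pr t))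
                (w + (σ - 1 / 2 + τ * Complex.I)) h‖ ^ 2 := by
            rw [Finset.sum_comm, Finset.mul_sum]
            refine Finset.sum_congr rfl (fun i _ => ?_)
            rw [← Finset.mul_sum (rs 4), Finset.sum_comm, mul_left_comm]
            congr 1
            rw [Finset.mul_sum]
            refine Finset.sum_congr rfl (fun t _ => ?_)
            rw [← Finset.mul_sum (rs 4), hF]
            ring
        _ ≤ Real.exp (-τ ^ 2 / 4) * ∑ c ∈ rs 4,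
              M * Real.exp (C' * (|w.im| + |τ|)) * K ^ (7 / 2 : ℝ) := by
            refine mul_le_mul_of_nonneg_left (Finset.sum_le_sum (fun c _ => ?_))
              (Real.exp_pos _).le
            refine le_trans (Finset.sum_le_sum (fun i hi => ?_)) ((hH _ c hre').trans ?_)
            · refine mul_le_mul_of_nonneg_left (Finset.sum_le_sum (fun t ht' => ?_)) (hI i hi).1
              have := (hI i hi).2.1
              have := (hI i hi).2.2.2.1
              have := N_nonneg t.1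
              refine mul_le_mul_of_nonneg_left ?_ (by positivity)
              exact Finset.sum_le_sum_of_subset_of_nonneg (hS i hi t ht').1
                (fun _ _ _ => by positivity)
            · gcongr
        _ = _ := by
            rw [Finset.sum_const, nsmul_eq_mul, hcard, Real.exp_add, mul_add, Real.exp_add]
            ring
    · rw [integral_const_mul]
      apply le_of_eq; ring
  have hsum : 0 ≤ ∑ i ∈ I, l i * (X i * Y i) := Finset.sum_nonneg (fun i hi => by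
    have := (hI i hi).1; have := (hI i hi).2.1; have := (hI i hi).2.2.2.1; positivity)
  have hME : 0 ≤ M * Real.exp (C' * |w.im|) := by positivity
  calc _ ≤ ∑ i ∈ I, l i * (Ca * ρ * (∑ t ∈ trip (Z ^ 3), Y i * N t.1 / X i * (∫ τ, F i t τ) +
        Ct * Cc * K ^ (7 / 2 : ℝ) * (X i * Y i))) :=
        Finset.sum_le_sum (fun i hi => mul_le_mul_of_nonneg_left (step1 i hi) (hI i hi).1)
    _ = Ca * ρ * (∑ i ∈ I, l i * ∑ t ∈ trip (Z ^ 3), Y i * N t.1 / X i * (∫ τ, F i t τ) +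
        Ct * Cc * K ^ (7 / 2 : ℝ) * ∑ i ∈ I, l i * (X i * Y i)) := by
        rw [Finset.mul_sum, ← Finset.sum_add_distrib, Finset.mul_sum]
        exact Finset.sum_congr rfl (fun i _ => by ring)
    _ ≤ Ca * ρ * (16 * J0 * K ^ (7 / 2 : ℝ) * (∑ i ∈ I, l i * (X i * Y i) +
          M * Real.exp (C' * |w.im|)) + Ct * Cc * K ^ (7 / 2 : ℝ) *
          (∑ i ∈ I, l i * (X i * Y i) + M * Real.exp (C' * |w.im|))) := by
        refine mul_le_mul_of_nonneg_left (add_le_add (step2.trans ?_) ?_) (by positivity)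
        · gcongr; linarith
        · gcongr; linarith
    _ = _ := by ring

end

end Vale.Agent.P026
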