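import Vale.Agent.P026.Pois2
import Vale.Agent.P026.Rs
import Vale.Agent.P026.Lat

namespace Vale.Agent.P026

open Complex MeasureTheory Filter Topology
open scoped Classical ComplexConjugate Real MatrixGroups

noncomputable section

theorem pois_half {a : ℂ} (ha : 0 < a.re) :
    (a ^ (1 / 2 : ℂ)) ^ 2 = a ∧ |(a ^ (1 / 2 : ℂ)).im| < (a ^ (1 / 2 : ℂ)).re := by
  have h1 : (a ^ (1 / 2 : ℂ)) ^ 2 = a := by
    rw [one_div]
    exact_mod_cast Complex.cpow_nat_inv_pow a (n := 2) two_ne_zero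
  refine ⟨h1, ?_⟩
  have h2 : 0 ≤ (a ^ (1 / 2 : ℂ)).re := by
    rw [one_div, Complex.cpow_inv_two_re]
    exact Real.sqrt_nonneg _
  generalize a ^ (1 / 2 : ℂ) = u at *
  subst h1
  refine abs_lt_of_sq_lt_sq ?_ h2
  simp only [sq, mul_re] at ha
  nlinarith

theorem pois_sqrt {a a' w : ℂ} (ha : 0 < a.re) (ha' : 0 < a'.re) (hw : 0 < w.re)
    (h : a * a' = w ^ 2) : a ^ (1 / 2 : ℂ) * a' ^ (1 / 2 : ℂ) = w := by
  obtain ⟨h1, h2⟩ := pois_half ha
  obtain ⟨h3, h4⟩ := pois_half ha'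
  generalize a ^ (1 / 2 : ℂ) = u at *
  generalize a' ^ (1 / 2 : ℂ) = v at *
  have e : (u * v) ^ 2 = w ^ 2 := by rw [mul_pow, h1, h3, h]
  rcases sq_eq_sq_iff_eq_or_eq_neg.1 e with e | e
  · exact e
  · exfalso
    have r := congrArg Complex.re e
    rw [mul_re, neg_re] at r
    have := mul_lt_mul'' h2 h4 (abs_nonneg _) (abs_nonneg _)
    rw [← abs_mul] at this
    linarith [le_abs_self (u.im * v.im)]

/-- coordinates -/
def pois_e0 : ℤ × ℤ ≃ O where
  toFun p := ⟨p.1, p.2⟩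
  invFun x := (x.re, x.im)
  left_inv _ := rfl
  right_inv _ := rfl

/-- dual coordinates -/
def pois_e1 : ℤ × ℤ ≃ O where
  toFun p := ⟨p.1 + p.2, p.1⟩
  invFun x := (x.im, x.re - x.im)
  left_inv p := by simp
  right_inv x := by ext <;> simp

theorem pois_toC0 (p : ℤ × ℤ) : toC (pois_e0 p) = p.1 + p.2 * omC := rfl
theorem pois_toC1 (p : ℤ × ℤ) : toC (pois_e1 p) = (p.1 + p.2) + p.1 * omC := by
  show (((p.1 + p.2 : ℤ) : ℂ)) + p.1 * omC = _
  push_cast
  rfl
theorem pois_N (x : O) : ((N x : ℝ) : ℂ) = (x.re : ℂ) ^ 2 - x.re * x.im + (x.im : ℂ) ^ 2 := by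
  have := Nm_cast x
  unfold N
  exact_mod_cast this
theorem pois_N1 (p : ℤ × ℤ) :
    ((N (pois_e1 p) : ℝ) : ℂ) = (p.1 : ℂ) ^ 2 + p.1 * p.2 + (p.2 : ℂ) ^ 2 := by
  rw [pois_N]
  show (((p.1 + p.2 : ℤ) : ℂ)) ^ 2 - ((p.1 + p.2 : ℤ) : ℂ) * p.1 + (p.1 : ℂ) ^ 2 = _
  push_cast
  ring
theorem pois_normSq (x y : ℝ) : normSq (x + y * omC) = x ^ 2 - x * y + y ^ 2 := by
  have h : √3 * √3 = 3 := Real.mul_self_sqrt (by norm_num)
  simp only [normSq_apply, add_re, mul_re, ofReal_re, ofReal_im, omC, add_im, mul_im]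
  linear_combination (y ^ 2 / 4) * h
theorem pois_coord (z : ℂ) : ∃ x y : ℝ, z = x + y * omC := by
  have h : (0 : ℝ) < √3 := by positivity
  refine ⟨z.re + z.im / √3, 2 * z.im / √3, Complex.ext ?_ ?_⟩
  · simp only [add_re, mul_re, ofReal_re, ofReal_im, omC]
    ring
  · simp only [add_im, mul_im, ofReal_re, ofReal_im, omC]
    field_simp
    ring
theorem pois_kap : (kap : ℂ) = π * ((2 / √3 : ℝ) : ℂ) := by
  unfold kap
  push_cast
  ring
theorem pois_r : (0 : ℝ) < 2 / √3 ∧ ((2 / √3 : ℝ) : ℂ) ^ 2 * 3 = 4 := by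
  have h : √3 ^ 2 = 3 := Real.sq_sqrt (by norm_num)
  refine ⟨by positivity, ?_⟩
  have : (2 / √3 : ℝ) ^ 2 * 3 = 4 := by rw [div_pow, h]; norm_num
  exact_mod_cast this

theorem poisson {s : ℂ} (hs : 0 < s.re) (z : ℂ) :
    ∑' k : O, Complex.exp (-(kap * s * (normSq (toC k + z) : ℝ))) =
      s⁻¹ * ∑' h : O, psi (toC h * z) * Complex.exp (-(kap * (N h : ℝ) / s)) := by
  obtain ⟨x, y, rfl⟩ := pois_coord z
  obtain ⟨r0, r3⟩ := pois_r
  have hk := pois_kap
  generalize (2 / √3 : ℝ) = r at r0 r3 hk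
  have s0 : s ≠ 0 := fun h => by simp [h] at hs
  have r0' : (r : ℂ) ≠ 0 := by exact_mod_cast r0.ne'
  have ha : 0 < (r * s : ℂ).re := by rw [re_ofReal_mul]; positivity
  have hd : (-(r * s / 2) : ℂ).re ^ 2 < (r * s : ℂ).re * (r * s : ℂ).re := by
    rw [neg_re, div_ofNat_re]
    nlinarith
  have D : (r * s : ℂ) * (r * s) - (-(r * s / 2)) ^ 2 = s ^ 2 := by
    linear_combination (s ^ 2 / 4) * r3
  have h := pois2 ha hd (-(r * s * x - r * s / 2 * y)) (-(-(r * s / 2) * x + r * s * y))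
  rw [pois_sqrt ha (pois2_re_pos ha hd) hs (by rw [← D]; field_simp), D] at h
  rw [← pois_e0.tsum_eq, ← pois_e1.tsum_eq]
  have e0 : ∀ p : ℤ × ℤ, Complex.exp (-(kap * s * (normSq (toC (pois_e0 p) + (x + y * omC)) : ℝ))) =
      Complex.exp (-π * (r * s * p.1 ^ 2 + 2 * (-(r * s / 2)) * p.1 * p.2 + r * s * p.2 ^ 2) +
        2 * π * (-(r * s * x - r * s / 2 * y) * p.1 + -(-(r * s / 2) * x + r * s * y) * p.2)) *
        Complex.exp (-(π * r * s * (x ^ 2 - x * y + y ^ 2))) := fun p => by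
    have : toC (pois_e0 p) + (x + y * omC) = ((p.1 + x : ℝ) : ℂ) + ((p.2 + y : ℝ) : ℂ) * omC := by
      rw [pois_toC0]
      push_cast
      ring
    rw [this, pois_normSq, ← Complex.exp_add, hk]
    congr 1
    push_cast
    ring
  rw [tsum_congr e0, tsum_mul_right, h, mul_assoc, ← tsum_mul_right, one_div]
  congr 1
  refine tsum_congr fun p => ?_
  have : toC (pois_e1 p) * (x + y * omC) = (((p.1 + p.2) * x - p.1 * y : ℝ) : ℂ) +
      ((p.1 * x + p.2 * y : ℝ) : ℂ) * omC := by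
    rw [pois_toC1]
    push_cast
    linear_combination ((p.1 : ℂ) * y) * omC_mul
  rw [this, psi_coord, ← Complex.exp_add, ← Complex.exp_add, pois_N1, hk]
  congr 1
  have hI := Complex.I_mul_I
  have key : r * s * (p.1 + Complex.I * -(r * s * x - r * s / 2 * y)) ^ 2 -
      2 * -(r * s / 2) * (p.1 + Complex.I * -(r * s * x - r * s / 2 * y)) *
        (p.2 + Complex.I * -(-(r * s / 2) * x + r * s * y)) +
      r * s * (p.2 + Complex.I * -(-(r * s / 2) * x + r * s * y)) ^ 2 =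
      r * s * (p.1 ^ 2 + p.1 * p.2 + p.2 ^ 2) - 2 * Complex.I * s ^ 2 * (p.1 * x + p.2 * y)
        - s ^ 2 * (r * s * (x ^ 2 - x * y + y ^ 2)) := by
    linear_combination (3 / 4 * r ^ 3 * s ^ 3 * (x ^ 2 - x * y + y ^ 2)) * hI +
      (-(s ^ 2 / 4) * (2 * Complex.I * (p.1 * x + p.2 * y) + r * s * (x ^ 2 - x * y + y ^ 2))) * r3
  rw [key]
  push_cast
  field_simp
  ring

theorem pois_bdd {q : O} (hq : q ≠ 0) {f : O → ℂ} (hf : Per q f) (m : O) :
    ‖f m‖ ≤ ∑ x ∈ rs q, ‖f x‖ := by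
  obtain ⟨y, hy, h⟩ := rs_exists hq m
  rw [hf m y h]
  exact Finset.single_le_sum (f := fun x => ‖f x‖) (fun _ _ => norm_nonneg _) hy

theorem pois_summ {f : O → ℂ} {B : ℝ} (hf : ∀ m, ‖f m‖ ≤ B) {T : ℝ} (hT : 0 < T) :
    Summable (fun m : O => f m * ((Real.exp (-(kap * N m / T)) : ℝ) : ℂ)) := by
  obtain ⟨C, -, h⟩ := sum_exp_le kap_pos
  refine Summable.of_norm_bounded ((h T hT).1.mul_left B) fun m => ?_
  rw [norm_mul, Complex.norm_real, Real.norm_of_nonneg (Real.exp_pos _).le]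
  exact mul_le_mul_of_nonneg_right (hf m) (Real.exp_pos _).le

theorem poisson_char {q : O} (hq : q ≠ 0) {f : O → ℂ} (hf : Per q f) {Y : ℝ} (hY : 0 < Y) :
    ∑' m : O, f m * ((Real.exp (-(kap * N m / Y)) : ℝ) : ℂ) =
      ((Y / N q : ℝ) : ℂ) * ∑' h : O, (∑ x ∈ rs q, f x * psi (toC h * toC x / toC q)) *
        ((Real.exp (-(kap * N h * Y / N q)) : ℝ) : ℂ) := by
  have q0 := N_pos hq
  have q1 := toC_ne_zero hq
  rw [tsum_rs hq (pois_summ (pois_bdd hq hf) hY)]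
  simp_rw [Finset.sum_mul]
  rw [Summable.tsum_finsetSum, Finset.mul_sum]
  · refine Finset.sum_congr rfl fun x _ => ?_
    have hs : 0 < ((N q / Y : ℝ) : ℂ).re := by rw [ofReal_re]; positivity
    have h := poisson hs (toC x / toC q)
    have e : ∀ k : O, f (x + q * k) * ((Real.exp (-(kap * N (x + q * k) / Y)) : ℝ) : ℂ) =
        f x * Complex.exp (-(kap * ((N q / Y : ℝ) : ℂ) * (normSq (toC k + toC x / toC q) : ℝ))) :=
      fun k => by
        rw [hf (x + q * k) x ⟨k, by ring⟩]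
        congr 1
        have : N (x + q * k) = N q * normSq (toC k + toC x / toC q) := by
          rw [← normSq_toC, ← normSq_toC, ← map_mul]
          congr 1
          rw [map_add, map_mul]
          field_simp
          ring
        rw [this]
        push_cast
        congr 1
        ring
    rw [tsum_congr e, tsum_mul_left, h, ← mul_assoc, mul_comm (f x), mul_assoc, ← tsum_mul_left]
    congr 1
    · rw [← ofReal_inv, inv_div]
    · refine tsum_congr fun k => ?_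
      rw [mul_assoc, mul_div_assoc (toC k)]
      push_cast
      rw [div_div_eq_mul_div]
  · intro x _
    refine (pois_summ (B := ‖f x‖) (f := fun h => f x * psi (toC h * toC x / toC q))
      (fun m => by rw [norm_mul, norm_psi, mul_one]) (T := N q / Y) (by positivity)).congr
      fun h => ?_
    rw [div_div_eq_mul_div]

theorem lsp (β : ℂ) {ε : ℝ} (hε : 0 < ε) :
    ∑' x : O, psi (β * toC x ^ 2) * ((Real.exp (-(kap * ε * N x)) : ℝ) : ℂ) =
      (((√(ε ^ 2 + 4 * normSq β))⁻¹ : ℝ) : ℂ) *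
        ∑' h : O, psi (-(conj β * toC h ^ 2 / ((ε ^ 2 + 4 * normSq β : ℝ) : ℂ))) *
          ((Real.exp (-(kap * ε * N h / (ε ^ 2 + 4 * normSq β))) : ℝ) : ℂ) := by
  obtain ⟨r0, r3⟩ := pois_r
  have hk := pois_kap
  generalize (2 / √3 : ℝ) = r at r0 r3 hk
  have hw := omC_mul
  have hc : conj omC = -1 - omC := by rw [conj_omC, sq, hw]
  have D0 : 0 < ε ^ 2 + 4 * normSq β := by have := normSq_nonneg β; positivity
  have im0 : ∀ z : ℂ, (conj z - z).re = 0 := fun z => by simp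
  have a1 : (r * (ε + (conj β - β)) : ℂ).re = r * ε := by
    rw [re_ofReal_mul, add_re, im0, ofReal_re, add_zero]
  have b1 : (r * (((-(ε / 2) : ℝ) : ℂ) + (conj (β * omC) - β * omC)) : ℂ).re = r * (-(ε / 2)) := by
    rw [re_ofReal_mul, add_re, im0, ofReal_re, add_zero]
  have c1 : (r * (ε + (conj (β * omC ^ 2) - β * omC ^ 2)) : ℂ).re = r * ε := by
    rw [re_ofReal_mul, add_re, im0, ofReal_re, add_zero]
  have ha : 0 < (r * (ε + (conj β - β)) : ℂ).re := by rw [a1]; positivity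
  have hd : (r * (((-(ε / 2) : ℝ) : ℂ) + (conj (β * omC) - β * omC)) : ℂ).re ^ 2 <
      (r * (ε + (conj β - β)) : ℂ).re * (r * (ε + (conj (β * omC ^ 2) - β * omC ^ 2)) : ℂ).re := by
    rw [a1, b1, c1]
    nlinarith [mul_pos r0 hε]
  have D : (r * (ε + (conj β - β)) : ℂ) * (r * (ε + (conj (β * omC ^ 2) - β * omC ^ 2))) -
      (r * (((-(ε / 2) : ℝ) : ℂ) + (conj (β * omC) - β * omC))) ^ 2 =
        ((ε ^ 2 + 4 * normSq β : ℝ) : ℂ) := by
    rw [map_mul, map_mul, map_pow, hc]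
    push_cast
    rw [← mul_conj]
    linear_combination ((ε : ℂ) ^ 2 / 4 + β * conj β) * r3 +
      (r ^ 2 * (ε * (conj β - β) - 4 * β * conj β)) * hw
  have a0 : (r * (ε + (conj β - β)) : ℂ) ≠ 0 := fun h => by simp [h] at ha
  have h := pois2 ha hd 0 0
  rw [pois_sqrt ha (pois2_re_pos ha hd) (w := ((√(ε ^ 2 + 4 * normSq β) : ℝ) : ℂ))
    (by rw [ofReal_re]; positivity)
    (by rw [← ofReal_pow, Real.sq_sqrt D0.le, ← D, mul_sub, mul_div_cancel₀ _ a0]), D] at h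
  rw [← pois_e0.tsum_eq, ← pois_e1.tsum_eq, ofReal_inv, ← one_div]
  refine (tsum_congr fun p => ?_).trans (h.trans ?_)
  · unfold psi
    rw [ofReal_exp, ← Complex.exp_add]
    congr 1
    push_cast
    rw [pois_N, pois_toC0, hk]
    simp only [map_mul, map_pow, map_add, map_intCast, hc]
    show _ + -(_ * _ * ((p.1 : ℂ) ^ 2 - p.1 * p.2 + (p.2 : ℂ) ^ 2)) = _
    ring
  · congr 1
    refine tsum_congr fun p => ?_
    unfold psi
    rw [ofReal_exp, ← Complex.exp_add]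
    congr 1
    simp only [ofReal_neg, ofReal_div, ofReal_mul]
    rw [pois_N1, pois_toC1, hk]
    simp only [map_neg, map_div₀, map_mul, map_pow, map_add, map_intCast, hc, conj_conj,
      conj_ofReal, div_eq_mul_inv, map_inv₀]
    generalize ((ε ^ 2 + 4 * normSq β : ℝ) : ℂ)⁻¹ = Di
    push_cast
    ring

end

end Vale.Agent.P026
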