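import Vale.Agent.P026.Defs2
import Vale.Agent.P026.Pois
import Vale.Agent.P026.GamB
import Vale.Agent.P026.Wb

namespace Vale.Agent.P026

open Complex MeasureTheory Filter Topology
open scoped Classical ComplexConjugate Real MatrixGroups

noncomputable section

theorem psi_phi_pos (y : ℝ) : 0 < phi y := Real.exp_pos _

theorem psi_W (y : ℝ) : W 0 y = ((phi y : ℝ) : ℂ) := by
  simp [W, phi]

theorem psi_meas : Measurable phi := by
  unfold phi
  fun_prop

theorem psi_int (σ : ℝ) : IntegrableOn (fun y : ℝ => y ^ σ * phi y) (Set.Ioi 0) := by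
  refine (Integrable.norm (W_mellin 0 ((σ + 1 : ℝ) : ℂ)).1).congr
    ((ae_restrict_iff' measurableSet_Ioi).2 (Eventually.of_forall fun y hy => ?_))
  simp only [norm_smul, psi_W, Complex.norm_real, Real.norm_of_nonneg (psi_phi_pos y).le,
    Complex.norm_cpow_eq_rpow_re_of_pos hy]
  simp

theorem psi_exp_le {a : ℝ} (ha : 0 ≤ a) :
    ∃ C : ℝ, 0 < C ∧ ∀ t : ℝ, 0 < t → Real.exp (-t) ≤ C * t ^ (-a) := by
  obtain ⟨n, hn⟩ := exists_nat_ge a
  refine ⟨n.factorial * Real.exp 1, by positivity, fun t ht => ?_⟩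
  have h1 : t ^ a ≤ (1 + t) ^ n := by
    rw [← Real.rpow_natCast]
    exact (Real.rpow_le_rpow ht.le (by linarith) ha).trans
      (Real.rpow_le_rpow_of_exponent_le (by linarith) hn)
  have h2 := Real.pow_div_factorial_le_exp (1 + t) (by linarith) n
  rw [div_le_iff₀ (by positivity), Real.exp_add] at h2
  rw [Real.rpow_neg ht.le, Real.exp_neg, ← div_eq_mul_inv, le_div_iff₀ (by positivity),
    inv_mul_le_iff₀ (Real.exp_pos t)]
  nlinarith

theorem psi_int_of {g : ℝ → ℝ} (hg : Measurable g) {C σ : ℝ}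
    (h : ∀ y, 0 < y → 0 ≤ g y ∧ g y ≤ C * (y ^ σ * phi y)) : IntegrableOn g (Set.Ioi 0) :=
  Integrable.mono' ((psi_int σ).const_mul C) hg.aestronglyMeasurable
    ((ae_restrict_iff' measurableSet_Ioi).2 (Eventually.of_forall fun y hy => by
      rw [Real.norm_of_nonneg (h y hy).1]
      exact (h y hy).2))

theorem psi_int_w {x : ℝ} (hx : 0 ≤ x) :
    IntegrableOn (fun y : ℝ => Real.exp (-(kap * x / y)) * phi y / y) (Set.Ioi 0) := by
  refine psi_int_of (by have := psi_meas; fun_prop) (C := 1) (σ := -1) fun y hy =>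
    ⟨by have := psi_phi_pos y; positivity, ?_⟩
  rw [one_mul, Real.rpow_neg_one, ← div_eq_inv_mul, mul_div_assoc]
  refine mul_le_of_le_one_left (div_pos (psi_phi_pos y) hy).le (Real.exp_le_one_iff.2 ?_)
  have := kap_pos
  exact neg_nonpos.2 (by positivity)

theorem psi_int_p {x : ℝ} (hx : 0 ≤ x) :
    IntegrableOn (fun y : ℝ => Real.exp (-(kap * x * y)) * phi y) (Set.Ioi 0) := by
  refine psi_int_of (by have := psi_meas; fun_prop) (C := 1) (σ := 0) fun y hy =>
    ⟨by have := psi_phi_pos y; positivity, ?_⟩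
  rw [one_mul, Real.rpow_zero, one_mul]
  refine mul_le_of_le_one_left (psi_phi_pos y).le (Real.exp_le_one_iff.2 ?_)
  have := kap_pos
  exact neg_nonpos.2 (by positivity)

theorem wtf_nonneg (x : ℝ) : 0 ≤ wtf x :=
  setIntegral_nonneg measurableSet_Ioi fun y hy =>
    div_nonneg (mul_nonneg (Real.exp_pos _).le (psi_phi_pos y).le) (le_of_lt hy)

theorem wtf_ge : ∃ c : ℝ, 0 < c ∧ ∀ x : ℝ, 0 ≤ x → x ≤ 1 → c ≤ wtf x := by
  refine ⟨wtf 1, ?_, fun x h0 h1 => setIntegral_mono_on (psi_int_w zero_le_one) (psi_int_w h0)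
    measurableSet_Ioi fun y hy => ?_⟩
  · have hp : ∀ y ∈ Set.Ioi (0 : ℝ), 0 < Real.exp (-(kap * 1 / y)) * phi y / y := fun y hy =>
      div_pos (mul_pos (Real.exp_pos _) (psi_phi_pos y)) hy
    refine (setIntegral_pos_iff_support_of_nonneg_ae ((ae_restrict_iff' measurableSet_Ioi).2
      (Eventually.of_forall fun y hy => (hp y hy).le)) (psi_int_w zero_le_one)).2 ?_
    rw [Set.inter_eq_right.2 fun y hy => Function.mem_support.2 (hp y hy).ne']
    simp
  · have := kap_pos
    have := psi_phi_pos y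
    have : 0 < y := hy
    gcongr

theorem Psi_nonneg (x : ℝ) : 0 ≤ Psi x :=
  integral_nonneg fun y => mul_nonneg (Real.exp_pos _).le (psi_phi_pos y).le

theorem psi_bound {g : ℝ → ℝ} {C σ : ℝ} (h : ∀ y, 0 < y → 0 ≤ g y ∧ g y ≤ C * (y ^ σ * phi y)) :
    ∫ y in Set.Ioi (0 : ℝ), g y ≤ C * ∫ y in Set.Ioi (0 : ℝ), y ^ σ * phi y := by
  rw [← integral_const_mul]
  exact integral_mono_of_nonneg ((ae_restrict_iff' measurableSet_Ioi).2
    (Eventually.of_forall fun y hy => (h y hy).1)) ((psi_int σ).const_mul C)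
    ((ae_restrict_iff' measurableSet_Ioi).2 (Eventually.of_forall fun y hy => (h y hy).2))

theorem psi_I_nonneg (σ : ℝ) : 0 ≤ ∫ y in Set.Ioi (0 : ℝ), y ^ σ * phi y :=
  setIntegral_nonneg measurableSet_Ioi fun y hy =>
    mul_nonneg (Real.rpow_nonneg (le_of_lt hy) _) (psi_phi_pos y).le

theorem Psi_le {a : ℝ} (ha : 0 ≤ a) :
    ∃ C : ℝ, 0 < C ∧ ∀ x : ℝ, 0 < x → Psi x ≤ C * x ^ (-a) := by
  obtain ⟨C, hC0, hC⟩ := psi_exp_le ha
  have hk := kap_pos
  have hI := psi_I_nonneg (-a)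
  refine ⟨C * kap ^ (-a) * ((∫ y in Set.Ioi (0 : ℝ), y ^ (-a) * phi y) + 1), by positivity,
    fun x hx => (psi_bound (C := C * kap ^ (-a) * x ^ (-a)) (σ := -a) fun y hy =>
      ⟨by have := psi_phi_pos y; positivity, ?_⟩).trans ?_⟩
  · have := hC (kap * x * y) (by positivity)
    rw [Real.mul_rpow (by positivity) hy.le, Real.mul_rpow hk.le hx.le] at this
    exact (mul_le_mul_of_nonneg_right this (psi_phi_pos y).le).trans_eq (by ring)
  · rw [mul_right_comm]
    gcongr
    linarith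

theorem psi_wtf_le : ∃ C : ℝ, ∀ x : ℝ, 0 < x → wtf x ≤ C * x ^ (-2 : ℝ) := by
  obtain ⟨C, hC0, hC⟩ := psi_exp_le (a := 2) zero_le_two
  have hk := kap_pos
  refine ⟨C * kap ^ (-2 : ℝ) * ∫ y in Set.Ioi (0 : ℝ), y ^ (1 : ℝ) * phi y,
    fun x hx => (psi_bound (C := C * kap ^ (-2 : ℝ) * x ^ (-2 : ℝ)) (σ := 1) fun y hy =>
      ⟨by have := psi_phi_pos y; positivity, ?_⟩).trans_eq (by ring)⟩
  have := hC (kap * x / y) (by positivity)
  rw [Real.div_rpow (by positivity) hy.le, Real.mul_rpow hk.le hx.le, Real.rpow_neg hy.le,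
    Real.rpow_two] at this
  rw [mul_div_assoc, Real.rpow_one]
  refine (mul_le_mul_of_nonneg_right this (div_pos (psi_phi_pos y) hy).le).trans_eq ?_
  field_simp

theorem psi_summable {V : ℝ → ℝ} (h0 : ∀ x, 0 ≤ V x) {C : ℝ}
    (h : ∀ x, 0 < x → V x ≤ C * x ^ (-2 : ℝ)) {T : ℝ} (hT : 0 < T) :
    Summable fun m : O => V (N m * T) := by
  refine Summable.of_norm_bounded_eventually
    ((summable_N_rpow one_lt_two).mul_left (C * T ^ (-2 : ℝ))) ?_
  filter_upwards [(Set.finite_singleton (0 : O)).compl_mem_cofinite] with m hm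
  rw [Real.norm_of_nonneg (h0 _)]
  refine (h _ (mul_pos (N_pos hm) hT)).trans_eq ?_
  rw [Real.mul_rpow (N_nonneg m) hT.le]
  ring

theorem psi_swap {c : O → ℂ} {B : ℝ} (hc : ∀ m, ‖c m‖ ≤ B) {g : O → ℝ → ℝ}
    (h0 : ∀ m y, 0 < y → 0 ≤ g m y) (hi : ∀ m, IntegrableOn (g m) (Set.Ioi 0))
    (hs : Summable fun m => ∫ y in Set.Ioi (0 : ℝ), g m y) :
    ∑' m, c m * ((∫ y in Set.Ioi (0 : ℝ), g m y : ℝ) : ℂ) =
      ∫ y in Set.Ioi (0 : ℝ), ∑' m, c m * ((g m y : ℝ) : ℂ) := by
  refine Eq.trans ?_ (integral_tsum_of_summable_integral_norm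
    (F := fun m y => c m * ((g m y : ℝ) : ℂ)) (fun m => (hi m).ofReal.const_mul (c m)) ?_)
  · exact tsum_congr fun m => by rw [integral_const_mul, integral_complex_ofReal]
  · refine Summable.of_nonneg_of_le (fun m => integral_nonneg fun y => norm_nonneg _)
      (fun m => ?_) (hs.mul_left B)
    rw [← integral_const_mul]
    refine integral_mono_of_nonneg (Eventually.of_forall fun y => norm_nonneg _)
      ((hi m).const_mul B) ((ae_restrict_iff' measurableSet_Ioi).2
        (Eventually.of_forall fun y hy => ?_))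
    change ‖c m * ((g m y : ℝ) : ℂ)‖ ≤ B * g m y
    rw [norm_mul, Complex.norm_real, Real.norm_of_nonneg (h0 m y hy)]
    exact mul_le_mul_of_nonneg_right (hc m) (h0 m y hy)

theorem poisPair_wtf : PoisPair wtf Psi := by
  obtain ⟨C, hC⟩ := psi_wtf_le
  obtain ⟨D, -, hD⟩ := Psi_le (a := 2) zero_le_two
  have s1 : ∀ Y : ℝ, 0 < Y → Summable (fun m : O => wtf (N m / Y)) := fun Y hY =>
    psi_summable wtf_nonneg hC (inv_pos.2 hY)
  have s2 : ∀ T : ℝ, 0 < T → Summable (fun m : O => Psi (N m * T)) := fun T hT =>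
    psi_summable Psi_nonneg hD hT
  refine ⟨s1, s2, fun q f Y hq hf hY => ?_⟩
  have hT := div_pos hY (N_pos hq)
  have b1 : ∀ m, ‖f m‖ ≤ ∑ x ∈ rs q, ‖f x‖ := fun m => by
    obtain ⟨y, hy, h⟩ := rs_exists hq m
    rw [hf m y h]
    exact Finset.single_le_sum (f := fun x => ‖f x‖) (fun _ _ => norm_nonneg _) hy
  have b2 : ∀ h : O, ‖∑ x ∈ rs q, f x * psi (toC h * toC x / toC q)‖ ≤ ∑ x ∈ rs q, ‖f x‖ :=
    fun h => (norm_sum_le _ _).trans_eq (Finset.sum_congr rfl fun x _ => by
      rw [norm_mul, norm_psi, mul_one])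
  have e1 := psi_swap b1 (g := fun m y => Real.exp (-(kap * (N m / Y) / y)) * phi y / y)
    (fun m y hy => by have := psi_phi_pos y; positivity)
    (fun m => psi_int_w (div_nonneg (N_nonneg m) hY.le)) (s1 Y hY)
  have e2 := psi_swap b2 (g := fun m y => Real.exp (-(kap * (N m * (Y / N q)) * y)) * phi y)
    (fun m y hy => by have := psi_phi_pos y; positivity)
    (fun m => psi_int_p (mul_nonneg (N_nonneg m) hT.le)) (s2 _ hT)
  refine e1.trans (Eq.trans ?_ (congrArg _ e2.symm))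
  rw [← integral_const_mul]
  refine setIntegral_congr_fun measurableSet_Ioi fun y hy => ?_
  have hy' : (0 : ℝ) < y := hy
  have e3 := poisson_char hq hf (mul_pos hY hy')
  have e4 : ∀ m : O, f m * ((Real.exp (-(kap * (N m / Y) / y)) * phi y / y : ℝ) : ℂ) =
      f m * ((Real.exp (-(kap * N m / (Y * y))) : ℝ) : ℂ) * ((phi y / y : ℝ) : ℂ) := fun m => by
    rw [← mul_div_assoc, div_div, mul_div_assoc _ (phi y), Complex.ofReal_mul, mul_assoc]
  have e5 : ∀ (m : O) (z : ℂ), z * ((Real.exp (-(kap * (N m * (Y / N q)) * y)) * phi y : ℝ) : ℂ) =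
      z * ((Real.exp (-(kap * N m * (Y * y) / N q)) : ℝ) : ℂ) * ((phi y : ℝ) : ℂ) := fun m z => by
    rw [Complex.ofReal_mul, mul_assoc z, show kap * (N m * (Y / N q)) * y =
      kap * N m * (Y * y) / N q by ring]
  simp only [e4, e5, tsum_mul_right, e3]
  have : (y : ℂ) ≠ 0 := Complex.ofReal_ne_zero.2 hy'.ne'
  push_cast
  field_simp

theorem Psi_mellin {σ : ℝ} (hσ : 0 < σ) : ∃ (C : ℝ) (m : ℝ → ℂ), 0 < C ∧ Continuous m ∧
    (∀ τ, ‖m τ‖ ≤ C * Real.exp (-τ ^ 2 / 4)) ∧
    ∀ x : ℝ, 0 < x → ((Psi x : ℝ) : ℂ) = ∫ τ : ℝ, m τ * (x : ℂ) ^ (-(σ + τ * Complex.I)) := by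
  have hk := kap_pos
  have hG : Continuous fun τ : ℝ => Complex.Gamma (σ + τ * Complex.I) :=
    continuous_iff_continuousAt.2 fun τ => ContinuousAt.comp (g := Complex.Gamma)
      (Complex.differentiableAt_Gamma _ fun n h => by
        have := congrArg Complex.re h
        simp at this
        linarith [Nat.cast_nonneg (α := ℝ) n]).continuousAt (by fun_prop)
  have hΓ := Real.Gamma_pos_of_pos hσ
  refine ⟨1 / (2 * π) * Real.Gamma σ * kap ^ (-σ) * (√π * Real.exp ((1 - σ) ^ 2 / 4)),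
    fun τ => 1 / (2 * π) * Complex.Gamma (σ + τ * Complex.I) * (kap : ℂ) ^ (-(σ + τ * Complex.I)) *
      ((√π : ℝ) * Complex.exp ((1 - (σ + τ * Complex.I)) ^ 2 / 4)), by positivity, ?_,
    fun τ => ?_, fun x hx => ?_⟩
  · exact ((hG.const_mul _).mul (Continuous.const_cpow (by fun_prop)
      (Or.inl (Complex.ofReal_ne_zero.2 hk.ne')))).mul (by fun_prop)
  · have h1 := norm_Gamma_le (s := σ + τ * Complex.I) (by simpa using hσ)
    have h2 : ((1 - (σ + τ * Complex.I)) ^ 2 / 4 : ℂ).re = (1 - σ) ^ 2 / 4 + -τ ^ 2 / 4 := by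
      simp [pow_two]
      ring
    rw [norm_mul, norm_mul, norm_mul, norm_mul, Complex.norm_cpow_eq_rpow_re_of_pos hk,
      Complex.norm_exp, h2, Real.exp_add, Complex.norm_real,
      Real.norm_of_nonneg (Real.sqrt_nonneg _)]
    have h3 : ‖(1 / (2 * π) : ℂ)‖ = 1 / (2 * π) := by simp [abs_of_pos Real.pi_pos]
    simp only [Complex.add_re, Complex.ofReal_re, Complex.mul_re, Complex.I_re, mul_zero,
      Complex.ofReal_im, Complex.I_im, mul_one, sub_self, add_zero, Complex.neg_re] at h1 ⊢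
    rw [h3, ← mul_assoc, ← mul_assoc, ← mul_assoc]
    gcongr
  · have hi : Integrable (Function.uncurry fun (y τ : ℝ) => Complex.Gamma (σ + τ * Complex.I) *
        ((kap * x * y : ℝ) : ℂ) ^ (-(σ + τ * Complex.I)) * ((phi y : ℝ) : ℂ))
        ((volume.restrict (Set.Ioi (0 : ℝ))).prod volume) := by
      refine Integrable.mono' (((psi_int (-σ)).const_mul ((kap * x) ^ (-σ))).mul_prod
        (integrable_Gamma_line hσ).norm) (Measurable.aestronglyMeasurable ?_) ?_
      · have := hG.measurable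
        have := psi_meas
        exact ((hG.measurable.comp measurable_snd).mul (Measurable.pow (by fun_prop)
          (by fun_prop))).mul (by fun_prop)
      · rw [Measure.restrict_prod_eq_prod_univ]
        refine (ae_restrict_iff' (measurableSet_Ioi.prod MeasurableSet.univ)).2
          (Eventually.of_forall fun p hp => le_of_eq ?_)
        have hy : 0 < p.1 := hp.1
        simp only [Function.uncurry]
        rw [norm_mul, norm_mul, Complex.norm_cpow_eq_rpow_re_of_pos (by positivity),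
          Complex.norm_real, Real.norm_of_nonneg (psi_phi_pos _).le,
          Real.mul_rpow (by positivity) hy.le]
        simp only [Complex.add_re, Complex.ofReal_re, Complex.mul_re, Complex.I_re, mul_zero,
          Complex.ofReal_im, Complex.I_im, mul_one, sub_self, add_zero, Complex.neg_re]
        ring
    have e1 : ((Psi x : ℝ) : ℂ) = 1 / (2 * π) * ∫ y in Set.Ioi (0 : ℝ), ∫ τ : ℝ,
        Complex.Gamma (σ + τ * Complex.I) * ((kap * x * y : ℝ) : ℂ) ^ (-(σ + τ * Complex.I)) *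
          ((phi y : ℝ) : ℂ) := by
      rw [Psi, ← integral_const_mul, ← integral_complex_ofReal]
      refine setIntegral_congr_fun measurableSet_Ioi fun y hy => ?_
      have hy' : (0 : ℝ) < y := hy
      rw [Complex.ofReal_mul, exp_mellin hσ (by positivity), integral_mul_const, mul_assoc]
    rw [e1, integral_integral_swap hi, ← integral_const_mul]
    refine integral_congr_ae (Eventually.of_forall fun τ => ?_)
    have e2 := (W_mellin 0 (1 - (σ + τ * Complex.I))).2
    rw [add_zero, mellin] at e2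
    simp only
    rw [← e2, mul_right_comm, ← integral_const_mul, ← integral_const_mul]
    refine setIntegral_congr_fun measurableSet_Ioi fun y hy => ?_
    have hy' : (0 : ℝ) < y := hy
    rw [Complex.ofReal_mul (kap * x), Complex.mul_cpow_ofReal_nonneg (by positivity) hy'.le,
      Complex.ofReal_mul, Complex.mul_cpow_ofReal_nonneg hk.le hx.le, psi_W, smul_eq_mul,
      sub_sub_cancel_left]
    ring

end

end Vale.Agent.P026
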