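import Vale.Agent.P026.PP
import Vale.Agent.P026.Psi
import Vale.Agent.P026.Gm
import Vale.Agent.P026.QuadB

namespace Vale.Agent.P026

open Complex MeasureTheory Filter Topology
open scoped Classical ComplexConjugate Real MatrixGroups

noncomputable section

theorem tl1_summ_norm {b : O → ℂ} {Bd T : ℝ} (hb : ∀ h, ‖b h‖ ≤ Bd) (hT : 0 < T) :
    Summable (fun h : O => ‖b h * ((Psi (N h * T) : ℝ) : ℂ)‖) := by
  refine Summable.of_nonneg_of_le (fun _ => norm_nonneg _) (fun h => ?_)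
    ((poisPair_wtf.2.1 T hT).mul_left Bd)
  rw [norm_mul, Complex.norm_real, Real.norm_of_nonneg (Psi_nonneg _)]
  exact mul_le_mul_of_nonneg_right (hb h) (Psi_nonneg _)

/-- the summand after Poisson summation -/
def tl1_T (a : O → ℂ) (k : ℕ) (Y : ℝ) (e g n1 n2 h : O) : ℂ :=
  a (g * n1) * conj (a (g * n2)) * (mu e * (chi6 e n1 ^ k * conj (chi6 e n2 ^ k)) *
    ((Y / (N e * N n1 * N n2) : ℝ) : ℂ)) * (eps n1 n2 * sym2 (-1) n2 * gs k 1 n1 *
      conj (gs k 1 n2)) * (chi6 h n1 ^ (6 - k) * conj (chi6 h n2 ^ (6 - k))) *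
      ((Psi (N h * (Y / (N e * N n1 * N n2))) : ℝ) : ℂ)

theorem tl1_chi_le (h n1 n2 : O) (j : ℕ) : ‖chi6 h n1 ^ j * conj (chi6 h n2 ^ j)‖ ≤ 1 := by
  rw [norm_mul, Complex.norm_conj, norm_pow, norm_pow]
  exact mul_le_one₀ (pow_le_one₀ (norm_nonneg _) (norm_chi6_le _ _)) (by positivity)
    (pow_le_one₀ (norm_nonneg _) (norm_chi6_le _ _))

theorem tl1_T_summ (a : O → ℂ) (k : ℕ) {Y : ℝ} (hY : 0 < Y) {e : O} (g : O) {n1 n2 : O}
    (he : e ≠ 0) (h1 : n1 ≠ 0) (h2 : n2 ≠ 0) : Summable (fun h => ‖tl1_T a k Y e g n1 n2 h‖) := by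
  have := N_pos he
  have := N_pos h1
  have := N_pos h2
  refine tl1_summ_norm (fun h => ?_) (by positivity)
    (Bd := ‖a (g * n1) * conj (a (g * n2)) * (mu e * (chi6 e n1 ^ k * conj (chi6 e n2 ^ k)) *
    ((Y / (N e * N n1 * N n2) : ℝ) : ℂ)) * (eps n1 n2 * sym2 (-1) n2 * gs k 1 n1 *
      conj (gs k 1 n2))‖)
  rw [norm_mul]
  exact mul_le_of_le_one_right (norm_nonneg _) (tl1_chi_le _ _ _ _)

theorem tl1_odd_pow {x : ℂ} (hx : x = 0 ∨ x = 1 ∨ x = -1) {k : ℕ} (hk : k = 1 ∨ k = 5) :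
    x ^ k = x ∧ x ^ (6 - k) = x := by
  rcases hk with rfl | rfl <;> rcases hx with rfl | rfl | rfl <;> norm_num

theorem tl1_pair {a : O → ℂ} {k : ℕ} (hk : k = 1 ∨ k = 5) {Y : ℝ} (hY : 0 < Y) {g n1 n2 : O}
    (hg : NN g) (h1 : NN n1) (h2 : NN n2) (h12 : IsCoprime n1 n2) :
    a (g * n1) * conj (a (g * n2)) * ∑' m : O, chi6 m (g * n1) ^ k * conj (chi6 m (g * n2) ^ k) *
        ((wtf (N m / Y) : ℝ) : ℂ) =
      ∑ e ∈ divs g, tl1_T a k Y e g n1 n2 0 +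
        ∑ e ∈ divs g, ∑' h : O, if h ≠ 0 then tl1_T a k Y e g n1 n2 h else 0 := by
  rw [pair_poisson poisPair_wtf hg h1 h2 h12 (by omega) (by omega) hY, Finset.mul_sum,
    ← Finset.sum_add_distrib]
  refine Finset.sum_congr rfl fun e he => ?_
  have he' := ((mem_divs hg.ne_zero).mp he).1
  have hs := (tl1_T_summ a k hY g he'.ne_zero h1.ne_zero h2.ne_zero).of_norm
  have e1 : chi6 n2 n1 ^ k * conj (chi6 n1 n2 ^ k) = eps n1 n2 := by
    have a1 : eps n1 n2 = 0 ∨ eps n1 n2 = 1 ∨ eps n1 n2 = -1 := by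
      rw [← sym2_recip h1.2.2 h2.2.2 h12]
      rcases sym2_cases n1 n2 with a | a | a <;> rcases sym2_cases n2 n1 with b | b | b <;>
        simp [a, b]
    rw [chi6_flip h2.1 h1.1 h2.2.2 h1.2.2, eps_comm n2 n1, mul_pow, (tl1_odd_pow a1 hk).1,
      mul_assoc, Complex.mul_conj', norm_pow, norm_chi6 h12]
    simp
  have e2 : ∀ h, chi6 (-h) n2 ^ (6 - k) = sym2 (-1) n2 * chi6 h n2 ^ (6 - k) := fun h => by
    rw [← neg_one_mul h, chi6_mul_left _ _ h2.2.2, chi6_neg_one, mul_pow,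
      (tl1_odd_pow (sym2_cases _ _) hk).2]
  simp only [ne_eq, ite_not]
  rw [← hs.tsum_eq_add_tsum_ite 0, ← tsum_mul_left, ← tsum_mul_left]
  refine tsum_congr fun h => ?_
  rw [e1, e2, tl1_T]
  simp only [map_mul, conj_sym2]
  ring

theorem tl1_diag {a : O → ℂ} {k : ℕ} (hk : k = 1 ∨ k = 5) {R Y : ℝ} (hY : 0 < Y) {g : O}
    (hg : g ∈ ballN R) :
    ‖∑ n1 ∈ ballN R, ∑ n2 ∈ ballN R,
        if g * n1 ∈ ballN R ∧ g * n2 ∈ ballN R ∧ IsCoprime n1 n2 then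
          ∑ e ∈ divs g, tl1_T a k Y e g n1 n2 0 else 0‖ ≤ Psi 0 * (Y * (‖a g‖ ^ 2 * dv g)) := by
  obtain ⟨hgN, hgR⟩ := mem_ballN.mp hg
  have h1 : (1 : O) ∈ ballN R := mem_ballN.mpr ⟨nn_one, by
    rw [N_one]; exact (one_le_N hgN.ne_zero).trans hgR⟩
  have hz : ∀ n, NN n → n ≠ 1 → chi6 0 n ^ (6 - k) = 0 := fun n hn hne => by
    rw [(chi6_eq_zero_iff hn.ne_zero).mpr, zero_pow (by omega)]
    rw [isCoprime_zero_left]
    exact fun hu => hne (hn.1.eq_one_of_isUnit hu)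
  rw [Finset.sum_eq_single_of_mem 1 h1, Finset.sum_eq_single_of_mem 1 h1]
  · rw [if_pos ⟨by rwa [mul_one], by rwa [mul_one], isCoprime_one_left⟩]
    have hb : ∀ e ∈ divs g, ‖tl1_T a k Y e g 1 1 0‖ ≤ Psi 0 * (Y * ‖a g‖ ^ 2) := fun e he => by
      have he' := one_le_N ((mem_divs hgN.ne_zero).mp he).1.ne_zero
      have hgs : gs k 1 1 = 1 := by simpa [gt] using gt_one k
      have hs : sym2 (-1) 1 = 1 := sym2_unit_right _ isUnit_one
      have hp := Psi_nonneg 0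
      have hYe : Y / N e ≤ Y := div_le_self hY.le he'
      simp only [tl1_T, mul_one, chi6_one_right, one_pow, map_one, hgs, hs, N_one, N_zero,
        zero_mul, norm_mul, Complex.norm_conj, Complex.norm_real, Real.norm_of_nonneg hp,
        norm_eps nn_one.2.2 nn_one.2.2]
      rw [Real.norm_of_nonneg (by positivity)]
      have := norm_mu_le e
      calc ‖a g‖ * ‖a g‖ * (‖mu e‖ * (Y / N e)) * Psi 0 ≤ ‖a g‖ * ‖a g‖ * (1 * Y) * Psi 0 := by
            gcongr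
        _ = _ := by ring
    refine (norm_sum_le _ _).trans ((Finset.sum_le_card_nsmul _ _ _ hb).trans ?_)
    rw [nsmul_eq_mul]
    have := card_divs_le g
    have hp := Psi_nonneg 0
    calc ((divs g).card : ℝ) * (Psi 0 * (Y * ‖a g‖ ^ 2)) ≤ dv g * (Psi 0 * (Y * ‖a g‖ ^ 2)) := by
          gcongr
      _ = _ := by ring
  · intro n hn hne
    simp [tl1_T, hz n (mem_ballN.mp hn).1 hne]
  · intro n hn hne
    simp [tl1_T, hz n (mem_ballN.mp hn).1 hne]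

theorem tl1_off {a : O → ℂ} {k : ℕ} {R Y : ℝ} (hY : 0 < Y) {t : O × O × O} (ht : t ∈ trip R) :
    ‖mu t.2.2 * ∑ n1 ∈ ballN R, ∑ n2 ∈ ballN R,
        if t.1 * t.2.1 * t.2.2 * n1 ∈ ballN R ∧ t.1 * t.2.1 * t.2.2 * n2 ∈ ballN R then
          (∑' h : O, if h ≠ 0 then
            tl1_T a k Y t.2.1 (t.1 * t.2.1) (t.2.2 * n1) (t.2.2 * n2) h else 0) else 0‖ ≤
      Y / (N t.2.1 * N t.2.2) * ∑' h : O, if h ≠ 0 then ‖Off R a k Y t h‖ else 0 := by
  obtain ⟨g, e, f⟩ := t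
  obtain ⟨-, he, hf, -, -⟩ := mem_trip.mp ht
  simp only at he hf ⊢
  have he0 := N_pos he.ne_zero
  have hf0 := N_pos hf.ne_zero
  let U : O → O → O → ℂ := fun n1 n2 h =>
    if g * e * f * n1 ∈ ballN R ∧ g * e * f * n2 ∈ ballN R then
      (if h ≠ 0 then tl1_T a k Y e (g * e) (f * n1) (f * n2) h else 0) else 0
  have hU : ∀ n1 ∈ ballN R, ∀ n2 ∈ ballN R, Summable fun h => ‖U n1 n2 h‖ := by
    intro n1 h1 n2 h2
    refine Summable.of_nonneg_of_le (fun _ => norm_nonneg _) (fun h => ?_)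
      (tl1_T_summ a k hY (g * e) he.ne_zero
        (mul_ne_zero hf.ne_zero (mem_ballN.mp h1).1.ne_zero)
        (mul_ne_zero hf.ne_zero (mem_ballN.mp h2).1.ne_zero))
    simp only [U]
    split_ifs <;> simp
  have hsum : ∀ h, ∑ n1 ∈ ballN R, ∑ n2 ∈ ballN R, U n1 n2 h
      = mu e * ((Y / (N e * N f) : ℝ) : ℂ) * if h ≠ 0 then Off R a k Y (g, e, f) h else 0 := by
    intro h
    by_cases h0 : h = 0
    · simp [U, h0]
    rw [if_pos h0, Off, Finset.mul_sum]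
    refine Finset.sum_congr rfl fun n1 h1 => ?_
    rw [Finset.mul_sum]
    refine Finset.sum_congr rfl fun n2 h2 => ?_
    have p1 := N_pos (mem_ballN.mp h1).1.ne_zero
    have p2 := N_pos (mem_ballN.mp h2).1.ne_zero
    simp only [U, vv, if_pos h0]
    by_cases c1 : g * e * f * n1 ∈ ballN R
    swap
    · simp [c1]
    by_cases c2 : g * e * f * n2 ∈ ballN R
    swap
    · simp [c2]
    have hgs : ∀ n, n ≠ 0 → gs k 1 (f * n) = ((√(N f) * √(N n) : ℝ) : ℂ) * gt k (f * n) :=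
      fun n hn => by
        have : ((‖toC (f * n)‖ : ℝ) : ℂ) ≠ 0 := by
          exact_mod_cast norm_ne_zero_iff.mpr (toC_ne_zero (mul_ne_zero hf.ne_zero hn))
        rw [gt, ← Real.sqrt_mul hf0.le, ← N_mul, ← norm_toC, mul_div_cancel₀ _ this]
    have hr : Y / (N e * N (f * n1) * N (f * n2)) * (√(N f) * √(N n1)) * (√(N f) * √(N n2))
        = Y / (N e * N f) * (√(N n1 * N n2))⁻¹ := by
      rw [N_mul, N_mul, Real.sqrt_mul p1.le]
      have s0 := Real.sqrt_pos.mpr hf0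
      have s1 := Real.sqrt_pos.mpr p1
      have s2 := Real.sqrt_pos.mpr p2
      rw [← Real.mul_self_sqrt hf0.le, ← Real.mul_self_sqrt p1.le, ← Real.mul_self_sqrt p2.le]
      simp only [Real.sqrt_mul_self s0.le, Real.sqrt_mul_self s1.le, Real.sqrt_mul_self s2.le]
      field_simp
    have harg : N h * (Y / (N e * N (f * n1) * N (f * n2)))
        = N h * Y / (N e * N f ^ 2 * N n1 * N n2) := by
      rw [N_mul, N_mul]
      field_simp
    have hr' := congrArg (fun x : ℝ => (x : ℂ)) hr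
    simp only [Complex.ofReal_mul] at hr'
    rw [if_pos ⟨c1, c2⟩, if_pos c1, if_pos c2, tl1_T, harg, hgs n1 (mem_ballN.mp h1).1.ne_zero,
      hgs n2 (mem_ballN.mp h2).1.ne_zero, ← mul_assoc (g * e), ← mul_assoc (g * e)]
    simp only [map_mul, Complex.conj_ofReal, Complex.ofReal_mul]
    linear_combination (a (g * e * f * n1) * conj (a (g * e * f * n2)) * mu e *
      chi6 e (f * n1) ^ k * conj (chi6 e (f * n2) ^ k) * eps (f * n1) (f * n2) *
      sym2 (-1) (f * n2) * gt k (f * n1) * conj (gt k (f * n2)) * chi6 h (f * n1) ^ (6 - k) *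
      conj (chi6 h (f * n2) ^ (6 - k)) *
      ((Psi (N h * Y / (N e * N f ^ 2 * N n1 * N n2)) : ℝ) : ℂ)) * hr'
  have hs2 : Summable fun h => ∑ n1 ∈ ballN R, ∑ n2 ∈ ballN R, U n1 n2 h :=
    summable_sum fun n1 h1 => summable_sum fun n2 h2 => (hU n1 h1 n2 h2).of_norm
  have e1 : (∑ n1 ∈ ballN R, ∑ n2 ∈ ballN R,
      if g * e * f * n1 ∈ ballN R ∧ g * e * f * n2 ∈ ballN R then
        (∑' h : O, if h ≠ 0 then tl1_T a k Y e (g * e) (f * n1) (f * n2) h else 0) else 0)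
      = ∑' h, ∑ n1 ∈ ballN R, ∑ n2 ∈ ballN R, U n1 n2 h := by
    rw [Summable.tsum_finsetSum fun n1 h1 => summable_sum fun n2 h2 => (hU n1 h1 n2 h2).of_norm]
    refine Finset.sum_congr rfl fun n1 h1 => ?_
    rw [Summable.tsum_finsetSum fun n2 h2 => (hU n1 h1 n2 h2).of_norm]
    refine Finset.sum_congr rfl fun n2 h2 => ?_
    simp only [U]
    split_ifs <;> simp
  have hn : ∀ h, ‖∑ n1 ∈ ballN R, ∑ n2 ∈ ballN R, U n1 n2 h‖
      = Y / (N e * N f) * if h ≠ 0 then ‖Off R a k Y (g, e, f) h‖ else 0 := fun h => by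
    rw [hsum, norm_mul, norm_mul, norm_mu he.2.1, one_mul, Complex.norm_real,
      Real.norm_of_nonneg (by positivity)]
    split_ifs <;> simp
  rw [e1, norm_mul, norm_mu hf.2.1, one_mul, ← tsum_mul_left, ← tsum_congr hn]
  exact norm_tsum_le_tsum_norm hs2.norm

theorem tl1 : ∃ C : ℝ, 0 < C ∧ ∀ (k : ℕ) (R Y : ℝ) (a : O → ℂ), k = 1 ∨ k = 5 → 0 < Y →
    ∑ m ∈ ballO Y, ‖∑ n ∈ ballN R, a n * chi6 m n ^ k‖ ^ 2 ≤
      C * (Y * ∑ n ∈ ballN R, ‖a n‖ ^ 2 * dv n +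
        ∑ t ∈ trip R, Y / (N t.2.1 * N t.2.2) *
          ∑' h : O, if h ≠ 0 then ‖Off R a k Y t h‖ else 0) := by
  obtain ⟨c, hc, hcw⟩ := wtf_ge
  have hp := Psi_nonneg 0
  refine ⟨(Psi 0 + 1) / c, by positivity, fun k R Y a hk hY => ?_⟩
  have hw := poisPair_wtf.1 Y hY
  let P : O → O → O → ℂ := fun n1 n2 m =>
    a n1 * conj (a n2) * (chi6 m n1 ^ k * conj (chi6 m n2 ^ k) * ((wtf (N m / Y) : ℝ) : ℂ))
  have hP : ∀ n1 n2, Summable (P n1 n2) := fun n1 n2 => by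
    refine Summable.mul_left _ (Summable.of_norm_bounded hw fun m => ?_)
    rw [norm_mul, Complex.norm_real, Real.norm_of_nonneg (wtf_nonneg _)]
    exact mul_le_of_le_one_left (wtf_nonneg _) (tl1_chi_le _ _ _ _)
  have hterm : ∀ m, ((‖∑ n ∈ ballN R, a n * chi6 m n ^ k‖ ^ 2 * wtf (N m / Y) : ℝ) : ℂ)
      = ∑ n1 ∈ ballN R, ∑ n2 ∈ ballN R, P n1 n2 m := fun m => by
    push_cast
    rw [← Complex.mul_conj', map_sum, Finset.sum_mul_sum, Finset.sum_mul]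
    refine Finset.sum_congr rfl fun n1 _ => ?_
    rw [Finset.sum_mul]
    refine Finset.sum_congr rfl fun n2 _ => ?_
    simp only [P, map_mul]
    ring
  have hs : Summable fun m => ‖∑ n ∈ ballN R, a n * chi6 m n ^ k‖ ^ 2 * wtf (N m / Y) := by
    rw [← Complex.summable_ofReal]
    simp only [hterm]
    exact summable_sum fun n1 _ => summable_sum fun n2 _ => hP n1 n2
  have h1 : c * ∑ m ∈ ballO Y, ‖∑ n ∈ ballN R, a n * chi6 m n ^ k‖ ^ 2
      ≤ ∑' m, ‖∑ n ∈ ballN R, a n * chi6 m n ^ k‖ ^ 2 * wtf (N m / Y) := by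
    refine le_trans ?_ (hs.sum_le_tsum (ballO Y)
      fun m _ => mul_nonneg (by positivity) (wtf_nonneg _))
    rw [Finset.mul_sum]
    refine Finset.sum_le_sum fun m hm => ?_
    rw [mul_comm]
    refine mul_le_mul_of_nonneg_left (hcw _ (div_nonneg (N_nonneg _) hY.le) ?_) (by positivity)
    rw [div_le_one hY]
    exact (mem_ballO.mp hm).2
  have h2 : (((∑' m, ‖∑ n ∈ ballN R, a n * chi6 m n ^ k‖ ^ 2 * wtf (N m / Y) : ℝ)) : ℂ)
      = (∑ g ∈ ballN R, ∑ n1 ∈ ballN R, ∑ n2 ∈ ballN R,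
          if g * n1 ∈ ballN R ∧ g * n2 ∈ ballN R ∧ IsCoprime n1 n2 then
            ∑ e ∈ divs g, tl1_T a k Y e g n1 n2 0 else 0) +
        ∑ g ∈ ballN R, ∑ n1 ∈ ballN R, ∑ n2 ∈ ballN R,
          if g * n1 ∈ ballN R ∧ g * n2 ∈ ballN R ∧ IsCoprime n1 n2 then
            ∑ e ∈ divs g, (∑' h : O, if h ≠ 0 then tl1_T a k Y e g n1 n2 h else 0) else 0 := by
    rw [Complex.ofReal_tsum]
    simp only [hterm]
    rw [Summable.tsum_finsetSum fun n1 _ => summable_sum fun n2 _ => hP n1 n2]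
    simp only [Summable.tsum_finsetSum fun n2 _ => hP _ n2]
    rw [gm_gcd R fun n1 n2 => ∑' m, P n1 n2 m]
    simp only [← Finset.sum_add_distrib]
    refine Finset.sum_congr rfl fun g hg => Finset.sum_congr rfl fun n1 h1 =>
      Finset.sum_congr rfl fun n2 h2 => ?_
    split_ifs with hc
    · rw [← tl1_pair hk hY (mem_ballN.mp hg).1 (mem_ballN.mp h1).1 (mem_ballN.mp h2).1 hc.2.2]
      exact tsum_mul_left
    · simp
  rw [gm_trip R fun e g n1 n2 => ∑' h : O, if h ≠ 0 then tl1_T a k Y e g n1 n2 h else 0] at h2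
  have h3 := (Complex.re_le_norm _).trans_eq (congrArg norm h2)
  rw [Complex.ofReal_re] at h3
  have h4 := (norm_sum_le _ _).trans
    (Finset.sum_le_sum fun g hg => tl1_diag (a := a) (R := R) hk hY hg)
  have h5 := (norm_sum_le _ _).trans
    (Finset.sum_le_sum fun t ht => tl1_off (a := a) (k := k) hY (R := R) ht)
  have h6 := h1.trans (h3.trans ((norm_add_le _ _).trans (add_le_add h4 h5)))
  rw [← Finset.mul_sum, ← Finset.mul_sum] at h6
  have h7 : 0 ≤ Y * ∑ n ∈ ballN R, ‖a n‖ ^ 2 * dv n :=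
    mul_nonneg hY.le (Finset.sum_nonneg fun n _ => mul_nonneg (by positivity) (Nat.cast_nonneg _))
  have h8 : 0 ≤ ∑ t ∈ trip R, Y / (N t.2.1 * N t.2.2) *
      ∑' h : O, if h ≠ 0 then ‖Off R a k Y t h‖ else 0 :=
    Finset.sum_nonneg fun t _ => mul_nonneg
      (div_nonneg hY.le (mul_nonneg (N_nonneg _) (N_nonneg _)))
      (tsum_nonneg fun h => by split_ifs <;> simp)
  rw [div_mul_eq_mul_div, le_div_iff₀ hc]
  nlinarith

end

end Vale.Agent.P026
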