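import Vale.Agent.P026.Zk2
import Vale.Agent.P026.Wb

namespace Vale.Agent.P026

open Complex MeasureTheory Filter Topology
open scoped Classical ComplexConjugate Real MatrixGroups

noncomputable section

theorem fin2_mel {x : ℝ} (hx : 0 < x) (s : ℂ) :
    MellinConvergent (fun X : ℝ => W 0 (x / X)) (-s) ∧
      mellin (fun X : ℝ => W 0 (x / X)) (-s) =
        (x : ℂ) ^ (-s) * ((√π : ℝ) * Complex.exp (s ^ 2 / 4)) := by
  obtain ⟨h1, h2⟩ := W_mellin 0 s
  constructor
  · have a := (MellinConvergent.comp_rpow (f := fun t : ℝ => W 0 (x * t)) (s := -s) (a := -1)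
      (by norm_num)).2 (by simpa using (MellinConvergent.comp_mul_left hx).2 h1)
    simpa only [Real.rpow_neg_one, div_eq_mul_inv] using a
  · have a := mellin_comp_inv (fun t : ℝ => W 0 (x * t)) (-s)
    rw [neg_neg, mellin_comp_mul_left _ _ hx, h2, add_zero] at a
    simpa only [div_eq_mul_inv, smul_eq_mul] using a

theorem fin2_sum {α : O → ℂ} (hα : ∀ n, NN n → ‖α n‖ ≤ 1) {s : ℂ} (hs : 1 < s.re) :
    mellin (fun X => AA α 1 X 0 1) (-s) =
      (∑' n : O, if NN n then α n * ((N n : ℝ) : ℂ) ^ (-s) else 0) *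
        ((√π : ℝ) * Complex.exp (s ^ 2 / 4)) := by
  set F : O → ℝ → ℂ := fun n X => (X : ℂ) ^ (-s - 1) •
    if NN n then α n * chi6 1 n ^ 1 * W 0 (N n / X) else 0 with hF
  have e : ∀ n, NN n → F n = fun X : ℝ => α n * ((X : ℂ) ^ (-s - 1) • W 0 (N n / X)) :=
    fun n hn => funext fun X => by simp [hF, hn, chi6_one_left]; ring
  have e0 : ∀ n, ¬ NN n → F n = fun _ => 0 := fun n hn => funext fun X => by simp [hF, hn]
  have it : ∀ n, Integrable (F n) (volume.restrict (Set.Ioi 0)) := fun n => by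
    by_cases hn : NN n
    · rw [e n hn]; exact (fin2_mel (N_pos hn.ne_zero) s).1.const_mul _
    · rw [e0 n hn]; exact integrable_zero _ _ _
  have sm : Summable fun n => ∫ X in Set.Ioi 0, ‖F n X‖ := by
    refine ((summable_N_rpow hs).mul_right
      ‖((√π : ℝ) : ℂ) * Complex.exp ((s.re : ℂ) ^ 2 / 4)‖).of_nonneg_of_le
      (fun n => integral_nonneg fun _ => norm_nonneg _) fun n => ?_
    by_cases hn : NN n
    · have hp := N_pos hn.ne_zero
      have a : ((∫ X : ℝ in Set.Ioi 0, ‖(X : ℂ) ^ (-s - 1) • W 0 (N n / X)‖ : ℝ) : ℂ) =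
          mellin (fun X : ℝ => W 0 (N n / X)) (-(s.re : ℂ)) := by
        rw [← integral_complex_ofReal, mellin]
        refine setIntegral_congr_fun measurableSet_Ioi fun X hX => ?_
        simp only [norm_smul, norm_cpow_eq_rpow_re_of_pos hX, norm_W]
        simp [W, ofReal_cpow (le_of_lt hX)]
      have b := congrArg (‖·‖) a
      simp only [(fin2_mel hp _).2, norm_mul _ ((_ : ℂ) * _), norm_cpow_eq_rpow_re_of_pos hp,
        neg_re, ofReal_re, norm_real] at b
      rw [← b, e n hn]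
      simp only [norm_mul (α n), integral_const_mul]
      exact (mul_le_of_le_one_left (integral_nonneg fun _ => norm_nonneg _) (hα n hn)).trans
        (le_abs_self _)
    · have := N_nonneg n
      simp only [e0 n hn, norm_zero, integral_zero]; positivity
  have h := (hasSum_integral_of_summable_integral_norm it sm).tsum_eq
  rw [← tsum_mul_right, mellin]
  simp only [hF, smul_eq_mul, tsum_mul_left] at h
  refine (h.symm.trans (tsum_congr fun n => ?_))
  change ∫ X in Set.Ioi 0, F n X = _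
  by_cases hn : NN n
  · rw [e n hn, integral_const_mul, if_pos hn, mul_assoc, ← (fin2_mel (N_pos hn.ne_zero) s).2]
    rfl
  · simp [e0 n hn, hn]

theorem fin2_diff {α : O → ℂ} (hα : ∀ n, NN n → ‖α n‖ ≤ 1) {θ C : ℝ}
    (h : ∀ X : ℝ, 1 ≤ X → ‖AA α 1 X 0 1‖ ≤ C * X ^ θ) {s : ℂ} (hs : θ < s.re) :
    DifferentiableAt ℂ (fun s => mellin (fun X => AA α 1 X 0 1) (-s)) s := by
  obtain ⟨C1, -, h1⟩ := norm_AA_le (a := max 1 (s.re + 1)) (le_max_left _ _) 0
  have b := fun X (hX : 0 < X) => h1 α 1 X 0 1 hα hX (by simp)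
  refine DifferentiableAt.comp s (g := mellin fun X => AA α 1 X 0 1)
    (mellin_differentiableAt_of_isBigO_rpow (a := -θ) (b := -max 1 (s.re + 1)) ?_ ?_
      (by simpa using hs) ?_ (by simp)) differentiableAt_id.neg
  · have m : AEStronglyMeasurable (fun X => AA α 1 X 0 1) (volume.restrict (Set.Ioi 0)) := by
      refine aestronglyMeasurable_of_tendsto_ae atTop (f := fun (R : ℝ) X =>
        ∑ n ∈ ballN R, α n * chi6 1 n ^ 1 * W 0 (N n / X)) (fun R => ?_)
        ((ae_restrict_iff' measurableSet_Ioi).2 (.of_forall fun X hX => tendsto_AA hα 1 hX 0 1))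
      refine Measurable.aestronglyMeasurable (Finset.measurable_sum _ fun n _ => ?_)
      unfold W
      fun_prop
    refine (locallyIntegrableOn_iff isOpen_Ioi.isLocallyClosed).2 fun K hK hc => ?_
    have c : ContinuousOn (fun X : ℝ => C1 * X ^ max 1 (s.re + 1)) K :=
      continuousOn_const.mul (continuousOn_id.rpow_const fun x hx => Or.inl (ne_of_gt (hK hx)))
    exact (c.integrableOn_compact hc).mono' (m.mono_measure (Measure.restrict_mono hK le_rfl))
      ((ae_restrict_iff' hc.measurableSet).2 (.of_forall fun X hX => b X (hK hX)))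
  · refine Asymptotics.IsBigO.of_bound C ?_
    filter_upwards [eventually_ge_atTop 1] with X hX
    rw [neg_neg, Real.norm_of_nonneg (by positivity)]
    exact h X hX
  · refine Asymptotics.IsBigO.of_bound C1 ?_
    filter_upwards [self_mem_nhdsWithin] with X hX
    rw [neg_neg, Real.norm_of_nonneg (Real.rpow_nonneg (le_of_lt hX) _)]
    exact b X hX

theorem fin2_conn {θ : ℝ} (hθ : θ < 1) : IsPreconnected {s : ℂ | θ < s.re ∧ s ≠ 1} := by
  have c1 := ((convex_halfSpace_re_gt θ).inter (convex_halfSpace_im_gt 0)).isPreconnected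
  have c2 := (convex_halfSpace_re_gt 1).isPreconnected
  have c3 := ((convex_halfSpace_re_gt θ).inter (convex_halfSpace_im_lt 0)).isPreconnected
  have c4 := ((convex_halfSpace_re_gt θ).inter (convex_halfSpace_re_lt 1)).isPreconnected
  have d := IsPreconnected.union (((θ + 1) / 2 : ℝ) - I) (by simp; right; linarith)
    (by simp; constructor <;> linarith) (IsPreconnected.union (2 - I) (by simp) (by simp; linarith)
    (IsPreconnected.union (2 + I) (by simp; linarith) (by simp) c1 c2) c3) c4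
  convert d using 1
  ext s
  simp only [Set.mem_setOf_eq, Set.mem_union, Set.mem_inter_iff, ne_eq, Complex.ext_iff, one_re,
    one_im]
  constructor
  · rintro ⟨a, b⟩
    rcases lt_trichotomy s.im 0 with c | c | c
    · tauto
    · rcases lt_trichotomy s.re 1 with d | d | d <;> tauto
    · tauto
  · rintro (((⟨a, b⟩ | a) | ⟨a, b⟩) | ⟨a, b⟩)
    · exact ⟨a, fun c => b.ne' c.2⟩
    · exact ⟨hθ.trans a, fun c => a.ne' c.1⟩
    · exact ⟨a, fun c => b.ne c.2⟩
    · exact ⟨a, fun c => b.ne c.1⟩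

theorem fin2 {L : ℕ} [NeZero L] (h6 : 6 ∣ L) (χ : DirichletCharacter ℂ L) {θ C : ℝ} (hθ : θ < 1)
    (h : ∀ X : ℝ, 1 ≤ X → ‖A (fun n => χ (Nm n : ZMod L)) X 0 1‖ ≤ C * X ^ θ) {s : ℂ}
    (hs : θ < s.re) (hs1 : s ≠ 1) : DirichletCharacter.LFunction χ s ≠ 0 := by
  obtain ⟨χ', hχ⟩ := mob_L h6 χ
  have hα : ∀ n, NN n → ‖mu n * χ (Nm n : ZMod L)‖ ≤ 1 := fun n _ => by
    rw [norm_mul]; exact mul_le_one₀ (norm_mu_le n) (norm_nonneg _) (χ.norm_le_one _)
  have op : IsOpen {s : ℂ | θ < s.re ∧ s ≠ 1} :=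
    (isOpen_lt continuous_const continuous_re).inter isOpen_ne
  have a1 : AnalyticOnNhd ℂ (fun s => mellin (fun X => AA (fun n => mu n * χ (Nm n : ZMod L)) 1 X 0 1)
      (-s) * (DirichletCharacter.LFunction χ s * DirichletCharacter.LFunction χ' s))
      {s : ℂ | θ < s.re ∧ s ≠ 1} :=
    DifferentiableOn.analyticOnNhd (fun s hs => ((fin2_diff hα h hs.1).mul
      ((χ.differentiableAt_LFunction s (.inl hs.2)).mul
        (χ'.differentiableAt_LFunction s (.inl hs.2)))).differentiableWithinAt) op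
  have a2 : AnalyticOnNhd ℂ (fun s : ℂ => ((√π : ℝ) : ℂ) * Complex.exp (s ^ 2 / 4))
      {s : ℂ | θ < s.re ∧ s ≠ 1} :=
    DifferentiableOn.analyticOnNhd (Differentiable.differentiableOn (by fun_prop)) op
  have e := a1.eqOn_of_preconnected_of_eventuallyEq a2 (fin2_conn hθ) (z₀ := 2)
    ⟨by simp; linarith, by norm_num⟩ (by
      filter_upwards [(isOpen_lt continuous_const continuous_re).mem_nhds
        (show (2 : ℂ) ∈ {s : ℂ | 1 < s.re} by simp)] with z hz
      rw [fin2_sum hα hz, mul_right_comm, hχ z hz, one_mul]) ⟨hs, hs1⟩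
  intro c
  simp only [c, zero_mul, mul_zero] at e
  exact mul_ne_zero (ofReal_ne_zero.2 (Real.sqrt_pos.2 Real.pi_pos).ne') (Complex.exp_ne_zero _)
    e.symm

theorem wt_dirichlet {L : ℕ} (χ : DirichletCharacter ℂ L) :
    Wt (L : O) (fun n => χ (Nm n : ZMod L)) := by
  refine ⟨fun x y h => congrArg χ ?_, fun _ => χ.norm_le_one _⟩
  obtain ⟨h1, h2⟩ := (intCast_dvd_iff (L : ℤ) (x - y)).1 (by exact_mod_cast h)
  rw [QuadraticAlgebra.re_sub, ← ZMod.intCast_eq_intCast_iff_dvd_sub] at h1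
  rw [QuadraticAlgebra.im_sub, ← ZMod.intCast_eq_intCast_iff_dvd_sub] at h2
  rw [← Int.cast_natCast, ← Int.cast_natCast (Nm y), Nm_cast, Nm_cast]
  push_cast
  rw [h1, h2]

end

end Vale.Agent.P026
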