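import Vale.Agent.P026.Cusp
import Vale.Agent.P026.Gau
import Vale.Agent.P026.Wb
import Vale.Agent.P026.Defs2

namespace Vale.Agent.P026

open Complex MeasureTheory Filter Topology
open scoped Classical ComplexConjugate Real MatrixGroups

noncomputable section

theorem cusp2_inv {h u : O} (hh : h ≠ 0) (β : O → O)
    (hβ : ∀ r, IsCoprime r h → h ∣ r * u * β r - 1) {G : O → ℂ} (hG : Per h G)
    (h0 : ∀ r, ¬ IsCoprime r h → G r = 0) :
    ∑ r ∈ rs h, (if IsCoprime r h then G (β r) else 0) = ∑ r ∈ rs h, G r := by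
  choose i hi hi' using fun r => rs_exists hh (β r)
  have h1 : ∀ r, IsCoprime r h → h ∣ r * u * i r - 1 := fun r hr => by
    convert (hβ r hr).sub ((hi' r).mul_left (r * u)) using 1
    ring
  have h2 : ∀ r, IsCoprime r h → IsCoprime (i r) h := fun r hr => by
    obtain ⟨k, hk⟩ := h1 r hr
    exact ⟨r * u, -k, by linear_combination hk⟩
  have h3 : ∀ r ∈ (rs h).filter (IsCoprime · h), i (i r) = r := fun r hr => by
    obtain ⟨m, hr⟩ := Finset.mem_filter.1 hr
    obtain ⟨k, hk⟩ := h1 r hr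
    obtain ⟨k', hk'⟩ := h1 _ (h2 r hr)
    exact rs_inj (hi _) m ⟨r * k' - i (i r) * k, by linear_combination r * hk' - i (i r) * hk⟩
  have h4 : ∀ r ∈ (rs h).filter (IsCoprime · h), i r ∈ (rs h).filter (IsCoprime · h) := fun r hr =>
    Finset.mem_filter.2 ⟨hi r, h2 r (Finset.mem_filter.1 hr).2⟩
  rw [← Finset.sum_filter, ← Finset.sum_filter_of_ne (s := rs h) (p := (IsCoprime · h))
    fun r _ hr => by_contra fun hc => hr (h0 r hc)]
  exact Finset.sum_nbij' i i h4 h4 h3 h3 fun r _ => hG _ _ (hi' r)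

theorem cusp2_summable {a : O → ℂ} {Bd : ℝ} (h0 : a 0 = 0)
    (ha : ∀ R : ℝ, 1 ≤ R → ∑ n ∈ ballO R, ‖a n‖ ^ 2 ≤ Bd * R) {V : ℝ → ℂ} {C : ℝ}
    (hV : ∀ x, 0 < x → ‖V x‖ ≤ C * x ^ (-3 : ℝ)) {c : ℝ} (hc : 0 < c) {f : O → ℝ}
    (hf : ∀ n, f n = N n * c) : Summable fun n => a n * V (f n) := by
  refine .of_norm_bounded ((summable_of_sq_bound ha (s := 3) (by norm_num)).mul_left
    (C * c ^ (-3 : ℝ))) fun n => ?_
  by_cases hn : n = 0
  · simp [hn, h0]
  · have := hV _ (mul_pos (N_pos hn) hc)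
    rw [Real.mul_rpow (N_nonneg n) hc.le] at this
    rw [norm_mul, hf]
    calc _ ≤ ‖a n‖ * (C * (N n ^ (-3 : ℝ) * c ^ (-3 : ℝ))) := by gcongr
      _ = _ := by ring

theorem cusp2_bd {a : O → ℂ} {Bd : ℝ} (ha : ∀ R : ℝ, 1 ≤ R → ∑ n ∈ ballO R, ‖a n‖ ^ 2 ≤ Bd * R)
    {b c : O → ℂ} (hb : ∀ n, ‖b n‖ ≤ 1) (hc : ∀ n, ‖c n‖ ≤ 1) :
    ∀ R : ℝ, 1 ≤ R → ∑ n ∈ ballO R, ‖a n * b n * c n‖ ^ 2 ≤ Bd * R := fun R hR =>
  (Finset.sum_le_sum fun n _ => pow_le_pow_left₀ (norm_nonneg _) (by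
    rw [norm_mul, norm_mul, mul_assoc]
    exact mul_le_of_le_one_right (norm_nonneg _) (mul_le_one₀ (hb n) (norm_nonneg _) (hc n))) 2).trans
    (ha R hR)

theorem cusp2_gs {h : O} (hh : NN h) {k : ℕ} (h1 : 1 ≤ k) (h5 : k ≤ 5) : ‖gs k 1 h‖ = ‖toC h‖ := by
  have := norm_gt hh h1 h5
  rw [gt, norm_div, norm_real, norm_norm,
    div_eq_one_iff_eq (norm_ne_zero_iff.2 (toC_ne_zero hh.ne_zero))] at this
  exact this

theorem cusp_dual {τ : SLO → O → ℂ} (hτ : ThetaPkg τ) {M0 : O} (hM : M0 ≠ 0) (x : O) :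
    ∃ (c' y : O) (σ : SLO), c' ≠ 0 ∧ c' ∣ M0 ∧
    ∀ h t : O, NN h → IsCoprime h M0 → 9 * M0 ∣ t * h ^ 2 - 1 →
      ∀ (w : ℂ) (Wst : ℝ → ℂ) (M X : ℝ), VorTransfer w Wst → DualW Wst M → 0 < X →
      ‖∑' n : O, τ 1 n * ang n * psi (toC n * toC (x * t) / toC M0) * chi6 n h ^ 5 *
          W w (N n / X)‖ =
        X / (243 * N c' * N h) *
          ‖∑' n : O, τ σ n * (conj (ang n) * psi (-(toC n * toC y / (9 * toC c')))) * sym2 n h *
            Wst (N n / ((243 * N c') ^ 2 / X * N h ^ 2))‖ := by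
  obtain ⟨c', y, σ, hc0, hcM, H⟩ := cusp hM x
  refine ⟨c', y, σ, hc0, hcM, fun h t hh hM' ht w Wst M X hV hD hX => ?_⟩
  obtain ⟨η, hη, H⟩ := H h t hh hM' ht
  choose! γ β H1 H2 H3 H4 H5 H6 using H
  obtain ⟨Bd, hBd⟩ := hτ.bound
  obtain ⟨CW, -, hW⟩ := W_le (-3) |w.re|
  have h0 := hh.ne_zero
  have n1 := N_pos hc0
  have n2 := N_pos h0
  have hca : ∀ n, ‖conj (ang n)‖ ≤ 1 := fun n => by rw [RCLike.norm_conj]; exact norm_ang_le n
  set Cc := 243 * N (c' * h) with hCc
  have hC : 0 < Cc := by rw [hCc, N_mul]; positivity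
  set b : O → ℂ := fun n => τ σ n * conj (ang n) * psi (-(toC n * toC y / (9 * toC c'))) with hb
  set η0 := toC (c' * h) / conj (toC (c' * h)) with hη0
  have s1 : ∀ r, Summable fun n => τ 1 n * ang n *
      (psi (toC n * toC (x * t) / toC M0) * psi (toC n * toC r / toC h)) * W w (N n / X) := fun r =>
    cusp2_summable (by simp [hτ.zero]) (cusp2_bd (hBd 1) norm_ang_le fun n => by
      rw [norm_mul, norm_psi, norm_psi, mul_one]) (fun z hz => hW w z le_rfl hz) (inv_pos.2 hX)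
      fun n => div_eq_mul_inv _ _
  have s2 : ∀ r, Summable fun n => b n * (if IsCoprime r h then sym2 (β r) h else 0) *
      psi (-(toC n * toC (β r) / toC h)) * Wst (N n * X / Cc ^ 2) := fun r =>
    cusp2_summable (by simp [hb, hτ.zero]) (cusp2_bd (cusp2_bd (hBd σ) hca fun n => (norm_psi _).le)
      (fun n => by split_ifs; exacts [norm_sym2_le _ _, by simp]) fun n => (norm_psi _).le)
      (fun z hz => hD.norm_le hz) (div_pos hX (pow_pos hC 2)) fun n => mul_div_assoc _ _ _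
  have k1 : ∀ r, chi6 r h * ∑' n, τ 1 n * ang n *
      (psi (toC n * toC (x * t) / toC M0) * psi (toC n * toC r / toC h)) * W w (N n / X) =
      η0 * ((X / Cc : ℝ) : ℂ) * η * ∑' n, b n * (if IsCoprime r h then sym2 (β r) h else 0) *
        psi (-(toC n * toC (β r) / toC h)) * Wst (N n * X / Cc ^ 2) := by
    intro r
    by_cases hr : IsCoprime r h
    · have v := hτ.vor (γ r) (by rw [H1 r hr]; exact mul_ne_zero hc0 h0)
      rw [show N (γ r 1 0) = N (c' * h) by rw [H1 r hr], ← hCc,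
        show toC (γ r 1 0) / conj (toC (γ r 1 0)) = η0 by rw [H1 r hr]] at v
      have v2 := hV _ _ η0 Cc Bd hC (by simp [hτ.zero]) (by simp [hτ.zero])
        (cusp2_bd (hBd 1) norm_ang_le fun n => (norm_psi _).le)
        (cusp2_bd (hBd (γ r)) hca fun n => (norm_psi _).le) v X hX
      have e1 : sym2 (β r) h = chi6 r h * sym3 r h := by
        have a1 : sym2 (r * (9 * c') ^ 2 * β r) h = 1 := by
          rw [← sym2_one_left h]
          exact sym2_congr (by convert H5 r hr using 1; ring)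
        have a2 := sym2_sq hr
        have a3 : IsCoprime (9 * c') h := by
          obtain ⟨k, hk⟩ := H5 r hr
          exact ⟨9 * r * c' * β r, -k, by linear_combination hk⟩
        rw [sym2_mul_left _ _ hh.2.2, sym2_mul_left _ _ hh.2.2, sym2_pow_left _ hh.2.2, sym2_sq a3] at a1
        rw [chi6_mul_sym3 r h0]
        linear_combination sym2 r h * a1 - sym2 (β r) h * a2
      simp only [H3 r hr, v2, if_pos hr, hτ.mult _ _ (H2 r hr), H4 r hr, H6 r hr, e1, hb]
      simp only [← tsum_mul_left]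
      exact tsum_congr fun n => by ring
    · simp [hr, (chi6_eq_zero_iff h0).2 hr]
  have k2 : ∀ n, ∑ r ∈ rs h, (if IsCoprime r h then sym2 (β r) h else 0) *
      psi (-(toC n * toC (β r) / toC h)) = sym2 (-1) h * gs 3 1 h * sym2 n h := by
    intro n
    have := cusp2_inv (u := 81 * c' ^ 2) h0 β (fun r hr => by convert H5 r hr using 1; ring)
      (G := fun r => sym2 r h * psi (toC (-n) * toC r / toC h)) (fun r r' hr => by
        beta_reduce
        rw [sym2_congr hr, ← map_mul, ← map_mul, psi_congr h0 (by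
          rw [← mul_sub]; exact hr.mul_left _)])
      (fun r hr => by rw [(sym2_eq_zero_iff h0).2 hr, zero_mul])
    rw [← g2, ← gs_three h0, gs_twist hh (by norm_num) (by norm_num), chi6_cube _ h0,
      ← neg_one_mul n, sym2_mul_left _ _ hh.2.2] at this
    rw [mul_right_comm, ← this]
    refine Finset.sum_congr rfl fun r _ => ?_
    split_ifs
    · simp [neg_div]
    · simp
  have k3 : (∑' n : O, τ 1 n * ang n * psi (toC n * toC (x * t) / toC M0) * chi6 n h ^ 5 *
      W w (N n / X)) * gs 1 1 h = η0 * ((X / Cc : ℝ) : ℂ) * η * (sym2 (-1) h * gs 3 1 h *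
        ∑' n, b n * sym2 n h * Wst (N n * X / Cc ^ 2)) := by
    calc _ = ∑' n, ∑ r ∈ rs h, chi6 r h * (τ 1 n * ang n *
          (psi (toC n * toC (x * t) / toC M0) * psi (toC n * toC r / toC h)) * W w (N n / X)) := by
          rw [← tsum_mul_right]
          refine tsum_congr fun n => ?_
          have := gs_twist hh le_rfl (by norm_num) n
          rw [mul_right_comm _ (W _ _), mul_assoc _ (chi6 n h ^ 5), ← this, gs, Finset.mul_sum,
            Finset.sum_mul]
          exact Finset.sum_congr rfl fun r _ => by ring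
      _ = _ := by
          rw [Summable.tsum_finsetSum fun r _ => (s1 r).mul_left _]
          simp only [tsum_mul_left, k1]
          rw [← Finset.mul_sum, ← Summable.tsum_finsetSum fun r _ => s2 r]
          congr 1
          rw [← tsum_mul_left]
          refine tsum_congr fun n => ?_
          rw [← Finset.sum_mul, show sym2 (-1) h * gs 3 1 h * (b n * sym2 n h * Wst (N n * X / Cc ^ 2)) =
            b n * (sym2 (-1) h * gs 3 1 h * sym2 n h) * Wst (N n * X / Cc ^ 2) by ring, ← k2,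
            Finset.mul_sum]
          simp only [mul_assoc]
  have k4 := congrArg norm k3
  have z0 : ‖toC (c' * h)‖ ≠ 0 := norm_ne_zero_iff.2 (toC_ne_zero (mul_ne_zero hc0 h0))
  have z1 : ‖toC h‖ ≠ 0 := norm_ne_zero_iff.2 (toC_ne_zero h0)
  rw [norm_mul, norm_mul, norm_mul, norm_mul, norm_mul, norm_mul, cusp2_gs hh le_rfl (by norm_num),
    cusp2_gs hh (by norm_num) (by norm_num), hη, hη0, norm_div, RCLike.norm_conj, div_self z0,
    norm_sym2 isCoprime_one_left.neg_left, norm_real, Real.norm_of_nonneg (div_pos hX hC).le] at k4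
  have e1 : ∀ n, N n / ((243 * N c') ^ 2 / X * N h ^ 2) = N n * X / Cc ^ 2 := fun n => by
    rw [hCc, N_mul]; field_simp
  simp only [e1, ← mul_assoc]
  refine mul_right_cancel₀ z1 (k4.trans ?_)
  rw [hCc, N_mul, hb]
  ring

end

end Vale.Agent.P026
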