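import Vale.Agent.P026.TL1
import Vale.Agent.P026.TL3b

namespace Vale.Agent.P026

open Complex MeasureTheory Filter Topology
open scoped Classical ComplexConjugate Real MatrixGroups

noncomputable section

theorem tl3_tend (F : O → ℝ) (hF : ∀ h, 0 ≤ F h) {H : ℝ} (hH : 0 < H) :
    ∃ g : ℕ → ℝ, Tendsto g atTop (𝓝 (∑' h : O, if h ≠ 0 then F h else 0)) ∧
      ∀ J : ℕ, g J ≤ ∑ h ∈ ballO (2 ^ J * H), F h := by
  by_cases hs : Summable (fun h : O => if h ≠ 0 then F h else 0)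
  · refine ⟨fun J => ∑ h ∈ ballO (2 ^ J * H), if h ≠ 0 then F h else 0, ?_, fun J => ?_⟩
    · exact (tendsto_sum_ballO hs (by simp)).comp
        ((tendsto_pow_atTop_atTop_of_one_lt (by norm_num : (1 : ℝ) < 2)).atTop_mul_const hH)
    · refine Finset.sum_le_sum (fun h hh => ?_)
      rw [if_pos (mem_ballO.1 hh).1]
  · refine ⟨fun _ => 0, ?_, fun J => Finset.sum_nonneg (fun h _ => hF h)⟩
    rw [tsum_eq_zero_of_not_summable hs]
    exact tendsto_const_nhds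

theorem tl3_split (F : O → ℝ) {H : ℝ} (hH : 0 < H) (J : ℕ) :
    ∑ h ∈ ballO (2 ^ J * H), F h = ∑ h ∈ ballO (1 * H), F h +
      ∑ j ∈ Finset.range J, ∑ h ∈ ballO (2 ^ (j + 1) * H) \ ballO (2 ^ j * H), F h := by
  induction J with
  | zero => simp
  | succ J ih =>
    have hs : ballO (2 ^ J * H) ⊆ ballO (2 ^ (J + 1) * H) := ballO_mono (by gcongr <;> norm_num)
    rw [Finset.sum_range_succ, ← add_assoc, ← ih, ← Finset.sum_sdiff hs]
    ring

theorem tl3_geo (j : ℕ) :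
    (1 / 16 : ℝ) ^ j * ((2 : ℝ) ^ (j + 1)) ^ (7 / 2 : ℝ) ≤ 12 * (3 / 4) ^ j := by
  have h1 : (2 : ℝ) ^ (7 / 2 : ℝ) ≤ 12 := by
    have : ((2 : ℝ) ^ (7 / 2 : ℝ)) ^ 2 = 128 := by
      rw [← Real.rpow_natCast, ← Real.rpow_mul (by norm_num)]; norm_num
    nlinarith [Real.rpow_nonneg (show (0 : ℝ) ≤ 2 by norm_num) (7 / 2 : ℝ)]
  have h2 : ((2 : ℝ) ^ (j + 1)) ^ (7 / 2 : ℝ) = ((2 : ℝ) ^ (7 / 2 : ℝ)) ^ (j + 1) := by
    rw [← Real.rpow_natCast, ← Real.rpow_mul (by norm_num), mul_comm, Real.rpow_mul (by norm_num),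
      Real.rpow_natCast]
  rw [h2]
  calc (1 / 16 : ℝ) ^ j * ((2 : ℝ) ^ (7 / 2 : ℝ)) ^ (j + 1) ≤ (1 / 16 : ℝ) ^ j * 12 ^ (j + 1) := by
        gcongr
    _ = 12 * (3 / 4) ^ j := by
        rw [pow_succ, ← mul_assoc, ← mul_pow]; norm_num [mul_comm]

theorem tl3_off {ε : ℝ} (hε : 0 < ε) (R0 : ℝ) {C' : ℝ} (hC' : 0 ≤ C') : ∃ C : ℝ, 0 < C ∧
    ∀ (ι : Type) (I : Finset ι) (k : ℕ) (Z M : ℝ) (l X Y : ι → ℝ) (α : ι → O → ℂ) (w : ℂ),
    k = 1 ∨ k = 5 → 1 ≤ Z → 0 ≤ M → |w.re| ≤ R0 →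
    (∀ i ∈ I, 0 ≤ l i ∧ 1 ≤ X i ∧ X i ≤ Z ∧ 1 ≤ Y i ∧ ∀ n, NN n → ‖α i n‖ ≤ 1) →
    (∀ (w' : ℂ) (K : ℝ) (c : O), |w'.re| ≤ R0 + 4 → 1 ≤ K →
      ∑ i ∈ I, l i * ∑ t ∈ trip (Z ^ 3), Y i * N t.1 / X i *
        ∑ h ∈ ballO (K * Ht (X i) (Y i) t),
          ‖AA (alp (α i) k t c) (6 - k) (X i / N (pr t)) w' h‖ ^ 2 ≤
        M * Real.exp (C' * |w'.im|) * K ^ (7 / 2 : ℝ)) →
    ∑ i ∈ I, l i * ∑ t ∈ trip (Z ^ 3), Y i / (N t.2.1 * N t.2.2) *
        (∑' h : O, if h ≠ 0 then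
          ‖Off (Z ^ 3) (fun n => α i n * W w (N n / X i)) k (Y i) t h‖ else 0) ≤
      C * Z ^ ε * (∑ i ∈ I, l i * (X i * Y i) + M * Real.exp (C' * |w.im|)) := by
  set σ : ℝ := min ε 1 / 2 with hσdef
  have hσ : 0 < σ := by have := lt_min hε one_pos; positivity
  have hσ1 : σ ≤ 4 := by have := min_le_right ε 1; linarith
  have hσ2 : 2 * σ ≤ ε := by have := min_le_left ε 1; linarith
  obtain ⟨C0, hC0, h0⟩ := tl3_block hσ hσ1 R0 hC'
  obtain ⟨C4, hC4, h4⟩ := tl3_block (σ := 4) (by norm_num) le_rfl R0 hC'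
  refine ⟨C0 + 48 * C4, by positivity, ?_⟩
  intro ι I k Z M l X Y α w hk hZ hM hw hI hH
  have hZ0 : 0 < Z := by linarith
  have hHt : ∀ i ∈ I, ∀ t ∈ trip (Z ^ 3), 0 < Ht (X i) (Y i) t ∧ Ht (X i) (Y i) t ≤ Z ^ 2 := by
    intro i hi t ht
    obtain ⟨-, hX, hXZ, hY, -⟩ := hI i hi
    have h3 := mem_trip.1 ht
    have g1 := one_le_N h3.1.ne_zero
    have g2 := one_le_N h3.2.1.ne_zero
    unfold Ht
    refine ⟨by positivity, ?_⟩
    exact (div_le_self (by positivity) (one_le_mul_of_one_le_of_one_le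
      (one_le_mul_of_one_le_of_one_le g2 (one_le_pow₀ g1)) hY)).trans
      (pow_le_pow_left₀ (by linarith) hXZ 2)
  have hex : ∀ (i : ι) (t : O × O × O), ∃ g : ℕ → ℝ, i ∈ I → t ∈ trip (Z ^ 3) →
      Tendsto g atTop (𝓝 (∑' h : O, if h ≠ 0 then
          ‖Off (Z ^ 3) (fun n => α i n * W w (N n / X i)) k (Y i) t h‖ else 0)) ∧
      ∀ J : ℕ, g J ≤ ∑ h ∈ ballO (2 ^ J * Ht (X i) (Y i) t),
        ‖Off (Z ^ 3) (fun n => α i n * W w (N n / X i)) k (Y i) t h‖ := by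
    intro i t
    by_cases hi : i ∈ I
    · by_cases ht : t ∈ trip (Z ^ 3)
      · obtain ⟨g, hg⟩ := tl3_tend
          (fun h => ‖Off (Z ^ 3) (fun n => α i n * W w (N n / X i)) k (Y i) t h‖)
          (fun _ => norm_nonneg _) (hHt i hi t ht).1
        exact ⟨g, fun _ _ => hg⟩
      · exact ⟨0, fun _ h => absurd h ht⟩
    · exact ⟨0, fun h => absurd h hi⟩
  choose g hg using hex
  set T : ℝ := ∑ i ∈ I, l i * (X i * Y i) + M * Real.exp (C' * |w.im|) with hT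
  have hT0 : 0 ≤ T := add_nonneg (Finset.sum_nonneg (fun i hi => by
    have := (hI i hi).1; have := (hI i hi).2.1; have := (hI i hi).2.2.2.1; positivity))
    (by positivity)
  have hZε : 1 ≤ Z ^ ε := Real.one_le_rpow hZ hε.le
  refine le_of_tendsto' (f := fun J : ℕ => ∑ i ∈ I, l i * ∑ t ∈ trip (Z ^ 3),
    Y i / (N t.2.1 * N t.2.2) * g i t J) (x := atTop) (tendsto_finsetSum _ (fun i hi =>
      (tendsto_finsetSum _ (fun t ht => ((hg i t hi ht).1).const_mul _)).const_mul _)) ?_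
  intro J
  have b0 := h0 ι I k Z M l X Y α w 1 (Z ^ ε) (fun i t => ballO (1 * Ht (X i) (Y i) t))
    (fun _ _ => 1) hk hZ hM hw le_rfl (by positivity) hI
    (fun i hi t ht => ⟨subset_rfl, one_pos, fun h hh => one_le_N (mem_ballO.1 hh).1, by
      rw [div_one]
      calc Ht (X i) (Y i) t ^ σ ≤ (Z ^ 2) ^ σ :=
            Real.rpow_le_rpow (hHt i hi t ht).1.le (hHt i hi t ht).2 hσ.le
        _ = Z ^ (2 * σ) := by rw [← Real.rpow_natCast, ← Real.rpow_mul hZ0.le]; norm_num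
        _ ≤ Z ^ ε := Real.rpow_le_rpow_of_exponent_le hZ hσ2⟩)
    (fun w' c hw' => hH w' 1 c hw' le_rfl)
  have b4 : ∀ j : ℕ, ∑ i ∈ I, l i * ∑ t ∈ trip (Z ^ 3), Y i / (N t.2.1 * N t.2.2) *
        ∑ h ∈ ballO (2 ^ (j + 1) * Ht (X i) (Y i) t) \ ballO (2 ^ j * Ht (X i) (Y i) t),
          ‖Off (Z ^ 3) (fun n => α i n * W w (N n / X i)) k (Y i) t h‖ ≤
      12 * C4 * T * (3 / 4) ^ j := by
    intro j
    have hK : (1 : ℝ) ≤ 2 ^ (j + 1) := one_le_pow₀ (by norm_num)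
    have b := h4 ι I k Z M l X Y α w (2 ^ (j + 1)) ((1 / 16) ^ j)
      (fun i t => ballO (2 ^ (j + 1) * Ht (X i) (Y i) t) \ ballO (2 ^ j * Ht (X i) (Y i) t))
      (fun i t => 2 ^ j * Ht (X i) (Y i) t) hk hZ hM hw hK (by positivity) hI
      (fun i hi t ht => ⟨Finset.sdiff_subset, by have := (hHt i hi t ht).1; positivity,
        fun h hh => by
          rw [Finset.mem_sdiff, mem_ballO, mem_ballO] at hh
          by_contra hc
          exact hh.2 ⟨hh.1.1, (not_le.1 hc).le⟩, by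
        have h1 := (hHt i hi t ht).1
        have : Ht (X i) (Y i) t / (2 ^ j * Ht (X i) (Y i) t) = (1 / 2) ^ j := by
          rw [one_div, inv_pow]; field_simp
        rw [this, show (4 : ℝ) = ((4 : ℕ) : ℝ) by norm_num, Real.rpow_natCast, ← pow_mul, mul_comm,
          pow_mul]
        norm_num⟩)
      (fun w' c hw' => hH w' _ c hw' hK)
    refine b.trans ?_
    calc C4 * (1 / 16) ^ j * ((2 : ℝ) ^ (j + 1)) ^ (7 / 2 : ℝ) * T
        = C4 * T * ((1 / 16) ^ j * ((2 : ℝ) ^ (j + 1)) ^ (7 / 2 : ℝ)) := by ring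
      _ ≤ C4 * T * (12 * (3 / 4) ^ j) := mul_le_mul_of_nonneg_left (tl3_geo j) (by positivity)
      _ = _ := by ring
  have hgeo : ∑ j ∈ Finset.range J, ((3 : ℝ) / 4) ^ j ≤ 4 := by
    have := (summable_geometric_of_lt_one (r := (3 / 4 : ℝ)) (by norm_num)
      (by norm_num)).sum_le_tsum (Finset.range J) (fun _ _ => by positivity)
    rw [tsum_geometric_of_lt_one (by norm_num) (by norm_num)] at this
    linarith
  calc ∑ i ∈ I, l i * ∑ t ∈ trip (Z ^ 3), Y i / (N t.2.1 * N t.2.2) * g i t J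
      ≤ ∑ i ∈ I, l i * ∑ t ∈ trip (Z ^ 3), Y i / (N t.2.1 * N t.2.2) *
          (∑ h ∈ ballO (1 * Ht (X i) (Y i) t),
            ‖Off (Z ^ 3) (fun n => α i n * W w (N n / X i)) k (Y i) t h‖ +
          ∑ j ∈ Finset.range J,
            ∑ h ∈ ballO (2 ^ (j + 1) * Ht (X i) (Y i) t) \ ballO (2 ^ j * Ht (X i) (Y i) t),
            ‖Off (Z ^ 3) (fun n => α i n * W w (N n / X i)) k (Y i) t h‖) := by
        refine Finset.sum_le_sum (fun i hi => mul_le_mul_of_nonneg_left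
          (Finset.sum_le_sum (fun t ht => ?_)) (hI i hi).1)
        have := (hI i hi).2.2.2.1
        have := N_nonneg t.2.1
        have := N_nonneg t.2.2
        refine mul_le_mul_of_nonneg_left ?_ (by positivity)
        rw [← tl3_split _ (hHt i hi t ht).1]
        exact (hg i t hi ht).2 J
    _ = ∑ i ∈ I, l i * ∑ t ∈ trip (Z ^ 3), Y i / (N t.2.1 * N t.2.2) *
          ∑ h ∈ ballO (1 * Ht (X i) (Y i) t),
            ‖Off (Z ^ 3) (fun n => α i n * W w (N n / X i)) k (Y i) t h‖ +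
        ∑ j ∈ Finset.range J, ∑ i ∈ I, l i * ∑ t ∈ trip (Z ^ 3), Y i / (N t.2.1 * N t.2.2) *
          ∑ h ∈ ballO (2 ^ (j + 1) * Ht (X i) (Y i) t) \ ballO (2 ^ j * Ht (X i) (Y i) t),
          ‖Off (Z ^ 3) (fun n => α i n * W w (N n / X i)) k (Y i) t h‖ := by
        rw [Finset.sum_comm (s := Finset.range J), ← Finset.sum_add_distrib]
        refine Finset.sum_congr rfl (fun i _ => ?_)
        rw [← Finset.mul_sum (Finset.range J), ← mul_add, Finset.sum_comm (s := Finset.range J),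
          ← Finset.sum_add_distrib]
        congr 1
        refine Finset.sum_congr rfl (fun t _ => ?_)
        rw [← Finset.mul_sum (Finset.range J), ← mul_add]
    _ ≤ C0 * Z ^ ε * 1 ^ (7 / 2 : ℝ) * T + ∑ j ∈ Finset.range J, 12 * C4 * T * (3 / 4) ^ j :=
        add_le_add b0 (Finset.sum_le_sum (fun j _ => b4 j))
    _ ≤ C0 * Z ^ ε * T + 12 * C4 * T * 4 := by
        rw [Real.one_rpow, mul_one, ← Finset.mul_sum]
        gcongr
    _ ≤ C0 * Z ^ ε * T + 12 * C4 * T * 4 * Z ^ ε := by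
        exact add_le_add le_rfl (le_mul_of_one_le_right (by positivity) hZε)
    _ = _ := by ring

theorem tl3_one {ε : ℝ} (hε : 0 < ε) (R0 : ℝ) : ∃ C : ℝ, 0 < C ∧
    ∀ (k : ℕ) (Z X Y : ℝ) (α : O → ℂ) (w : ℂ), k = 1 ∨ k = 5 → 1 ≤ Z → |w.re| ≤ R0 →
    1 ≤ X → X ≤ Z → 1 ≤ Y → (∀ n, NN n → ‖α n‖ ≤ 1) →
    ∑ m ∈ ballO Y, ‖AA α k X w m‖ ^ 2 ≤ C * (Z ^ ε * (X * Y) +
      ∑ t ∈ trip (Z ^ 3), Y / (N t.2.1 * N t.2.2) *
        (∑' h : O, if h ≠ 0 then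
          ‖Off (Z ^ 3) (fun n => α n * W w (N n / X)) k Y t h‖ else 0)) := by
  obtain ⟨C1, hC1, h1⟩ := tl1
  obtain ⟨C2, hC2, h2⟩ := AA_trunc (a := 4) (by norm_num) R0
  obtain ⟨C3, hC3, h3⟩ := card_ballO_le
  obtain ⟨C4, hC4, h4⟩ := dv_le (ε := ε / 3) (by positivity)
  obtain ⟨C5, hC5, h5⟩ := sum_W_sq_le R0 (b := 0) le_rfl
  refine ⟨2 * C1 * (1 + C4 * C5) + 2 * C3 * C2 ^ 2, by positivity, ?_⟩
  intro k Z X Y α w hk hZ hw hX hXZ hY hα
  have hZ0 : 0 < Z := by linarith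
  have hX0 : 0 < X := by linarith
  have hY0 : 0 < Y := by linarith
  have hZε : 1 ≤ Z ^ ε := Real.one_le_rpow hZ hε.le
  set G : ℝ := ∑ t ∈ trip (Z ^ 3), Y / (N t.2.1 * N t.2.2) *
        (∑' h : O, if h ≠ 0 then
          ‖Off (Z ^ 3) (fun n => α n * W w (N n / X)) k Y t h‖ else 0) with hG
  have hG0 : 0 ≤ G := Finset.sum_nonneg (fun t _ => by
    have := N_nonneg t.2.1
    have := N_nonneg t.2.2
    exact mul_nonneg (by positivity) (tsum_nonneg (fun h => by split_ifs <;> positivity)))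
  have b1 := h1 k (Z ^ 3) Y (fun n => α n * W w (N n / X)) hk hY0
  rw [← hG] at b1
  have bd : ∑ n ∈ ballN (Z ^ 3), ‖α n * W w (N n / X)‖ ^ 2 * dv n ≤ C4 * C5 * (Z ^ ε * X) := by
    obtain ⟨hs, hb⟩ := h5 w X hw hX0
    calc ∑ n ∈ ballN (Z ^ 3), ‖α n * W w (N n / X)‖ ^ 2 * dv n
        ≤ ∑ n ∈ ballN (Z ^ 3), C4 * Z ^ ε *
            (if n ≠ 0 then N n ^ (0 : ℝ) * ‖W w (N n / X)‖ ^ 2 else 0) := by
          refine Finset.sum_le_sum (fun n hn => ?_)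
          obtain ⟨hn1, hn2⟩ := mem_ballN.1 hn
          rw [if_pos hn1.ne_zero, Real.rpow_zero, one_mul, mul_comm]
          have e1 : dv n ≤ C4 * Z ^ ε := by
            refine (h4 n hn1.ne_zero).trans (mul_le_mul_of_nonneg_left ?_ hC4.le)
            calc N n ^ (ε / 3) ≤ (Z ^ 3) ^ (ε / 3) :=
                  Real.rpow_le_rpow (N_nonneg n) hn2 (by positivity)
              _ = Z ^ ε := by
                  rw [← Real.rpow_natCast, ← Real.rpow_mul hZ0.le]; congr 1; push_cast; ring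
          have e2 : ‖α n * W w (N n / X)‖ ≤ ‖W w (N n / X)‖ := by
            rw [norm_mul]; exact mul_le_of_le_one_left (norm_nonneg _) (hα n hn1)
          gcongr
      _ ≤ C4 * Z ^ ε * (C5 * X ^ (1 + 0 : ℝ)) := by
          rw [← Finset.mul_sum]
          refine mul_le_mul_of_nonneg_left (le_trans (hs.sum_le_tsum _ (fun n _ => ?_)) hb)
            (by positivity)
          have := N_nonneg n
          split_ifs <;> positivity
      _ = _ := by rw [add_zero, Real.rpow_one]; ring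
  have be : ∀ m, ‖AA α k X w m‖ ^ 2 ≤
      2 * ‖∑ n ∈ ballN (Z ^ 3), α n * W w (N n / X) * chi6 m n ^ k‖ ^ 2 + 2 * C2 ^ 2 := by
    intro m
    have e := h2 α k X (Z ^ 3) w m hα hX0 (by positivity) hw
    have e0 : ∑ n ∈ ballN (Z ^ 3), α n * chi6 m n ^ k * W w (N n / X) =
        ∑ n ∈ ballN (Z ^ 3), α n * W w (N n / X) * chi6 m n ^ k :=
      Finset.sum_congr rfl (fun n _ => by ring)
    rw [e0, mul_assoc] at e
    have e1 : Z ^ 3 * (X / Z ^ 3) ^ (4 : ℝ) ≤ 1 := by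
      have := (tl3_err hX0 hXZ hZ).trans (inv_le_one_of_one_le₀ (one_le_pow₀ hZ))
      have h0 : 0 ≤ Z ^ 3 * (X / Z ^ 3) ^ (4 : ℝ) := by positivity
      nlinarith
    have e2 := e.trans (mul_le_of_le_one_right hC2.le e1)
    have e3 := norm_le_insert' (AA α k X w m)
      (∑ n ∈ ballN (Z ^ 3), α n * W w (N n / X) * chi6 m n ^ k)
    have e4 := pow_le_pow_left₀ (norm_nonneg _) (e3.trans (add_le_add le_rfl e2)) 2
    nlinarith [sq_nonneg (‖∑ n ∈ ballN (Z ^ 3), α n * W w (N n / X) * chi6 m n ^ k‖ - C2)]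
  have hXY : Y ≤ Z ^ ε * (X * Y) := by
    calc Y = 1 * (1 * Y) := by ring
      _ ≤ _ := by gcongr
  have hP : 0 ≤ Z ^ ε * (X * Y) := by positivity
  calc ∑ m ∈ ballO Y, ‖AA α k X w m‖ ^ 2
      ≤ ∑ m ∈ ballO Y, (2 * ‖∑ n ∈ ballN (Z ^ 3), α n * W w (N n / X) * chi6 m n ^ k‖ ^ 2 +
          2 * C2 ^ 2) := Finset.sum_le_sum (fun m _ => be m)
    _ = 2 * ∑ m ∈ ballO Y, ‖∑ n ∈ ballN (Z ^ 3), α n * W w (N n / X) * chi6 m n ^ k‖ ^ 2 +
          (ballO Y).card * (2 * C2 ^ 2) := by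
        rw [Finset.sum_add_distrib, Finset.sum_const, nsmul_eq_mul, Finset.mul_sum]
    _ ≤ 2 * (C1 * (Y * (C4 * C5 * (Z ^ ε * X)) + G)) + C3 * (Z ^ ε * (X * Y)) * (2 * C2 ^ 2) := by
        refine add_le_add (mul_le_mul_of_nonneg_left (b1.trans ?_) (by norm_num)) ?_
        · gcongr
        · gcongr
          exact (h3 Y hY0.le).trans (mul_le_mul_of_nonneg_left hXY hC3.le)
    _ = 2 * C1 * (C4 * C5 * (Z ^ ε * (X * Y)) + G) + 2 * C3 * C2 ^ 2 * (Z ^ ε * (X * Y)) := by ring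
    _ ≤ 2 * C1 * ((1 + C4 * C5) * (Z ^ ε * (X * Y) + G)) +
          2 * C3 * C2 ^ 2 * (Z ^ ε * (X * Y) + G) := by
        have : 0 ≤ C4 * C5 * G := by positivity
        gcongr
        · nlinarith
        · linarith
    _ = _ := by ring

theorem tlfam {ε : ℝ} (hε : 0 < ε) (R0 : ℝ) {C' : ℝ} (hC' : 0 ≤ C') : ∃ C : ℝ, 0 < C ∧
    ∀ (ι : Type) (I : Finset ι) (k : ℕ) (Z M : ℝ) (l X Y : ι → ℝ) (α : ι → O → ℂ) (w : ℂ),
    k = 1 ∨ k = 5 → 1 ≤ Z → 0 ≤ M → |w.re| ≤ R0 →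
    (∀ i ∈ I, 0 ≤ l i ∧ 0 < X i ∧ X i ≤ Z ∧ 0 < Y i ∧ Y i ≤ Z ∧ ∀ n, NN n → ‖α i n‖ ≤ 1) →
    (∀ (w' : ℂ) (K : ℝ) (c : O), |w'.re| ≤ R0 + 4 → 1 ≤ K →
      ∑ i ∈ I, l i * ∑ t ∈ trip (Z ^ 3), Y i * N t.1 / X i *
        ∑ h ∈ ballO (K * Ht (X i) (Y i) t),
          ‖AA (alp (α i) k t c) (6 - k) (X i / N (pr t)) w' h‖ ^ 2 ≤
        M * Real.exp (C' * |w'.im|) * K ^ (7 / 2 : ℝ)) →
    ∑ i ∈ I, l i * ∑ m ∈ ballO (Y i), ‖AA (α i) k (X i) w m‖ ^ 2 ≤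
      C * Z ^ ε * (∑ i ∈ I, l i * (X i * Y i) + M * Real.exp (C' * |w.im|)) := by
  obtain ⟨C1, hC1, h1⟩ := tl3_off hε R0 hC'
  obtain ⟨C2, hC2, h2⟩ := tl3_one hε R0
  obtain ⟨C3, hC3, h3⟩ := card_ballO_le
  obtain ⟨C4, hC4, h4⟩ := norm_AA_le (a := 1) le_rfl R0
  refine ⟨C2 * (1 + C1) + C3 * C4 ^ 2, by positivity, ?_⟩
  intro ι I k Z M l X Y α w hk hZ hM hw hI hH
  have hZε : 1 ≤ Z ^ ε := Real.one_le_rpow hZ hε.le
  set I' := I.filter (fun i => 1 ≤ X i ∧ 1 ≤ Y i) with hI'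
  have hsub : I' ⊆ I := Finset.filter_subset _ _
  have hI2 : ∀ i ∈ I', 0 ≤ l i ∧ 1 ≤ X i ∧ X i ≤ Z ∧ 1 ≤ Y i ∧ ∀ n, NN n → ‖α i n‖ ≤ 1 := by
    intro i hi
    obtain ⟨hi1, hi2⟩ := Finset.mem_filter.1 hi
    obtain ⟨a1, -, a3, -, -, a6⟩ := hI i hi1
    exact ⟨a1, hi2.1, a3, hi2.2, a6⟩
  have b1 := h1 ι I' k Z M l X Y α w hk hZ hM hw hI2 (fun w' K c hw' hK => le_trans
    (Finset.sum_le_sum_of_subset_of_nonneg hsub (fun i hi _ => by
      obtain ⟨a1, a2, -, a4, -, -⟩ := hI i hi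
      refine mul_nonneg a1 (Finset.sum_nonneg (fun t _ => ?_))
      have := N_nonneg t.1
      positivity)) (hH w' K c hw' hK))
  set T : ℝ := ∑ i ∈ I, l i * (X i * Y i) with hT
  set E : ℝ := M * Real.exp (C' * |w.im|) with hE
  have hE0 : 0 ≤ E := by positivity
  have hpos : ∀ i ∈ I, 0 ≤ l i * (X i * Y i) := fun i hi => by
    obtain ⟨a1, a2, -, a4, -, -⟩ := hI i hi
    positivity
  have hT0 : 0 ≤ T := Finset.sum_nonneg hpos
  have hT1 : ∑ i ∈ I', l i * (X i * Y i) ≤ T :=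
    Finset.sum_le_sum_of_subset_of_nonneg hsub (fun i hi _ => hpos i hi)
  rw [← Finset.sum_filter_add_sum_filter_not I (fun i => 1 ≤ X i ∧ 1 ≤ Y i), ← hI']
  have c1 : ∑ i ∈ I', l i * ∑ m ∈ ballO (Y i), ‖AA (α i) k (X i) w m‖ ^ 2 ≤
      C2 * (1 + C1) * Z ^ ε * (T + E) := by
    calc ∑ i ∈ I', l i * ∑ m ∈ ballO (Y i), ‖AA (α i) k (X i) w m‖ ^ 2
        ≤ ∑ i ∈ I', l i * (C2 * (Z ^ ε * (X i * Y i) +
          ∑ t ∈ trip (Z ^ 3), Y i / (N t.2.1 * N t.2.2) * (∑' h : O, if h ≠ 0 then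
            ‖Off (Z ^ 3) (fun n => α i n * W w (N n / X i)) k (Y i) t h‖ else 0))) := by
          refine Finset.sum_le_sum (fun i hi => ?_)
          obtain ⟨a1, a2, a3, a4, a5⟩ := hI2 i hi
          exact mul_le_mul_of_nonneg_left (h2 k Z (X i) (Y i) (α i) w hk hZ hw a2 a3 a4 a5) a1
      _ = C2 * (Z ^ ε * ∑ i ∈ I', l i * (X i * Y i) + ∑ i ∈ I', l i *
          ∑ t ∈ trip (Z ^ 3), Y i / (N t.2.1 * N t.2.2) * (∑' h : O, if h ≠ 0 then
            ‖Off (Z ^ 3) (fun n => α i n * W w (N n / X i)) k (Y i) t h‖ else 0)) := by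
          rw [Finset.mul_sum I', ← Finset.sum_add_distrib, Finset.mul_sum I']
          exact Finset.sum_congr rfl (fun i _ => by ring)
      _ ≤ C2 * (Z ^ ε * (T + E) + C1 * Z ^ ε * (T + E)) := by
          refine mul_le_mul_of_nonneg_left (add_le_add ?_ (b1.trans ?_)) hC2.le
          · gcongr; linarith
          · gcongr
      _ = _ := by ring
  have c2 : ∑ i ∈ I.filter (fun i => ¬ (1 ≤ X i ∧ 1 ≤ Y i)),
      l i * ∑ m ∈ ballO (Y i), ‖AA (α i) k (X i) w m‖ ^ 2 ≤ C3 * C4 ^ 2 * Z ^ ε * (T + E) := by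
    calc _ ≤ ∑ i ∈ I.filter (fun i => ¬ (1 ≤ X i ∧ 1 ≤ Y i)),
          C3 * C4 ^ 2 * (l i * (X i * Y i)) := by
          refine Finset.sum_le_sum (fun i hi => ?_)
          obtain ⟨hi1, hi2⟩ := Finset.mem_filter.1 hi
          obtain ⟨a1, a2, -, a4, -, a6⟩ := hI i hi1
          by_cases hY : 1 ≤ Y i
          · have hX : X i ≤ 1 := by
              by_contra hc
              exact hi2 ⟨(not_le.1 hc).le, hY⟩
            have e : ∑ m ∈ ballO (Y i), ‖AA (α i) k (X i) w m‖ ^ 2 ≤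
                C3 * Y i * (C4 ^ 2 * X i) := by
              calc _ ≤ ∑ m ∈ ballO (Y i), C4 ^ 2 * X i := by
                    refine Finset.sum_le_sum (fun m _ => ?_)
                    have e1 := h4 (α i) k (X i) w m a6 a2 hw
                    rw [Real.rpow_one] at e1
                    calc _ ≤ (C4 * X i) ^ 2 := pow_le_pow_left₀ (norm_nonneg _) e1 2
                      _ = C4 ^ 2 * X i * X i := by ring
                      _ ≤ C4 ^ 2 * X i * 1 := by gcongr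
                      _ = _ := mul_one _
                _ = (ballO (Y i)).card * (C4 ^ 2 * X i) := by
                    rw [Finset.sum_const, nsmul_eq_mul]
                _ ≤ _ := by gcongr; exact h3 _ a4.le
            calc _ ≤ l i * (C3 * Y i * (C4 ^ 2 * X i)) := mul_le_mul_of_nonneg_left e a1
              _ = _ := by ring
          · rw [ballO_eq_empty (not_le.1 hY), Finset.sum_empty, mul_zero]
            positivity
      _ ≤ C3 * C4 ^ 2 * T := by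
          rw [← Finset.mul_sum]
          exact mul_le_mul_of_nonneg_left (Finset.sum_le_sum_of_subset_of_nonneg
            (Finset.filter_subset _ _) (fun i hi _ => hpos i hi)) (by positivity)
      _ = C3 * C4 ^ 2 * 1 * T := by ring
      _ ≤ _ := by gcongr; linarith
  calc _ ≤ C2 * (1 + C1) * Z ^ ε * (T + E) + C3 * C4 ^ 2 * Z ^ ε * (T + E) := add_le_add c1 c2
    _ = _ := by ring

end

end Vale.Agent.P026
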