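import Vale.Agent.P026.QuadB
import Vale.Agent.P026.Div

namespace Vale.Agent.P026

open Complex MeasureTheory Filter Topology
open scoped Classical ComplexConjugate Real MatrixGroups

noncomputable section

theorem small_sum_le {α β : Type*} (s : Finset α) (T : Finset β) (ψ : β → α) (F : α → ℝ)
    (hF : ∀ x, 0 ≤ F x) (h : ∀ x ∈ s, ∃ y ∈ T, ψ y = x) : ∑ x ∈ s, F x ≤ ∑ y ∈ T, F (ψ y) := by
  calc ∑ x ∈ s, F x ≤ ∑ x ∈ s, ∑ y ∈ T, if ψ y = x then F (ψ y) else 0 := by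
        refine Finset.sum_le_sum fun x hx => ?_
        obtain ⟨y, hy, rfl⟩ := h x hx
        have := Finset.single_le_sum (f := fun y' => if ψ y' = ψ y then F (ψ y') else 0)
          (fun y' _ => by split_ifs <;> simp [hF]) hy
        simpa using this
    _ ≤ _ := by
        rw [Finset.sum_comm]
        refine Finset.sum_le_sum fun y _ => ?_
        rw [Finset.sum_ite_eq]
        split_ifs <;> simp [hF]

theorem small_split {b' q : O} (hb : Squarefree b') (h6 : (6 : O) ∣ q) :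
    ∃ h1 b : O, NN h1 ∧ IsCoprime h1 (36 * q) ∧ b ∣ q ∧ b' = h1 * b := by
  obtain ⟨c, hc⟩ := EuclideanDomain.gcd_dvd_left b' q
  set g := EuclideanDomain.gcd b' q with hg
  have hc0 : c ≠ 0 := fun h => hb.ne_zero (by rw [hc, h, mul_zero])
  have hcq : IsCoprime c q := (isCoprime_iff_no_prime (Or.inl hc0)).mpr fun p hp h1 h2 => by
    have h3 : p ∣ g := EuclideanDomain.dvd_gcd (hc ▸ h1.mul_left g) h2
    exact hp.not_unit (hb p (hc ▸ mul_dvd_mul h3 h1))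
  have h3 : lam ∣ q := by
    refine Dvd.dvd.trans ⟨-2 * lam, ?_⟩ h6
    linear_combination 2 * lam_sq
  have h2 : (2 : O) ∣ q := Dvd.dvd.trans ⟨3, by norm_num⟩ h6
  obtain ⟨u, hu, hP⟩ := exists_prim_assoc (x := c) fun h =>
    prime_lam.not_unit (hcq.isUnit_of_dvd' h h3)
  obtain ⟨v, hv⟩ := hu.exists_right_inv
  have huq : IsCoprime (u * c) q := (isCoprime_mul_unit_left_left hu c q).mpr hcq
  have e : b' = u * c * (v * g) := by
    rw [hc]
    linear_combination (-(g * c)) * hv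
  refine ⟨u * c, v * g, ⟨hP, hb.squarefree_of_dvd ⟨_, e⟩, fun h =>
    prime_two.not_unit (huq.isUnit_of_dvd' h h2)⟩, ?_, ?_, e⟩
  · refine (huq.pow_right (n := 3)).of_isCoprime_of_dvd_right ?_
    obtain ⟨s, rfl⟩ := h6
    exact ⟨s ^ 2, by ring⟩
  · refine Dvd.dvd.trans ⟨u, ?_⟩ (EuclideanDomain.gcd_dvd_right b' q)
    rw [← hg]
    linear_combination (-g) * hv

theorem small_alg {x c H ρ X : ℝ} (hx : 1 ≤ x) (hc : 1 ≤ c) (hH : 0 < H) (hρ : 0 < ρ)
    (hX : 0 < X) :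
    c * ρ * x * ((H / x ^ 2) ^ (8 / 7 : ℝ) + ((H / x ^ 2) ^ 2 * (c * ρ * x) ^ 2 / X) ^ (8 / 5 : ℝ))
      ≤ c ^ 5 * ρ * x ^ (-(9 / 7) : ℝ) * (H ^ (8 / 7 : ℝ) + (H ^ 2 * ρ ^ 2 / X) ^ (8 / 5 : ℝ)) := by
  have hx0 : 0 < x := by linarith
  have hc0 : 0 < c := by linarith
  have e1 : x * (H / x ^ 2) ^ (8 / 7 : ℝ) = x ^ (-(9 / 7) : ℝ) * H ^ (8 / 7 : ℝ) := by
    rw [Real.div_rpow hH.le (by positivity), ← Real.rpow_natCast, ← Real.rpow_mul hx0.le,
      show (-(9 / 7) : ℝ) = 1 - (2 : ℕ) * (8 / 7) by norm_num, Real.rpow_sub hx0, Real.rpow_one]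
    ring
  have e2 : x * ((H / x ^ 2) ^ 2 * (c * ρ * x) ^ 2 / X) ^ (8 / 5 : ℝ)
      = c ^ (16 / 5 : ℝ) * x ^ (-(11 / 5) : ℝ) * (H ^ 2 * ρ ^ 2 / X) ^ (8 / 5 : ℝ) := by
    rw [show (H / x ^ 2) ^ 2 * (c * ρ * x) ^ 2 / X = c ^ 2 * (H ^ 2 * ρ ^ 2 / X) / x ^ 2 by
      field_simp, Real.div_rpow (by positivity) (by positivity),
      Real.mul_rpow (by positivity) (by positivity), ← Real.rpow_natCast x,
      ← Real.rpow_mul hx0.le, ← Real.rpow_natCast c, ← Real.rpow_mul hc0.le,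
      show (-(11 / 5) : ℝ) = 1 - (2 : ℕ) * (8 / 5) by norm_num, Real.rpow_sub hx0, Real.rpow_one,
      show ((2 : ℕ) : ℝ) * (8 / 5) = 16 / 5 by norm_num]
    ring
  have b1 : x ^ (-(11 / 5) : ℝ) ≤ x ^ (-(9 / 7) : ℝ) :=
    Real.rpow_le_rpow_of_exponent_le hx (by norm_num)
  have b2 : c ^ (16 / 5 : ℝ) ≤ c ^ 4 := by
    rw [← Real.rpow_natCast]
    exact Real.rpow_le_rpow_of_exponent_le hc (by norm_num)
  have b3 : 1 ≤ c ^ 4 := one_le_pow₀ hc
  calc _ = c * ρ * (x * (H / x ^ 2) ^ (8 / 7 : ℝ)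
        + x * ((H / x ^ 2) ^ 2 * (c * ρ * x) ^ 2 / X) ^ (8 / 5 : ℝ)) := by ring
    _ ≤ c * ρ * (c ^ 4 * (x ^ (-(9 / 7) : ℝ) * H ^ (8 / 7 : ℝ))
        + c ^ 4 * x ^ (-(9 / 7) : ℝ) * (H ^ 2 * ρ ^ 2 / X) ^ (8 / 5 : ℝ)) := by
        rw [e1, e2]
        refine mul_le_mul_of_nonneg_left
          (add_le_add (le_mul_of_one_le_left (by positivity) b3) ?_) (by positivity)
        gcongr
    _ = _ := by ring

/-- the periodic weight attached to `h1` and `s = b a^2 k` -/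
def small_f (ω : O → ℂ) (s h1 n : O) : ℂ :=
  if NN h1 ∧ Prim n ∧ OddO n then ω n * eps h1 n ^ 5 * chi6 s n ^ 5 else 0

theorem small_wt {q0 q s : O} {ω : O → ℂ} (hω : Wt q0 ω) (hq : q ≠ 0) (h0 : q0 ∣ q)
    (hs : s ∣ q ^ 9) (h1 : O) : Wt (36 * q) (small_f ω s h1) := by
  constructor
  · intro x y hxy
    have d3 : (3 : O) ∣ x - y := Dvd.dvd.trans ⟨12 * q, by ring⟩ hxy
    have d2 : (2 : O) ∣ x - y := Dvd.dvd.trans ⟨18 * q, by ring⟩ hxy
    have d4 : (4 : O) ∣ x - y := Dvd.dvd.trans ⟨9 * q, by ring⟩ hxy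
    unfold small_f
    by_cases hx : NN h1 ∧ Prim x ∧ OddO x
    · rw [if_pos hx, if_pos ⟨hx.1, hx.2.1.congr d3, hx.2.2.congr d2⟩,
        hω.1 x y ((h0.mul_left 36).trans hxy), eps_congr (a := h1) (a' := h1) (by simp) d4,
        chi6_per hx.2.1 hx.2.2 hq hxy hs]
    · rw [if_neg hx, if_neg fun hy => hx ⟨hy.1, hy.2.1.congr (dvd_sub_comm.mp d3),
        hy.2.2.congr (dvd_sub_comm.mp d2)⟩]
  · intro x
    unfold small_f
    split_ifs with hx
    · rw [norm_mul, norm_mul, norm_pow, norm_pow, norm_eps hx.1.2.2 hx.2.2, one_pow, mul_one]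
      exact mul_le_one₀ (hω.2 x) (by positivity) (pow_le_one₀ (norm_nonneg _) (norm_chi6_le _ _))
    · simp

theorem small_TH (t ω : O → ℂ) (X : ℝ) (w : ℂ) (s : O) {h1 : O} (hh : NN h1) :
    TH t ω X w (h1 * s) = ∑' n : O, t n * small_f ω s h1 n * chi6 n h1 ^ 5 * W w (N n / X) := by
  refine tsum_congr fun n => ?_
  unfold small_f
  by_cases hn : Prim n ∧ OddO n
  · rw [if_pos hn, if_pos ⟨hh, hn⟩, chi6_mul_left _ _ hn.2, chi6_flip hh.1 hn.1 hh.2.2 hn.2]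
    ring
  · rw [if_neg hn, if_neg fun h => hn h.2]
    simp

theorem small {t : O → ℂ} (ht : VORLS t) {q0 : O} (hq : q0 ≠ 0) : SMALL q0 t := by
  intro ε hε R0
  obtain ⟨C1, hC1, h1⟩ := ht (ε / 4) (by positivity) R0
  obtain ⟨C2, hC2, h2⟩ := dv_le (ε := ε / 4) (by positivity)
  have hS := summable_N_rpow (s := 9 / 7) (by norm_num)
  set S := ∑' n : O, N n ^ (-(9 / 7) : ℝ) with hSdef
  have hS0 : 0 ≤ S := tsum_nonneg fun n => Real.rpow_nonneg (N_nonneg _) _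
  set c : ℝ := 36 ^ 3 * N q0 with hc
  have hq1 := one_le_N hq
  have hc1 : 1 ≤ c := by rw [hc]; nlinarith
  refine ⟨C1 + C1 * C2 * c ^ (ε / 2) * c ^ 5 * S, by positivity, ?_⟩
  intro Z X H w ω r k hX hXZ hH hHZ hr hrZ hk hw hω
  have hZ : 1 ≤ Z := hX.trans hXZ
  have hr1 := one_le_N hr
  have hZ' : Z ≤ c * Z ^ 2 := by nlinarith
  have hN6 : N (6 : O) = 36 := by rw [N_ofNat]; norm_num
  have hN36 : N (36 : O) = 36 ^ 2 := by rw [N_ofNat]
  set V := H ^ (8 / 7 : ℝ) + (H ^ 2 * N r ^ 2 / X) ^ (8 / 5 : ℝ) with hV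
  have hV0 : 0 ≤ V := by positivity
  have step : ∀ a ∈ ballO Z, ∑ b ∈ (ballO (N (6 * q0 * r * a))).filter (· ∣ 6 * q0 * r * a),
      ∑ h1 ∈ (ballN (H / N a ^ 2)).filter (fun h => IsCoprime h (36 * (6 * q0 * r * a))),
        ‖TH t ω X w (h1 * b * a ^ 2 * k)‖ ^ 2 ≤
      C1 * C2 * c ^ (ε / 2) * c ^ 5 * Real.exp (C1 * |w.im|) * Z ^ ε * N r * X * V
        * N a ^ (-(9 / 7) : ℝ) := by
    intro a ha
    obtain ⟨ha0, haZ⟩ := mem_ballO.mp ha
    have ha1 := one_le_N ha0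
    have hq0 : 6 * q0 * r * a ≠ 0 := by
      have : (6 : O) ≠ 0 := fun h => by simp [h, N_zero] at hN6
      exact mul_ne_zero (mul_ne_zero (mul_ne_zero this hq) hr) ha0
    have hM0 : 36 * (6 * q0 * r * a) ≠ 0 := by
      have : (36 : O) ≠ 0 := fun h => by simp [h, N_zero] at hN36; norm_num at hN36
      exact mul_ne_zero this hq0
    have hNM : N (36 * (6 * q0 * r * a)) = c * N r * N a := by
      simp only [N_mul, hN6, hN36, hc]
      ring
    have hMZ : c * N r * N a ≤ c * Z ^ 2 := by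
      rw [mul_assoc, sq]
      gcongr
    have hNq : N (6 * q0 * r * a) ≤ c * Z ^ 2 :=
      (N_le_of_dvd (dvd_mul_left _ _) hM0).trans (hNM.le.trans hMZ)
    have hb : ∀ b ∈ (ballO (N (6 * q0 * r * a))).filter (· ∣ 6 * q0 * r * a),
        ∑ h1 ∈ (ballN (H / N a ^ 2)).filter (fun h => IsCoprime h (36 * (6 * q0 * r * a))),
          ‖TH t ω X w (h1 * b * a ^ 2 * k)‖ ^ 2 ≤ C1 * Real.exp (C1 * |w.im|)
            * (c * Z ^ 2) ^ (ε / 4) * X * (c ^ 5 * N r * N a ^ (-(9 / 7) : ℝ) * V) := by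
      intro b hb
      have hbq := (Finset.mem_filter.mp hb).2
      have hs : b * a ^ 2 * k ∣ (6 * q0 * r * a) ^ 9 := by
        have d1 : a ^ 2 ∣ (6 * q0 * r * a) ^ 2 := pow_dvd_pow_of_dvd (dvd_mul_left _ _) 2
        have d2 : k ∣ (6 * q0 * r * a) ^ 6 :=
          hk.trans (pow_dvd_pow_of_dvd ((dvd_mul_left _ _).mul_right _) 6)
        have := mul_dvd_mul (mul_dvd_mul hbq d1) d2
        rwa [show 6 * q0 * r * a * (6 * q0 * r * a) ^ 2 * (6 * q0 * r * a) ^ 6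
          = (6 * q0 * r * a) ^ 9 by ring] at this
      have := h1 (c * Z ^ 2) X (H / N a ^ 2) w (36 * (6 * q0 * r * a)) (small_f ω (b * a ^ 2 * k))
        hX (hXZ.trans hZ') (by positivity)
        ((div_le_self hH.le (one_le_pow₀ ha1)).trans (hHZ.trans hZ')) hM0 (hNM.le.trans hMZ) hw
        (small_wt hω hq0 ⟨6 * r * a, by ring⟩ hs)
      rw [hNM] at this
      refine le_trans (le_of_eq (Finset.sum_congr rfl fun h hh => ?_)) (this.trans ?_)
      · rw [← small_TH t ω X w _ (mem_ballN.mp (Finset.mem_filter.mp hh).1).1]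
        simp only [mul_assoc]
      · have := small_alg ha1 hc1 hH (by linarith : 0 < N r) (by linarith : 0 < X)
        calc _ = C1 * Real.exp (C1 * |w.im|) * (c * Z ^ 2) ^ (ε / 4) * X * (c * N r * N a *
              ((H / N a ^ 2) ^ (8 / 7 : ℝ)
                + ((H / N a ^ 2) ^ 2 * (c * N r * N a) ^ 2 / X) ^ (8 / 5 : ℝ))) := by ring
          _ ≤ _ := by gcongr
    refine (Finset.sum_le_card_nsmul _ _ _ hb).trans ?_
    rw [nsmul_eq_mul]
    have d1 : dv (6 * q0 * r * a) ≤ C2 * (c * Z ^ 2) ^ (ε / 4) :=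
      (h2 _ hq0).trans (mul_le_mul_of_nonneg_left
        (Real.rpow_le_rpow (N_nonneg _) hNq (by positivity)) hC2.le)
    have d2 : (c * Z ^ 2) ^ (ε / 4) * (c * Z ^ 2) ^ (ε / 4) = c ^ (ε / 2) * Z ^ ε := by
      rw [← Real.rpow_add (by positivity), Real.mul_rpow (by positivity) (by positivity),
        ← Real.rpow_natCast Z, ← Real.rpow_mul (by positivity)]
      congr 2 <;> push_cast <;> ring
    calc _ ≤ C2 * (c * Z ^ 2) ^ (ε / 4) * (C1 * Real.exp (C1 * |w.im|)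
            * (c * Z ^ 2) ^ (ε / 4) * X * (c ^ 5 * N r * N a ^ (-(9 / 7) : ℝ) * V)) :=
          mul_le_mul_of_nonneg_right d1 (by positivity)
      _ = C1 * C2 * c ^ 5 * Real.exp (C1 * |w.im|) * N r * X * V * N a ^ (-(9 / 7) : ℝ)
            * ((c * Z ^ 2) ^ (ε / 4) * (c * Z ^ 2) ^ (ε / 4)) := by ring
      _ = _ := by rw [d2]; ring
  have cover := small_sum_le (ballO H) ((ballO Z).sigma fun a =>
      ((ballO (N (6 * q0 * r * a))).filter (· ∣ 6 * q0 * r * a)).sigma fun _ =>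
        (ballN (H / N a ^ 2)).filter (fun h => IsCoprime h (36 * (6 * q0 * r * a))))
    (fun y => y.2.2 * y.2.1 * y.1 ^ 2) (fun h => ‖TH t ω X w (h * k)‖ ^ 2)
    (fun _ => by positivity) (fun h hh => by
      obtain ⟨hh0, hhH⟩ := mem_ballO.mp hh
      obtain ⟨b', a, hb', ha0, rfl⟩ := exists_sqfree_mul_sq hh0
      obtain ⟨h1, b, g1, g2, g3, rfl⟩ := small_split (q := 6 * q0 * r * a) hb'
        ⟨q0 * r * a, by ring⟩
      have ha1 := one_le_N ha0
      have hb0 : b ≠ 0 := right_ne_zero_of_mul hb'.ne_zero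
      have hb1 := one_le_N hb0
      have hh1 := one_le_N g1.ne_zero
      have hq0 : 6 * q0 * r * a ≠ 0 := by
        have : (6 : O) ≠ 0 := fun h => by simp [h, N_zero] at hN6
        exact mul_ne_zero (mul_ne_zero (mul_ne_zero this hq) hr) ha0
      rw [N_mul, N_mul, N_pow] at hhH
      refine ⟨⟨a, b, h1⟩, ?_, rfl⟩
      simp only [Finset.mem_sigma, Finset.mem_filter, mem_ballO, mem_ballN]
      refine ⟨⟨ha0, ?_⟩, ⟨⟨hb0, N_le_of_dvd g3 hq0⟩, g3⟩, ⟨g1, ?_⟩, g2⟩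
      · have : 1 * N a ^ 2 ≤ N h1 * N b * N a ^ 2 := by
          gcongr
          nlinarith
        nlinarith
      · rw [le_div_iff₀ (by positivity)]
        have : N h1 * 1 * N a ^ 2 ≤ N h1 * N b * N a ^ 2 := by gcongr
        linarith)
  simp only [Finset.sum_sigma] at cover
  refine cover.trans ((Finset.sum_le_sum step).trans ?_)
  rw [← Finset.mul_sum]
  have hs := hS.sum_le_tsum (ballO Z) fun n _ => Real.rpow_nonneg (N_nonneg _) _
  have hK : 0 ≤ C1 * C2 * c ^ (ε / 2) * c ^ 5 * S := by positivity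
  calc _ ≤ C1 * C2 * c ^ (ε / 2) * c ^ 5 * Real.exp (C1 * |w.im|) * Z ^ ε * N r * X * V * S := by
        gcongr
    _ = (C1 * C2 * c ^ (ε / 2) * c ^ 5 * S) * Real.exp (C1 * |w.im|) * Z ^ ε * N r * X * V := by
        ring
    _ ≤ _ := by
        gcongr <;> linarith

end

end Vale.Agent.P026
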