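import Vale.Agent.P026.PV
import Vale.Agent.P026.Wb

namespace Vale.Agent.P026

open Complex MeasureTheory Filter Topology
open scoped Classical ComplexConjugate Real MatrixGroups

noncomputable section

theorem base_sum_le {f g : O → ℝ} (R : ℝ) (hs : Summable fun n : O => if n ≠ 0 then g n else 0)
    (hg : ∀ n, 0 ≤ g n) (h : ∀ n, NN n → f n ≤ g n) :
    ∑ n ∈ ballN R, f n ≤ ∑' n : O, if n ≠ 0 then g n else 0 := by
  refine le_trans (Finset.sum_le_sum fun n hn => ?_) (hs.sum_le_tsum (ballN R) fun n _ => ?_)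
  · rw [if_pos (mem_ballN.1 hn).1.ne_zero]
    exact h n (mem_ballN.1 hn).1
  · split_ifs
    · exact hg n
    · exact le_rfl

theorem ha_base (q0 : O) : HA q0 3 := by
  intro ε hε R0
  obtain ⟨C, hC0, hC⟩ := pv
  obtain ⟨D, hD0, hD⟩ := dv_le (half_pos hε)
  obtain ⟨E, hE0, hE⟩ := sum_W_le (b := ε / 2 + 1 / 2) (by positivity) R0
  obtain ⟨F, hF0, hF⟩ := sum_W_sq_le R0 (b := 0) le_rfl
  refine ⟨C * (F + (D * E) ^ 2), by positivity, fun Z X Y w ω hZ hX hXZ hY hYZ hw hω => ?_⟩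
  have hα : ∀ n, ‖mu n * ω n‖ ≤ 1 := fun n => by
    rw [norm_mul]
    exact mul_le_one₀ (norm_mu_le n) (norm_nonneg _) (hω.2 n)
  have ha : ∀ n, ‖mu n * ω n * W w (N n / X)‖ ≤ ‖W w (N n / X)‖ := fun n => by
    rw [norm_mul]
    exact mul_le_of_le_one_left (norm_nonneg _) (hα n)
  refine le_of_tendsto' (tendsto_finsetSum (ballO Y) fun m _ =>
    ((tendsto_AA (fun n _ => hα n) 1 hX w m).norm.pow 2)) fun R => ?_
  have h1 := hC 1 R Y (fun n => mu n * ω n * W w (N n / X)) le_rfl (by norm_num) hY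
  simp only [mul_right_comm _ (W w _)] at h1
  refine h1.trans ?_
  obtain ⟨e1, e2⟩ := hE w X hw hX
  obtain ⟨f1, f2⟩ := hF w X hw hX
  have h2 := (base_sum_le (f := fun n => ‖mu n * ω n * W w (N n / X)‖ ^ 2) R f1
    (fun n => mul_nonneg (Real.rpow_nonneg (N_nonneg n) _) (by positivity)) fun n _ => by
      rw [Real.rpow_zero, one_mul]
      exact pow_le_pow_left₀ (norm_nonneg _) (ha n) 2).trans f2
  have h3 := (base_sum_le (f := fun n => D⁻¹ * (‖mu n * ω n * W w (N n / X)‖ * dv n * √(N n))) R e1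
    (fun n => mul_nonneg (Real.rpow_nonneg (N_nonneg n) _) (by positivity)) fun n hn => by
      rw [inv_mul_le_iff₀ hD0, Real.rpow_add (N_pos hn.ne_zero), ← Real.sqrt_eq_rpow]
      have := one_le_dv hn.ne_zero
      calc _ ≤ ‖W w (N n / X)‖ * (D * N n ^ (ε / 2)) * √(N n) := by
            gcongr
            · exact ha n
            · exact hD n hn.ne_zero
        _ = _ := by ring).trans e2
  rw [← Finset.mul_sum, inv_mul_le_iff₀ hD0] at h3
  have h4 := pow_le_pow_left₀ (Finset.sum_nonneg fun n hn => by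
    have := one_le_dv (mem_ballN.1 hn).1.ne_zero
    positivity) h3 2
  have h5 : (X ^ (1 + (ε / 2 + 1 / 2))) ^ 2 ≤ Z ^ ε * X ^ (3 : ℝ) := by
    rw [← Real.rpow_natCast, ← Real.rpow_mul hX.le,
      show (1 + (ε / 2 + 1 / 2)) * ((2 : ℕ) : ℝ) = ε + 3 by push_cast; ring, Real.rpow_add hX]
    exact mul_le_mul_of_nonneg_right (Real.rpow_le_rpow hX.le hXZ hε.le) (by positivity)
  rw [← mul_assoc, mul_pow] at h4
  rw [add_zero, Real.rpow_one] at h2
  have h6 := h4.trans (mul_le_mul_of_nonneg_left h5 (by positivity))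
  have hz : 1 ≤ Z ^ ε := Real.one_le_rpow hZ hε.le
  have hx : 0 < X ^ (3 : ℝ) := by positivity
  have he : 1 ≤ Real.exp (C * (F + (D * E) ^ 2) * |w.im|) := Real.one_le_exp (by positivity)
  rw [mul_assoc, mul_assoc]
  refine le_trans ?_ (mul_le_mul_of_nonneg_left (le_mul_of_one_le_left (by positivity) he)
    (by positivity))
  rw [mul_assoc]
  refine mul_le_mul_of_nonneg_left
    ((add_le_add (mul_le_mul_of_nonneg_left h2 hY.le) h6).trans ?_) hC0.le
  generalize Z ^ ε = z at hz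
  generalize X ^ (3 : ℝ) = x at hx
  have q1 : 0 ≤ (z - 1) * F * X * Y := by have := sub_nonneg.2 hz; positivity
  have q2 : 0 ≤ F * z * x := by positivity
  have q3 : 0 ≤ (D * E) ^ 2 * z * X * Y := by positivity
  nlinarith

end

end Vale.Agent.P026
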