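import Vale.Agent.P026.Geo
import Vale.Agent.P026.Lat

namespace Vale.Agent.P026

open Complex MeasureTheory Filter Topology
open scoped Classical ComplexConjugate Real MatrixGroups

noncomputable section

theorem cnt_aux : ∃ C : ℝ, 0 < C ∧ ∀ (w : Hs) (R : ℝ), 0 ≤ R → ∃ F : Finset (O × O),
    (∀ x, IsCoprime x.1 x.2 → Qr w x ≤ R → x ∈ F) ∧ (F.card : ℝ) ≤ 6 + C * (R / ht w + R ^ 2) := by
  obtain ⟨C1, h1, H1⟩ := card_ballO_le
  obtain ⟨C2, h2, H2⟩ := card_near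
  refine ⟨C1 * C2, by positivity, fun w R hR => ?_⟩
  have hv := ht_pos w
  have hR' : 0 ≤ R * ht w := by positivity
  refine ⟨({0} ×ˢ ballO 1) ∪ (ballO (R / ht w)).biUnion fun c =>
    {c} ×ˢ (H2 (toC c * w.1) _ hR').1.toFinset, fun x hx hQ => ?_, ?_⟩
  · rw [Qr, QQ, div_le_iff₀ hv, normSq_toC] at hQ
    by_cases hc : x.1 = 0
    · refine Finset.mem_union_left _ (Finset.mem_product.2 ⟨by simpa using hc, mem_ballO_one.2 ?_⟩)
      rwa [hc, isCoprime_zero_left] at hx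
    · have h3 := normSq_nonneg (toC x.1 * w.1 + toC x.2)
      have h4 := mul_pos (N_pos hc) (pow_pos hv 2)
      refine Finset.mem_union_right _ (Finset.mem_biUnion.2 ⟨x.1, mem_ballO.2 ⟨hc, ?_⟩,
        Finset.mem_product.2 ⟨by simp, ?_⟩⟩)
      · rw [le_div_iff₀ hv]
        exact le_of_mul_le_mul_right (by nlinarith) hv
      · simp only [Set.Finite.mem_toFinset, Set.mem_setOf_eq]
        linarith
  · refine (Nat.cast_le.2 ((Finset.card_union_le _ _).trans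
      (Nat.add_le_add_left Finset.card_biUnion_le _))).trans ?_
    push_cast
    refine add_le_add (by simp [card_ballO_one]) ((Finset.sum_le_card_nsmul _ _
      (C2 * (1 + R * ht w)) fun c _ => ?_).trans ?_)
    · rw [Finset.card_product, Finset.card_singleton, one_mul, ← Set.ncard_eq_toFinset_card _ _]
      exact (H2 _ _ hR').2
    · rw [nsmul_eq_mul]
      refine (mul_le_mul_of_nonneg_right (H1 _ (by positivity)) (by positivity)).trans_eq ?_
      field_simp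

theorem exists_small (w : Hs) : ∃ x : O × O, IsCoprime x.1 x.2 ∧ Qr w x ≤ 2 := by
  obtain ⟨C, -, H⟩ := cnt_aux
  have h0 : IsCoprime ((0, 1) : O × O).1 ((0, 1) : O × O).2 := isCoprime_one_right
  obtain ⟨F, hF, -⟩ := H w _ (Qr_pos w h0).le
  obtain ⟨x, hx, hm⟩ := Finset.exists_min_image (F.filter fun x => IsCoprime x.1 x.2) (Qr w)
    ⟨_, Finset.mem_filter.2 ⟨hF _ h0 le_rfl, h0⟩⟩
  have hm' : ∀ y : O × O, IsCoprime y.1 y.2 → Qr w x ≤ Qr w y := fun y hy => by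
    by_cases h : Qr w y ≤ Qr w (0, 1)
    · exact hm _ (Finset.mem_filter.2 ⟨hF _ hy h, hy⟩)
    · exact (hm _ (Finset.mem_filter.2 ⟨hF _ h0 le_rfl, h0⟩)).trans (not_le.1 h).le
  have hx' := (Finset.mem_filter.1 hx).2
  refine ⟨x, hx', ?_⟩
  obtain ⟨σ, rfl⟩ := exists_row hx'
  obtain ⟨d, hd⟩ := exists_near (actO σ w).1
  have h1 := hm' _ (grp_coprime_rmul (x := (1, d)) σ isCoprime_one_left)
  have h2 := Qr_pos w hx'
  rw [← Qr_actO, Qr.eq_1 (actO σ w), QQ, ht_actO] at h1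
  simp only [map_one, one_mul] at h1
  rw [le_div_iff₀ (inv_pos.2 h2), mul_inv_cancel₀ h2.ne'] at h1
  refine (inv_le_inv₀ two_pos h2).1 (le_of_not_gt fun h => ?_)
  nlinarith [inv_pos.2 h2]
theorem count_prim : ∃ C : ℝ, 0 < C ∧ ∀ (w : Hs) (R : ℝ), 0 ≤ R →
    {x : O × O | IsCoprime x.1 x.2 ∧ Qr w x ≤ R}.Finite ∧
      ({x : O × O | IsCoprime x.1 x.2 ∧ Qr w x ≤ R}.ncard : ℝ) ≤ C * (1 + R ^ 2) := by
  obtain ⟨C, hC, H⟩ := cnt_aux
  refine ⟨6 + 2 * C, by positivity, fun w R hR => ?_⟩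
  obtain ⟨x, hx, h2⟩ := exists_small w
  obtain ⟨σ, rfl⟩ := exists_row hx
  obtain ⟨F, hF, hc⟩ := H (actO σ w) R hR
  have hs : {x : O × O | IsCoprime x.1 x.2 ∧ Qr w x ≤ R} ⊆ ↑(F.image fun x => rmul x σ) := by
    intro y hy
    obtain ⟨y, rfl⟩ := (rmul_bijective σ).2 y
    exact Finset.mem_coe.2 (Finset.mem_image_of_mem _
      (hF _ ((coprime_rmul σ).1 hy.1) ((Qr_actO σ w y).trans_le hy.2)))
  refine ⟨(Finset.finite_toSet _).subset hs, ?_⟩
  have h3 := Set.ncard_le_ncard hs (Finset.finite_toSet _)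
  rw [Set.ncard_coe_finset] at h3
  refine (Nat.cast_le.2 (h3.trans Finset.card_image_le)).trans (hc.trans ?_)
  rw [ht_actO, div_inv_eq_mul]
  nlinarith [mul_le_mul_of_nonneg_left h2 (mul_nonneg hC.le hR), mul_nonneg hC.le (sq_nonneg (R - 1)),
    sq_nonneg R]
theorem cnt_card : ∃ C : ℝ, 0 < C ∧ ∀ (w : Hs) (R : ℝ) (s : Finset (O × O)), 0 ≤ R →
    (∀ x ∈ s, IsCoprime x.1 x.2 ∧ Qr w x ≤ R) → (s.card : ℝ) ≤ C * (1 + R ^ 2) := by
  obtain ⟨C, hC, H⟩ := count_prim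
  refine ⟨C, hC, fun w R s hR hs => le_trans ?_ (H w R hR).2⟩
  rw [← Set.ncard_coe_finset]
  exact Nat.cast_le.2 (Set.ncard_le_ncard hs (H w R hR).1)

theorem cnt_rpow : ∃ C : ℝ, 0 < C ∧ ∀ (w : Hs) (s : Finset (O × O)),
    ∑ x ∈ s, (if IsCoprime x.1 x.2 ∧ 1 ≤ Qr w x then Qr w x ^ (-3 : ℝ) else 0) ≤ C := by
  obtain ⟨C, hC, H⟩ := cnt_card
  refine ⟨5 * C * 2, by positivity, fun w s => ?_⟩
  choose! j hj using fun q : ℝ => fun h : 1 ≤ q => exists_nat_pow_near h one_lt_two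
  rw [← Finset.sum_filter, ← Finset.sum_fiberwise_of_maps_to
    (fun x hx => Finset.mem_image_of_mem (fun x => j (Qr w x)) hx), ← tsum_geometric_two,
    ← tsum_mul_left]
  refine le_trans (Finset.sum_le_sum fun n _ => ?_) ((summable_geometric_two.mul_left _).sum_le_tsum _
    fun n _ => by positivity)
  have h1 : (1 : ℝ) ≤ 2 ^ n := one_le_pow₀ one_le_two
  refine (Finset.sum_le_card_nsmul _ _ (((2 : ℝ) ^ n) ^ (-3 : ℝ)) fun x hx => ?_).trans ?_
  · simp only [Finset.mem_filter] at hx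
    exact Real.rpow_le_rpow_of_nonpos (by positivity) (hx.2 ▸ (hj _ hx.1.2.2).1) (by norm_num)
  · rw [nsmul_eq_mul]
    refine (mul_le_mul_of_nonneg_right (H w (2 ^ (n + 1)) _ (by positivity) fun x hx => ?_)
      (by positivity)).trans ?_
    · simp only [Finset.mem_filter] at hx
      exact ⟨hx.1.2.1, hx.2 ▸ (hj _ hx.1.2.2).2.le⟩
    · rw [Real.rpow_neg (by positivity), Real.rpow_ofNat, one_div, inv_pow, pow_succ (2 : ℝ) n]
      generalize (2 : ℝ) ^ n = a at h1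
      field_simp
      nlinarith

theorem sum_Q_rpow : ∃ C : ℝ, 0 < C ∧ ∀ w : Hs,
    Summable (fun x : O × O => if IsCoprime x.1 x.2 ∧ 1 ≤ Qr w x then Qr w x ^ (-3 : ℝ) else 0) ∧
    ∑' x : O × O, (if IsCoprime x.1 x.2 ∧ 1 ≤ Qr w x then Qr w x ^ (-3 : ℝ) else 0) ≤ C := by
  obtain ⟨C, hC, H⟩ := cnt_rpow
  have h : ∀ w : Hs, 0 ≤ fun x : O × O =>
      if IsCoprime x.1 x.2 ∧ 1 ≤ Qr w x then Qr w x ^ (-3 : ℝ) else 0 := fun w x => by
    have := QQ_nonneg w (toC x.1) (toC x.2)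
    exact ite_nonneg (Real.rpow_nonneg this _) le_rfl
  exact ⟨C, hC, fun w => ⟨summable_of_sum_le (h w) (H w), Real.tsum_le_of_sum_le (h w) (H w)⟩⟩
theorem sum_Q_exp : ∃ C : ℝ, 0 < C ∧ ∀ w : Hs,
    Summable (fun x : O × O => if IsCoprime x.1 x.2 then Real.exp (-(Qr w x / 2)) else 0) ∧
    ∑' x : O × O, (if IsCoprime x.1 x.2 then Real.exp (-(Qr w x / 2)) else 0) ≤ C := by
  obtain ⟨C, hC, H⟩ := cnt_rpow
  obtain ⟨C', hC', H'⟩ := cnt_card
  have h : ∀ w : Hs, 0 ≤ fun x : O × O =>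
      if IsCoprime x.1 x.2 then Real.exp (-(Qr w x / 2)) else 0 := fun w x =>
    ite_nonneg (Real.exp_pos _).le le_rfl
  have K : ∀ (w : Hs) (s : Finset (O × O)), ∑ x ∈ s,
      (if IsCoprime x.1 x.2 then Real.exp (-(Qr w x / 2)) else 0) ≤ C' * (1 + 1 ^ 2) + 48 * C := by
    intro w s
    refine le_trans ?_ (add_le_add (H' w 1 (s.filter fun x => IsCoprime x.1 x.2 ∧ Qr w x ≤ 1)
      zero_le_one fun x hx => (Finset.mem_filter.1 hx).2) (mul_le_mul_of_nonneg_left (H w s)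
      (by norm_num)))
    rw [Finset.card_filter, Finset.mul_sum, Nat.cast_sum, ← Finset.sum_add_distrib]
    refine Finset.sum_le_sum fun x _ => ?_
    by_cases hx : IsCoprime x.1 x.2
    · have h0 := Qr_pos w hx
      have h1 : Real.exp (-(Qr w x / 2)) ≤ 48 * Qr w x ^ (-3 : ℝ) := by
        have := Real.pow_div_factorial_le_exp (Qr w x / 2) (by positivity) 3
        rw [Real.rpow_neg h0.le, Real.rpow_ofNat, Real.exp_neg, ← div_eq_mul_inv,
          inv_le_comm₀ (by positivity) (by positivity)]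
        refine le_trans (le_of_eq ?_) this
        norm_num [Nat.factorial]
        ring
      have h2 : Real.exp (-(Qr w x / 2)) ≤ 1 := Real.exp_le_one_iff.2 (by linarith)
      have h3 := Real.rpow_pos_of_pos h0 (-3)
      simp only [hx, true_and, if_true]
      split_ifs <;> push_cast <;> linarith
    · simp [hx]
  exact ⟨_, by positivity, fun w =>
    ⟨summable_of_sum_le (h w) (K w), Real.tsum_le_of_sum_le (h w) (K w)⟩⟩

end

end Vale.Agent.P026
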