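import Vale.Agent.P026.QuadB
import Vale.Agent.P026.Div

namespace Vale.Agent.P026

open Complex MeasureTheory Filter Topology
open scoped Classical ComplexConjugate Real MatrixGroups

noncomputable section

theorem hd_jac {F : Type} [Field F] [Fintype F] (hF : ringChar F ≠ 2) {X : MulChar F ℂ} (hX : X ≠ 1) :
    X 4 * jacobiSum X X = jacobiSum X ((quadraticChar F).ringHomComp (Int.castRingHom ℂ)) := by
  have h2 : (2 : F) ≠ 0 := Ring.two_ne_zero hF
  have e1 : X 4 * jacobiSum X X = ∑ y : F, X (1 - y ^ 2) := by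
    rw [jacobiSum, Finset.mul_sum,
      ← ((Equiv.mulLeft₀ (2 : F) h2).trans (Equiv.subLeft 1)).sum_comp (fun y => X (1 - y ^ 2))]
    refine Finset.sum_congr rfl fun x _ => ?_
    rw [← map_mul, ← map_mul]
    congr 1
    simp only [Equiv.trans_apply, Equiv.mulLeft₀_apply, Equiv.subLeft_apply]
    ring
  have e2 : ∑ t : F, X (1 - t) = 0 := by
    rw [← MulChar.sum_eq_zero_of_ne_one hX]
    exact (Equiv.subLeft (1 : F)).sum_comp X
  rw [e1, ← Finset.sum_fiberwise' Finset.univ (fun y : F => y ^ 2) (fun t => X (1 - t)), jacobiSum_comm,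
    jacobiSum, ← add_zero (∑ x, _ * X (1 - x)), ← e2, ← Finset.sum_add_distrib]
  refine Finset.sum_congr rfl fun t _ => ?_
  have := congrArg (Int.cast : ℤ → ℂ) (quadraticChar_card_sqrts hF t)
  rw [Set.toFinset_setOf] at this
  push_cast at this
  rw [Finset.sum_const, nsmul_eq_mul, this, MulChar.ringHomComp_apply, add_mul, one_mul]
  rfl

theorem hd_abs {F : Type} [Field F] [Fintype F] (hF : ringChar F ≠ 2) {T : MulChar F ℂ}
    (ho : orderOf T = 3) {ψ : AddChar F ℂ} (hψ : ψ.IsPrimitive) (h1 : T (-1) = 1) :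
    conj (gaussSum T ψ) * gaussSum (T ^ 2 * (quadraticChar F).ringHomComp (Int.castRingHom ℂ)) ψ * T 2
      = gaussSum T ψ * gaussSum ((quadraticChar F).ringHomComp (Int.castRingHom ℂ)) ψ := by
  set ρ := (quadraticChar F).ringHomComp (Int.castRingHom ℂ)
  have h3 : T ^ 3 = 1 := ho ▸ pow_orderOf_eq_one T
  have n1 : T ≠ 1 := fun h => by simp [h] at ho
  have e4 : T ^ 2 * T ^ 2 = T := by rw [← pow_add, pow_succ, h3, one_mul]
  have n2 : T ^ 2 ≠ 1 := fun h => n1 (by rw [← e4, h, one_mul])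
  have hρ : ρ ^ 2 = 1 := ((quadraticChar_isQuadratic F).comp _).sq_eq_one
  have n3 : T ^ 2 * ρ ≠ 1 := fun h => n1 (by
    have := congrArg (· ^ 2) h
    simp only [mul_pow, hρ, mul_one, one_pow] at this
    rw [← e4, ← pow_two, this])
  have j1 := jacobiSum_mul_nontrivial (χ := T ^ 2) (φ := T ^ 2) (by rw [e4]; exact n1) ψ
  have j2 := jacobiSum_mul_nontrivial n3 ψ
  have j3 := hd_jac hF n2
  have e5 : (T ^ 2) 4 = T 2 := by
    rw [show (4 : F) = 2 * 2 by norm_num, map_mul, ← MulChar.mul_apply, e4]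
  have e6 : conj (gaussSum T ψ) = gaussSum (T ^ 2) ψ := by
    have : T⁻¹ = T ^ 2 := inv_eq_of_mul_eq_one_right (by rw [← pow_succ', h3])
    rw [← mul_gaussSum_inv_eq_gaussSum (T ^ 2), MulChar.pow_apply' _ two_ne_zero, h1, one_pow, one_mul,
      ← this]
    exact star_gaussSum_eq T ψ
  have g0 : gaussSum (T ^ 2) ψ ≠ 0 :=
    gaussSum_ne_zero_of_nontrivial (Nat.cast_ne_zero.2 Fintype.card_ne_zero) n2 hψ
  rw [e4] at j1
  rw [e5] at j3
  rw [e6]
  refine mul_left_cancel₀ g0 ?_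
  linear_combination (-gaussSum (T ^ 2 * ρ) ψ * T 2) * j1 + gaussSum T ψ * j2 +
    gaussSum T ψ * gaussSum (T ^ 2 * ρ) ψ * j3

theorem mu_gt_prime {p : O} (hp : Prime p) (hN : NN p) :
    -gt 1 p = conj (gt3 p) * ang p * conj (sym3 2 p) * F1 p := by
  have hP := hN.1
  obtain ⟨χ, hχ, -, -⟩ := jac_exists hp hP
  obtain ⟨ψ, hψ, hψ1⟩ := jac_psi hp.ne_zero
  have hoC : orderOf (χ.ringHomComp toC) = 3 :=
    jac_order hp hP toC (fun _ _ h => toC_inj (by rw [h, map_one])) hχ
  haveI := jac_max hp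
  letI := Ideal.Quotient.field (Ideal.span {p})
  haveI := finite_quot hp.ne_zero
  letI := Fintype.ofFinite (O ⧸ Ideal.span {p})
  have hF : ringChar (O ⧸ Ideal.span {p}) ≠ 2 := by
    rw [Ne, FiniteField.even_card_iff_char_two, jac_card hp.ne_zero]
    have := Nat.odd_iff.1 (oddO_iff_Nm.1 hN.2.2)
    omega
  have hρ : ∀ x, (quadraticChar (O ⧸ Ideal.span {p})).ringHomComp (Int.castRingHom ℂ)
      (Ideal.Quotient.mk _ x) = sym2 x p := by
    intro x
    rw [MulChar.ringHomComp_apply]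
    by_cases hx : p ∣ x
    · rw [Ideal.Quotient.eq_zero_iff_mem.2 (Ideal.mem_span_singleton.2 hx), MulChar.map_zero, map_zero,
        (sym2_eq_zero_iff hp.ne_zero).2 fun h => hp.not_unit (h.symm.isUnit_of_dvd hx)]
    · have h0 : Ideal.Quotient.mk (Ideal.span {p}) x ≠ 0 := fun h =>
        hx (Ideal.mem_span_singleton.1 (Ideal.Quotient.eq_zero_iff_mem.1 h))
      have hs : sym2 x p = 1 ↔ IsSquare (Ideal.Quotient.mk (Ideal.span {p}) x) := by
        rw [sym2_eq_one_iff hp hN.2.2 hx]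
        constructor
        · rintro ⟨y, hy⟩
          exact ⟨Ideal.Quotient.mk _ y, by rw [← map_mul, ← pow_two, jac_mk_eq]; exact hy⟩
        · rintro ⟨y, hy⟩
          obtain ⟨y, rfl⟩ := Ideal.Quotient.mk_surjective y
          exact ⟨y, by rwa [← map_mul, ← pow_two, jac_mk_eq] at hy⟩
      by_cases hq : IsSquare (Ideal.Quotient.mk (Ideal.span {p}) x)
      · rw [(quadraticChar_one_iff_isSquare h0).2 hq, hs.2 hq, map_one]
      · rw [quadraticChar_neg_one_iff_not_isSquare.2 hq, map_neg, map_one]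
        rcases sym2_cases x p with h | h | h
        · exact absurd (hp.irreducible.coprime_iff_not_dvd.2 hx).symm
            ((sym2_eq_zero_iff hp.ne_zero).1 h)
        · exact absurd (hs.1 h) hq
        · exact h.symm
  have e3 : χ.ringHomComp toC (-1) = 1 := by
    have := hχ (-1)
    rwa [map_neg, map_one, sym3_neg_one] at this
  have key := hd_abs hF hoC (AddChar.IsPrimitive.of_ne_one (hψ1 hp.not_unit)) e3
  have hg : ∀ X : MulChar (O ⧸ Ideal.span {p}) ℂ, gaussSum X ψ =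
      ∑ x ∈ rs p, X (Ideal.Quotient.mk _ x) * psi (toC 1 * toC x / toC p) := fun X => by
    rw [gaussSum, ← sum_rs_eq_sum_quot hp.ne_zero (fun y => X y * ψ y)]
    simp only [hψ, map_one, one_mul]
  have e2 : χ.ringHomComp toC 2 = sym3 2 p := by
    have := hχ 2
    rwa [map_ofNat] at this
  have hT : ∀ x, χ.ringHomComp toC (Ideal.Quotient.mk _ x) = sym3 x p := hχ
  rw [hg, hg, hg, e2] at key
  simp only [MulChar.mul_apply, MulChar.pow_apply' _ two_ne_zero, hT, hρ] at key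
  replace key : conj (g3 1 p) * gs 1 1 p * sym3 2 p = g3 1 p * g2 1 p := by
    simpa only [g3, gs, g2, chi6, pow_one] using key
  have hr : (‖toC p‖ : ℂ) ≠ 0 := by
    exact_mod_cast norm_ne_zero_iff.2 (toC_ne_zero hp.ne_zero)
  have c1 := g3_cube hp hP
  have c2 := mul_conj (gt3 p)
  have c3 := mul_conj (sym3 2 p)
  rw [normSq_eq_norm_sq, norm_gt3 hp hP] at c2
  rw [normSq_eq_norm_sq, norm_sym3 (oddO_iff_coprime.1 hN.2.2).symm] at c3
  have c4 : g3 1 p = ‖toC p‖ * gt3 p := by rw [gt3]; field_simp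
  have c5 : gs 1 1 p = ‖toC p‖ * gt 1 p := by rw [gt]; field_simp
  have c6 : toC p = ‖toC p‖ * ang p := by rw [ang]; field_simp
  rw [← norm_toC_sq, c4, c6] at c1
  rw [g2_eq hN.2.2 hN.2.1, c4, c5, map_mul, conj_ofReal] at key
  simp only [norm_mul, norm_real, norm_norm, norm_ang hp.ne_zero, mul_one, one_pow, ofReal_one,
    ofReal_pow] at c1 c2 c3
  have k1 : gt3 p ^ 3 = -ang p := mul_left_cancel₀ (pow_ne_zero 3 hr) (by linear_combination c1)
  have k2 : conj (gt3 p) * gt 1 p * sym3 2 p = gt3 p * F1 p :=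
    mul_left_cancel₀ (pow_ne_zero 2 hr) (by linear_combination key)
  linear_combination (-gt3 p * conj (sym3 2 p)) * k2 - (conj (gt3 p) * conj (sym3 2 p) * F1 p) * k1
    + (gt 1 p * sym3 2 p * conj (sym3 2 p) + gt3 p ^ 2 * conj (sym3 2 p) * F1 p) * c2 + gt 1 p * c3

theorem mu_gt {n : O} (hn : NN n) :
    mu n * gt 1 n = conj (gt3 n) * ang n * conj (sym3 2 n) * F1 n := by
  refine NN.induction (P := fun n => mu n * gt 1 n = conj (gt3 n) * ang n * conj (sym3 2 n) * F1 n)
    ?_ (fun p n hp hN hn hpn ih => ?_) n hn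
  · simp [mu_one, gt_one, gt3_one, ang, sym3_unit_right, F1_one]
  · have hc : IsCoprime p n := hp.irreducible.coprime_iff_not_dvd.2 hpn
    have a1 := mul_conj (F1 p)
    have a2 := mul_conj (F1 n)
    rw [normSq_eq_norm_sq, norm_F1 hN.2.2] at a1
    rw [normSq_eq_norm_sq, norm_F1 hn.2.2] at a2
    simp only [one_pow, ofReal_one] at a1 a2
    have a3 := sym2_recip hN.2.2 hn.2.2 hc
    have a4 : F1 (p * n) = sym2 p n * sym2 n p * F1 p * F1 n := by
      rw [a3, eps]
      linear_combination (-F1 (p * n) * F1 n * conj (F1 n)) * a1 - F1 (p * n) * a2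
    rw [mu_mul hc, mu_prime hp, gt_mul hN hn hc, gt3_mul hp.ne_zero hn.ne_zero hc, ang_mul,
      sym3_mul_right _ hp.ne_zero hn.ne_zero, a4]
    simp only [map_mul, conj_sym3 p, conj_sym3 n, chi6, pow_one]
    have a5 := mu_gt_prime hp hN
    linear_combination (sym3 p n ^ 2 * sym2 p n * (sym3 n p ^ 2 * sym2 n p)) *
      (mu n * gt 1 n * a5 + (conj (gt3 p) * ang p * conj (sym3 2 p) * F1 p) * ih)

end

end Vale.Agent.P026
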