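import Vale.Agent.P026.VorW1

namespace Vale.Agent.P026

open Complex MeasureTheory Filter Topology
open scoped Classical ComplexConjugate Real MatrixGroups

noncomputable section

def vw_k (s : ℂ) : ℂ := π / Complex.Gamma (4 / 3) * (4 * π ^ 2 : ℂ) ^ (-s - 1 / 3) *
  Complex.Gamma (s + 1 / 3) * Complex.Gamma (s + 2 / 3)
def vw_R (s : ℂ) : ℂ := (π / Complex.Gamma (4 / 3))⁻¹ * (4 * π ^ 2 : ℂ) ^ (s + 1 / 3) *
  (Complex.Gamma (s + 1 / 3))⁻¹ * (Complex.Gamma (s + 2 / 3))⁻¹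
def vw_G (w s : ℂ) : ℂ := 1 / (2 * π) * ((√π : ℝ) * Complex.exp ((s + w) ^ 2 / 4)) * vw_R s
def vw_g (v τ : ℝ) : ℝ := Real.exp (-(1 / 8) * (τ + v) ^ 2)

theorem vw_pi : (4 * π ^ 2 : ℂ) = ((4 * π ^ 2 : ℝ) : ℂ) := by push_cast; rfl
theorem vw_pi1 : (1 : ℝ) ≤ 4 * π ^ 2 := by nlinarith [Real.pi_gt_three]
theorem vw_pi0 : (4 * π ^ 2 : ℂ) ≠ 0 := by simp

theorem vw_R_mul {s : ℂ} (hs : 0 ≤ s.re) : vw_R s * vw_k s = 1 := by
  have h0 := Complex.Gamma_ne_zero_of_re_pos (s := 4 / 3) (by norm_num)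
  have h1 := Complex.Gamma_ne_zero_of_re_pos (s := s + 1 / 3) (by simp; linarith)
  have h2 := Complex.Gamma_ne_zero_of_re_pos (s := s + 2 / 3) (by simp; linarith)
  have h3 : (4 * π ^ 2 : ℂ) ^ (s + 1 / 3) ≠ 0 := by simp
  have h4 : (π : ℂ) ≠ 0 := by simp
  rw [vw_R, vw_k, ← neg_add', cpow_neg]
  generalize Complex.Gamma (s + 1 / 3) = A at *
  generalize Complex.Gamma (s + 2 / 3) = B at *
  generalize (4 * π ^ 2 : ℂ) ^ (s + 1 / 3) = D at *
  field_simp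

theorem vw_G_diff (w : ℂ) : Differentiable ℂ (vw_G w) := by
  have h := Complex.differentiable_one_div_Gamma
  refine Differentiable.mul (by fun_prop) ((Differentiable.mul (Differentiable.const_mul
    (Differentiable.const_cpow (by fun_prop) (Or.inl vw_pi0)) _)
    (h.comp (f := fun s => s + 1 / 3) (by fun_prop))).mul
    (h.comp (f := fun s => s + 2 / 3) (by fun_prop)))

theorem vw_k_diff {s : ℂ} (hs : 0 ≤ s.re) : DifferentiableAt ℂ vw_k s :=
  (((DifferentiableAt.const_cpow (by fun_prop) (Or.inl vw_pi0)).const_mul _).mul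
    ((gamB_diff (by simp; linarith)).comp s (f := fun s => s + 1 / 3) (by fun_prop))).mul
    ((gamB_diff (by simp; linarith)).comp s (f := fun s => s + 2 / 3) (by fun_prop))

theorem vw_k_le : ∃ K : ℝ, 0 < K ∧ ∀ s : ℂ, 0 ≤ s.re → s.re ≤ 3 → ‖vw_k s‖ ≤ K := by
  obtain ⟨C, hC, h⟩ := Gamma_strip_le (a := 1 / 3) (b := 4) (by norm_num)
  refine ⟨(‖π / Complex.Gamma (4 / 3)‖ + 1) * 1 * C * C, by positivity, fun s h1 h2 => ?_⟩
  rw [vw_k, norm_mul, norm_mul, norm_mul, vw_pi, norm_cpow_eq_rpow_re_of_pos (by positivity)]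
  gcongr
  · linarith
  · exact Real.rpow_le_one_of_one_le_of_nonpos vw_pi1 (by simp; linarith)
  · exact h _ (by simp; linarith) (by simp; linarith)
  · exact h _ (by simp; linarith) (by simp; linarith)

theorem vw_G_le (R0 : ℝ) : ∃ K : ℝ, 0 < K ∧ ∀ w : ℂ, |w.re| ≤ R0 → ∀ s : ℂ, -2 ≤ s.re →
    s.re ≤ 2 → ‖vw_G w s‖ ≤ K * Real.exp (2 * π * |w.im|) * vw_g w.im s.im := by
  obtain ⟨C, hC, h⟩ := inv_Gamma_le (-2) 3
  refine ⟨‖1 / (2 * π : ℂ)‖ * √π * (‖(π / Complex.Gamma (4 / 3))⁻¹‖ * (4 * π ^ 2) ^ (3 : ℝ)) *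
    C * C * Real.exp ((2 + R0) ^ 2 / 4 + 8 * π ^ 2) + 1, by positivity, fun w hw s h1 h2 => ?_⟩
  have hR : ‖vw_R s‖ ≤ ‖(π / Complex.Gamma (4 / 3))⁻¹‖ * (4 * π ^ 2) ^ (3 : ℝ) *
      (C * Real.exp (π * |s.im|)) * (C * Real.exp (π * |s.im|)) := by
    rw [vw_R, norm_mul, norm_mul, norm_mul, vw_pi, norm_cpow_eq_rpow_re_of_pos (by positivity)]
    gcongr
    · exact vw_pi1
    · simp; linarith
    · simpa using h (s + 1 / 3) (by simp; linarith) (by simp; linarith)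
    · simpa using h (s + 2 / 3) (by simp; linarith) (by simp; linarith)
  have hE : ‖Complex.exp ((s + w) ^ 2 / 4)‖ * Real.exp (π * |s.im|) * Real.exp (π * |s.im|) ≤
      Real.exp ((2 + R0) ^ 2 / 4 + 8 * π ^ 2) * Real.exp (2 * π * |w.im|) * vw_g w.im s.im := by
    have e : ((s + w) ^ 2 / 4 : ℂ).re = ((s.re + w.re) ^ 2 - (s.im + w.im) ^ 2) / 4 := by
      simp [sq]
    rw [norm_exp, vw_g, ← Real.exp_add, ← Real.exp_add, ← Real.exp_add, ← Real.exp_add,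
      Real.exp_le_exp, e]
    have k1 : (s.re + w.re) ^ 2 ≤ (2 + R0) ^ 2 :=
      sq_le_sq' (by linarith [abs_le.1 hw]) (by linarith [abs_le.1 hw])
    have k2 : |s.im| ≤ |s.im + w.im| + |w.im| := by simpa using abs_sub (s.im + w.im) w.im
    have k3 := mul_le_mul_of_nonneg_left k2 Real.pi_pos.le
    nlinarith [sq_nonneg (|s.im + w.im| - 8 * π), sq_abs (s.im + w.im)]
  have hg : 0 < vw_g w.im s.im := Real.exp_pos _
  rw [vw_G, norm_mul, norm_mul, norm_mul, norm_real, Real.norm_of_nonneg (Real.sqrt_nonneg _)]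
  refine (mul_le_mul_of_nonneg_left hR (by positivity)).trans ?_
  refine le_trans (le_of_eq (by ring)) ((mul_le_mul_of_nonneg_left hE
    (by positivity : 0 ≤ ‖1 / (2 * π : ℂ)‖ * √π * (‖(π / Complex.Gamma (4 / 3))⁻¹‖ *
      (4 * π ^ 2) ^ (3 : ℝ)) * C * C)).trans ?_)
  rw [← mul_assoc, ← mul_assoc]
  gcongr
  linarith

theorem vw_g_int (v : ℝ) : Integrable (vw_g v) :=
  (integrable_exp_neg_mul_sq (b := 1 / 8) (by norm_num)).comp_add_right v

theorem vw_g_integral (v : ℝ) : ∫ τ, vw_g v τ = ∫ τ, vw_g 0 τ := by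
  simpa [vw_g] using integral_add_right_eq_self (μ := volume) (vw_g 0) v

theorem vw_g_lim (v : ℝ) : Tendsto (vw_g v) (cocompact ℝ) (𝓝 0) := by
  have h := (tendsto_rpow_abs_mul_exp_neg_mul_sq_cocompact (a := 1 / 8) (by norm_num) 0).comp
    (Homeomorph.addRight v).map_cocompact.le
  exact h.congr fun τ => by simp [vw_g]

theorem vw_cpow_le {x a b : ℝ} (hx : 0 < x) {s : ℂ} (h1 : a ≤ s.re) (h2 : s.re ≤ b) :
    ‖(x : ℂ) ^ (-s)‖ ≤ x ^ (-a) + x ^ (-b) := by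
  rw [norm_cpow_eq_rpow_re_of_pos hx, neg_re]
  rcases le_total 1 x with k | k
  · exact le_add_of_le_of_nonneg (Real.rpow_le_rpow_of_exponent_le k (neg_le_neg h1))
      (by positivity)
  · exact le_add_of_nonneg_of_le (by positivity)
      (Real.rpow_le_rpow_of_exponent_ge hx k (neg_le_neg h2))

theorem vw_cpow_diff {x : ℝ} (hx : 0 < x) : Differentiable ℂ fun s : ℂ => (x : ℂ) ^ (-s) :=
  Differentiable.const_cpow (by fun_prop) (Or.inl (ofReal_ne_zero.2 hx.ne'))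

/-- the Mellin transform of the dual weight -/
def vw_M (w s : ℂ) : ℂ := vw_G w (1 - s) * vw_k s

theorem vw_M_diff (w : ℂ) {s : ℂ} (hs : 0 ≤ s.re) : DifferentiableAt ℂ (vw_M w) s :=
  ((vw_G_diff w _).comp s (f := fun s => 1 - s) (by fun_prop)).mul (vw_k_diff hs)

theorem vw_M_le (R0 : ℝ) : ∃ K : ℝ, 0 < K ∧ ∀ w : ℂ, |w.re| ≤ R0 → ∀ s : ℂ, 0 ≤ s.re →
    s.re ≤ 3 → ‖vw_M w s‖ ≤ K * Real.exp (2 * π * |w.im|) * vw_g (-w.im) s.im := by
  obtain ⟨K, hK, h⟩ := vw_G_le R0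
  obtain ⟨K', hK', h'⟩ := vw_k_le
  refine ⟨K' * K, by positivity, fun w hw s h1 h2 => ?_⟩
  have e : vw_g (-w.im) s.im = vw_g w.im (1 - s).im := by simp [vw_g]; ring
  rw [vw_M, norm_mul, mul_comm, mul_assoc K', mul_assoc K', e]
  exact mul_le_mul (h' s h1 h2) (h w hw _ (by simp; linarith) (by simp; linarith))
    (norm_nonneg _) hK'.le

theorem vw_transfer (w : ℂ) : VorTransfer w fun x => ∫ τ : ℝ,
    vw_M w ((3 : ℝ) + τ * Complex.I) * (x : ℂ) ^ (-((3 : ℝ) + τ * Complex.I)) := by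
  intro a a' η Cc Bd hC h0 h0' hb hb' hv X hX
  have ha : vw_ok a := ⟨h0, fun s hs => summable_of_sq_bound hb hs⟩
  have ha' : vw_ok a' := ⟨h0', fun s hs => summable_of_sq_bound hb' hs⟩
  have hc : 0 < (Cc ^ 2)⁻¹ := by positivity
  have hXi := inv_pos.2 hX
  have hf : ∀ t : ℝ, 0 < t →
      vw_th a t = η / Cc * (t⁻¹ : ℝ) * vw_th a' (t⁻¹ * (Cc ^ 2)⁻¹) := fun t ht => by
    have := hv t⁻¹ (inv_pos.2 ht)
    simp only [div_inv_eq_mul, div_eq_mul_inv _ (Cc ^ 2), mul_assoc (N _)] at this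
    rw [vw_th, vw_th, this]
    push_cast; ring
  obtain ⟨C1, -, h1⟩ := vw_th_le ha (A := 3) (by norm_num)
  obtain ⟨C2, -, h2⟩ := vw_th_le ha' (A := 4) (by norm_num)
  obtain ⟨K, hK⟩ := vw_entire (vw_th_cont ha) h1
    (D := ‖η / Cc‖ * (C2 * (Cc ^ 2)⁻¹ ^ (-4 : ℝ))) fun t ht => by
      have hi := inv_pos.2 ht
      rw [hf t ht, norm_mul, norm_mul, norm_real, Real.norm_of_nonneg hi.le]
      refine (mul_le_mul_of_nonneg_left (h2 _ (mul_pos hi hc)) (by positivity)).trans_eq ?_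
      rw [Real.mul_rpow hi.le hc.le, Real.inv_rpow ht.le, ← Real.rpow_neg ht.le,
        show -(-3 : ℝ) = - -4 - 1 by norm_num, Real.rpow_sub_one ht.ne']
      ring
  obtain ⟨K1, hK1, hG⟩ := vw_G_le |w.re|
  obtain ⟨K2, hK2, hM⟩ := vw_M_le |w.re|
  have hK0 : 0 ≤ K := (norm_nonneg _).trans (hK 0 (by simp) (by simp)).2
  have sh := shift_strip (F := fun s => vw_G w s * (((X⁻¹ : ℝ) : ℂ) ^ (-s) * mellin (vw_th a) s))
    (a := -2) (b := 2) (by norm_num)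
    (fun s k1 k2 => (vw_G_diff w s).mul ((vw_cpow_diff hXi s).mul (hK s k1 k2).1))
    (((vw_g_int w.im).const_mul (K1 * Real.exp (2 * π * |w.im|))).mul_const
      ((X⁻¹ ^ (-(-2 : ℝ)) + X⁻¹ ^ (-2 : ℝ)) * K))
    (by simpa using ((vw_g_lim w.im).const_mul _).mul_const _) fun s k1 k2 => by
      rw [norm_mul, norm_mul]
      exact mul_le_mul (hG w le_rfl s k1 k2) (mul_le_mul (vw_cpow_le hXi k1 k2) (hK s k1 k2).2
        (norm_nonneg _) (by positivity)) (by positivity)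
        ((norm_nonneg _).trans (hG w le_rfl s k1 k2))
  have i2 : Integrable fun τ : ℝ => 1 / (2 * π : ℂ) *
      ((√π : ℝ) * Complex.exp (((2 : ℝ) + τ * Complex.I + w) ^ 2 / 4)) :=
    ((wb_gauss w 2).const_mul _).const_mul _
  have i3 : Integrable fun τ : ℝ => vw_M w ((3 : ℝ) + τ * Complex.I) :=
    gamB_line (fun s h => vw_M_diff w (by rw [h]; norm_num)) ((vw_g_int (-w.im)).const_mul _)
      fun s h => hM w le_rfl s (by rw [h]; norm_num) h.le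
  have s2 := vw_swap ha i2 one_lt_two hXi
  have s3 := vw_swap ha' i3 (σ := 3) (by norm_num) (mul_pos hX hc)
  simp only [div_eq_mul_inv _ (Cc ^ 2), mul_assoc (N _)]
  rw [s3, ← integral_const_mul]
  refine Eq.trans (tsum_congr fun n => ?_) (s2.trans (Eq.trans (integral_congr_ae
    (ae_of_all _ fun τ => ?_)) (sh.symm.trans ((integral_neg_eq_self _ _).symm.trans
      (integral_congr_ae (ae_of_all _ fun τ => ?_))))))
  · rcases eq_or_ne n 0 with rfl | hn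
    · simp [h0]
    rw [W_inv_mellin w 2 (div_pos (N_pos hn) hX), ← integral_const_mul, div_eq_mul_inv (N n)]
    simp only [mul_assoc]
  · have k : 0 ≤ (((2 : ℝ) : ℂ) + τ * Complex.I).re := by simp
    have := vw_R_mul k
    simp only
    rw [vw_mellin ha (by simp), (kk_mellin (by linarith)).2, ← vw_k, vw_G]
    linear_combination -(1 / (2 * π : ℂ) * ((√π : ℝ) *
      Complex.exp (((2 : ℝ) + τ * Complex.I + w) ^ 2 / 4)) * (((X⁻¹ : ℝ) : ℂ) ^
        (-((2 : ℝ) + τ * Complex.I)) * vw_L a ((2 : ℝ) + τ * Complex.I))) * this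
  · have k : 1 < (((3 : ℝ) : ℂ) + τ * Complex.I).re := by simp
    have e : (((-2 : ℝ) : ℂ) + ((-τ : ℝ) : ℂ) * Complex.I) = 1 - ((3 : ℝ) + τ * Complex.I) := by
      push_cast; ring
    have hX' : (X : ℂ) ≠ 0 := ofReal_ne_zero.2 hX.ne'
    simp only
    rw [e, vw_fe hc hf, vw_mellin ha' k, (kk_mellin (by linarith)).2, ← vw_k, vw_M,
      ofReal_mul X, mul_cpow_ofReal_nonneg hX.le hc.le, ofReal_inv X,
      inv_cpow _ _ (arg_ofReal_of_nonneg hX.le ▸ Real.pi_pos.ne), ← cpow_neg, neg_neg,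
      sub_eq_add_neg 1, cpow_add _ _ hX', cpow_one]
    push_cast
    ring

theorem exists_dualW (R0 : ℝ) : ∃ C : ℝ, 0 < C ∧ ∀ w : ℂ, |w.re| ≤ R0 →
    ∃ Wst : ℝ → ℂ, DualW Wst (C * Real.exp (C * |w.im|)) ∧ VorTransfer w Wst := by
  obtain ⟨K, hK, hM⟩ := vw_M_le R0
  have hI : 0 ≤ ∫ τ, vw_g 0 τ := integral_nonneg fun τ => (Real.exp_pos _).le
  refine ⟨K * (∫ τ, vw_g 0 τ) + 2 * π, by positivity, fun w hw => ⟨_, ⟨?_⟩, vw_transfer w⟩⟩
  have hg := (vw_g_int (-w.im)).const_mul (K * Real.exp (2 * π * |w.im|))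
  have key : ∀ σ : ℝ, 0 ≤ σ → σ ≤ 3 → Integrable (fun τ : ℝ => vw_M w (σ + τ * Complex.I)) ∧
      ∫ τ : ℝ, ‖vw_M w (σ + τ * Complex.I)‖ ≤ (K * (∫ τ, vw_g 0 τ) + 2 * π) *
        Real.exp ((K * (∫ τ, vw_g 0 τ) + 2 * π) * |w.im|) := fun σ h1 h2 => by
    have i := gamB_line (c := σ) (fun s h => vw_M_diff w (h ▸ h1)) hg
      fun s h => hM w hw s (h ▸ h1) (h ▸ h2)
    refine ⟨i, (integral_mono i.norm hg fun τ => by
      simpa using hM w hw (σ + τ * Complex.I) (by simpa) (by simpa)).trans ?_⟩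
    rw [integral_const_mul, vw_g_integral, mul_right_comm]
    have := mul_nonneg hK.le hI
    gcongr <;> linarith [Real.pi_pos]
  refine ⟨_, _, (key 0 le_rfl (by norm_num)).1, (key 3 (by norm_num) le_rfl).1,
    (key 0 le_rfl (by norm_num)).2, (key 3 (by norm_num) le_rfl).2, fun x hx => ⟨?_, rfl⟩⟩
  have sh := shift_strip (F := fun s => vw_M w s * (x : ℂ) ^ (-s)) (a := 0) (b := 3) (by norm_num)
    (fun s k1 _ => (vw_M_diff w k1).mul (vw_cpow_diff hx s))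
    (hg.mul_const (x ^ (-(0 : ℝ)) + x ^ (-3 : ℝ)))
    (by simpa using ((vw_g_lim (-w.im)).const_mul _).mul_const _) fun s k1 k2 => by
      rw [norm_mul]
      exact mul_le_mul (hM w hw s k1 k2) (vw_cpow_le hx k1 k2) (norm_nonneg _)
        ((norm_nonneg _).trans (hM w hw s k1 k2))
  rw [← sh]
  simp

end

end Vale.Agent.P026
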