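import Vale.Agent.P026.Cusp2
import Vale.Agent.P026.DualB
import Vale.Agent.P026.VorW

namespace Vale.Agent.P026

open Complex MeasureTheory Filter Topology
open scoped Classical ComplexConjugate Real MatrixGroups

noncomputable section

theorem vorls_dyad {g : O → ℝ} (hg : ∀ h, 0 ≤ g h) {D H : ℝ} (hD : 0 ≤ D)
    (hb : ∀ H', 0 < H' → H' ≤ H → ∑ h ∈ ballN H', g h ≤ D * H' ^ 3) (k : ℕ) :
    ∀ H', 0 < H' → H' ≤ H → H' < 2 ^ k → ∑ h ∈ ballN H', g h / N h ^ 2 ≤ 8 * D * H' := by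
  induction k with
  | zero =>
    intro H' h0 _ h2
    rw [ballN, ballO_eq_empty (by simpa using h2)]
    simp only [Finset.filter_empty, Finset.sum_empty]
    positivity
  | succ k ih =>
    intro H' h0 h1 h2
    have a := ih (H' / 2) (by positivity) (by linarith) (by rw [pow_succ] at h2; linarith)
    rw [← Finset.sum_sdiff (ballN_mono (show H' / 2 ≤ H' by linarith))]
    have b : ∑ h ∈ ballN H' \ ballN (H' / 2), g h / N h ^ 2 ≤ ∑ h ∈ ballN H', g h / (H' / 2) ^ 2 := by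
      refine (Finset.sum_le_sum fun h hh => ?_).trans (Finset.sum_le_sum_of_subset_of_nonneg
        Finset.sdiff_subset fun h _ _ => by have := hg h; positivity)
      obtain ⟨c, d⟩ := Finset.mem_sdiff.1 hh
      have e : H' / 2 < N h := lt_of_not_ge fun e => d (mem_ballN.2 ⟨(mem_ballN.1 c).1, e⟩)
      exact div_le_div_of_nonneg_left (hg h) (by positivity) (pow_le_pow_left₀ (by positivity) e.le 2)
    rw [← Finset.sum_div] at b
    have c : (∑ h ∈ ballN H', g h) / (H' / 2) ^ 2 ≤ 4 * D * H' := by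
      rw [div_le_iff₀ (by positivity)]
      exact (hb H' h0 h1).trans (le_of_eq (by ring))
    linarith

theorem vorls_rp {x r a : ℝ} (hx : 0 ≤ x) (h0 : 0 ≤ r) (h1 : r ≤ 1) (ha : 1 ≤ a) :
    (x * r) ^ a ≤ x ^ a * r := by
  rw [Real.mul_rpow hx h0]
  exact mul_le_mul_of_nonneg_left (Real.rpow_le_self_of_le_one h0 h1 ha) (by positivity)

theorem vorls_sum {τ : O → ℂ} {Bd : ℝ} (h0 : τ 0 = 0)
    (hb : ∀ R : ℝ, 1 ≤ R → ∑ n ∈ ballO R, ‖τ n‖ ^ 2 ≤ Bd * R) {b : O → ℂ} (h1 : ∀ n, ‖b n‖ ≤ 1)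
    (w : ℂ) {X : ℝ} (hX : 0 < X) : Summable fun n => τ n * b n * W w (N n / X) := by
  obtain ⟨C, hC, h⟩ := W_le (-2) |w.re|
  refine ((summable_of_sq_bound hb one_lt_two).mul_left (C * X ^ (2 : ℝ))).of_norm_bounded
    fun n => ?_
  by_cases hn : n = 0
  · simp [hn, h0]
  have hp := N_pos hn
  have a := h w (N n / X) le_rfl (by positivity)
  rw [Real.div_rpow hp.le hX.le, Real.rpow_neg hX.le, div_inv_eq_mul] at a
  rw [norm_mul, norm_mul]
  refine (mul_le_mul (mul_le_of_le_one_right (norm_nonneg _) (h1 n)) a (norm_nonneg _)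
    (norm_nonneg _)).trans (le_of_eq (by ring))

theorem vorls_cs {τ : O → ℂ} {Bd : ℝ} (h0 : τ 0 = 0)
    (hb : ∀ R : ℝ, 1 ≤ R → ∑ n ∈ ballO R, ‖τ n‖ ^ 2 ≤ Bd * R) {M t : O} (hM : M ≠ 0)
    (ht : IsCoprime t M) {f : O → ℂ} (hf : Wt M f) (h : O) (w : ℂ) {X : ℝ} (hX : 0 < X) :
    ‖∑' n : O, τ n * ang n * f n * chi6 n h ^ 5 * W w (N n / X)‖ ^ 2 ≤ ∑ x ∈ rs M,
      ‖∑' n : O, τ n * ang n * psi (toC n * toC (x * t) / toC M) * chi6 n h ^ 5 *
        W w (N n / X)‖ ^ 2 := by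
  obtain ⟨c, c1, c2, c3⟩ := fourier_rs hM hf
  have e : ∀ n, f n = ∑ x ∈ rs M, c (t * x) * psi (toC n * toC (x * t) / toC M) := fun n => by
    rw [c3, ← sum_rs_mul hM ht (f := fun x => c x * psi (toC n * toC x / toC M)) fun x y hxy => by
      simp only [c1 x y hxy, ← map_mul]
      rw [psi_congr hM (x := n * x) (y := n * y) (by rw [← mul_sub]; exact hxy.mul_left _)]]
    simp only [mul_comm t]
  have c4 : ∑ x ∈ rs M, ‖c (t * x)‖ ^ 2 ≤ 1 := by
    have := sum_rs_mul hM ht (f := fun x => ((‖c x‖ ^ 2 : ℝ) : ℂ)) fun x y hxy => by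
      simp only [c1 x y hxy]
    rw [← ofReal_sum, ← ofReal_sum, ofReal_inj] at this
    rwa [this]
  have sm : ∀ x, Summable fun n : O => τ n * ang n * psi (toC n * toC (x * t) / toC M) *
      chi6 n h ^ 5 * W w (N n / X) := fun x => by
    have := vorls_sum h0 hb (b := fun n => ang n * psi (toC n * toC (x * t) / toC M) * chi6 n h ^ 5)
      (fun n => by
        rw [norm_mul, norm_mul, norm_psi, mul_one, norm_pow]
        exact mul_le_one₀ (norm_ang_le n) (by positivity)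
          (pow_le_one₀ (norm_nonneg _) (norm_chi6_le n h))) w hX
    simpa only [mul_assoc] using this
  have e2 : ∑' n : O, τ n * ang n * f n * chi6 n h ^ 5 * W w (N n / X) = ∑ x ∈ rs M, c (t * x) *
      ∑' n : O, τ n * ang n * psi (toC n * toC (x * t) / toC M) * chi6 n h ^ 5 * W w (N n / X) := by
    simp only [← tsum_mul_left]
    rw [← Summable.tsum_finsetSum fun x _ => (sm x).mul_left _]
    refine tsum_congr fun n => ?_
    rw [e n, Finset.mul_sum, Finset.sum_mul, Finset.sum_mul]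
    exact Finset.sum_congr rfl fun x _ => by ring
  rw [e2]
  refine (pow_le_pow_left₀ (norm_nonneg _) (norm_sum_le _ _) 2).trans ?_
  simp only [norm_mul (c _)]
  exact (Finset.sum_mul_sq_le_sq_mul_sq _ _ _).trans
    (mul_le_of_le_one_left (Finset.sum_nonneg fun _ _ => by positivity) c4)

theorem vorls_tau {τ : SLO → O → ℂ} (hτ : ThetaPkg τ) : VORLS (fun n => τ 1 n * ang n) := by
  intro ε hε R0
  obtain ⟨Bd, hB⟩ := hτ.bound
  have B0 : 0 ≤ Bd := by
    simpa using (Finset.sum_nonneg fun _ _ => by positivity).trans (hB 1 1 le_rfl)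
  obtain ⟨C1, p1, h1⟩ := dualB (ε := ε / 4) (by positivity)
  obtain ⟨C2, p2, h2⟩ := exists_dualW R0
  set K := 8 * (C1 * Bd * ((243 : ℝ) ^ 2) ^ (ε / 4) * C2 ^ 2) * ((243 : ℝ) ^ 2) ^ (8 / 5 : ℝ) with hK
  have K0 : 0 ≤ K := by positivity
  refine ⟨K + 2 * C2, by positivity, fun Z X H w M0 f X1 XZ H0 HZ M00 MZ hw hf => ?_⟩
  obtain ⟨Wst, hW, hV⟩ := h2 w hw
  have X0 : 0 < X := by linarith
  have Z1 : 1 ≤ Z := X1.trans XZ
  have M1 := one_le_N M00
  have ex : ∀ h ∈ (ballN H).filter (fun h => IsCoprime h M0), ∃ t, 9 * M0 ∣ t * h ^ 2 - 1 := by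
    intro h hh
    obtain ⟨a, b⟩ := Finset.mem_filter.1 hh
    obtain ⟨u, v, e⟩ : IsCoprime (h ^ 2) (3 ^ 2 * M0) :=
      ((mem_ballN.1 a).1.1.coprime_three.pow.mul_right b.pow_left)
    exact ⟨u, -v, by linear_combination e⟩
  choose! t ht using ex
  set Q := H ^ (8 / 7 : ℝ) + (H ^ 2 * N M0 ^ 2 / X) ^ (8 / 5 : ℝ) with hQ
  have key : ∀ x : O, ∑ h ∈ (ballN H).filter (fun h => IsCoprime h M0),
      ‖∑' n : O, τ 1 n * ang n * psi (toC n * toC (x * t h) / toC M0) * chi6 n h ^ 5 *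
        W w (N n / X)‖ ^ 2 ≤ K * Real.exp (2 * C2 * |w.im|) * Z ^ ε * X * Q := by
    intro x
    obtain ⟨c', y, σ, c0, cd, hc⟩ := cusp_dual hτ M00 x
    have c1 := one_le_N c0
    have c2 := N_le_of_dvd cd M00
    set T := (243 * N c') ^ 2 / X with hT
    have T0 : 0 < T := by positivity
    have T1 : T * H ^ 2 ≤ 243 ^ 2 * (H ^ 2 * N M0 ^ 2 / X) := by
      rw [hT, div_mul_eq_mul_div, ← mul_div_assoc]
      refine div_le_div_of_nonneg_right ?_ X0.le
      have := mul_le_mul_of_nonneg_left (pow_le_pow_left₀ (by positivity) c2 2) (sq_nonneg H)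
      nlinarith
    have T2 : T * H ^ 2 ≤ 243 ^ 2 * Z ^ 4 := by
      refine T1.trans (mul_le_mul_of_nonneg_left ((div_le_self (by positivity) X1).trans ?_)
        (by norm_num))
      rw [show Z ^ 4 = Z ^ 2 * Z ^ 2 by ring]
      gcongr
    have Z4 : Z ≤ 243 ^ 2 * Z ^ 4 :=
      (le_self_pow₀ Z1 (by norm_num)).trans (le_mul_of_one_le_left (by positivity) (by norm_num))
    set g : O → ℝ := fun h => ‖∑' n : O, τ σ n * (conj (ang n) *
      psi (-(toC n * toC y / (9 * toC c')))) * sym2 n h * Wst (N n / (T * N h ^ 2))‖ ^ 2 with hg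
    set L := C1 * Bd * (243 ^ 2 * Z ^ 4) ^ (ε / 4) * (C2 * Real.exp (C2 * |w.im|)) ^ 2 with hL
    set Q' := H ^ (8 / 7 : ℝ) + (T * H ^ 2) ^ (8 / 5 : ℝ) with hQ'
    obtain ⟨k, hk⟩ := pow_unbounded_of_one_lt H (one_lt_two (α := ℝ))
    have d := vorls_dyad (g := g) (fun _ => by positivity) (D := L * T * Q' / H) (H := H)
      (by positivity) (fun H' a1 a2 => by
        have r1 : H' / H ≤ 1 := (div_le_one H0).2 a2
        have r2 : T * H' ^ 2 ≤ T * H ^ 2 * (H' / H) := by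
          rw [show T * H ^ 2 * (H' / H) = T * (H * H') by field_simp]
          gcongr; nlinarith
        have b := h1 _ H' T Bd _ (τ σ) (fun n => conj (ang n) *
          psi (-(toC n * toC y / (9 * toC c')))) Wst (Z1.trans Z4) a1 ((a2.trans HZ).trans Z4) T0
          ((r2.trans (mul_le_of_le_one_right (by positivity) r1)).trans T2) B0 (hτ.zero σ)
          (fun n d hd => by rw [hτ.cube σ n d hd, norm_mul, norm_real, norm_norm]) (hτ.sq σ) (hB σ)
          (fun n => by rw [norm_mul, norm_psi, mul_one, norm_conj]; exact norm_ang_le n) hW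
        refine b.trans ?_
        have q1 := vorls_rp H0.le (by positivity) r1 (show (1 : ℝ) ≤ 8 / 7 by norm_num)
        have q2 := (Real.rpow_le_rpow (by positivity) r2 (by norm_num)).trans
          (vorls_rp (x := T * H ^ 2) (by positivity) (by positivity) r1
            (show (1 : ℝ) ≤ 8 / 5 by norm_num))
        rw [mul_div_cancel₀ _ H0.ne'] at q1
        refine (mul_le_mul_of_nonneg_left (add_le_add q1 q2) (by positivity)).trans (le_of_eq ?_)
        rw [hQ', ← hL]; field_simp) k H H0 le_rfl hk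
    have e : ∀ h ∈ (ballN H).filter (fun h => IsCoprime h M0),
        ‖∑' n : O, τ 1 n * ang n * psi (toC n * toC (x * t h) / toC M0) * chi6 n h ^ 5 *
          W w (N n / X)‖ ^ 2 = X / T * (g h / N h ^ 2) := fun h hh => by
      obtain ⟨a, b⟩ := Finset.mem_filter.1 hh
      have := N_pos (mem_ballN.1 a).1.ne_zero
      rw [hc h (t h) (mem_ballN.1 a).1 b (ht h hh) w Wst _ X hV hW X0, mul_pow]
      change _ * g h = _
      rw [hT]
      field_simp
    rw [Finset.sum_congr rfl e, ← Finset.mul_sum]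
    refine (mul_le_mul_of_nonneg_left ((Finset.sum_le_sum_of_subset_of_nonneg
      (Finset.filter_subset _ _) fun _ _ _ => by positivity).trans d) (by positivity)).trans ?_
    have q : Q' ≤ ((243 : ℝ) ^ 2) ^ (8 / 5 : ℝ) * Q := by
      rw [hQ, hQ', mul_add, ← Real.mul_rpow (by positivity) (by positivity)]
      exact add_le_add (le_mul_of_one_le_left (by positivity)
        (Real.one_le_rpow (by norm_num) (by norm_num)))
        (Real.rpow_le_rpow (by positivity) T1 (by norm_num))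
    have eL : L = C1 * Bd * ((243 : ℝ) ^ 2) ^ (ε / 4) * C2 ^ 2 * Real.exp (2 * C2 * |w.im|) * Z ^ ε := by
      rw [hL, Real.mul_rpow (by positivity) (by positivity), ← Real.rpow_natCast Z,
        ← Real.rpow_mul (by positivity), mul_pow, ← Real.exp_nat_mul]
      push_cast
      ring_nf
    calc X / T * (8 * (L * T * Q' / H) * H) = 8 * L * X * Q' := by field_simp
      _ ≤ 8 * L * X * (((243 : ℝ) ^ 2) ^ (8 / 5 : ℝ) * Q) := by gcongr
      _ = _ := by rw [eL, hK]; ring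
  refine (Finset.sum_le_sum fun h hh => vorls_cs (hτ.zero 1) (hB 1) M00 (t := t h) ?_ (hf h) h w
    X0).trans ?_
  · obtain ⟨v, e⟩ := ht h hh
    exact ⟨h ^ 2, -(9 * v), by linear_combination e⟩
  rw [Finset.sum_comm]
  refine (Finset.sum_le_card_nsmul _ _ _ fun x _ => key x).trans ?_
  rw [card_rs M00, nsmul_eq_mul]
  have : K * Real.exp (2 * C2 * |w.im|) ≤ (K + 2 * C2) * Real.exp ((K + 2 * C2) * |w.im|) := by
    gcongr <;> linarith
  calc (Nm M0 : ℝ) * (K * Real.exp (2 * C2 * |w.im|) * Z ^ ε * X * Q)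
      = K * Real.exp (2 * C2 * |w.im|) * (Z ^ ε * N M0 * X * Q) := by rw [N]; ring
    _ ≤ _ := (mul_le_mul_of_nonneg_right this (by positivity)).trans (le_of_eq (by ring))

end

end Vale.Agent.P026
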