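import Vale.Agent.P026.Pkg
import Vale.Agent.P026.VorLS
import Vale.Agent.P026.Hd

namespace Vale.Agent.P026

open Complex MeasureTheory Filter Topology
open scoped Classical ComplexConjugate Real MatrixGroups

noncomputable section

theorem coef_cop {u n : O} (hu : IsUnit u) (hn : Prim n) : IsCoprime (3 * u) n :=
  hn.coprime_three.symm.mul_left (by
    obtain ⟨v, hv⟩ := hu.exists_left_inv
    exact ⟨v, 0, by rw [hv]; simp⟩)

theorem coef_ndvd {u n p : O} (hu : IsUnit u) (hp : Prime p) (hP : Prim p) (hn : ¬ p ∣ n) :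
    ¬ p ∣ 3 * u * n := fun h =>
  (hp.dvd_or_dvd h).elim (fun h' => hp.not_unit ((coef_cop hu hP).symm.isUnit_of_dvd h')) hn

theorem coef_tau {τ : SLO → O → ℂ} (hτ : ThetaPkg τ) {u : O} (hu : IsUnit u) :
    ∀ n, NN n → τ 1 (3 * u * n) = τ 1 (3 * u) * conj (gt3 n) * sym3 (3 * (3 * u)) n := by
  refine NN.induction (by simp [gt3_one, sym3_unit_right]) fun p n hp hP hn hpn ih => ?_
  have hc : IsCoprime p n := hp.irreducible.coprime_iff_not_dvd.2 hpn
  have a1 := sym3_cube hP.1.coprime_three.symm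
  have a2 := sym3_cube hc.symm
  rw [mul_comm p n, ← mul_assoc, hτ.gauss _ p hp hP.1 (coef_ndvd hu hp hP.1 hpn), ih,
    gt3_mul hn.ne_zero hp.ne_zero hc.symm, sym3_mul_right _ hn.ne_zero hp.ne_zero,
    cubic_recip hP.1 hn.1, show (9 : O) = 3 * 3 by norm_num]
  simp only [sym3_mul_left _ _ p, map_mul, conj_sym3]
  linear_combination (τ 1 (3 * u) * conj (gt3 n) * conj (gt3 p) * sym3 (3 * (3 * u)) n * sym3 3 p ^ 2 *
    sym3 u p * sym3 n p) * (a1 - a2)

theorem coef_N {u : O} (hu : IsUnit u) (n : O) : N (3 * u * n) = 9 * N n := by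
  rw [N_mul, N_mul, N_unit hu, N_ofNat]
  norm_num

theorem coef_vorls {s : O → ℂ} (hv : VORLS s) {u : O} (hu : IsUnit u) (c : ℂ) :
    VORLS (fun n => c * s (3 * u * n)) := by
  intro ε hε R0
  obtain ⟨C, hC, H⟩ := hv ε hε R0
  set K := ‖c‖ ^ 2 * (9 : ℝ) ^ ε * 81 * 81 with hK
  have hK0 : 0 ≤ K := by positivity
  refine ⟨C + C * K, by positivity, fun Z X H' w M0 f h1 h2 h3 h4 h5 h6 h7 h8 => ?_⟩
  have u0 : (3 * u : O) ≠ 0 := mul_ne_zero (by decide) hu.ne_zero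
  let f' : O → O → ℂ := fun h x => if 3 * u ∣ x then f h (x / (3 * u)) else 0
  have hf' : ∀ h n, f' h (3 * u * n) = f h n := fun h n => by
    simp only [f', dvd_mul_right, if_true, mul_div_cancel_left₀ _ u0]
  have hw : ∀ h, Wt (3 * u * M0) (f' h) := fun h => by
    refine ⟨fun x y hxy => ?_, fun x => ?_⟩
    · by_cases hx : 3 * u ∣ x
      · obtain ⟨a, rfl⟩ := hx
        obtain ⟨k, hk⟩ := hxy
        rw [show y = 3 * u * (a - M0 * k) by linear_combination -hk, hf', hf']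
        exact (h8 h).1 _ _ ⟨k, by ring⟩
      · have hy : ¬ 3 * u ∣ y := fun hy => hx (by
          simpa using ((dvd_mul_right _ _).trans hxy).add hy)
        simp only [f', hx, hy, if_false]
    · simp only [f']
      split_ifs
      exacts [(h8 h).2 _, by simp]
  have nM := N_pos h5
  have key := H (9 * Z) (9 * X) H' w (3 * u * M0) f' (by linarith) (by linarith) h3 (by linarith)
    (mul_ne_zero u0 h5) (by rw [coef_N hu]; linarith) h7 hw
  have e1 : ∀ h, NN h → ‖∑' n : O, c * s (3 * u * n) * f h n * chi6 n h ^ 5 * W w (N n / X)‖ =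
      ‖c‖ * ‖∑' n : O, s n * f' h n * chi6 n h ^ 5 * W w (N n / (9 * X))‖ := fun h hh => by
    rw [← (mul_right_injective₀ u0).tsum_eq
      (f := fun n => s n * f' h n * chi6 n h ^ 5 * W w (N n / (9 * X))) (fun x hx => by
        by_contra hh'
        have : ¬ 3 * u ∣ x := fun ⟨a, ha⟩ => hh' ⟨a, ha.symm⟩
        exact hx (by simp only [f', this, if_false, mul_zero, zero_mul]))]
    have : ∀ n, s (3 * u * n) * f' h (3 * u * n) * chi6 (3 * u * n) h ^ 5 * W w (N (3 * u * n) / (9 * X))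
        = chi6 (3 * u) h ^ 5 * (s (3 * u * n) * f h n * chi6 n h ^ 5 * W w (N n / X)) := fun n => by
      rw [hf', chi6_mul_left _ _ hh.2.2, coef_N hu, mul_div_mul_left _ _ (by norm_num)]
      ring
    simp only [this, mul_assoc c, tsum_mul_left, norm_mul, norm_pow, norm_chi6 (coef_cop hu hh.1),
      one_pow, one_mul]
  have e2 : (ballN H').filter (fun h => IsCoprime h M0) =
      (ballN H').filter (fun h => IsCoprime h (3 * u * M0)) :=
    Finset.filter_congr fun h hh => ⟨fun hc => (coef_cop hu (mem_ballN.1 hh).1.1).symm.mul_right hc,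
      fun hc => hc.of_mul_right_right⟩
  rw [e2, Finset.sum_congr rfl fun h hh => by
    rw [e1 h (mem_ballN.1 (Finset.mem_filter.1 hh).1).1, mul_pow], ← Finset.mul_sum]
  refine (mul_le_mul_of_nonneg_left key (by positivity)).trans ?_
  have hZ : 0 < Z := by linarith
  have hX : 0 < X := by linarith
  have e3 : (H' ^ 2 * (9 * N M0) ^ 2 / (9 * X)) ^ (8 / 5 : ℝ) ≤
      81 * (H' ^ 2 * N M0 ^ 2 / X) ^ (8 / 5 : ℝ) := by
    rw [show H' ^ 2 * (9 * N M0) ^ 2 / (9 * X) = 9 * (H' ^ 2 * N M0 ^ 2 / X) by field_simp,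
      Real.mul_rpow (by norm_num) (by positivity)]
    gcongr
    calc (9 : ℝ) ^ (8 / 5 : ℝ) ≤ 9 ^ (2 : ℝ) := by gcongr <;> norm_num
      _ = 81 := by norm_num
  have e4 : Real.exp (C * |w.im|) ≤ Real.exp ((C + C * K) * |w.im|) := by
    gcongr
    exact le_add_of_nonneg_right (by positivity)
  have e5 : H' ^ (8 / 7 : ℝ) ≤ 81 * H' ^ (8 / 7 : ℝ) := le_mul_of_one_le_left (by positivity) (by norm_num)
  rw [coef_N hu, Real.mul_rpow (by norm_num) hZ.le]
  calc _ ≤ ‖c‖ ^ 2 * (C * Real.exp ((C + C * K) * |w.im|) * (9 ^ ε * Z ^ ε) * (9 * N M0) * (9 * X) *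
        (81 * H' ^ (8 / 7 : ℝ) + 81 * (H' ^ 2 * N M0 ^ 2 / X) ^ (8 / 5 : ℝ))) := by gcongr
    _ = C * K * Real.exp ((C + C * K) * |w.im|) * Z ^ ε * N M0 * X *
        (H' ^ (8 / 7 : ℝ) + (H' ^ 2 * N M0 ^ 2 / X) ^ (8 / 5 : ℝ)) := by rw [hK]; ring
    _ ≤ _ := by
      gcongr
      exact le_add_of_nonneg_left hC

theorem coef_of_pkg {τ : SLO → O → ℂ} (hτ : ThetaPkg τ)
    (hv : VORLS (fun n => τ 1 n * ang n)) : ∃ t, CoefPkg t := by
  obtain ⟨u, hu, h0⟩ := hτ.nz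
  have u0 : (3 * u : O) ≠ 0 := mul_ne_zero (by decide) hu.ne_zero
  have a0 : ang (3 * u) ≠ 0 := norm_ne_zero_iff.1 (by rw [norm_ang u0]; exact one_ne_zero)
  set c := (τ 1 (3 * u) * ang (3 * u))⁻¹ with hc
  refine ⟨fun n => c * (τ 1 (3 * u * n) * ang (3 * u * n)), ⟨⟨fun n => if Prim n ∧ OddO n then
    conj (sym3 (3 * (3 * u)) n) * conj (sym3 2 n) * F1 n else 0, ⟨fun x y h => ?_, fun x => ?_⟩,
    fun n hn => ?_⟩, fun n d _ hd => ?_, fun n p _ hp hP hpn => ?_, ?_, coef_vorls hv hu c⟩⟩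
  · have d1 : ∀ k l : O, k * l = 36 → k ∣ x - y := fun k l e => Dvd.dvd.trans ⟨l, e.symm⟩ h
    have d2 : ∀ k l : O, k * l = 36 → k ∣ y - x := fun k l e => dvd_sub_comm.1 (d1 k l e)
    by_cases hx : Prim x ∧ OddO x
    · have hy : Prim y ∧ OddO y :=
        ⟨hx.1.congr (d1 3 12 (by norm_num)), hx.2.congr (d1 2 18 (by norm_num))⟩
      obtain ⟨v, hv⟩ := hu.exists_right_inv
      simp only [hx, hy, and_self, if_true]
      rw [sym3_SYM hx.1 hy.1 (d1 9 4 (by norm_num)) (d1 _ (4 * v) (by linear_combination 36 * hv)),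
        sym3_SYM hx.1 hy.1 (d1 9 4 (by norm_num)) (d1 2 18 (by norm_num)),
        F1_per x y (d1 4 9 (by norm_num))]
    · have hy : ¬ (Prim y ∧ OddO y) := fun hy =>
        hx ⟨hy.1.congr (d2 3 12 (by norm_num)), hy.2.congr (d2 2 18 (by norm_num))⟩
      simp only [hx, hy, if_false]
  · beta_reduce
    split_ifs with hx
    · rw [norm_mul, norm_mul, RCLike.norm_conj, RCLike.norm_conj, norm_F1 hx.2, mul_one]
      exact mul_le_one₀ (norm_sym3_le _ _) (norm_nonneg _) (norm_sym3_le _ _)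
    · simp
  · have n1 := norm_sym3 (hn.1.coprime_three.symm.mul_left (coef_cop hu hn.1))
    have n2 := mul_conj (sym3 (3 * (3 * u)) n)
    rw [normSq_eq_norm_sq, n1, one_pow, ofReal_one] at n2
    have n3 : c * (τ 1 (3 * u) * ang (3 * u)) = 1 := inv_mul_cancel₀ (mul_ne_zero h0 a0)
    beta_reduce
    rw [if_pos ⟨hn.1, hn.2.2⟩, mu_gt hn, coef_tau hτ hu n hn, ang_mul]
    refine ⟨?_, ?_⟩
    · linear_combination (-conj (gt3 n) * ang n * conj (sym3 2 n) * F1 n) * (n2 +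
        sym3 (3 * (3 * u)) n * conj (sym3 (3 * (3 * u)) n) * n3)
    · rw [norm_mul, norm_mul, RCLike.norm_conj, RCLike.norm_conj, norm_F1 hn.2.2, n1,
        norm_sym3 (oddO_iff_coprime.1 hn.2.2).symm, mul_one, mul_one]
  · rw [← mul_assoc (3 * u), hτ.cube _ _ _ hd, ang_mul _ (d ^ 3), pow_three d, ang_mul d, ang_mul d]
    ring
  · rw [← mul_assoc (3 * u), hτ.sq _ _ _ hp hP (coef_ndvd hu hp hP hpn), zero_mul, mul_zero]
  · obtain ⟨C, hC⟩ := hτ.bound
    refine ⟨‖c‖ ^ 2 * (C * 9), fun R hR => ?_⟩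
    have h1 : ∑ n ∈ ballO R, ‖τ 1 (3 * u * n)‖ ^ 2 ≤ ∑ n ∈ ballO (9 * R), ‖τ 1 n‖ ^ 2 := by
      rw [← Finset.sum_image (f := fun n => ‖τ 1 n‖ ^ 2) (g := fun n => 3 * u * n)
        fun x _ y _ e => mul_left_cancel₀ u0 e]
      refine Finset.sum_le_sum_of_subset_of_nonneg (fun m hm => ?_) fun _ _ _ => by positivity
      obtain ⟨n, hn, rfl⟩ := Finset.mem_image.1 hm
      rw [mem_ballO] at hn ⊢
      exact ⟨mul_ne_zero u0 hn.1, by rw [coef_N hu]; linarith [hn.2]⟩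
    calc _ ≤ ∑ n ∈ ballO R, ‖c‖ ^ 2 * ‖τ 1 (3 * u * n)‖ ^ 2 := Finset.sum_le_sum fun n _ => by
          rw [← mul_pow, norm_mul, norm_mul]
          gcongr
          exact mul_le_of_le_one_right (norm_nonneg _) (norm_ang_le _)
      _ ≤ ‖c‖ ^ 2 * (C * (9 * R)) := by
          rw [← Finset.mul_sum]
          exact mul_le_mul_of_nonneg_left (h1.trans (hC 1 _ (by linarith))) (by positivity)
      _ = _ := by ring

theorem exists_coef : ∃ t, CoefPkg t := by
  obtain ⟨τ, hτ⟩ := exists_pkg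
  exact coef_of_pkg hτ (vorls_tau hτ)

end

end Vale.Agent.P026
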