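import Vale.Agent.P026.Kub

namespace Vale.Agent.P026

open Complex MeasureTheory Filter Topology
open scoped Classical ComplexConjugate Real MatrixGroups

noncomputable section

theorem cusp_gam {x0 b0 c' y h t r β : O} {σ : SLO} (s1 : σ 0 0 = x0) (s2 : σ 0 1 = b0)
    (s3 : σ 1 0 = c') (s4 : σ 1 1 = y) (hh : Prim h) (hc : IsCoprime (9 * c') h)
    (ht : 9 * c' ∣ t * h ^ 2 - 1) (hβ : h ∣ 81 * r * c' ^ 2 * β - 1) :
    ∃ γ : SLO, γ 0 0 = x0 * t * h + 9 * r * c' ∧ γ 1 0 = c' * h ∧ γ 1 1 = y * h + 9 * c' * β ∧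
      γ * σ⁻¹ ∈ Gam 3 := by
  have hd := det_SLO σ
  rw [s1, s2, s3, s4] at hd
  obtain ⟨m, hm⟩ := hβ
  obtain ⟨k, hk⟩ := ht
  obtain ⟨j, hj⟩ : 9 * c' ∣ t * h + m :=
    hc.dvd_of_dvd_mul_left ⟨k + 9 * r * c' * β, by linear_combination hk - hm⟩
  obtain ⟨γ, g1, g2, g3, g4⟩ := exists_SLO (a := x0 * t * h + 9 * r * c')
    (b := b0 * t * h + 9 * (β * x0 * t + r * y + j)) (c := c' * h) (d := y * h + 9 * c' * β)
    (by linear_combination (t * h ^ 2) * hd + hm + h * hj)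
  refine ⟨γ, g1, g3, g4, mul_inv_mem_Gam fun i l => ?_⟩
  obtain ⟨u, hu⟩ := hh
  have h1 : t * h - 1 = 3 * (3 * c' * k - t * h * u) := by
    linear_combination hk - t * h * hu
  fin_cases i <;> fin_cases l
  · exact ⟨x0 * (3 * c' * k - t * h * u) + 3 * r * c', by
      show γ 0 0 - σ 0 0 = _
      rw [g1, s1]; linear_combination x0 * h1⟩
  · exact ⟨b0 * (3 * c' * k - t * h * u) + 3 * (β * x0 * t + r * y + j), by
      show γ 0 1 - σ 0 1 = _
      rw [g2, s2]; linear_combination b0 * h1⟩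
  · exact ⟨c' * u, by
      show γ 1 0 - σ 1 0 = _
      rw [g3, s3]; linear_combination c' * hu⟩
  · exact ⟨y * u + 3 * c' * β, by
      show γ 1 1 - σ 1 1 = _
      rw [g4, s4]; linear_combination y * hu⟩

theorem cusp {M0 : O} (hM : M0 ≠ 0) (x : O) : ∃ (c' y : O) (σ : SLO), c' ≠ 0 ∧ c' ∣ M0 ∧
    ∀ h t : O, NN h → IsCoprime h M0 → 9 * M0 ∣ t * h ^ 2 - 1 →
      ∃ η : ℂ, ‖η‖ = 1 ∧ ∀ r : O, IsCoprime r h → ∃ (γ : SLO) (β : O),
        γ 1 0 = c' * h ∧ γ * σ⁻¹ ∈ Gam 3 ∧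
        (∀ n : O, psi (toC n * toC (x * t) / toC M0) * psi (toC n * toC r / toC h) =
          psi (toC n * toC (γ 0 0) / (9 * toC (γ 1 0)))) ∧
        conj (tw Phi1 σ (row γ)) = η * sym3 r h ∧ h ∣ 81 * r * c' ^ 2 * β - 1 ∧
        ∀ n : O, psi (-(toC n * toC (γ 1 1) / (9 * toC (γ 1 0)))) =
          psi (-(toC n * toC y / (9 * toC c'))) * psi (-(toC n * toC β / toC h)) := by
  obtain ⟨x0, hx0⟩ := EuclideanDomain.gcd_dvd_left (9 * x) M0
  obtain ⟨c', hc'⟩ := EuclideanDomain.gcd_dvd_right (9 * x) M0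
  have hb := EuclideanDomain.gcd_eq_gcd_ab (9 * x) M0
  generalize EuclideanDomain.gcdA (9 * x) M0 = y at hb
  generalize EuclideanDomain.gcdB (9 * x) M0 = b at hb
  generalize EuclideanDomain.gcd (9 * x) M0 = e at hb hx0 hc'
  have he : e ≠ 0 := fun h => hM (by rw [hc', h, zero_mul])
  have hc0 : c' ≠ 0 := fun h => hM (by rw [hc', h, mul_zero])
  obtain ⟨σ, s1, s2, s3, s4⟩ := exists_SLO (a := x0) (b := -b) (c := c') (d := y)
    (mul_left_cancel₀ he (by rw [hx0, hc'] at hb; linear_combination -hb))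
  have hcM : c' ∣ M0 := ⟨e, by rw [hc', mul_comm]⟩
  refine ⟨c', y, σ, hc0, hcM, fun h t hh hM' ht => ?_⟩
  have h9 : IsCoprime (9 : O) h := by
    simpa [show (3 : O) * 3 = 9 by norm_num] using hh.1.coprime_three.symm.mul_left hh.1.coprime_three.symm
  have hc : IsCoprime (9 * c') h := h9.mul_left (hM'.of_isCoprime_of_dvd_right hcM).symm
  have ht' : 9 * c' ∣ t * h ^ 2 - 1 := (mul_dvd_mul_left 9 hcM).trans ht
  have hinv : ∀ r, IsCoprime r h → ∃ β, h ∣ 81 * r * c' ^ 2 * β - 1 := fun r hr => by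
    obtain ⟨u, v, huv⟩ := (hc.pow_left (m := 2)).mul_left hr
    exact ⟨u, -v, by linear_combination huv⟩
  obtain ⟨β1, hβ1⟩ := hinv 1 isCoprime_one_left
  obtain ⟨γ1, -, a2, a3, a4⟩ := cusp_gam s1 s2 s3 s4 hh.1 hc ht' hβ1
  refine ⟨conj (tw Phi1 σ (row γ1)), by rw [RCLike.norm_conj, tw_row a4, norm_kap0 a4], fun r hr => ?_⟩
  obtain ⟨β, hβ⟩ := hinv r hr
  obtain ⟨γ, g1, g2, g3, g4⟩ := cusp_gam s1 s2 s3 s4 hh.1 hc ht' hβ
  have z1 := toC_ne_zero hc0
  have z2 := toC_ne_zero hh.ne_zero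
  have z3 := toC_ne_zero he
  refine ⟨γ, β, g2, g4, fun n => ?_, ?_, hβ, fun n => ?_⟩
  · have e1 := congrArg toC hx0
    rw [← psi_add, g1, g2, hc']
    congr 1
    simp only [map_mul, map_add, map_ofNat] at e1 ⊢
    field_simp
    linear_combination (toC n * toC t * toC h) * e1
  · obtain ⟨r', v, hv⟩ := hr
    obtain ⟨s, ⟨k1, hk1⟩, ⟨k2, hk2⟩⟩ := exists_crt hc 1 r'
    obtain ⟨m, hm⟩ := hβ
    obtain ⟨m1, hm1⟩ := hβ1
    have hs9 : (9 : O) ∣ s - 1 := ⟨c' * k1, by linear_combination hk1⟩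
    have hsr : h ∣ s * r - 1 := ⟨k2 * r - v, by linear_combination r * hk2 + hv⟩
    have hd : 9 * (c' * h) ∣ y * h + 9 * c' * β - s * (y * h + 9 * c' * β1) := by
      obtain ⟨l, hl⟩ := hsr
      refine ⟨-y * k1 - β * m1 - β * l * 81 * c' ^ 2 * β1 + s * β1 * m, ?_⟩
      linear_combination (-y * h) * hk1 - (9 * c' * β) * hm1 - (9 * c' * β * 81 * c' ^ 2 * β1) * hl
        + (9 * c' * s * β1) * hm
    have e1 : row γ = (c' * h, y * h + 9 * c' * β) := by rw [row, g2, g3]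
    have e2 : row γ1 = (c' * h, y * h + 9 * c' * β1) := by rw [row, a2, a3]
    have Ps := kub_prim_of_nine hs9
    have e3 : sym3 s h * sym3 r h = 1 := by rw [← sym3_mul_left, sym3_congr hsr, sym3_one_left]
    have e4 := sym3_cube (x := s) (n := h) (by
      obtain ⟨l, hl⟩ := hsr
      exact ⟨r, -l, by linear_combination hl⟩)
    rw [e1, e2, Phi_scale σ hs9 hd, sym3_mul_left, sym3_SYM Ps prim_one hs9
      ⟨9 * k1, by linear_combination hk1⟩, kub_sym3_one, one_mul, cubic_recip hh.1 Ps, map_mul,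
      conj_sym3, mul_comm]
    congr 1
    linear_combination sym3 r h * e4 - sym3 s h ^ 2 * e3
  · rw [← psi_add, g2, g3]
    congr 1
    simp only [map_mul, map_add, map_ofNat]
    field_simp
    ring

end

end Vale.Agent.P026
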