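import Vale.Agent.P026.Defs

namespace Vale.Agent.P026

open Complex MeasureTheory Filter Topology
open scoped Classical ComplexConjugate Real MatrixGroups

noncomputable section

theorem dl2_rem {f : ℂ → ℂ} (hd : Differentiable ℂ f) {c : ℂ} {C : ℝ}
    (hb : ∀ s ∈ Metric.ball c 1, ‖f s‖ ≤ C) :
    ‖deriv f c‖ ≤ 2 * C ∧
      ∀ z ∈ Metric.ball c 1, ‖f z - f c - (z - c) * deriv f c‖ ≤ 4 * C * ‖z - c‖ ^ 2 := by
  have hc : c ∈ Metric.ball c 1 := Metric.mem_ball_self one_pos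
  have h1 : ∀ z ∈ Metric.ball c 1, ‖dslope f c z‖ ≤ 2 * C := fun z hz => by
    have := Complex.norm_dslope_le_div_of_mapsTo_ball (R₂ := 2 * C) hd.differentiableOn
      (fun w hw => mem_closedBall_iff_norm.2 ((norm_sub_le _ _).trans
        (by linarith [hb w hw, hb c hc]))) hz
    simpa using this
  refine ⟨by simpa using h1 c hc, fun z hz => ?_⟩
  have h2 := Complex.dist_le_div_mul_dist_of_mapsTo_ball (R₂ := 4 * C)
    ((Complex.differentiableOn_dslope (Metric.ball_mem_nhds c one_pos)).2 hd.differentiableOn)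
    (fun w hw => mem_closedBall_iff_norm.2 ((norm_sub_le _ _).trans
      (by linarith [h1 w hw, h1 c hc]))) hz
  rw [dist_eq_norm, dist_eq_norm, div_one, dslope_same] at h2
  have h3 : f z - f c - (z - c) * deriv f c = (z - c) * (dslope f c z - deriv f c) := by
    rw [← sub_smul_dslope f c z, smul_eq_mul]; ring
  rw [h3, norm_mul]
  calc _ ≤ ‖z - c‖ * (4 * C * ‖z - c‖) := mul_le_mul_of_nonneg_left h2 (norm_nonneg _)
    _ = _ := by ring

theorem dl2 {X : Type*} [MeasurableSpace X] (ν : Measure X) [IsFiniteMeasure ν]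
    (F : ℂ → X → ℂ) (hm : ∀ s, Measurable (F s)) (hd : ∀ x, Differentiable ℂ (fun s => F s x))
    (hb : ∀ R : ℝ, ∃ C : ℝ, ∀ s, ‖s‖ ≤ R → ∀ x, ‖F s x‖ ≤ C) :
    ∃ p : ℂ → Lp ℂ 2 ν, Differentiable ℂ p ∧ ∀ s, (p s : X → ℂ) =ᵐ[ν] F s := by
  have hL : ∀ s, MemLp (F s) 2 ν := fun s => by
    obtain ⟨C, hC⟩ := hb ‖s‖
    exact MemLp.of_bound (hm s).aestronglyMeasurable C (ae_of_all _ (hC s le_rfl))
  refine ⟨fun s => (hL s).toLp (F s), fun c => ?_, fun s => (hL s).coeFn_toLp⟩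
  obtain ⟨C0, hC0⟩ := hb (‖c‖ + 1)
  set C := max C0 0 with hCdef
  have hC : ∀ x, ∀ s ∈ Metric.ball c 1, ‖F s x‖ ≤ C := fun x s hs => by
    refine (hC0 s ?_ x).trans (le_max_left _ _)
    have := norm_sub_norm_le s c
    linarith [mem_ball_iff_norm.1 hs]
  have hCpos : 0 ≤ C := le_max_right _ _
  set G : X → ℂ := fun x => deriv (fun s => F s x) c with hG
  have hGm : Measurable G := by
    refine measurable_of_tendsto_metrizable' (f := fun z x => (z - c)⁻¹ * (F z x - F c x))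
      (𝓝[≠] c) (fun z => ((hm z).sub (hm c)).const_mul _) (tendsto_pi_nhds.2 fun x => ?_)
    simpa only [slope_fun_def_field, div_eq_inv_mul] using
      hasDerivAt_iff_tendsto_slope.1 (hd x c).hasDerivAt
  have hGL : MemLp G 2 ν := MemLp.of_bound hGm.aestronglyMeasurable (2 * C)
    (ae_of_all _ fun x => (dl2_rem (hd x) (hC x)).1)
  refine (HasDerivAt.differentiableAt (f' := hGL.toLp G) ?_)
  rw [hasDerivAt_iff_isLittleO]
  refine Asymptotics.IsBigO.trans_isLittleO (g := fun z => ‖z - c‖ ^ 2)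
    (Asymptotics.IsBigO.of_bound (measureUnivNNReal ν ^ (2 : ENNReal).toReal⁻¹ * (4 * C)) ?_)
    (Asymptotics.isLittleO_pow_sub_sub c one_lt_two)
  filter_upwards [Metric.ball_mem_nhds c one_pos] with z hz
  rw [Real.norm_of_nonneg (by positivity), mul_assoc]
  refine Lp.norm_le_of_ae_bound (by positivity) ?_
  filter_upwards [Lp.coeFn_sub ((hL z).toLp (F z) - (hL c).toLp (F c)) ((z - c) • hGL.toLp G),
    Lp.coeFn_sub ((hL z).toLp (F z)) ((hL c).toLp (F c)), Lp.coeFn_smul (z - c) (hGL.toLp G),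
    (hL z).coeFn_toLp, (hL c).coeFn_toLp, hGL.coeFn_toLp] with x h1 h2 h3 h4 h5 h6
  rw [h1, Pi.sub_apply, h2, h3, Pi.sub_apply, Pi.smul_apply, h4, h5, h6, smul_eq_mul]
  exact (dl2_rem (hd x) (hC x)).2 z hz

theorem dl_integral {X : Type*} [MeasurableSpace X] (ν : Measure X) [IsFiniteMeasure ν]
    (F : ℂ → X → ℂ) (hm : ∀ s, Measurable (F s)) (hd : ∀ x, Differentiable ℂ (fun s => F s x))
    (hb : ∀ R : ℝ, ∃ C : ℝ, ∀ s, ‖s‖ ≤ R → ∀ x, ‖F s x‖ ≤ C) :
    Differentiable ℂ (fun s => ∫ x, F s x ∂ν) := by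
  obtain ⟨p, hp, hp'⟩ := dl2 ν F hm hd hb
  have h := (innerSL ℂ (indicatorConstLp 2 MeasurableSet.univ (measure_ne_top ν _)
    (1 : ℂ))).differentiable.comp hp
  refine (congrArg (Differentiable ℂ) (funext fun s => ?_)).mp h
  simp only [Function.comp_apply, innerSL_apply_apply]
  rw [L2.inner_indicatorConstLp_one, Measure.restrict_univ]
  exact integral_congr_ae (hp' s)

end

end Vale.Agent.P026
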