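import Mathlib

namespace Vale.Agent.P026

open Complex MeasureTheory Filter Topology
open scoped Classical ComplexConjugate Real MatrixGroups

noncomputable section

/-! ### Eisenstein integers -/

abbrev O : Type := QuadraticAlgebra ℤ (-1) (-1)

def om : O := ⟨0, 1⟩
def lam : O := ⟨1, 2⟩

/-- the norm as a natural number -/
def Nm (x : O) : ℕ := (x.re ^ 2 - x.re * x.im + x.im ^ 2).natAbs
/-- the norm as a real number -/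
def N (x : O) : ℝ := (Nm x : ℝ)

def omC : ℂ := ⟨-1 / 2, √3 / 2⟩

theorem omC_mul : omC * omC = -1 - omC := by
  have h : √3 * √3 = 3 := Real.mul_self_sqrt (by norm_num)
  apply Complex.ext
  · simp [omC]; nlinarith
  · simp [omC]; ring

def toC : O →+* ℂ where
  toFun x := (x.re : ℂ) + (x.im : ℂ) * omC
  map_one' := by simp [QuadraticAlgebra.re_one, QuadraticAlgebra.im_one]
  map_mul' x y := by
    simp only [QuadraticAlgebra.re_mul, QuadraticAlgebra.im_mul]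
    push_cast
    linear_combination (-(x.im : ℂ) * y.im) * omC_mul
  map_zero' := by simp
  map_add' x y := by simp; ring

theorem Nm_cast (x : O) : ((Nm x : ℕ) : ℤ) = x.re ^ 2 - x.re * x.im + x.im ^ 2 := by
  unfold Nm
  apply Int.natAbs_of_nonneg
  nlinarith [sq_nonneg (2 * x.re - x.im), sq_nonneg x.im]

theorem Nm_mul (x y : O) : Nm (x * y) = Nm x * Nm y := by
  have : ((Nm (x * y) : ℕ) : ℤ) = (Nm x : ℤ) * (Nm y : ℤ) := by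
    simp only [Nm_cast, QuadraticAlgebra.re_mul, QuadraticAlgebra.im_mul]; ring
  exact_mod_cast this

theorem Nm_eq_zero {x : O} : Nm x = 0 ↔ x = 0 := by
  constructor
  · intro h
    have h1 := Nm_cast x
    rw [h] at h1
    push_cast at h1
    have h2 : x.im = 0 := by
      have : x.im ^ 2 ≤ 0 := by nlinarith [sq_nonneg (2 * x.re - x.im), sq_nonneg x.im]
      exact pow_eq_zero_iff (two_ne_zero) |>.1 (le_antisymm this (sq_nonneg _))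
    have h3 : x.re = 0 := by
      rw [h2] at h1
      have : x.re ^ 2 = 0 := by linarith
      exact pow_eq_zero_iff (two_ne_zero) |>.1 this
    ext <;> simp [h2, h3]
  · rintro rfl; simp [Nm]

def oquot (x y : O) : O :=
  ⟨round (((x * star y).re : ℚ) / (Nm y : ℚ)), round (((x * star y).im : ℚ) / (Nm y : ℚ))⟩

theorem oquot_lt (x : O) {y : O} (hy : y ≠ 0) : Nm (x - y * oquot x y) < Nm y := by
  have hpos : 0 < Nm y := Nat.pos_of_ne_zero (fun h => hy (Nm_eq_zero.1 h))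
  have hq : (0 : ℚ) < (Nm y : ℚ) := by exact_mod_cast hpos
  set n : ℚ := (Nm y : ℚ) with hn
  set A : ℚ := ((x * star y).re : ℚ) / n with hA
  set B : ℚ := ((x * star y).im : ℚ) / n with hB
  have ha := abs_sub_round A
  have hb := abs_sub_round B
  have hn' : n = (y.re : ℚ) ^ 2 - y.re * y.im + (y.im : ℚ) ^ 2 := by
    have := Nm_cast y
    rw [hn]; exact_mod_cast this
  have hA' : A * n = (x.re : ℚ) * (y.re - y.im) + x.im * y.im := by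
    rw [hA, div_mul_cancel₀ _ hq.ne']
    simp only [QuadraticAlgebra.re_mul, QuadraticAlgebra.re_star, QuadraticAlgebra.im_star]
    push_cast; ring
  have hB' : B * n = -(x.re : ℚ) * y.im + x.im * y.re := by
    rw [hB, div_mul_cancel₀ _ hq.ne']; simp; ring
  have key : ((Nm (x - y * oquot x y) : ℕ) : ℚ) =
      n * ((A - round A) ^ 2 - (A - round A) * (B - round B) + (B - round B) ^ 2) := by
    have h0 := Nm_cast (x - y * oquot x y)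
    have h1 : ((Nm (x - y * oquot x y) : ℕ) : ℚ) =
        (((x - y * oquot x y).re ^ 2 - (x - y * oquot x y).re * (x - y * oquot x y).im +
          (x - y * oquot x y).im ^ 2 : ℤ) : ℚ) := by exact_mod_cast h0
    rw [h1]
    have hq1 : oquot x y = ⟨round A, round B⟩ := rfl
    rw [hq1]
    generalize round A = a
    generalize round B = b
    simp only [QuadraticAlgebra.re_sub, QuadraticAlgebra.im_sub, QuadraticAlgebra.re_mul,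
      QuadraticAlgebra.im_mul]
    push_cast
    have hxr : (x.re : ℚ) = A * y.re - B * y.im := by
      apply mul_right_cancel₀ hq.ne'
      have : (A * y.re - B * y.im) * n = (A * n) * y.re - (B * n) * y.im := by ring
      rw [this, hA', hB', hn']; ring
    have hxi : (x.im : ℚ) = A * y.im + B * y.re - B * y.im := by
      apply mul_right_cancel₀ hq.ne'
      have : (A * y.im + B * y.re - B * y.im) * n = (A * n) * y.im + (B * n) * (y.re - y.im) := by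
        ring
      rw [this, hA', hB', hn']; ring
    rw [hxr, hxi, hn']; ring
  have h34 : (A - round A) ^ 2 - (A - round A) * (B - round B) + (B - round B) ^ 2 < 1 := by
    have h1 := abs_le.1 ha
    have h2 := abs_le.1 hb
    nlinarith
  have : ((Nm (x - y * oquot x y) : ℕ) : ℚ) < n := by rw [key]; nlinarith
  rw [hn] at this
  exact_mod_cast this

instance instEuclideanDomainO : EuclideanDomain O :=
  { (inferInstance : CommRing O), (inferInstance : Nontrivial O) with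
    quotient := oquot
    remainder := fun x y => x - y * oquot x y
    quotient_zero := fun x => by
      have : Nm 0 = 0 := Nm_eq_zero.2 rfl
      ext <;> simp [oquot, this]
    quotient_mul_add_remainder_eq := fun x y => by ring
    r := fun x y => Nm x < Nm y
    r_wellFounded := (measure Nm).wf
    remainder_lt := fun x _ hy => oquot_lt x hy
    mul_left_not_lt := fun x y hy => by
      rw [Nm_mul]
      have hpos : 0 < Nm y := Nat.pos_of_ne_zero (fun h => hy (Nm_eq_zero.1 h))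
      exact not_lt_of_ge (Nat.le_mul_of_pos_right _ hpos) }

instance instCountableO : Countable O := (QuadraticAlgebra.equivProd (-1 : ℤ) (-1)).countable_iff.2
  inferInstance

theorem finite_ball (R : ℝ) : {x : O | x ≠ 0 ∧ N x ≤ R}.Finite := by
  obtain ⟨K, hK⟩ := exists_nat_ge R
  have hfin : ((fun p : ℤ × ℤ => (⟨p.1, p.2⟩ : O)) ''
      ((Set.Icc (-(2 * K : ℤ)) (2 * K)) ×ˢ (Set.Icc (-(2 * K : ℤ)) (2 * K)))).Finite :=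
    ((Set.finite_Icc _ _).prod (Set.finite_Icc _ _)).image _
  refine hfin.subset ?_
  rintro x ⟨-, hx⟩
  have h1 : (Nm x : ℤ) ≤ K := by
    have : (Nm x : ℝ) ≤ K := le_trans hx hK
    exact_mod_cast this
  rw [Nm_cast] at h1
  refine ⟨(x.re, x.im), ⟨⟨?_, ?_⟩, ⟨?_, ?_⟩⟩, rfl⟩ <;> simp only <;>
    nlinarith [sq_nonneg (2 * x.re - x.im), sq_nonneg x.im, sq_nonneg (2 * x.im - x.re),
      sq_nonneg x.re, sq_nonneg (x.re + 1), sq_nonneg (x.re - 1), sq_nonneg (x.im + 1),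
      sq_nonneg (x.im - 1)]

/-- nonzero elements of norm at most `R` -/
def ballO (R : ℝ) : Finset O := (finite_ball R).toFinset

theorem mem_ballO {R : ℝ} {x : O} : x ∈ ballO R ↔ x ≠ 0 ∧ N x ≤ R := by
  simp [ballO]

/-- primary: congruent to 1 mod 3 -/
def Prim (x : O) : Prop := (3 : O) ∣ x - 1
def OddO (x : O) : Prop := ¬ (2 : O) ∣ x
/-- primary, squarefree and odd -/
def NN (x : O) : Prop := Prim x ∧ Squarefree x ∧ OddO x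

def ballN (R : ℝ) : Finset O := (ballO R).filter NN
/-- divisors of `n` lying in `NN` -/
def divs (n : O) : Finset O := (ballN (N n)).filter (· ∣ n)
/-- number of all divisors of `n` -/
def dv (n : O) : ℝ := (((ballO (N n)).filter (· ∣ n)).card : ℝ)

def mu (n : O) : ℂ :=
  if Squarefree n then (-1) ^ (UniqueFactorizationMonoid.factors n).card else 0

def kap : ℝ := 2 * π / √3
/-- additive character of `ℂ`, trivial on `O`; `psi (a + b ω) = e(b)` -/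
def psi (x : ℂ) : ℂ := Complex.exp (kap * (x - conj x))

/-- a complete residue system modulo `q` (for `q ≠ 0`) -/
def rs (q : O) : Finset O :=
  if h : (Set.range (fun x : O ⧸ Ideal.span {q} => x.out)).Finite then h.toFinset else ∅

def Per (q : O) (f : O → ℂ) : Prop := ∀ x y, q ∣ x - y → f x = f y
def Wt (q : O) (f : O → ℂ) : Prop := Per q f ∧ ∀ x, ‖f x‖ ≤ 1

def ang (n : O) : ℂ := toC n / (‖toC n‖ : ℂ)

/-! ### residue symbols and Gauss sums -/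

def sym3p (x p : O) : ℂ :=
  if p ∣ x then 0 else if p ∣ x ^ ((Nm p - 1) / 3) - 1 then 1
  else if p ∣ x ^ ((Nm p - 1) / 3) - om then omC else omC ^ 2
def sym2p (x p : O) : ℂ :=
  if p ∣ x then 0 else if p ∣ x ^ ((Nm p - 1) / 2) - 1 then 1 else -1
/-- cubic residue symbol `(x / n)_3` -/
def sym3 (x n : O) : ℂ := ((UniqueFactorizationMonoid.factors n).map (sym3p x)).prod
/-- quadratic residue symbol `(x / n)_2` (meaningful for odd `n`) -/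
def sym2 (x n : O) : ℂ := ((UniqueFactorizationMonoid.factors n).map (sym2p x)).prod
/-- sextic residue symbol -/
def chi6 (x n : O) : ℂ := sym3 x n ^ 2 * sym2 x n

def gs (k : ℕ) (h n : O) : ℂ := ∑ x ∈ rs n, chi6 x n ^ k * psi (toC h * toC x / toC n)
def gt (k : ℕ) (n : O) : ℂ := gs k 1 n / (‖toC n‖ : ℂ)
def g3 (h n : O) : ℂ := ∑ x ∈ rs n, sym3 x n * psi (toC h * toC x / toC n)
def gt3 (n : O) : ℂ := g3 1 n / (‖toC n‖ : ℂ)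
def g2 (h n : O) : ℂ := ∑ x ∈ rs n, sym2 x n * psi (toC h * toC x / toC n)
def Gq (t n : O) : ℂ := ∑ x ∈ rs n, psi (toC t * toC x ^ 2 / toC n)
def Ft (t n : O) : ℂ :=
  (1 / (2 * (‖toC t‖ : ℂ))) * ∑ h ∈ rs (2 * t), psi (-(toC n * toC h ^ 2 / (4 * toC t)))
def F1 (n : O) : ℂ := Ft 1 n
def eps (a b : O) : ℂ := F1 (a * b) * conj (F1 a) * conj (F1 b)

def chi3D : DirichletCharacter ℂ 3 := (quadraticChar (ZMod 3)).ringHomComp (Int.castRingHom ℂ)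

/-! ### the analytic sums -/

def W (w : ℂ) (x : ℝ) : ℂ := Complex.exp (w * (Real.log x : ℂ) - (Real.log x : ℂ) ^ 2)

def AA (α : O → ℂ) (k : ℕ) (X : ℝ) (w : ℂ) (m : O) : ℂ :=
  ∑' n : O, if NN n then α n * chi6 m n ^ k * W w (N n / X) else 0
def A (ω : O → ℂ) (X : ℝ) (w : ℂ) (m : O) : ℂ := AA (fun n => mu n * ω n) 1 X w m
def B (ω : O → ℂ) (X : ℝ) (w : ℂ) (h : O) : ℂ := AA (fun n => mu n * gt 1 n * ω n) 5 X w h
def TH (t ω : O → ℂ) (X : ℝ) (w : ℂ) (m : O) : ℂ :=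
  ∑' n : O, if Prim n ∧ OddO n then t n * ω n * chi6 m n ^ 5 * W w (N n / X) else 0

def HA (q0 : O) (γ : ℝ) : Prop :=
  ∀ ε > (0 : ℝ), ∀ R0 : ℝ, ∃ C : ℝ, 0 ≤ C ∧ ∀ (Z X Y : ℝ) (w : ℂ) (ω : O → ℂ),
    1 ≤ Z → 0 < X → X ≤ Z → 0 < Y → Y ≤ Z → |w.re| ≤ R0 → Wt q0 ω →
    ∑ m ∈ ballO Y, ‖A ω X w m‖ ^ 2 ≤ C * Real.exp (C * |w.im|) * Z ^ ε * (X * Y + X ^ γ)

/-- `HA` with extra sixth powers -/
def HA6 (q0 : O) (γ : ℝ) : Prop :=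
  ∀ ε > (0 : ℝ), ∀ R0 : ℝ, ∃ C : ℝ, 0 ≤ C ∧ ∀ (Z X Y : ℝ) (w : ℂ) (ω : O → ℂ) (k : O),
    1 ≤ Z → 0 < X → X ≤ Z → 0 < Y → Y ≤ Z → |w.re| ≤ R0 → Wt q0 ω → k ≠ 0 → N k ≤ Z →
    ∑ m ∈ ballO Y, ‖A ω X w (m * k ^ 6)‖ ^ 2 ≤ C * Real.exp (C * |w.im|) * Z ^ ε * (X * Y + X ^ γ)

def phi (y : ℝ) : ℝ := Real.exp (-(Real.log y) ^ 2)
def wtf (x : ℝ) : ℝ := ∫ y in Set.Ioi (0 : ℝ), Real.exp (-(kap * x / y)) * phi y / y
def Psi (x : ℝ) : ℝ := ∫ y in Set.Ioi (0 : ℝ), Real.exp (-(kap * x * y)) * phi y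

/-- triples `(g1, e, f)` with `g1 * e * f` in `ballN R` -/
def trip (R : ℝ) : Finset (O × O × O) :=
  (ballN R ×ˢ ballN R ×ˢ ballN R).filter (fun t => t.1 * t.2.1 * t.2.2 ∈ ballN R)

def vv (R : ℝ) (a : O → ℂ) (k : ℕ) (t : O × O × O) (h n : O) : ℂ :=
  if t.1 * t.2.1 * t.2.2 * n ∈ ballN R then
    a (t.1 * t.2.1 * t.2.2 * n) * chi6 t.2.1 (t.2.2 * n) ^ k * chi6 h (t.2.2 * n) ^ (6 - k) *
      gt k (t.2.2 * n)
  else 0

def Off (R : ℝ) (a : O → ℂ) (k : ℕ) (Y : ℝ) (t : O × O × O) (h : O) : ℂ :=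
  ∑ n1 ∈ ballN R, ∑ n2 ∈ ballN R,
    vv R a k t h n1 * conj (vv R a k t h n2) *
      (eps (t.2.2 * n1) (t.2.2 * n2) * sym2 (-1) (t.2.2 * n2)) *
      (((√(N n1 * N n2))⁻¹ * Psi (N h * Y / (N t.2.1 * N t.2.2 ^ 2 * N n1 * N n2)) : ℝ) : ℂ)

def alp (α : O → ℂ) (k : ℕ) (t : O × O × O) (c n : O) : ℂ :=
  if NN (t.1 * t.2.1 * t.2.2 * n) ∧ (4 : O) ∣ n - c then
    α (t.1 * t.2.1 * t.2.2 * n) * chi6 t.2.1 n ^ k * gt k (t.2.2 * n)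
  else 0

def Sd (M : ℝ) (n1 n2 b : O) : ℂ :=
  ∑' a : O, if a ≠ 0 then
    sym2 (b * a ^ 2) n1 * sym2 (b * a ^ 2) n2 * (Real.exp (-(kap * N (b * a ^ 2) / M)) : ℝ) else 0

def Sds (M : ℝ) (g n1 n2 b : O) : ℂ :=
  ∑ e ∈ divs g, mu e * ((M / (N e * √(N n1 * N n2)) : ℝ) : ℂ) *
    ∑' a : O, if a ≠ 0 ∧ e ∣ b * a ^ 2 then
      sym2 (b * a ^ 2) n1 * sym2 (b * a ^ 2) n2 *
        (Real.exp (-(kap * N (b * a ^ 2) * M / (N e ^ 2 * N n1 * N n2))) : ℝ) else 0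

/-- Voronoi plus large sieve bound for a coefficient sequence `t` -/
def VORLS (t : O → ℂ) : Prop :=
  ∀ ε > (0 : ℝ), ∀ R0 : ℝ, ∃ C : ℝ, 0 ≤ C ∧ ∀ (Z X H : ℝ) (w : ℂ) (M0 : O) (f : O → O → ℂ),
    1 ≤ X → X ≤ Z → 0 < H → H ≤ Z → M0 ≠ 0 → N M0 ≤ Z → |w.re| ≤ R0 → (∀ h, Wt M0 (f h)) →
    ∑ h ∈ (ballN H).filter (fun h => IsCoprime h M0),
        ‖∑' n : O, t n * f h n * chi6 n h ^ 5 * W w (N n / X)‖ ^ 2 ≤
      C * Real.exp (C * |w.im|) * Z ^ ε * N M0 * X *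
        (H ^ (8 / 7 : ℝ) + (H ^ 2 * N M0 ^ 2 / X) ^ (8 / 5 : ℝ))

structure CoefPkg (t : O → ℂ) : Prop where
  gauss : ∃ η : O → ℂ, Wt 36 η ∧ ∀ n, NN n → mu n * gt 1 n = t n * η n ∧ ‖η n‖ = 1
  cube : ∀ n d, Prim n → Prim d → t (n * d ^ 3) = (‖toC d‖ : ℂ) * ang d ^ 3 * t n
  sq : ∀ n p, Prim n → Prime p → Prim p → ¬ p ∣ n → t (n * p ^ 2) = 0
  bound : ∃ C : ℝ, ∀ R : ℝ, 1 ≤ R → ∑ n ∈ ballO R, ‖t n‖ ^ 2 ≤ C * R
  vorls : VORLS t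

def SMALL (q0 : O) (t : O → ℂ) : Prop :=
  ∀ ε > (0 : ℝ), ∀ R0 : ℝ, ∃ C : ℝ, 0 ≤ C ∧ ∀ (Z X H : ℝ) (w : ℂ) (ω : O → ℂ) (r k : O),
    1 ≤ X → X ≤ Z → 0 < H → H ≤ Z → r ≠ 0 → N r ≤ Z → k ∣ r ^ 6 → |w.re| ≤ R0 → Wt q0 ω →
    ∑ h ∈ ballO H, ‖TH t ω X w (h * k)‖ ^ 2 ≤
      C * Real.exp (C * |w.im|) * Z ^ ε * N r * X *
        (H ^ (8 / 7 : ℝ) + (H ^ 2 * N r ^ 2 / X) ^ (8 / 5 : ℝ))

/-! ### hyperbolic space: points `(z, t)` with height `v = exp t` -/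

abbrev Hs : Type := ℂ × ℝ
abbrev SLO : Type := SL(2, O)

def ht (w : Hs) : ℝ := Real.exp w.2
def QQ (w : Hs) (c d : ℂ) : ℝ := (normSq (c * w.1 + d) + normSq c * ht w ^ 2) / ht w
def Qr (w : Hs) (x : O × O) : ℝ := QQ w (toC x.1) (toC x.2)
def act (g : SL(2, ℂ)) (w : Hs) : Hs :=
  (((g 0 0 * w.1 + g 0 1) * conj (g 1 0 * w.1 + g 1 1) +
      g 0 0 * conj (g 1 0) * ((ht w ^ 2 : ℝ) : ℂ)) /
      ((normSq (g 1 0 * w.1 + g 1 1) + normSq (g 1 0) * ht w ^ 2 : ℝ) : ℂ),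
    -Real.log (QQ w (g 1 0) (g 1 1)))
def actO (γ : SLO) (w : Hs) : Hs := act (Matrix.SpecialLinearGroup.map toC γ) w
def rmul (x : O × O) (γ : SLO) : O × O :=
  (x.1 * γ 0 0 + x.2 * γ 1 0, x.1 * γ 0 1 + x.2 * γ 1 1)
def row (γ : SLO) : O × O := (γ 1 0, γ 1 1)
def Tm (x : O) : SLO := ⟨!![1, x; 0, 1], by simp [Matrix.det_fin_two]⟩
def Gam (m : O) : Subgroup SLO :=
  (Matrix.SpecialLinearGroup.map (Ideal.Quotient.mk (Ideal.span {m}))).ker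
def uu (w w' : Hs) : ℝ := (normSq (w.1 - w'.1) + ht w ^ 2 + ht w' ^ 2) / (2 * ht w * ht w')
def muH : Measure Hs :=
  (volume : Measure Hs).withDensity (fun w => ENNReal.ofReal (Real.exp (-2 * w.2)))
/-- fundamental parallelogram of `m O`, translated by `z0` -/
def Fm (m : O) (z0 : ℂ) : Set ℂ :=
  {z | ∃ x y : ℝ, x ∈ Set.Ico (0 : ℝ) 1 ∧ y ∈ Set.Ico (0 : ℝ) 1 ∧
    z = z0 + toC m * ((x : ℂ) + (y : ℂ) * omC)}

structure MulS (m : O) (κ : SLO → ℂ) : Prop where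
  norm : ∀ γ ∈ Gam m, ‖κ γ‖ = 1
  mul : ∀ γ ∈ Gam m, ∀ γ' ∈ Gam m, κ (γ * γ') = κ γ * κ γ'
  cnj : ∀ σ : SLO, ∀ γ ∈ Gam m, κ (σ * γ * σ⁻¹) = κ γ
  unip : ∀ k : O, κ (Tm (m * k)) = 1

structure Equi (m : O) (κ : SLO → ℂ) (Φ : O × O → ℂ) : Prop where
  bd : ∀ x, ‖Φ x‖ ≤ 1
  supp : ∀ x, ¬ IsCoprime x.1 x.2 → Φ x = 0
  eqv : ∀ γ ∈ Gam m, ∀ x, Φ (rmul x γ) = κ γ * Φ x

def tw (Φ : O × O → ℂ) (σ : SLO) (x : O × O) : ℂ := Φ (rmul x σ⁻¹)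

def Aut (m : O) (κ : SLO → ℂ) (f : Hs → ℂ) : Prop :=
  ∀ γ ∈ Gam m, ∀ w, f (actO γ w) = conj (κ γ) * f w

def beta (m : O) (w : Hs) : ℝ :=
  Real.exp (-uu w (0, 0)) / ∑' γ : Gam m, Real.exp (-uu (actO γ w) (0, 0))
def nu (m : O) : Measure Hs := muH.withDensity (fun w => ENNReal.ofReal (beta m w))

def Inc (Φ : O × O → ℂ) (G : ℝ → ℂ) (w : Hs) : ℂ := ∑' x : O × O, Φ x * G (Qr w x)
def hh (s : ℂ) : ℂ :=
  2 * π * ∫ τ : ℝ, Complex.exp ((s - 1) * τ) * ((max (2 - Real.cosh τ) 0 : ℝ) : ℂ)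
def LL (G : ℝ → ℂ) (q : ℝ) : ℂ :=
  2 * π * ∫ τ : ℝ, G (q * Real.exp (-τ)) * ((Real.exp (-τ) * max (2 - Real.cosh τ) 0 : ℝ) : ℂ)
def Gs (s : ℂ) (q : ℝ) : ℂ := if 1 ≤ q then (q : ℂ) ^ (-s) else 0
def pis (s : ℂ) (q : ℝ) : ℂ := LL (Gs s) q - hh s * Gs s q
def Lop (f : Hs → ℂ) (w : Hs) : ℂ := ∫ w' in {w' | uu w w' ≤ 2}, f w' ∂muH

def bb (x : ℝ) (s : ℂ) : ℂ :=
  π / Complex.Gamma s * ∫ u in Set.Ioi (0 : ℝ),
    (u : ℂ) ^ (s - 2) * ((Real.exp (-u - 4 * π ^ 2 * x / u) : ℝ) : ℂ)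
def kk (x : ℝ) : ℂ := ((x ^ (1 / 3 : ℝ) : ℝ) : ℂ) * bb x (4 / 3)

def Ssum (m : O) (Φ : O × O → ℂ) (n c : O) : ℂ :=
  ∑ d ∈ rs (m * c), Φ (c, d) * psi (toC n * toC d / (toC m * toC c))
def Dser (m : O) (Φ : O × O → ℂ) (n : O) (s : ℂ) : ℂ :=
  ∑' c : O, if c ≠ 0 then ((N c : ℝ) : ℂ) ^ (-s) * Ssum m Φ n c else 0
def Dsub (m : O) (Φ : O × O → ℂ) (n p : O) (s : ℂ) : ℂ :=
  ∑' c : O, if ¬ p ∣ c then ((N c : ℝ) : ℂ) ^ (-s) * Ssum m Φ n c else 0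

def UU : Ultrafilter ℝ := Ultrafilter.of (𝓝[>] (0 : ℝ))
def Om : Set ℂ := {s | 1 < s.re ∧ 0 < s.im ∧ s.im < 2}
/-- generalized residue at `4/3` of a function known on `re s > 3` -/
def IsRes (D : ℂ → ℂ) (r : ℂ) : Prop :=
  ∃ I β : ℂ → ℂ, DifferentiableOn ℂ I Om ∧ DifferentiableOn ℂ β {s | 1 < s.re} ∧
    β (4 / 3) ≠ 0 ∧ (∀ s ∈ Om, 3 < s.re → I s = D s * β s) ∧
    Tendsto (fun ε : ℝ => (ε : ℂ) * I (4 / 3 + ε * Complex.I)) (UU : Filter ℝ) (𝓝 (r * β (4 / 3)))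

def thetaF (m : O) (ρ : O → ℂ) (w : Hs) : ℂ :=
  ∑' n : O, ρ n * ((ht w ^ (2 / 3 : ℝ) : ℝ) : ℂ) * bb (N n * ht w ^ 2 / (3 * N m)) (4 / 3) *
    psi (toC n * w.1 / toC m)

def betaF (m n : O) (φ : ℝ → ℂ) (s : ℂ) : ℂ :=
  ∫ t : ℝ, φ t * ((Real.exp (-2 * t) : ℝ) : ℂ) * ((Real.exp t : ℝ) : ℂ) ^ (2 - s) *
    bb (N n * Real.exp t ^ 2 / (3 * N m)) s

/-- bounded measurable test functions with bounded support -/
def Tst (φ : ℝ → ℂ) : Prop :=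
  Measurable φ ∧ ∃ Bd T : ℝ, (∀ t, ‖φ t‖ ≤ Bd) ∧ ∀ t, T < |t| → φ t = 0

def strip (m n : O) (z0 : ℂ) (σ : SLO) (φ : ℝ → ℂ) (f : Hs → ℂ) : ℂ :=
  ∫ w in Fm m z0 ×ˢ (Set.univ : Set ℝ),
    f (actO σ w) * psi (-(toC n * w.1 / toC m)) * φ w.2 ∂muH

/-- the residual function and its Fourier coefficients -/
structure UOut (m : O) (κ : SLO → ℂ) (Φ : O × O → ℂ) (u : Hs → ℂ) (ρ : SLO → O → ℂ) : Prop where
  meas : Measurable u
  aut : Aut m κ u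
  mem : MemLp u 2 (nu m)
  res : ∀ σ n, IsRes (Dser m (tw Φ σ) n) (ρ σ n)
  coef : ∀ σ n z0 φ, Tst φ → strip m n z0 σ φ u = ρ σ n * betaF m n φ (4 / 3)
  van : (∀ s, ∫ w, conj (u w) * Inc Φ (pis s) w ∂(nu m) = 0) → u =ᵐ[nu m] 0

/-- output of the abstract theta machine -/
structure ThetaOut (m : O) (Φ : O × O → ℂ) (ρ : SLO → O → ℂ) : Prop where
  res : ∀ σ n, IsRes (Dser m (tw Φ σ) n) (ρ σ n)
  bound : ∃ C : ℝ, ∀ σ, ∀ R : ℝ, 1 ≤ R → ∑ n ∈ ballO R, ‖ρ σ n‖ ^ 2 ≤ C * R ^ (2 / 3 : ℝ)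
  aut : ∀ σ w, thetaF m (ρ 1) (actO σ w) = thetaF m (ρ σ) w
  van : (∀ σ, ρ σ 0 = 0) → ∀ σ n, ρ σ n = 0

/-! ### Kubota symbol -/

def kap0 (γ : SLO) : ℂ := sym3 (γ 1 0) (γ 1 1)
def Phi1 (x : O × O) : ℂ := if (3 : O) ∣ x.1 ∧ Prim x.2 then sym3 x.1 x.2 else 0
def Phil (σ : SLO) (p : O) (x : O × O) : ℂ :=
  tw Phi1 σ x * ((if p ∣ x.1 then 1 else 0) - 1 / (((N p : ℝ) : ℂ) + 1))

def tauOf (ρ : SLO → O → ℂ) (σ : SLO) (n : O) : ℂ := ((N n ^ (1 / 6 : ℝ) : ℝ) : ℂ) * ρ σ n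

structure ThetaPkg (τ : SLO → O → ℂ) : Prop where
  zero : ∀ σ, τ σ 0 = 0
  bound : ∃ C : ℝ, ∀ σ, ∀ R : ℝ, 1 ≤ R → ∑ n ∈ ballO R, ‖τ σ n‖ ^ 2 ≤ C * R
  cube : ∀ σ n d, Prim d → τ σ (n * d ^ 3) = (‖toC d‖ : ℂ) * τ σ n
  sq : ∀ σ n p, Prime p → Prim p → ¬ p ∣ n → τ σ (n * p ^ 2) = 0
  gauss : ∀ n p, Prime p → Prim p → ¬ p ∣ n →
    τ 1 (n * p) = conj (sym3 9 p) * sym3 n p * conj (gt3 p) * τ 1 n
  nz : ∃ u : O, IsUnit u ∧ τ 1 (3 * u) ≠ 0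
  mult : ∀ γ σ : SLO, γ * σ⁻¹ ∈ Gam 3 → ∀ n, τ γ n = conj (tw Phi1 σ (row γ)) * τ σ n
  vor : ∀ γ : SLO, γ 1 0 ≠ 0 → ∀ X : ℝ, 0 < X →
    ∑' n : O, τ 1 n * ang n * psi (toC n * toC (γ 0 0) / (9 * toC (γ 1 0))) * kk (N n / X) =
      toC (γ 1 0) / conj (toC (γ 1 0)) * ((X / (243 * N (γ 1 0)) : ℝ) : ℂ) *
        ∑' n : O, τ γ n * conj (ang n) * psi (-(toC n * toC (γ 1 1) / (9 * toC (γ 1 0)))) *
          kk (N n * X / (243 * N (γ 1 0)) ^ 2)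

/-- dual weight data -/
structure DualW (Wst : ℝ → ℂ) (M : ℝ) : Prop where
  ex : ∃ m0 m3 : ℝ → ℂ, Integrable m0 ∧ Integrable m3 ∧ ∫ τ, ‖m0 τ‖ ≤ M ∧ ∫ τ, ‖m3 τ‖ ≤ M ∧
    ∀ x : ℝ, 0 < x → Wst x = ∫ τ : ℝ, m0 τ * (x : ℂ) ^ (-(τ * Complex.I)) ∧
      Wst x = ∫ τ : ℝ, m3 τ * (x : ℂ) ^ (-(3 + τ * Complex.I))

/-- passage from the kernel `kk` to the weight `W w` in a Voronoi identity -/
def VorTransfer (w : ℂ) (Wst : ℝ → ℂ) : Prop :=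
  ∀ (a a' : O → ℂ) (η : ℂ) (Cc Bd : ℝ), 0 < Cc → a 0 = 0 → a' 0 = 0 →
    (∀ R : ℝ, 1 ≤ R → ∑ n ∈ ballO R, ‖a n‖ ^ 2 ≤ Bd * R) →
    (∀ R : ℝ, 1 ≤ R → ∑ n ∈ ballO R, ‖a' n‖ ^ 2 ≤ Bd * R) →
    (∀ X : ℝ, 0 < X → ∑' n : O, a n * kk (N n / X) =
      η * ((X / Cc : ℝ) : ℂ) * ∑' n : O, a' n * kk (N n * X / Cc ^ 2)) →
    ∀ X : ℝ, 0 < X → ∑' n : O, a n * W w (N n / X) =
      η * ((X / Cc : ℝ) : ℂ) * ∑' n : O, a' n * Wst (N n * X / Cc ^ 2)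

end

end Vale.Agent.P026
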