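import Vale.Agent.P026.Bes2
import Vale.Agent.P026.Fmp
import Vale.Agent.P026.Geo
import Vale.Agent.P026.DRel

namespace Vale.Agent.P026

open Complex MeasureTheory Filter Topology
open scoped Classical ComplexConjugate Real MatrixGroups

noncomputable section

theorem efc_bij {q : O} (hq : q ≠ 0) :
    Function.Bijective (fun p : {x // x ∈ rs q} × O => p.1.1 + q * p.2) := by
  constructor
  · rintro ⟨⟨x, hx⟩, k⟩ ⟨⟨y, hy⟩, l⟩ h
    simp only at h
    have h1 : x = y := rs_inj hx hy ⟨l - k, by linear_combination h⟩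
    subst h1
    have h2 : k = l := mul_left_cancel₀ hq (by linear_combination h)
    subst h2
    rfl
  · intro d
    obtain ⟨y, hy, k, hk⟩ := rs_exists hq d
    exact ⟨(⟨y, hy⟩, k), by simp only; linear_combination -hk⟩

theorem efc_hasSum {q : O} (hq : q ≠ 0) {a : O → ℝ} (h0 : ∀ d, 0 ≤ a d) {J : ℝ}
    (h : ∀ d0, HasSum (fun k => a (d0 + q * k)) J) : HasSum a (N q * J) := by
  let e := Equiv.ofBijective _ (efc_bij hq)
  rw [← e.hasSum_iff]
  have hs : Summable (a ∘ e) := by
    rw [summable_prod_of_nonneg (f := a ∘ e) (fun p => h0 _)]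
    exact ⟨fun x => (h x.1).summable, Summable.of_finite⟩
  have h1 := hs.hasSum.prod_fiberwise (g := fun _ => J) (fun x => h x.1)
  have h2 : HasSum (fun _ : {x // x ∈ rs q} => J) (N q * J) := by
    have := hasSum_fintype (fun _ : {x // x ∈ rs q} => J)
    rw [Finset.sum_const, Finset.card_univ, Fintype.card_coe, card_rs hq, nsmul_eq_mul] at this
    exact this
  rw [← h1.unique h2]
  exact hs.hasSum

/-- the basic radial profile -/
def efcG (s : ℂ) (v : ℝ) (z : ℂ) : ℂ := (((normSq z + v ^ 2) / v : ℝ) : ℂ) ^ (-s)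

theorem efc_G_scale (s : ℂ) {v : ℝ} (hv : 0 < v) (ζ : ℂ) :
    efcG s v (v • ζ) = (v : ℂ) ^ (-s) * ((normSq ζ + 1 : ℝ) : ℂ) ^ (-s) := by
  unfold efcG
  have h1 : (normSq (v • ζ) + v ^ 2) / v = v * (normSq ζ + 1) := by
    rw [Complex.real_smul, map_mul, normSq_ofReal]
    field_simp
  rw [h1, Complex.ofReal_mul, Complex.mul_cpow_ofReal_nonneg hv.le]
  have := normSq_nonneg ζ
  linarith

theorem efc_G_int {s : ℂ} (hs : 1 < s.re) {v : ℝ} (hv : 0 < v) : Integrable (efcG s v) := by
  rw [← integrable_comp_smul_iff volume _ hv.ne']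
  simp only [efc_G_scale s hv]
  exact (fourier_bb hs 0).1.const_mul _

theorem efc_G_four {s : ℂ} (hs : 1 < s.re) {v : ℝ} (hv : 0 < v) (ξ : ℂ) :
    ∫ z, efcG s v z * psi (ξ * z) = (v : ℂ) ^ (2 - s) * bb (normSq ξ * v ^ 2 / 3) s := by
  have h1 := Measure.integral_comp_smul (volume : Measure ℂ)
    (fun z => efcG s v z * psi (ξ * z)) v
  simp only [efc_G_scale s hv] at h1
  have h2 : ∀ ζ : ℂ, (v : ℂ) ^ (-s) * ((normSq ζ + 1 : ℝ) : ℂ) ^ (-s) * psi (ξ * (v • ζ)) =
      (v : ℂ) ^ (-s) * (((normSq ζ + 1 : ℝ) : ℂ) ^ (-s) * psi ((ξ * v) * ζ)) := by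
    intro ζ
    rw [Complex.real_smul, mul_assoc, mul_assoc]
  simp only [h2] at h1
  rw [integral_const_mul, (fourier_bb hs _).2, Complex.finrank_real_complex,
    abs_of_pos (by positivity), Complex.real_smul] at h1
  have hv' : (v : ℂ) ≠ 0 := by exact_mod_cast hv.ne'
  have h3 : normSq (ξ * v) = normSq ξ * v ^ 2 := by
    rw [map_mul, normSq_ofReal]; ring
  rw [h3] at h1
  have h4 : (v : ℂ) ^ (2 - s) = (v : ℂ) ^ 2 * (v : ℂ) ^ (-s) := by
    rw [sub_eq_add_neg, Complex.cpow_add _ _ hv']
    norm_cast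
  rw [h4, mul_assoc, h1]
  push_cast
  field_simp

theorem efc_Qr (s : ℂ) (z : ℂ) (t : ℝ) {c : O} (hc : c ≠ 0) (d : O) :
    ((Qr (z, t) (c, d) : ℝ) : ℂ) ^ (-s) =
      ((N c : ℝ) : ℂ) ^ (-s) * efcG s (Real.exp t) (z + toC d / toC c) := by
  have hc' := toC_ne_zero hc
  have hv := Real.exp_pos t
  have h1 : Qr (z, t) (c, d) =
      N c * ((normSq (z + toC d / toC c) + Real.exp t ^ 2) / Real.exp t) := by
    unfold Qr QQ ht
    simp only
    have h2 : toC c * z + toC d = toC c * (z + toC d / toC c) := by field_simp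
    rw [h2, map_mul, normSq_toC]
    ring
  unfold efcG
  rw [h1, Complex.ofReal_mul, Complex.mul_cpow_ofReal_nonneg (N_nonneg c)]
  have := normSq_nonneg (z + toC d / toC c)
  positivity

theorem efc_shift {m c : O} (hc : c ≠ 0) (z : ℂ) (d k : O) :
    z + toC (d + m * c * k) / toC c = z + toC (m * k) + toC d / toC c := by
  have hc' := toC_ne_zero hc
  simp only [map_add, map_mul]
  field_simp
  ring

theorem efc_psi_shift {m : O} (hm : m ≠ 0) (n : O) (z : ℂ) (k : O) :
    psi (-(toC n * (z + toC (m * k)) / toC m)) = psi (-(toC n * z / toC m)) := by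
  have hm' := toC_ne_zero hm
  have h1 : -(toC n * (z + toC (m * k)) / toC m) = -(toC n * z / toC m) + toC (-(n * k)) := by
    simp only [map_neg, map_mul]
    field_simp
    ring
  rw [h1, psi_add, psi_toC, mul_one]

theorem efc {m : O} (hm : m ≠ 0) {Φ : O × O → ℂ} (hb : ∀ x, ‖Φ x‖ ≤ 1)
    (hper : ∀ c d k, Φ (c, d + m * c * k) = Φ (c, d)) {s : ℂ} (hs : 3 < s.re) (n : O) (z0 : ℂ)
    (t : ℝ) :
    ∫ z in Fm m z0, (∑' x : O × O,
        if x.1 ≠ 0 then Φ x * ((Qr (z, t) x : ℝ) : ℂ) ^ (-s) else 0) * psi (-(toC n * z / toC m)) =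
      Dser m Φ n s * (((Real.exp t : ℝ) : ℂ) ^ (2 - s) *
        bb (N n * Real.exp t ^ 2 / (3 * N m)) s) := by
  have hs1 : 1 < s.re := by linarith
  have hv := Real.exp_pos t
  have hm' := toC_ne_zero hm
  set v := Real.exp t with hvdef
  have hG := efc_G_int hs1 hv
  set F : O × O → ℂ → ℂ := fun x z => if x.1 ≠ 0 then
    Φ x * ((N x.1 : ℝ) : ℂ) ^ (-s) *
      (efcG s v (z + toC x.2 / toC x.1) * psi (-(toC n * z / toC m))) else 0 with hF
  have hL : ∀ z : ℂ, (∑' x : O × O,
      if x.1 ≠ 0 then Φ x * ((Qr (z, t) x : ℝ) : ℂ) ^ (-s) else 0) *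
        psi (-(toC n * z / toC m)) = ∑' x, F x z := by
    intro z
    rw [← tsum_mul_right]
    refine tsum_congr fun x => ?_
    obtain ⟨c, d⟩ := x
    by_cases hc : c ≠ 0
    · simp only [hF, if_pos hc]
      rw [efc_Qr s z t hc d]
      ring
    · simp only [hF, if_neg hc, zero_mul]
  simp only [hL]
  have hpc : Continuous (fun z : ℂ => psi (-(toC n * z / toC m))) :=
    continuous_psi.comp (by fun_prop)
  have hGi : ∀ a : ℂ, Integrable (fun z => efcG s v (z + a) * psi (-(toC n * z / toC m))) := by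
    intro a
    refine (hG.comp_add_right a).mul_bdd (c := 1) hpc.aestronglyMeasurable ?_
    exact Eventually.of_forall fun z => (norm_psi _).le
  have hFi : ∀ x, Integrable (F x) (volume.restrict (Fm m z0)) := by
    intro x
    by_cases hc : x.1 ≠ 0
    · simp only [hF, if_pos hc]
      exact ((hGi _).const_mul _).restrict
    · simp only [hF, if_neg hc]
      exact integrable_zero _ _ _
  set J : ℝ := ∫ z, ‖efcG s v z‖ with hJ
  set a : O × O → ℝ := fun x => if x.1 ≠ 0 then
    N x.1 ^ (-s.re) * ∫ z in Fm m z0, ‖efcG s v (z + toC x.2 / toC x.1)‖ else 0 with ha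
  have ha0 : ∀ x, 0 ≤ a x := by
    intro x
    simp only [ha]
    split_ifs
    · exact mul_nonneg (Real.rpow_nonneg (N_nonneg _) _)
        (integral_nonneg fun z => norm_nonneg _)
    · exact le_rfl
  have hac : ∀ c, HasSum (fun d => a (c, d))
      (if c ≠ 0 then N c ^ (-s.re) * (N (m * c) * J) else 0) := by
    intro c
    by_cases hc : c ≠ 0
    · simp only [ha, if_pos hc]
      refine HasSum.mul_left _ ?_
      refine efc_hasSum (mul_ne_zero hm hc) (fun d => integral_nonneg fun z => norm_nonneg _) ?_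
      intro d0
      have hi : Integrable (fun z => ((‖efcG s v (z + toC d0 / toC c)‖ : ℝ) : ℂ)) :=
        (hG.comp_add_right _).norm.ofReal
      have h1 := hasSum_integral_Fm hm z0 hi
      simp only [integral_complex_ofReal] at h1
      rw [integral_add_right_eq_self (fun z => ‖efcG s v z‖), Complex.hasSum_ofReal] at h1
      simp only [efc_shift hc]
      exact h1
    · simp only [ha, if_neg hc]
      exact hasSum_zero
  have hasum : Summable a := by
    rw [summable_prod_of_nonneg ha0]
    refine ⟨fun c => (hac c).summable, ?_⟩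
    simp only [fun c => (hac c).tsum_eq]
    have h1 := (summable_N_rpow (s := s.re - 1) (by linarith)).mul_left (N m * J)
    have hJ0 : 0 ≤ J := integral_nonneg fun z => norm_nonneg _
    refine Summable.of_nonneg_of_le (fun c => ?_) (fun c => ?_) h1
    · split_ifs
      · exact mul_nonneg (Real.rpow_nonneg (N_nonneg _) _) (mul_nonneg (N_nonneg _) hJ0)
      · exact le_rfl
    · split_ifs with hc
      · have h2 : N c ^ (-(s.re - 1)) = N c ^ (-s.re) * N c := by
          rw [show -(s.re - 1) = -s.re + 1 by ring, Real.rpow_add (N_pos hc), Real.rpow_one]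
        rw [h2, N_mul]
        exact le_of_eq (by ring)
      · exact mul_nonneg (mul_nonneg (N_nonneg _) hJ0) (Real.rpow_nonneg (N_nonneg _) _)
  have hFn : ∀ x, ∫ z in Fm m z0, ‖F x z‖ ≤ a x := by
    intro x
    by_cases hc : x.1 ≠ 0
    · simp only [hF, ha, if_pos hc, norm_mul, norm_psi, mul_one]
      rw [integral_const_mul, Complex.norm_cpow_eq_rpow_re_of_pos (N_pos hc), neg_re]
      refine mul_le_mul_of_nonneg_right ?_ (integral_nonneg fun z => norm_nonneg _)
      exact mul_le_of_le_one_left (Real.rpow_nonneg (N_nonneg _) _) (hb x)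
    · simp only [hF, ha, if_neg hc, norm_zero, integral_zero, le_refl]
  have hsum : Summable (fun x => ∫ z in Fm m z0, ‖F x z‖) :=
    Summable.of_nonneg_of_le (fun x => integral_nonneg fun z => norm_nonneg _) hFn hasum
  have hH := hasSum_integral_of_summable_integral_norm hFi hsum
  rw [← hH.tsum_eq, hH.summable.tsum_prod]
  unfold Dser
  rw [← tsum_mul_right]
  refine tsum_congr fun c => ?_
  by_cases hc : c ≠ 0
  · have hc' := toC_ne_zero hc
    rw [if_pos hc, tsum_rs (mul_ne_zero hm hc) (hH.summable.prod_factor c)]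
    unfold Ssum
    rw [Finset.mul_sum, Finset.sum_mul]
    refine Finset.sum_congr rfl fun d0 _ => ?_
    simp only [hF, if_pos hc, hper, integral_const_mul]
    rw [tsum_mul_left]
    have h1 := hasSum_integral_Fm hm z0 (hGi (toC d0 / toC c))
    simp only [efc_psi_shift hm] at h1
    simp only [efc_shift hc]
    rw [h1.tsum_eq]
    have h2 : ∀ z : ℂ, efcG s v (z + toC d0 / toC c) * psi (-(toC n * z / toC m)) =
        psi (toC n * toC d0 / (toC m * toC c)) *
          (efcG s v (z + toC d0 / toC c) * psi (-(toC n / toC m) * (z + toC d0 / toC c))) := by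
      intro z
      have h3 : -(toC n * z / toC m) = toC n * toC d0 / (toC m * toC c) +
          -(toC n / toC m) * (z + toC d0 / toC c) := by
        field_simp
        ring
      rw [h3, psi_add]
      ring
    simp only [h2]
    rw [integral_const_mul, integral_add_right_eq_self
      (fun z => efcG s v z * psi (-(toC n / toC m) * z)), efc_G_four hs1 hv]
    have h4 : normSq (-(toC n / toC m)) * v ^ 2 / 3 = N n * v ^ 2 / (3 * N m) := by
      rw [normSq_neg, map_div₀, normSq_toC, normSq_toC]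
      ring
    rw [h4]
    ring
  · simp only [hF, if_neg hc, integral_zero, tsum_zero, zero_mul]

end

end Vale.Agent.P026
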