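import Vale.Agent.P026.Pois
import Vale.Agent.P026.Wb

namespace Vale.Agent.P026

open Complex MeasureTheory Filter Topology
open scoped Classical ComplexConjugate Real MatrixGroups

noncomputable section

/-- the Gaussian density -/
def gerr_rho (τ : ℝ) : ℂ :=
  1 / (2 * π) * ((√π : ℝ) * Complex.exp (((1 : ℝ) + τ * Complex.I + 0) ^ 2 / 4))

theorem gerr_int : Integrable gerr_rho := ((wb_gauss 0 1).const_mul _).const_mul _

theorem gerr_int2 : Integrable fun τ : ℝ => ‖gerr_rho τ‖ * (1 + |τ|) := by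
  have h1 := ((integrable_mul_exp_neg_mul_sq (b := 1 / 4) (by norm_num)).abs.const_mul
    (‖(1 / (2 * π) : ℂ)‖ * (√π * Real.exp (1 / 4))))
  refine (gerr_int.norm.add h1).congr (Eventually.of_forall fun τ => ?_)
  have e : ((((1 : ℝ) : ℂ) + τ * Complex.I + 0) ^ 2 / 4).re = 1 / 4 + -(1 / 4) * τ ^ 2 := by
    simp [sq]
    ring
  have : ‖gerr_rho τ‖ = ‖(1 / (2 * π) : ℂ)‖ * (√π * Real.exp (1 / 4)) *
      Real.exp (-(1 / 4) * τ ^ 2) := by
    unfold gerr_rho
    rw [norm_mul, norm_mul, Complex.norm_exp, e, Real.exp_add, Complex.norm_real,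
      Real.norm_of_nonneg (Real.sqrt_nonneg _)]
    ring
  simp only [Pi.add_apply]
  rw [abs_mul, abs_of_pos (Real.exp_pos _), this]
  ring

theorem gerr_rep (y : ℝ) : ((Real.exp (-(y ^ 2)) : ℝ) : ℂ) =
    ∫ τ : ℝ, gerr_rho τ * Complex.exp (-((1 + τ * Complex.I) * y)) := by
  have h := W_inv_mellin 0 1 (Real.exp_pos y)
  unfold W at h
  rw [Real.log_exp, zero_mul, zero_sub, ← integral_const_mul] at h
  push_cast
  rw [h]
  refine integral_congr_ae (Eventually.of_forall fun τ => ?_)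
  unfold gerr_rho
  beta_reduce
  rw [wb_cpow (Real.exp_pos y), Real.log_exp, mul_assoc (1 / (2 * π) : ℂ)]
  congr 3
  push_cast
  ring

theorem gerr : ∃ c C : ℝ, ∀ T : ℝ, 0 < T →
    Summable (fun a : O => Real.exp (-(T * N a ^ 2))) ∧
    |∑' a : O, (if a ≠ 0 then Real.exp (-(T * N a ^ 2)) else 0) - c / √T| ≤ C := by
  obtain ⟨C, hC, hs⟩ := sum_exp_le kap_pos
  have k0 := kap_pos
  refine ⟨(kap * ∫ τ : ℝ, gerr_rho τ * (1 + τ * Complex.I)⁻¹ : ℂ).re,
    1 + C * ∫ τ : ℝ, ‖gerr_rho τ‖ * (1 + |τ|), fun T hT => ?_⟩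
  have sm : Summable (fun a : O => Real.exp (-(T * N a ^ 2))) := by
    refine Summable.of_nonneg_of_le (fun _ => (Real.exp_pos _).le) (fun a => ?_)
      (hs (kap / T) (by positivity)).1
    refine Real.exp_le_exp.2 (neg_le_neg ?_)
    rw [div_div_eq_mul_div, mul_assoc, mul_div_cancel_left₀ _ k0.ne', mul_comm]
    refine mul_le_mul_of_nonneg_left ?_ hT.le
    by_cases ha : a = 0
    · simp [ha, N_zero]
    · exact le_self_pow₀ (one_le_N ha) two_ne_zero
  refine ⟨sm, ?_⟩
  set r := √T with hr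
  have r0 : 0 < r := Real.sqrt_pos.2 hT
  have r2 : r ^ 2 = T := Real.sq_sqrt hT.le
  have sm1 : Summable (fun a : O => Real.exp (-(r * N a))) :=
    (hs (kap / r) (by positivity)).1.congr fun a => by
      rw [div_div_eq_mul_div, mul_assoc, mul_div_cancel_left₀ _ k0.ne', mul_comm]
  have nrm : ∀ (a : O) (τ : ℝ), ‖Complex.exp (-((1 + τ * Complex.I) * ((r * N a : ℝ) : ℂ)))‖ =
      Real.exp (-(r * N a)) := fun a τ => by
    rw [Complex.norm_exp]
    congr 1
    simp
  have cont : ∀ a : O, Continuous fun τ : ℝ =>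
      Complex.exp (-((1 + τ * Complex.I) * ((r * N a : ℝ) : ℂ))) := fun a => by fun_prop
  have e1 : ((∑' a : O, Real.exp (-(T * N a ^ 2)) : ℝ) : ℂ) = ∫ τ : ℝ, gerr_rho τ *
      ∑' a : O, Complex.exp (-((1 + τ * Complex.I) * ((r * N a : ℝ) : ℂ))) := by
    simp_rw [← tsum_mul_left]
    rw [← integral_tsum_of_summable_integral_norm, ofReal_tsum]
    · refine tsum_congr fun a => ?_
      rw [← gerr_rep, mul_pow, r2]
    · exact fun a => gerr_int.mul_bdd (cont a).aestronglyMeasurable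
        (Eventually.of_forall fun τ => (nrm a τ).le)
    · simp_rw [norm_mul, nrm, integral_mul_const]
      exact sm1.mul_left _
  have ne : ∀ τ : ℝ, (1 + τ * Complex.I : ℂ) ≠ 0 := fun τ h => by
    simpa using congrArg Complex.re h
  have n1 : ∀ τ : ℝ, 1 ≤ ‖(1 + τ * Complex.I : ℂ)‖ := fun τ => by
    simpa using Complex.re_le_norm (1 + τ * Complex.I)
  have n2 : ∀ τ : ℝ, ‖(1 + τ * Complex.I : ℂ)‖ ≤ 1 + |τ| := fun τ => by
    simpa using norm_add_le (1 : ℂ) (τ * Complex.I)
  have i1 : Integrable fun τ : ℝ => gerr_rho τ *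
      ∑' a : O, Complex.exp (-((1 + τ * Complex.I) * ((r * N a : ℝ) : ℂ))) :=
    gerr_int.mul_bdd (continuous_tsum cont sm1 fun a τ => (nrm a τ).le).aestronglyMeasurable
      (Eventually.of_forall fun τ => tsum_of_norm_bounded sm1.hasSum fun a => (nrm a τ).le)
  have i2 : Integrable fun τ : ℝ => gerr_rho τ * (1 + τ * Complex.I)⁻¹ :=
    gerr_int.mul_bdd (c := 1) (Continuous.aestronglyMeasurable (Continuous.inv₀ (by fun_prop) ne))
      (Eventually.of_forall fun τ => by rw [norm_inv]; exact inv_le_one_of_one_le₀ (n1 τ))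
  have key : ∀ τ : ℝ, ‖∑' a : O, Complex.exp (-((1 + τ * Complex.I) * ((r * N a : ℝ) : ℂ))) -
      ((kap / r : ℝ) : ℂ) * (1 + τ * Complex.I)⁻¹‖ ≤ C * (1 + |τ|) := fun τ => by
    set s : ℂ := ((r / kap : ℝ) : ℂ) * (1 + τ * Complex.I) with hs'
    have sre : s.re = r / kap := by rw [hs', re_ofReal_mul]; simp
    have h := poisson (s := s) (by rw [sre]; positivity) 0
    have k1 : (kap : ℂ) ≠ 0 := by exact_mod_cast k0.ne'
    have e2 : ∀ a : O, -(kap * s * (normSq (toC a + 0) : ℝ)) =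
        -((1 + τ * Complex.I) * ((r * N a : ℝ) : ℂ)) := fun a => by
      rw [add_zero, normSq_toC, hs']
      push_cast
      field_simp
    simp_rw [e2, mul_zero, psi_zero, one_mul] at h
    set T' := normSq s / s.re with hT'
    have s0 : s ≠ 0 := fun h => by
      rw [h, zero_re] at sre
      exact (div_pos r0 k0).ne sre
    have T0 : 0 < T' := div_pos (normSq_pos.2 s0) (by rw [sre]; positivity)
    have nh : ∀ h : O, ‖Complex.exp (-(kap * (N h : ℝ) / s))‖ = Real.exp (-(kap * N h / T')) :=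
      fun h => by
        rw [Complex.norm_exp, neg_re, ← ofReal_mul, div_eq_mul_inv, re_ofReal_mul, inv_re, hT',
          div_div_eq_mul_div, mul_div_assoc]
    have sm2 : Summable fun h : O => Complex.exp (-(kap * (N h : ℝ) / s)) :=
      Summable.of_norm_bounded (hs T' T0).1 fun h => (nh h).le
    have sm3 : Summable (fun h : O => if h ≠ 0 then Real.exp (-(kap * N h / T')) else 0) :=
      Summable.of_nonneg_of_le (fun h => by split_ifs <;> positivity)
        (fun h => by split_ifs; exacts [le_rfl, (Real.exp_pos _).le]) (hs _ T0).1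
    have b := (tsum_of_norm_bounded (f := fun h : O => if h = 0 then (0 : ℂ) else
        Complex.exp (-(kap * (N h : ℝ) / s))) sm3.hasSum (fun h => by
      by_cases h0 : h = 0
      · simp [h0]
      · simp only [h0, if_false, ne_eq, not_false_eq_true, if_true]
        exact (nh h).le)).trans (hs _ T0).2
    have e3 : ((kap / r : ℝ) : ℂ) * (1 + τ * Complex.I)⁻¹ = s⁻¹ := by
      rw [hs', mul_inv, ← ofReal_inv, inv_div]
    rw [h, sm2.tsum_eq_add_tsum_ite 0, e3, N_zero, ofReal_zero, mul_zero, zero_div, neg_zero,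
      Complex.exp_zero, mul_add, mul_one, add_sub_cancel_left, norm_mul, norm_inv]
    refine (mul_le_mul_of_nonneg_left b (by positivity)).trans ?_
    have ns : ‖s‖ = r / kap * ‖(1 + τ * Complex.I : ℂ)‖ := by
      rw [hs', norm_mul, Complex.norm_real, Real.norm_of_nonneg (by positivity)]
    have := n1 τ
    rw [hT', normSq_eq_norm_sq, sre, ns]
    refine le_trans (le_of_eq ?_) (mul_le_mul_of_nonneg_left (n2 τ) hC.le)
    field_simp
  have b : ‖((∑' a : O, Real.exp (-(T * N a ^ 2)) : ℝ) : ℂ) -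
      ((kap / r : ℝ) : ℂ) * ∫ τ : ℝ, gerr_rho τ * (1 + τ * Complex.I)⁻¹‖ ≤
      C * ∫ τ : ℝ, ‖gerr_rho τ‖ * (1 + |τ|) := by
    rw [e1, ← integral_const_mul, ← integral_sub i1 (i2.const_mul _), ← integral_const_mul]
    refine norm_integral_le_of_norm_le (gerr_int2.const_mul C) (Eventually.of_forall fun τ => ?_)
    rw [mul_left_comm, ← mul_sub, norm_mul, mul_left_comm]
    exact mul_le_mul_of_nonneg_left (key τ) (norm_nonneg _)
  have b2 := (Complex.abs_re_le_norm _).trans b
  rw [sub_re, ofReal_re, re_ofReal_mul, sm.tsum_eq_add_tsum_ite 0] at b2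
  simp only [N_zero, ne_eq, OfNat.ofNat_ne_zero, not_false_eq_true, zero_pow, mul_zero, neg_zero,
    Real.exp_zero] at b2
  simp only [ne_eq, ite_not]
  rw [re_ofReal_mul, mul_div_right_comm]
  rw [abs_le] at b2 ⊢
  constructor <;> linarith [b2.1, b2.2]

end

end Vale.Agent.P026
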