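import Vale.Agent.P026.Geo

namespace Vale.Agent.P026

open Complex MeasureTheory Filter Topology
open scoped Classical ComplexConjugate Real MatrixGroups

noncomputable section

theorem geoM_meas : Measurable fun w : Hs => ENNReal.ofReal (Real.exp (-2 * w.2)) := by
  fun_prop

instance muH_locallyFinite : IsLocallyFiniteMeasure muH :=
  IsLocallyFiniteMeasure.withDensity_ofReal (by fun_prop)
instance muH_sigmaFinite : SigmaFinite muH := sigmaFinite_of_locallyFinite
theorem muH_ac : muH ≪ (volume : Measure Hs) := withDensity_absolutelyContinuous _ _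
theorem ac_muH : (volume : Measure Hs) ≪ muH :=
  withDensity_absolutelyContinuous' geoM_meas.aemeasurable
    (ae_of_all _ fun w => (ENNReal.ofReal_pos.2 (Real.exp_pos _)).ne')
instance muH_openPos : muH.IsOpenPosMeasure := ac_muH.isOpenPosMeasure
theorem lintegral_muH {F : Hs → ENNReal} (hF : Measurable F) :
    ∫⁻ w, F w ∂muH = ∫⁻ t : ℝ, ENNReal.ofReal (Real.exp (-2 * t)) * ∫⁻ z : ℂ, F (z, t) := by
  rw [muH, lintegral_withDensity_eq_lintegral_mul _ geoM_meas hF, Measure.volume_eq_prod,
    lintegral_prod_symm _ (geoM_meas.mul hF).aemeasurable]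
  refine lintegral_congr fun t => ?_
  rw [← lintegral_const_mul' _ _ ENNReal.ofReal_ne_top]
  rfl
theorem integrable_muH_iff {F : Hs → ℂ} :
    Integrable F muH ↔
      Integrable (fun w : Hs => ((Real.exp (-2 * w.2) : ℝ) : ℂ) * F w) volume := by
  rw [muH, integrable_withDensity_iff_integrable_smul' geoM_meas
    (ae_of_all _ fun w => ENNReal.ofReal_lt_top)]
  simp only [ENNReal.toReal_ofReal (Real.exp_pos _).le, Complex.real_smul]
theorem integral_muH {F : Hs → ℂ} (hF : Integrable F muH) :
    ∫ w, F w ∂muH = ∫ t : ℝ, ((Real.exp (-2 * t) : ℝ) : ℂ) * ∫ z : ℂ, F (z, t) := by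
  have h := integrable_muH_iff.1 hF
  rw [muH, integral_withDensity_eq_integral_toReal_smul geoM_meas
    (ae_of_all _ fun w => ENNReal.ofReal_lt_top)]
  simp only [ENNReal.toReal_ofReal (Real.exp_pos _).le, Complex.real_smul]
  rw [Measure.volume_eq_prod] at h ⊢
  rw [integral_prod_symm _ h]
  simp only [integral_const_mul]
theorem setIntegral_muH {S : Set ℂ} (hS : MeasurableSet S) {F : Hs → ℂ}
    (hF : IntegrableOn F (S ×ˢ (Set.univ : Set ℝ)) muH) :
    ∫ w in S ×ˢ (Set.univ : Set ℝ), F w ∂muH =
      ∫ t : ℝ, ((Real.exp (-2 * t) : ℝ) : ℂ) * ∫ z in S, F (z, t) := by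
  have h := hS.prod (MeasurableSet.univ : MeasurableSet (Set.univ : Set ℝ))
  rw [← integral_indicator h, integral_muH ((integrable_indicator_iff h).2 hF)]
  simp only [← integral_indicator hS]
  congr 1; ext t; congr 2; ext z
  simp [Set.indicator]

/-- the involution carrying `muH` to Lebesgue measure -/
def geoM_phi (w : Hs) : Hs := (Real.exp (-w.2) • w.1, -w.2)

theorem geoM_phi_meas : Measurable geoM_phi := by
  unfold geoM_phi; fun_prop

theorem geoM_phi_phi (w : Hs) : geoM_phi (geoM_phi w) = w := by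
  simp only [geoM_phi, neg_neg, smul_smul, ← Real.exp_add, add_neg_cancel, Real.exp_zero, one_smul]

theorem geoM_phi_mp : MeasurePreserving geoM_phi volume muH := by
  refine ⟨geoM_phi_meas, Measure.ext_of_lintegral _ fun F hF => ?_⟩
  rw [lintegral_map hF geoM_phi_meas, lintegral_muH hF, Measure.volume_eq_prod,
    lintegral_prod_symm (fun w => F (geoM_phi w)) (hF.comp geoM_phi_meas).aemeasurable,
    ← lintegral_neg_eq_self]
  refine lintegral_congr fun t => ?_
  have h1 : Measurable fun z : ℂ => F (z, t) := hF.comp (measurable_id.prodMk measurable_const)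
  have h2 := lintegral_map (μ := (volume : Measure ℂ)) h1 (measurable_const_smul (Real.exp t))
  rw [Measure.map_addHaar_smul _ (Real.exp_pos t).ne', lintegral_smul_measure,
    Complex.finrank_real_complex, abs_of_pos (by positivity), ← Real.exp_nat_mul,
    ← Real.exp_neg] at h2
  simp only [geoM_phi, neg_neg]
  rw [← h2, smul_eq_mul, neg_mul, Nat.cast_ofNat]

theorem geoM_phi_mp' : MeasurePreserving geoM_phi muH volume := by
  refine ⟨geoM_phi_meas, ?_⟩
  rw [← geoM_phi_mp.map_eq, Measure.map_map geoM_phi_meas geoM_phi_meas,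
    show geoM_phi ∘ geoM_phi = id from funext geoM_phi_phi, Measure.map_id]

theorem geoM_conj {g : SL(2, ℂ)} {U : Hs → Hs} (hU : MeasurePreserving U volume volume)
    (h : ∀ w, geoM_phi (act g w) = U (geoM_phi w)) : MeasurePreserving (act g) muH muH := by
  have : act g = geoM_phi ∘ U ∘ geoM_phi := funext fun w => by
    rw [Function.comp_apply, Function.comp_apply, ← h, geoM_phi_phi]
  rw [this]
  exact geoM_phi_mp.comp (hU.comp geoM_phi_mp')

theorem geoM_upper {g : SL(2, ℂ)} (hc : g 1 0 = 0) : MeasurePreserving (act g) muH muH := by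
  have hdet : g 0 0 * g 1 1 = 1 := by
    have := g.det_coe
    rwa [Matrix.det_fin_two, hc, mul_zero, sub_zero] at this
  have hd : g 1 1 ≠ 0 := right_ne_zero_of_mul_eq_one hdet
  have hn : ‖g 0 0 * conj (g 1 1)‖ = 1 := by
    rw [norm_mul, RCLike.norm_conj, ← norm_mul, hdet, norm_one]
  let u : Circle := ⟨_, mem_sphere_zero_iff_norm.2 hn⟩
  have h1 : MeasurePreserving (fun p : ℝ × ℂ => (p.1 + Real.log (normSq (g 1 1)),
      g 0 0 * conj (g 1 1) * p.2 + g 0 1 * conj (g 1 1) * Real.exp p.1))
      (volume.prod volume) (volume.prod volume) :=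
    (measurePreserving_add_right volume _).skew_product
      (g := fun (t : ℝ) (z : ℂ) => g 0 0 * conj (g 1 1) * z + g 0 1 * conj (g 1 1) * Real.exp t)
      (by unfold Function.uncurry; fun_prop) (ae_of_all _ fun t =>
        ((measurePreserving_add_right volume _).comp (rotation u).measurePreserving).map_eq)
  refine geoM_conj ((Measure.measurePreserving_swap.comp h1).comp
    Measure.measurePreserving_swap) fun w => ?_
  have h2 : 0 < normSq (g 1 1) := normSq_pos.2 hd
  have h3 : 0 < ht w := ht_pos w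
  have h4 : ((normSq (g 1 1) : ℝ) : ℂ) ≠ 0 := ofReal_ne_zero.2 h2.ne'
  have h5 : ((ht w : ℝ) : ℂ) ≠ 0 := ofReal_ne_zero.2 h3.ne'
  have h6 : Real.exp (-w.2) = (ht w)⁻¹ := Real.exp_neg _
  simp only [geoM_phi, act, QQ, hc, zero_mul, zero_add, map_zero, add_zero, mul_zero, neg_neg,
    Function.comp_apply, Prod.swap, h6, Real.exp_log (div_pos h2 h3), Complex.real_smul]
  refine Prod.ext ?_ ?_
  · push_cast
    field_simp
  · rw [Real.log_div h2.ne' h3.ne', ht, Real.log_exp]
    ring

def geoM_SS : SL(2, ℂ) := ⟨!![0, -1; 1, 0], by simp [Matrix.det_fin_two]⟩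

theorem geoM_S : MeasurePreserving (act geoM_SS) muH muH := by
  have h1 : MeasurePreserving (fun p : ℂ × ℝ => (-conj p.1, Real.log (normSq p.1 + 1) - p.2))
      (volume.prod volume) (volume.prod volume) :=
    ((Measure.measurePreserving_neg volume).comp conjLIE.measurePreserving).skew_product
      (g := fun (z : ℂ) (t : ℝ) => Real.log (normSq z + 1) - t)
      ((((continuous_normSq.measurable.comp measurable_fst).add_const 1).log).sub measurable_snd)
      (ae_of_all _ fun z => (Measure.measurePreserving_sub_left volume _).map_eq)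
  refine geoM_conj h1 fun w => ?_
  have h3 : 0 < ht w := ht_pos w
  have h2 : 0 < normSq w.1 + ht w ^ 2 := add_pos_of_nonneg_of_pos (normSq_nonneg _) (by positivity)
  have h4 : ((normSq w.1 + ht w ^ 2 : ℝ) : ℂ) ≠ 0 := ofReal_ne_zero.2 h2.ne'
  have h5 : ((ht w : ℝ) : ℂ) ≠ 0 := ofReal_ne_zero.2 h3.ne'
  have h6 : Real.exp (-w.2) = (ht w)⁻¹ := Real.exp_neg _
  simp only [geoM_phi, act, QQ, geoM_SS, Matrix.SpecialLinearGroup.coe_mk, Matrix.of_apply,
    Matrix.cons_val', Matrix.cons_val_zero, Matrix.cons_val_one, Matrix.cons_val_fin_one,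
    zero_mul, zero_add, add_zero, one_mul, map_one, neg_neg, h6, Real.exp_log (div_pos h2 h3),
    Complex.real_smul, map_mul, conj_ofReal, normSq_ofReal]
  refine Prod.ext ?_ ?_
  · rw [ofReal_div, ofReal_inv]
    field_simp
  · have : (normSq w.1 + ht w ^ 2) / ht w = ((ht w)⁻¹ * (ht w)⁻¹ * normSq w.1 + 1) * ht w := by
      field_simp
    have h7 := normSq_nonneg w.1
    rw [this, Real.log_mul (by positivity) h3.ne', ht, Real.log_exp]
    ring

theorem measurePreserving_act (g : SL(2, ℂ)) : MeasurePreserving (act g) muH muH := by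
  by_cases hc : g 1 0 = 0
  · exact geoM_upper hc
  have hdet : g 0 0 * g 1 1 - g 0 1 * g 1 0 = 1 := by
    have := g.det_coe
    rwa [Matrix.det_fin_two] at this
  let U1 : SL(2, ℂ) := ⟨!![1, g 0 0 / g 1 0; 0, 1], by simp [Matrix.det_fin_two]⟩
  let U2 : SL(2, ℂ) := ⟨!![g 1 0, g 1 1; 0, (g 1 0)⁻¹], by simp [Matrix.det_fin_two, hc]⟩
  have hg : g = U1 * (geoM_SS * U2) := by
    refine Subtype.ext ?_
    rw [Matrix.SpecialLinearGroup.coe_mul, Matrix.SpecialLinearGroup.coe_mul]
    ext i j
    fin_cases i <;> fin_cases j <;>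
      simp [U1, U2, geoM_SS, Matrix.mul_apply, Fin.sum_univ_two, hc]
    field_simp
    linear_combination -hdet
  have h := (geoM_upper (g := U1) rfl).comp (geoM_S.comp (geoM_upper (g := U2) rfl))
  rw [hg]
  convert h using 1
  ext1 w
  simp only [act_mul, Function.comp_apply]
theorem measurePreserving_actO (γ : SLO) : MeasurePreserving (actO γ) muH muH :=
  measurePreserving_act _
theorem measurableEmbedding_actO (γ : SLO) : MeasurableEmbedding (actO γ) :=
  ({ toFun := actO γ, invFun := actO γ⁻¹
     left_inv := fun w => by rw [← actO_mul, inv_mul_cancel, actO_one]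
     right_inv := fun w => by rw [← actO_mul, mul_inv_cancel, actO_one]
     continuous_toFun := continuous_actO γ
     continuous_invFun := continuous_actO γ⁻¹ } : Hs ≃ₜ Hs).measurableEmbedding

end

end Vale.Agent.P026
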