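import Vale.Agent.P026.Rs

namespace Vale.Agent.P026

open Complex MeasureTheory Filter Topology
open scoped Classical ComplexConjugate Real MatrixGroups

noncomputable section

instance instCountableSLO : Countable SLO := by
  have : Countable (Matrix (Fin 2) (Fin 2) O) := inferInstanceAs (Countable (Fin 2 → Fin 2 → O))
  exact Subtype.countable
theorem det_SLO (γ : SLO) : γ 0 0 * γ 1 1 - γ 0 1 * γ 1 0 = 1 := by
  have h := γ.det_coe
  rw [Matrix.det_fin_two] at h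
  exact h
theorem exists_SLO {a b c d : O} (h : a * d - b * c = 1) :
    ∃ γ : SLO, γ 0 0 = a ∧ γ 0 1 = b ∧ γ 1 0 = c ∧ γ 1 1 = d :=
  ⟨⟨!![a, b; c, d], by rw [Matrix.det_fin_two_of]; exact h⟩, rfl, rfl, rfl, rfl⟩
theorem SLO_ext {γ γ' : SLO} (h00 : γ 0 0 = γ' 0 0) (h01 : γ 0 1 = γ' 0 1) (h10 : γ 1 0 = γ' 1 0)
    (h11 : γ 1 1 = γ' 1 1) : γ = γ' := by
  apply Matrix.SpecialLinearGroup.ext
  intro i j
  fin_cases i <;> fin_cases j
  · exact h00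
  · exact h01
  · exact h10
  · exact h11
theorem SLO_mul (γ σ : SLO) (i j : Fin 2) : (γ * σ) i j = γ i 0 * σ 0 j + γ i 1 * σ 1 j := by
  have : (γ * σ) i j = ((γ : Matrix (Fin 2) (Fin 2) O) * (σ : Matrix (Fin 2) (Fin 2) O)) i j := rfl
  rw [this, Matrix.mul_apply, Fin.sum_univ_two]
theorem SLO_inv (γ : SLO) :
    γ⁻¹ 0 0 = γ 1 1 ∧ γ⁻¹ 0 1 = -γ 0 1 ∧ γ⁻¹ 1 0 = -γ 1 0 ∧ γ⁻¹ 1 1 = γ 0 0 := by
  rw [Matrix.SpecialLinearGroup.SL2_inv_expl]
  exact ⟨rfl, rfl, rfl, rfl⟩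
theorem SLO_one : (1 : SLO) 0 0 = 1 ∧ (1 : SLO) 0 1 = 0 ∧ (1 : SLO) 1 0 = 0 ∧ (1 : SLO) 1 1 = 1 :=
  ⟨rfl, rfl, rfl, rfl⟩
theorem Tm_apply (x : O) : Tm x 0 0 = 1 ∧ Tm x 0 1 = x ∧ Tm x 1 0 = 0 ∧ Tm x 1 1 = 1 :=
  ⟨rfl, rfl, rfl, rfl⟩
theorem Tm_add (x y : O) : Tm (x + y) = Tm x * Tm y := by
  obtain ⟨a1, a2, a3, a4⟩ := Tm_apply x
  obtain ⟨b1, b2, b3, b4⟩ := Tm_apply y
  obtain ⟨c1, c2, c3, c4⟩ := Tm_apply (x + y)
  apply SLO_ext <;> rw [SLO_mul] <;> simp only [a1, a2, a3, a4, b1, b2, b3, b4, c1, c2, c3, c4] <;>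
    ring
theorem Tm_zero : Tm 0 = 1 := SLO_ext rfl rfl rfl rfl
theorem Tm_inv (x : O) : (Tm x)⁻¹ = Tm (-x) := by
  rw [inv_eq_iff_mul_eq_one, ← Tm_add, add_neg_cancel, Tm_zero]
theorem mem_Gam {m : O} {γ : SLO} :
    γ ∈ Gam m ↔ m ∣ γ 0 0 - 1 ∧ m ∣ γ 0 1 ∧ m ∣ γ 1 0 ∧ m ∣ γ 1 1 - 1 := by
  unfold Gam
  rw [MonoidHom.mem_ker]
  have key : ∀ x y : O, Ideal.Quotient.mk (Ideal.span {m}) x = Ideal.Quotient.mk (Ideal.span {m}) y
      ↔ m ∣ x - y := fun x y => by rw [Ideal.Quotient.eq, Ideal.mem_span_singleton]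
  have ent : ∀ i j, (Matrix.SpecialLinearGroup.map (Ideal.Quotient.mk (Ideal.span {m})) γ) i j =
      Ideal.Quotient.mk (Ideal.span {m}) (γ i j) := fun i j => rfl
  have ent1 : ∀ i j, (1 : SL(2, O ⧸ Ideal.span {m})) i j =
      Ideal.Quotient.mk (Ideal.span {m}) ((1 : SLO) i j) := by
    intro i j
    fin_cases i <;> fin_cases j <;> simp
  constructor
  · intro h
    have h2 : ∀ i j, m ∣ γ i j - (1 : SLO) i j := by
      intro i j
      rw [← key, ← ent, h, ent1]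
    refine ⟨h2 0 0, ?_, ?_, h2 1 1⟩
    · simpa using h2 0 1
    · simpa using h2 1 0
  · rintro ⟨h1, h2, h3, h4⟩
    apply Matrix.SpecialLinearGroup.ext
    intro i j
    rw [ent, ent1, key]
    fin_cases i <;> fin_cases j
    · exact h1
    · simpa using h2
    · simpa using h3
    · exact h4
theorem mul_inv_mem_Gam {m : O} {γ σ : SLO} (h : ∀ i j, m ∣ γ i j - σ i j) :
    γ * σ⁻¹ ∈ Gam m := by
  obtain ⟨i1, i2, i3, i4⟩ := SLO_inv σ
  have hd := det_SLO σ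
  rw [mem_Gam]
  simp only [SLO_mul, i1, i2, i3, i4]
  obtain ⟨a, ha⟩ := h 0 0
  obtain ⟨b, hb⟩ := h 0 1
  obtain ⟨c, hc⟩ := h 1 0
  obtain ⟨d, hd'⟩ := h 1 1
  refine ⟨⟨a * σ 1 1 - b * σ 1 0, ?_⟩, ⟨-a * σ 0 1 + b * σ 0 0, ?_⟩, ⟨c * σ 1 1 - d * σ 1 0, ?_⟩,
    ⟨-c * σ 0 1 + d * σ 0 0, ?_⟩⟩
  · linear_combination σ 1 1 * ha - σ 1 0 * hb + hd
  · linear_combination -σ 0 1 * ha + σ 0 0 * hb
  · linear_combination σ 1 1 * hc - σ 1 0 * hd'
  · linear_combination -σ 0 1 * hc + σ 0 0 * hd' + hd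
instance Gam_normal (m : O) : (Gam m).Normal := MonoidHom.normal_ker _
theorem Gam_mono {m m' : O} (h : m ∣ m') : Gam m' ≤ Gam m := by
  intro γ hγ
  rw [mem_Gam] at hγ ⊢
  exact ⟨h.trans hγ.1, h.trans hγ.2.1, h.trans hγ.2.2.1, h.trans hγ.2.2.2⟩
theorem Tm_mem_Gam {m k : O} : Tm k ∈ Gam m ↔ m ∣ k := by
  obtain ⟨a1, a2, a3, a4⟩ := Tm_apply k
  rw [mem_Gam, a1, a2, a3, a4]
  simp
theorem finite_quot_Gam {m : O} (hm : m ≠ 0) : Finite (SLO ⧸ Gam m) := by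
  have := finite_quot hm
  have h1 : Finite (Matrix (Fin 2) (Fin 2) (O ⧸ Ideal.span {m})) :=
    inferInstanceAs (Finite (Fin 2 → Fin 2 → (O ⧸ Ideal.span {m})))
  have h2 : Finite SL(2, O ⧸ Ideal.span {m}) := Subtype.finite
  exact Finite.of_equiv _ (QuotientGroup.quotientKerEquivRange
    (Matrix.SpecialLinearGroup.map (n := Fin 2) (Ideal.Quotient.mk (Ideal.span {m})))).symm.toEquiv
theorem rmul_one (x : O × O) : rmul x 1 = x := by
  obtain ⟨a1, a2, a3, a4⟩ := SLO_one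
  unfold rmul
  rw [a1, a2, a3, a4]
  ext1 <;> simp
theorem rmul_mul (x : O × O) (γ σ : SLO) : rmul x (γ * σ) = rmul (rmul x γ) σ := by
  unfold rmul
  simp only [SLO_mul]
  ext1 <;> simp only <;> ring
theorem rmul_bijective (γ : SLO) : Function.Bijective (fun x => rmul x γ) := by
  refine Function.bijective_iff_has_inverse.2 ⟨fun x => rmul x γ⁻¹, fun x => ?_, fun x => ?_⟩
  · simp only [← rmul_mul, mul_inv_cancel, rmul_one]
  · simp only [← rmul_mul, inv_mul_cancel, rmul_one]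
theorem row_mul (γ σ : SLO) : row (γ * σ) = rmul (row γ) σ := by
  unfold row rmul
  simp only [SLO_mul]
theorem row_eq (γ : SLO) : row γ = rmul (0, 1) γ := by
  unfold row rmul
  ext1 <;> simp
theorem coprime_row (γ : SLO) : IsCoprime (row γ).1 (row γ).2 :=
  ⟨-γ 0 1, γ 0 0, by unfold row; linear_combination det_SLO γ⟩
theorem exists_row {x : O × O} (h : IsCoprime x.1 x.2) : ∃ γ : SLO, row γ = x := by
  obtain ⟨u, v, huv⟩ := h
  obtain ⟨γ, -, -, h3, h4⟩ := exists_SLO (a := v) (b := -u) (c := x.1) (d := x.2)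
    (by linear_combination huv)
  exact ⟨γ, by unfold row; rw [h3, h4]⟩
theorem grp_coprime_rmul {x : O × O} (γ : SLO) (h : IsCoprime x.1 x.2) :
    IsCoprime (rmul x γ).1 (rmul x γ).2 := by
  obtain ⟨δ, rfl⟩ := exists_row h
  rw [← row_mul]
  exact coprime_row _
theorem coprime_rmul {x : O × O} (γ : SLO) :
    IsCoprime (rmul x γ).1 (rmul x γ).2 ↔ IsCoprime x.1 x.2 := by
  refine ⟨fun h => ?_, grp_coprime_rmul γ⟩
  have := grp_coprime_rmul γ⁻¹ h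
  rwa [← rmul_mul, mul_inv_cancel, rmul_one] at this
theorem row_eq_iff {γ γ' : SLO} : row γ = row γ' ↔ ∃ k : O, γ' = Tm k * γ := by
  constructor
  · intro h
    have h1 : γ 1 0 = γ' 1 0 := congrArg Prod.fst h
    have h2 : γ 1 1 = γ' 1 1 := congrArg Prod.snd h
    have hd := det_SLO γ
    have hd' := det_SLO γ'
    refine ⟨-γ' 0 0 * γ 0 1 + γ' 0 1 * γ 0 0, ?_⟩
    obtain ⟨a1, a2, a3, a4⟩ := Tm_apply (-γ' 0 0 * γ 0 1 + γ' 0 1 * γ 0 0)
    rw [← h1, ← h2] at hd'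
    apply SLO_ext <;> rw [SLO_mul] <;> simp only [a1, a2, a3, a4]
    · linear_combination (-γ' 0 0) * hd + γ 0 0 * hd'
    · linear_combination (-γ' 0 1) * hd + γ 0 1 * hd'
    · rw [h1]; ring
    · rw [h2]; ring
  · rintro ⟨k, rfl⟩
    obtain ⟨a1, a2, a3, a4⟩ := Tm_apply k
    unfold row
    simp only [SLO_mul, a3, a4]
    ext1 <;> simp
theorem tw_one (Φ : O × O → ℂ) : tw Φ 1 = Φ := by
  funext x
  unfold tw
  rw [inv_one, rmul_one]
theorem tw_tw (Φ : O × O → ℂ) (σ σ' : SLO) : tw (tw Φ σ) σ' = tw Φ (σ * σ') := by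
  funext x
  unfold tw
  rw [mul_inv_rev, rmul_mul]
theorem Equi.tw {m : O} {κ : SLO → ℂ} {Φ : O × O → ℂ} (hκ : MulS m κ) (h : Equi m κ Φ)
    (σ : SLO) : Equi m κ (tw Φ σ) := by
  refine ⟨fun x => h.bd _, fun x hx => h.supp _ (fun hc => hx ((coprime_rmul _).1 hc)), ?_⟩
  intro γ hγ x
  unfold Vale.Agent.P026.tw
  have e : rmul (rmul x γ) σ⁻¹ = rmul (rmul x σ⁻¹) (σ * γ * σ⁻¹) := by
    rw [← rmul_mul, ← rmul_mul]
    congr 1
    group
  rw [e, h.eqv _ ((Gam_normal m).conj_mem γ hγ σ), hκ.cnj σ γ hγ]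
theorem Equi.per {m : O} {κ : SLO → ℂ} {Φ : O × O → ℂ} (hκ : MulS m κ) (h : Equi m κ Φ)
    (c d k : O) : Φ (c, d + m * c * k) = Φ (c, d) := by
  have h1 := h.eqv (Tm (m * k)) (Tm_mem_Gam.2 (dvd_mul_right _ _)) (c, d)
  rw [hκ.unip, one_mul] at h1
  rw [← h1]
  obtain ⟨a1, a2, a3, a4⟩ := Tm_apply (m * k)
  unfold rmul
  rw [a1, a2, a3, a4]
  congr 1
  ext1 <;> simp only <;> ring
theorem MulS.one {m : O} {κ : SLO → ℂ} (hκ : MulS m κ) : κ 1 = 1 := by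
  have := hκ.unip 0
  rwa [mul_zero, Tm_zero] at this
theorem MulS.inv {m : O} {κ : SLO → ℂ} (hκ : MulS m κ) {γ : SLO} (hγ : γ ∈ Gam m) :
    κ γ⁻¹ = conj (κ γ) := by
  have h1 := hκ.mul γ hγ γ⁻¹ (inv_mem hγ)
  rw [mul_inv_cancel, hκ.one] at h1
  have h2 : κ γ * conj (κ γ) = 1 := by
    rw [Complex.mul_conj, Complex.normSq_eq_norm_sq, hκ.norm γ hγ]; simp
  have h3 : κ γ ≠ 0 := left_ne_zero_of_mul_eq_one h2
  exact mul_left_cancel₀ h3 (h1.symm.trans h2.symm)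
theorem SLO_induction {P : SLO → Prop} (h0 : ∀ γ : SLO, γ 0 1 = 0 → γ 1 0 = 0 → P γ)
    (hT : ∀ x γ, P γ → P (Tm x * γ))
    (hS : ∀ S γ : SLO, S 0 0 = 0 → S 0 1 = -1 → S 1 0 = 1 → S 1 1 = 0 → P γ → P (S * γ)) :
    ∀ γ, P γ := by
  obtain ⟨S, s1, s2, s3, s4⟩ := exists_SLO (a := 0) (b := -1) (c := 1) (d := 0) (by ring)
  obtain ⟨i1, i2, i3, i4⟩ := SLO_inv S
  have main : ∀ n : ℕ, ∀ γ : SLO, Nm (γ 1 0) = n → P γ := by
    intro n
    induction n using Nat.strong_induction_on with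
    | _ n ih =>
      intro γ hγ
      by_cases hc : γ 1 0 = 0
      · have hd := det_SLO γ
        rw [hc] at hd
        set k := γ 0 1 * γ 0 0 with hk
        obtain ⟨a1, a2, a3, a4⟩ := Tm_apply (-k)
        have hP : P (Tm (-k) * γ) := by
          apply h0
          · rw [SLO_mul, a1, a2, hk]; linear_combination (-γ 0 1) * hd
          · rw [SLO_mul, a3, a4, hc]; ring
        have := hT k _ hP
        rwa [← mul_assoc, ← Tm_add, add_neg_cancel, Tm_zero, one_mul] at this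
      · set q := oquot (γ 0 0) (γ 1 0) with hq
        obtain ⟨a1, a2, a3, a4⟩ := Tm_apply (-q)
        have hlt := oquot_lt (γ 0 0) hc
        have hP : P (S⁻¹ * (Tm (-q) * γ)) := by
          refine ih _ ?_ _ rfl
          rw [← hγ]
          have e : (S⁻¹ * (Tm (-q) * γ)) 1 0 = -(γ 0 0 - γ 1 0 * q) := by
            rw [SLO_mul, SLO_mul, SLO_mul, i3, i4, s1, s3, a1, a2]; ring
          rw [e]
          have e2 : Nm (-(γ 0 0 - γ 1 0 * q)) = Nm (γ 0 0 - γ 1 0 * q) := by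
            have := N_neg (γ 0 0 - γ 1 0 * q)
            unfold N at this
            exact_mod_cast this
          rw [e2]
          exact hlt
        have h2 := hT q _ (hS S _ s1 s2 s3 s4 hP)
        rwa [← mul_assoc S, mul_inv_cancel, one_mul, ← mul_assoc, ← Tm_add, add_neg_cancel, Tm_zero,
          one_mul] at h2
  exact fun γ => main _ γ rfl

end

end Vale.Agent.P026
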