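import Vale.Agent.P026.PP
import Vale.Agent.P026.GErr
import Vale.Agent.P026.QuadB

namespace Vale.Agent.P026

open Complex MeasureTheory Filter Topology
open scoped Classical ComplexConjugate Real MatrixGroups

noncomputable section

theorem hb1_six {G : O → ℝ} (hG : Summable G) :
    (∀ b, Squarefree b → Summable (fun a : O => if a ≠ 0 then G (b * a ^ 2) else 0)) ∧
    Summable (fun b : O => if Squarefree b then ∑' a : O, (if a ≠ 0 then G (b * a ^ 2) else 0) else 0) ∧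
    ∑' b : O, (if Squarefree b then ∑' a : O, (if a ≠ 0 then G (b * a ^ 2) else 0) else 0) =
      6 * ∑' m : O, (if m ≠ 0 then G m else 0) := by
  obtain ⟨h1, h2⟩ := sq_six (F := fun m => (G m : ℂ)) (summable_ofReal.2 hG)
  have h3 : Summable (fun p : O × O => if Squarefree p.1 ∧ p.2 ≠ 0 then G (p.1 * p.2 ^ 2) else 0) :=
    summable_ofReal.1 (h1.congr fun p => by split_ifs <;> simp)
  refine ⟨fun b hb => (h3.prod_factor b).congr fun a => by simp [hb],
    h3.prod.congr fun b => by by_cases hb : Squarefree b <;> simp [hb], ?_⟩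
  apply ofReal_injective
  push_cast [apply_ite Complex.ofReal]
  exact h2

theorem hb1_bound {G : O → ℝ} (hG : Summable G) {u : O → O → ℂ}
    (hu : ∀ b a, ‖u b a‖ ≤ if a ≠ 0 then G (b * a ^ 2) else 0) :
    (∀ b, Squarefree b → Summable (u b)) ∧
    Summable (fun b : O => if Squarefree b then ‖∑' a, u b a‖ else 0) ∧
    ∑' b : O, (if Squarefree b then ‖∑' a, u b a‖ else 0) ≤
      6 * ∑' m : O, (if m ≠ 0 then G m else 0) := by
  obtain ⟨h1, h2, h3⟩ := hb1_six hG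
  have le : ∀ b, (if Squarefree b then ‖∑' a, u b a‖ else 0) ≤
      if Squarefree b then ∑' a : O, (if a ≠ 0 then G (b * a ^ 2) else 0) else 0 := fun b => by
    by_cases hb : Squarefree b
    · rw [if_pos hb, if_pos hb]
      exact tsum_of_norm_bounded (h1 b hb).hasSum (hu b)
    · rw [if_neg hb, if_neg hb]
  have s := Summable.of_nonneg_of_le (fun b => by split_ifs <;> positivity) le h2
  exact ⟨fun b hb => Summable.of_norm_bounded (h1 b hb) (hu b), s, h3 ▸ s.tsum_le_tsum le h2⟩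

theorem hb1_norm (m n1 n2 : O) (x : ℝ) :
    ‖sym2 m n1 * sym2 m n2 * ((Real.exp x : ℝ) : ℂ)‖ ≤ Real.exp x := by
  rw [norm_mul, norm_mul, Complex.norm_real, Real.norm_of_nonneg (Real.exp_pos _).le]
  exact mul_le_of_le_one_left (Real.exp_pos _).le
    (mul_le_one₀ (norm_sym2_le _ _) (norm_nonneg _) (norm_sym2_le _ _))

theorem sum_norm_Sd : ∃ C : ℝ, 0 < C ∧ ∀ (M : ℝ) (n1 n2 : O), 0 < M →
    Summable (fun b : O => if Squarefree b then ‖Sd M n1 n2 b‖ else 0) ∧
    ∑' b : O, (if Squarefree b then ‖Sd M n1 n2 b‖ else 0) ≤ C * M := by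
  obtain ⟨C, hC, hs⟩ := sum_exp_le kap_pos
  refine ⟨6 * C, by positivity, fun M n1 n2 hM => ?_⟩
  obtain ⟨-, h2, h3⟩ := hb1_bound (hs M hM).1 (u := fun b a => if a ≠ 0 then
      sym2 (b * a ^ 2) n1 * sym2 (b * a ^ 2) n2 * (Real.exp (-(kap * N (b * a ^ 2) / M)) : ℝ) else 0)
    (fun b a => by
      split_ifs
      · exact hb1_norm _ _ _ _
      · simp)
  exact ⟨h2, h3.trans (by linarith [(hs M hM).2])⟩

theorem hb1_mult {E : Type*} [NormedAddCommGroup E] {e : O} (he : e ≠ 0) (g : O → E) :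
    ∑' m : O, (if e ∣ m then g m else 0) = ∑' h : O, g (e * h) := by
  rw [← (mul_right_injective₀ he).tsum_eq (f := fun m => if e ∣ m then g m else 0)]
  · simp
  · intro m hm
    obtain ⟨h, rfl⟩ : e ∣ m := by
      by_contra hc
      exact hm (if_neg hc)
    exact ⟨h, rfl⟩

/-- the inner sum of `Sds` -/
def hb1_P (M : ℝ) (e n1 n2 b : O) : ℂ :=
  ((M / (N e * √(N n1 * N n2)) : ℝ) : ℂ) * ∑' a : O, if a ≠ 0 ∧ e ∣ b * a ^ 2 then
    sym2 (b * a ^ 2) n1 * sym2 (b * a ^ 2) n2 *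
      (Real.exp (-(kap * N (b * a ^ 2) * M / (N e ^ 2 * N n1 * N n2))) : ℝ) else 0

theorem hb1_Sds (M : ℝ) (g n1 n2 b : O) :
    Sds M g n1 n2 b = ∑ e ∈ divs g, mu e * hb1_P M e n1 n2 b :=
  Finset.sum_congr rfl fun _ _ => mul_assoc _ _ _

theorem hb1_sumP : ∃ C : ℝ, 0 < C ∧ ∀ (M : ℝ) (e n1 n2 : O), 0 < M → e ≠ 0 → n1 ≠ 0 → n2 ≠ 0 →
    (∀ b, Squarefree b → Summable fun a : O => if a ≠ 0 ∧ e ∣ b * a ^ 2 then
      sym2 (b * a ^ 2) n1 * sym2 (b * a ^ 2) n2 *
        (Real.exp (-(kap * N (b * a ^ 2) * M / (N e ^ 2 * N n1 * N n2))) : ℝ) else 0) ∧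
    Summable (fun b : O => if Squarefree b then ‖hb1_P M e n1 n2 b‖ else 0) ∧
    ∑' b : O, (if Squarefree b then ‖hb1_P M e n1 n2 b‖ else 0) ≤ C * √(N n1 * N n2) := by
  obtain ⟨C, hC, hs⟩ := sum_exp_le kap_pos
  refine ⟨6 * C, by positivity, fun M e n1 n2 hM he h1 h2 => ?_⟩
  have e0 := N_pos he
  have p1 := N_pos h1
  have p2 := N_pos h2
  have q0 : 0 < √(N n1 * N n2) := Real.sqrt_pos.2 (by positivity)
  have q2 : √(N n1 * N n2) * √(N n1 * N n2) = N n1 * N n2 := Real.mul_self_sqrt (by positivity)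
  have sG : Summable fun m : O => if e ∣ m then
      Real.exp (-(kap * N m * M / (N e ^ 2 * N n1 * N n2))) else 0 := by
    refine Summable.of_nonneg_of_le (fun m => by split_ifs <;> positivity) (fun m => ?_)
      (hs (N e ^ 2 * N n1 * N n2 / M) (by positivity)).1
    rw [div_div_eq_mul_div]
    split_ifs
    exacts [le_rfl, (Real.exp_pos _).le]
  obtain ⟨a1, a2, a3⟩ := hb1_bound sG (u := fun b a => if a ≠ 0 ∧ e ∣ b * a ^ 2 then
      sym2 (b * a ^ 2) n1 * sym2 (b * a ^ 2) n2 *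
        (Real.exp (-(kap * N (b * a ^ 2) * M / (N e ^ 2 * N n1 * N n2))) : ℝ) else 0)
    (fun b a => by
      by_cases ha : a ≠ 0 <;> by_cases hd : e ∣ b * a ^ 2 <;> simp only [ha, hd, and_self,
        and_true, and_false, if_true, if_false, not_false_eq_true, ne_eq, norm_zero, le_refl]
      exact hb1_norm _ _ _ _)
  have e1 : ∀ b, (if Squarefree b then ‖hb1_P M e n1 n2 b‖ else 0) =
      M / (N e * √(N n1 * N n2)) * (if Squarefree b then ‖∑' a : O, if a ≠ 0 ∧ e ∣ b * a ^ 2 then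
        sym2 (b * a ^ 2) n1 * sym2 (b * a ^ 2) n2 *
          (Real.exp (-(kap * N (b * a ^ 2) * M / (N e ^ 2 * N n1 * N n2))) : ℝ) else 0‖ else 0) :=
    fun b => by
      unfold hb1_P
      rw [norm_mul, Complex.norm_real, Real.norm_of_nonneg (by positivity), mul_ite, mul_zero]
  simp_rw [e1]
  refine ⟨a1, a2.mul_left _, ?_⟩
  rw [tsum_mul_left]
  refine (mul_le_mul_of_nonneg_left a3 (by positivity)).trans ?_
  have e2 : ∑' m : O, (if m ≠ 0 then if e ∣ m then
      Real.exp (-(kap * N m * M / (N e ^ 2 * N n1 * N n2))) else 0 else 0) =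
      ∑' h : O, (if h ≠ 0 then Real.exp (-(kap * N h / (N e * N n1 * N n2 / M))) else 0) := by
    refine (tsum_congr fun m => ?_).trans ((hb1_mult he fun m => if m ≠ 0 then
      Real.exp (-(kap * N m * M / (N e ^ 2 * N n1 * N n2))) else 0).trans (tsum_congr fun h => ?_))
    · split_ifs <;> rfl
    · simp only [ne_eq, mul_eq_zero, he, false_or]
      congr 3
      rw [N_mul]
      field_simp
  rw [e2]
  refine (mul_le_mul_of_nonneg_left (mul_le_mul_of_nonneg_left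
    (hs (N e * N n1 * N n2 / M) (by positivity)).2 (by norm_num)) (by positivity)).trans
    (le_of_eq ?_)
  rw [mul_assoc (N e), ← q2]
  generalize √(N n1 * N n2) = q at *
  rw [Real.sqrt_mul_self q0.le]
  field_simp

theorem sum_norm_Sds : ∃ C : ℝ, 0 < C ∧ ∀ (M : ℝ) (g n1 n2 : O), 0 < M → g ≠ 0 → n1 ≠ 0 → n2 ≠ 0 →
    Summable (fun b : O => if Squarefree b then ‖Sds M g n1 n2 b‖ else 0) ∧
    ∑' b : O, (if Squarefree b then ‖Sds M g n1 n2 b‖ else 0) ≤
      C * dv g * √(N n1 * N n2) := by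
  obtain ⟨C, hC, h⟩ := hb1_sumP
  refine ⟨C, hC, fun M g n1 n2 hM hg h1 h2 => ?_⟩
  have h' := fun e (he : e ∈ divs g) => (h M e n1 n2 hM ((mem_divs hg).1 he).1.ne_zero h1 h2).2
  have le : ∀ b, (if Squarefree b then ‖Sds M g n1 n2 b‖ else 0) ≤
      ∑ e ∈ divs g, if Squarefree b then ‖hb1_P M e n1 n2 b‖ else 0 := fun b => by
    split_ifs
    · rw [hb1_Sds]
      refine (norm_sum_le _ _).trans (Finset.sum_le_sum fun e _ => ?_)
      rw [norm_mul]
      exact mul_le_of_le_one_left (norm_nonneg _) (norm_mu_le _)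
    · simp
  have s1 := summable_sum fun e he => (h' e he).1
  have s2 := Summable.of_nonneg_of_le (fun b => by split_ifs <;> positivity) le s1
  refine ⟨s2, (s2.tsum_le_tsum le s1).trans ?_⟩
  rw [Summable.tsum_finsetSum fun e he => (h' e he).1]
  refine (Finset.sum_le_card_nsmul _ _ _ fun e he => (h' e he).2).trans ?_
  rw [nsmul_eq_mul, mul_comm C (dv g), mul_assoc]
  exact mul_le_mul_of_nonneg_right (card_divs_le g) (by positivity)

theorem hb1_F1 {n : O} (hn : OddO n) : conj (F1 n) = sym2 (-1) n * F1 n := by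
  have h := Gq_twist hn (t := -1) isCoprime_one_left.neg_left
  have e : Gq (-1) n = conj (Gq 1 n) := by
    unfold Gq
    rw [map_sum]
    refine Finset.sum_congr rfl fun x _ => ?_
    rw [← psi_neg, map_neg, neg_mul, neg_div]
  rw [e, quadb_G1 hn.ne_zero, map_mul, conj_ofReal, mul_left_comm] at h
  exact mul_left_cancel₀ (by exact_mod_cast norm_ne_zero_iff.2 (toC_ne_zero hn.ne_zero)) h

theorem hb1_zero {n : O} (hn : NN n) (h : n ≠ 1) : sym2 0 n = 0 :=
  (sym2_eq_zero_iff hn.ne_zero).2 fun hc => h (hn.1.eq_one_of_isUnit (isCoprime_zero_left.1 hc))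

theorem hb1_drop {F : O → ℂ} (h : F 0 = 0) : ∑' m, (if m ≠ 0 then F m else 0) = ∑' m, F m :=
  tsum_congr fun m => by
    split_ifs with hm
    · rfl
    · rw [not_not.1 hm, h]

theorem hb1_nb (m a b : O) : ‖sym2 m a * sym2 m b‖ ≤ 1 := by
  rw [norm_mul]
  exact mul_le_one₀ (norm_sym2_le _ _) (norm_nonneg _) (norm_sym2_le _ _)

theorem hb1_const {n1 n2 : O} (o1 : OddO n1) (o2 : OddO n2) (h12 : IsCoprime n1 n2)
    (h4 : (4 : O) ∣ n1 - n2) :
    sym2 n2 n1 * sym2 n1 n2 * (sym2 (-1) n2 * F1 n1 * conj (F1 n2)) = 1 := by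
  rw [mul_comm (sym2 n2 n1), sym2_recip o1 o2 h12, eps, F1_mul_of_congr o1 h4, F1_per n1 n2 h4]
  have u : F1 n2 * conj (F1 n2) = 1 := by rw [mul_conj, normSq_eq_norm_sq, norm_F1 o2]; simp
  have v := hb1_F1 o2
  have w : sym2 (-1) n2 ^ 2 = 1 := sym2_sq isCoprime_one_left.neg_left
  rw [v] at u ⊢
  linear_combination (sym2 (-1) n2 * F1 n2 ^ 2) ^ 2 * w + (F1 n2 * (sym2 (-1) n2 * F1 n2) + 1) * u

theorem hb1_R {M : ℝ} (hM : 0 < M) {e n1 n2 : O} (e0 : e ≠ 0) (a0 : n1 ≠ 0) (b0 : n2 ≠ 0)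
    (z12 : sym2 0 n1 * sym2 0 n2 = 0) :
    ∑' b : O, (if Squarefree b then hb1_P M e n1 n2 b else 0) =
      ((M / (N e * √(N n1 * N n2)) : ℝ) : ℂ) * (6 * ∑' h : O, sym2 (e * h) n1 * sym2 (e * h) n2 *
        ((Real.exp (-(kap * (N h * (M / (N e * N n1 * N n2))))) : ℝ) : ℂ)) := by
  have p0 := N_pos e0
  have p1 := N_pos a0
  have p2 := N_pos b0
  have sF : Summable fun m : O => if e ∣ m then sym2 m n1 * sym2 m n2 *
      ((Real.exp (-(kap * N m * M / (N e ^ 2 * N n1 * N n2))) : ℝ) : ℂ) else 0 :=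
    (pois_summ (f := fun m => if e ∣ m then sym2 m n1 * sym2 m n2 else 0) (B := 1)
      (fun m => by split_ifs; exacts [hb1_nb _ _ _, by simp])
      (T := N e ^ 2 * N n1 * N n2 / M) (by positivity)).congr fun m => by
        rw [div_div_eq_mul_div, ite_mul, zero_mul]
  have R := (sq_six sF).2
  rw [hb1_drop (by rw [z12, zero_mul, ite_self]), hb1_mult e0] at R
  have e2 : ∀ b, (if Squarefree b then hb1_P M e n1 n2 b else 0) =
      ((M / (N e * √(N n1 * N n2)) : ℝ) : ℂ) * if Squarefree b then ∑' a : O, (if a ≠ 0 then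
        if e ∣ b * a ^ 2 then sym2 (b * a ^ 2) n1 * sym2 (b * a ^ 2) n2 *
        ((Real.exp (-(kap * N (b * a ^ 2) * M / (N e ^ 2 * N n1 * N n2))) : ℝ) : ℂ) else 0 else 0)
        else 0 := fun b => by
    unfold hb1_P
    simp_rw [ite_and]
    rw [mul_ite, mul_zero]
  rw [tsum_congr e2, tsum_mul_left, R]
  congr 2
  refine tsum_congr fun h => ?_
  congr 4
  rw [N_mul]
  field_simp

theorem hb1_L {M : ℝ} (hM : 0 < M) {g n1 n2 : O} (hg : NN g) (h1 : NN n1) (h2 : NN n2)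
    (h12 : IsCoprime n1 n2) (h4 : (4 : O) ∣ n1 - n2) :
    ∑' m : O, sym2 m (g * n1) * sym2 m (g * n2) * ((Real.exp (-(kap * N m / M)) : ℝ) : ℂ) =
      ∑ e ∈ divs g, mu e * (((M / (N e * √(N n1 * N n2)) : ℝ) : ℂ) *
        ∑' h : O, sym2 (e * h) n1 * sym2 (e * h) n2 *
          ((Real.exp (-(kap * (N h * (M / (N e * N n1 * N n2))))) : ℝ) : ℂ)) := by
  have g0 := hg.ne_zero
  have a0 := h1.ne_zero
  have b0 := h2.ne_zero
  have o1 := h1.2.2
  have o2 := h2.2.2
  have p1 := N_pos a0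
  have p2 := N_pos b0
  have pp := pair_poisson poisPair_exp hg h1 h2 h12 (k := 3) (by norm_num) (by norm_num) hM
  refine (tsum_congr fun m => ?_).trans (pp.trans (Finset.sum_congr rfl fun e he => ?_))
  · rw [chi6_cube _ (mul_ne_zero g0 a0), chi6_cube _ (mul_ne_zero g0 b0), conj_sym2, mul_div_assoc]
  have p0 := N_pos ((mem_divs g0).1 he).1.ne_zero
  rw [← tsum_mul_left, ← tsum_mul_left, ← tsum_mul_left]
  refine tsum_congr fun h => ?_
  have x2 : ((M / (N e * √(N n1 * N n2)) : ℝ) : ℂ) =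
      ((M / (N e * N n1 * N n2) : ℝ) : ℂ) * ‖toC n1‖ * ‖toC n2‖ := by
    rw [norm_toC, norm_toC, Real.sqrt_mul p1.le, ← ofReal_mul, ← ofReal_mul]
    congr 1
    have s1 := Real.sqrt_pos.2 p1
    have s2 := Real.sqrt_pos.2 p2
    have t1 := Real.mul_self_sqrt p1.le
    have t2 := Real.mul_self_sqrt p2.le
    generalize √(N n1) = x at *
    generalize √(N n2) = y at *
    rw [← t1, ← t2]
    field_simp
  have x3 := hb1_const o1 o2 h12 h4
  rw [show 6 - 3 = 3 from rfl, chi6_cube _ a0, chi6_cube _ a0, chi6_cube _ a0, chi6_cube _ b0,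
    chi6_cube _ b0, chi6_cube _ b0, gs_three a0, gs_three b0, g2_eq o1 h1.2.1, g2_eq o2 h2.2.1,
    x2, sym2_mul_left e h o1, sym2_mul_left e h o2, ← neg_one_mul h, sym2_mul_left _ h o2,
    map_mul, map_mul, map_mul, conj_sym2, conj_sym2, conj_sym2, conj_sym2, conj_ofReal]
  generalize ((Real.exp (-(kap * (N h * (M / (N e * N n1 * N n2))))) : ℝ) : ℂ) = E
  generalize ((M / (N e * N n1 * N n2) : ℝ) : ℂ) = A
  linear_combination (mu e * sym2 e n1 * sym2 e n2 * A * ‖toC n1‖ * ‖toC n2‖ * sym2 h n1 *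
    sym2 h n2 * E) * x3

theorem hb1a {M : ℝ} (hM : 0 < M) {g n1 n2 : O} (hg : NN g) (h1 : NN n1) (h2 : NN n2)
    (h12 : IsCoprime n1 n2) (h4 : (4 : O) ∣ n1 - n2) (hne : ¬ (n1 = 1 ∧ n2 = 1)) :
    ∑' b : O, (if Squarefree b then Sd M (g * n1) (g * n2) b else 0) =
      ∑' b : O, (if Squarefree b then Sds M g n1 n2 b else 0) := by
  obtain ⟨C, -, hP⟩ := hb1_sumP
  have z12 : sym2 0 n1 * sym2 0 n2 = 0 := by
    rcases not_and_or.1 hne with h | h
    · rw [hb1_zero h1 h, zero_mul]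
    · rw [hb1_zero h2 h, mul_zero]
  have g0 := hg.ne_zero
  have a0 := h1.ne_zero
  have b0 := h2.ne_zero
  have L := (sq_six (pois_summ (fun m => hb1_nb m (g * n1) (g * n2)) hM)).2
  rw [hb1_drop (by
    rw [sym2_mul_right _ g0 a0, sym2_mul_right _ g0 b0, mul_mul_mul_comm, z12, mul_zero,
      zero_mul]), hb1_L hM hg h1 h2 h12 h4, Finset.mul_sum] at L
  refine L.trans ?_
  have e1 : ∀ b, (if Squarefree b then Sds M g n1 n2 b else 0) =
      ∑ e ∈ divs g, mu e * if Squarefree b then hb1_P M e n1 n2 b else 0 := fun b => by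
    split_ifs
    · exact hb1_Sds _ _ _ _ _
    · simp
  have sm : ∀ e ∈ divs g, Summable fun b => mu e * if Squarefree b then hb1_P M e n1 n2 b else 0 :=
    fun e he => Summable.mul_left _ (Summable.of_norm
      ((hP M e n1 n2 hM ((mem_divs g0).1 he).1.ne_zero a0 b0).2.1.congr fun b => by
        split_ifs <;> simp))
  rw [tsum_congr e1, Summable.tsum_finsetSum sm]
  refine Finset.sum_congr rfl fun e he => ?_
  rw [tsum_mul_left, hb1_R hM ((mem_divs g0).1 he).1.ne_zero a0 b0 z12]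
  ring

end

end Vale.Agent.P026
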