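import Vale.Agent.P026.HB2a
import Vale.Agent.P026.HB1
import Vale.Agent.P026.Gm

namespace Vale.Agent.P026

open Complex MeasureTheory Filter Topology
open scoped Classical ComplexConjugate Real MatrixGroups

noncomputable section

theorem hb2_dyad {F : O → ℂ} {K : ℝ} (hK : 0 < K) {Ψ : ℝ → ℝ} (hΨ : ∀ x, 0 < x → 0 ≤ Ψ x)
    (hs : Summable fun b => if Squarefree b ∧ K < N b then F b else 0)
    (h : ∀ K', K ≤ K' → ‖∑ b ∈ (ballO (2 * K')).filter (fun b => Squarefree b ∧ K' < N b), F b‖ ≤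
      Ψ K' - Ψ (2 * K')) :
    ‖∑' b, if Squarefree b ∧ K < N b then F b else 0‖ ≤ Ψ K := by
  have key : ∀ j : ℕ, ‖∑ b ∈ ballO (2 ^ j * K), if Squarefree b ∧ K < N b then F b else 0‖ ≤
      Ψ K - Ψ (2 ^ j * K) := fun j => by
    induction j with
    | zero =>
      rw [pow_zero, one_mul, sub_self, Finset.sum_eq_zero, norm_zero]
      exact fun b hb => if_neg fun hh => (mem_ballO.1 hb).2.not_gt hh.2
    | succ j ih =>
      have hj : K ≤ 2 ^ j * K := le_mul_of_one_le_left hK.le (one_le_pow₀ one_le_two)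
      have e1 : (ballO (2 * (2 ^ j * K))).filter (fun b => N b ≤ 2 ^ j * K) = ballO (2 ^ j * K) := by
        ext b
        simp only [Finset.mem_filter, mem_ballO]
        exact ⟨fun hh => ⟨hh.1.1, hh.2⟩, fun hh => ⟨⟨hh.1, by linarith [hh.2]⟩, hh.2⟩⟩
      have e2 : ∑ b ∈ (ballO (2 * (2 ^ j * K))).filter (fun b => ¬ N b ≤ 2 ^ j * K),
          (if Squarefree b ∧ K < N b then F b else 0) =
          ∑ b ∈ (ballO (2 * (2 ^ j * K))).filter (fun b => Squarefree b ∧ 2 ^ j * K < N b), F b := by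
        rw [← Finset.sum_filter, Finset.filter_filter]
        refine Finset.sum_congr (Finset.filter_congr fun b _ => ?_) fun _ _ => rfl
        exact ⟨fun hh => ⟨hh.2.1, not_le.1 hh.1⟩, fun hh => ⟨not_le.2 hh.2, hh.1, hj.trans_lt hh.2⟩⟩
      rw [pow_succ', mul_assoc, ← Finset.sum_filter_add_sum_filter_not _ (fun b => N b ≤ 2 ^ j * K),
        e1, e2]
      refine (norm_add_le _ _).trans ?_
      linarith [h _ hj]
  refine le_of_tendsto' (((tendsto_sum_ballO hs (if_neg fun hh => not_squarefree_zero hh.1)).comp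
    ((tendsto_pow_atTop_atTop_of_one_lt one_lt_two).atTop_mul_const hK)).norm) fun j => ?_
  exact (key j).trans (sub_le_self _ (hΨ _ (by positivity)))

/-- potential for the dyadic summation -/
def hb2_Psi (M R L K : ℝ) : ℝ := 4 * R * √(M / K) + R ^ 3 / M * (6 / (1 + M * K / L ^ 2))

theorem hb2_Psi_sub {M R L K y : ℝ} (hM : 0 < M) (hR : 0 < R) (hL : 0 < L) (hK : 0 < K)
    (h1 : y ≤ M * K / L ^ 2) (h2 : y ≤ (M * K / L ^ 2)⁻¹) :
    R * √(M / K) + R ^ 3 / M * y ≤ hb2_Psi M R L K - hb2_Psi M R L (2 * K) := by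
  have a1 : √(M / (2 * K)) ≤ 3 / 4 * √(M / K) := by
    refine Real.sqrt_le_iff.2 ⟨by positivity, ?_⟩
    rw [mul_pow, Real.sq_sqrt (by positivity), mul_comm 2 K, ← div_div]
    have : 0 < M / K := by positivity
    linarith
  have r0 : 0 < M * K / L ^ 2 := by positivity
  have a2 : y ≤ 6 / (1 + M * K / L ^ 2) - 6 / (1 + M * (2 * K) / L ^ 2) := by
    rw [show M * (2 * K) / L ^ 2 = 2 * (M * K / L ^ 2) by ring]
    generalize M * K / L ^ 2 = r at *
    rw [div_sub_div _ _ (by positivity) (by positivity), le_div_iff₀ (by positivity)]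
    rcases le_total r 1 with h | h
    · nlinarith [mul_le_mul_of_nonneg_right h1 (show 0 ≤ (1 + r) * (1 + 2 * r) by positivity),
        mul_nonneg r0.le (sub_nonneg.2 h), mul_nonneg (sq_nonneg r) (sub_nonneg.2 h)]
    · have : r⁻¹ * ((1 + r) * (1 + 2 * r)) ≤ 6 * r := by
        rw [inv_mul_le_iff₀ r0]
        nlinarith
      nlinarith [mul_le_mul_of_nonneg_right h2 (show 0 ≤ (1 + r) * (1 + 2 * r) by positivity)]
  unfold hb2_Psi
  nlinarith [mul_le_mul_of_nonneg_left a2 (show 0 ≤ R ^ 3 / M by positivity),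
    mul_le_mul_of_nonneg_left a1 hR.le]

theorem hb2_num {ε Z M R L K : ℝ} (hε : 0 < ε) (hε1 : ε ≤ 1) (hM : 1 ≤ M) (hK : 1 ≤ K)
    (hL : 1 ≤ L) (hLR : L ≤ R) (hRZ : R ≤ Z) :
    ∃ Z' σ : ℝ, (σ = 1 / 2 + ε ∨ σ = 4) ∧ 1 ≤ Z' ∧ 2 * K ≤ Z' ∧
      Z' ^ ε * (M / L) * (L ^ 2 / (M * K)) ^ σ * (R + K ^ 2) ≤
        2 * Z ^ (4 * ε) * (hb2_Psi M R L K - hb2_Psi M R L (2 * K)) := by
  have hZ : 1 ≤ Z := by linarith
  have LZ : L ^ 2 ≤ Z ^ 2 := by gcongr; linarith
  have L3 : L ^ 3 / M ≤ R ^ 3 / M := by gcongr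
  have z1 : (Z ^ 2) ^ ε = Z ^ (2 * ε) := by rw [Real.rpow_mul (by positivity), Real.rpow_two]
  have z2 : (2 * Z ^ 2) ^ ε ≤ 2 * Z ^ (2 * ε) := by
    rw [Real.mul_rpow (by positivity) (by positivity), z1]
    gcongr
    simpa using Real.rpow_le_rpow_of_exponent_le (x := 2) one_le_two hε1
  have z3 : Z ^ (4 * ε) = Z ^ (2 * ε) * Z ^ (2 * ε) := by
    rw [← Real.rpow_add (by positivity)]; congr 1; ring
  have z4 : 1 ≤ Z ^ (2 * ε) := Real.one_le_rpow hZ (by positivity)
  have MK : K ≤ M * K := le_mul_of_one_le_left (by positivity) hM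
  obtain ⟨w, w0, w2⟩ : ∃ w : ℝ, 0 < w ∧ w ^ 2 = M * K :=
    ⟨√(M * K), Real.sqrt_pos.2 (by positivity), Real.sq_sqrt (by positivity)⟩
  have hu : √(M / K) = w / K := by
    rw [Real.sqrt_eq_iff_mul_self_eq_of_pos (by positivity)]
    field_simp
    linarith
  have hMw : M = w ^ 2 / K := by rw [w2]; field_simp
  rcases le_total w L with h | h
  · have h' : M * K ≤ L ^ 2 := by rw [← w2]; gcongr
    have r1 : M * K / L ^ 2 ≤ 1 := (div_le_one (by positivity)).2 h'
    refine ⟨2 * Z ^ 2, _, Or.inl rfl, by nlinarith, by linarith, ?_⟩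
    have y1 : (L ^ 2 / (M * K)) ^ (1 / 2 + ε) ≤ L / w * Z ^ (2 * ε) := by
      rw [Real.rpow_add (by positivity), ← Real.sqrt_eq_rpow, ← z1, ← w2, ← div_pow,
        Real.sqrt_sq (by positivity), div_pow, w2]
      gcongr
      exact (div_le_self (by positivity) (by linarith)).trans LZ
    have y2 := hb2_Psi_sub (R := R) (by positivity) (by linarith) (by positivity) (by positivity)
      le_rfl (r1.trans (one_le_inv₀ (by positivity) |>.2 r1))
    have y3 : M / L * (L / w) * (R + K ^ 2) ≤ R * √(M / K) + R ^ 3 / M * (M * K / L ^ 2) := by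
      have e1 : M / L * (L / w) = w / K := by rw [hMw]; field_simp
      have e2 : L ^ 3 / M * (M * K / L ^ 2) = K * L := by field_simp
      have e3 : w / K * K ^ 2 = K * w := by field_simp
      have := mul_le_mul_of_nonneg_right L3 (show 0 ≤ M * K / L ^ 2 by positivity)
      rw [e1, hu, mul_add, e3]
      nlinarith
    calc _ ≤ 2 * Z ^ (2 * ε) * (M / L) * (L / w * Z ^ (2 * ε)) * (R + K ^ 2) := by
          have : 0 < R := by linarith
          gcongr
      _ = 2 * Z ^ (4 * ε) * (M / L * (L / w) * (R + K ^ 2)) := by rw [z3]; ring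
      _ ≤ _ := mul_le_mul_of_nonneg_left (y3.trans y2) (by positivity)
  · have h' : L ^ 2 ≤ M * K := by rw [← w2]; gcongr
    have r1 : 1 ≤ M * K / L ^ 2 := (one_le_div (by positivity)).2 h'
    have y2 := hb2_Psi_sub (R := R) (by positivity) (by linarith) (by positivity) (by positivity)
      ((inv_le_one_of_one_le₀ r1).trans r1) le_rfl
    have e0 : L ^ 2 / (M * K) = (M * K / L ^ 2)⁻¹ := (inv_div _ _).symm
    have e1 : M / L ≤ √(M / K) * (M * K / L ^ 2) := by
      rw [hu, show w / K * (M * K / L ^ 2) = M / L * (w / L) by field_simp]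
      exact le_mul_of_one_le_right (by positivity) ((one_le_div (by positivity)).2 h)
    have e2 : M / L * K ^ 2 = L ^ 3 / M * (M * K / L ^ 2) ^ 2 := by field_simp
    have e3 : K ≤ Z ^ 2 * (M * K / L ^ 2) := by
      rw [← mul_div_assoc, le_div_iff₀ (by positivity), mul_comm]
      gcongr
    have u0 := Real.sqrt_nonneg (M / K)
    rw [e0]
    generalize M * K / L ^ 2 = r at *
    refine ⟨2 * Z ^ 2 * r, _, Or.inr rfl, by nlinarith, by linarith, ?_⟩
    have y1 : (2 * Z ^ 2 * r) ^ ε ≤ 2 * Z ^ (4 * ε) * r := by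
      rw [Real.mul_rpow (by positivity) (by positivity), z3]
      refine mul_le_mul (z2.trans (by nlinarith)) ?_ (by positivity) (by positivity)
      simpa using Real.rpow_le_rpow_of_exponent_le r1 hε1
    have y3 : r * (M / L) * r⁻¹ ^ 4 * (R + K ^ 2) ≤ R * √(M / K) + R ^ 3 / M * r⁻¹ := by
      have : 0 < R := by linarith
      calc _ = R * (M / L) * r⁻¹ ^ 3 + M / L * K ^ 2 * r⁻¹ ^ 3 := by field_simp
        _ ≤ R * (√(M / K) * r) * r⁻¹ ^ 1 + R ^ 3 / M * r ^ 2 * r⁻¹ ^ 3 := by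
            rw [e2]
            gcongr ?_ + ?_
            · refine mul_le_mul (by gcongr) (pow_le_pow_of_le_one (by positivity)
                (inv_le_one_of_one_le₀ r1) (by norm_num)) (by positivity) (by positivity)
            · gcongr
        _ = _ := by field_simp
    rw [show (4 : ℝ) = (4 : ℕ) by norm_num, Real.rpow_natCast]
    calc _ ≤ 2 * Z ^ (4 * ε) * r * (M / L) * r⁻¹ ^ 4 * (R + K ^ 2) := by
          have : 0 < R := by linarith
          gcongr
      _ = 2 * Z ^ (4 * ε) * (r * (M / L) * r⁻¹ ^ 4 * (R + K ^ 2)) := by ring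
      _ ≤ _ := mul_le_mul_of_nonneg_left (y3.trans y2) (by positivity)

theorem hb2_sumP {M : ℝ} (hM : 0 < M) (K : ℝ) {e n1 n2 : O} (he : e ≠ 0) (h1 : n1 ≠ 0)
    (h2 : n2 ≠ 0) : Summable fun b => if Squarefree b ∧ K < N b then hb1_P M e n1 n2 b else 0 := by
  obtain ⟨_, -, h⟩ := hb1_sumP
  refine Summable.of_norm_bounded (h M e n1 n2 hM he h1 h2).2.1 fun b => ?_
  by_cases hb : Squarefree b ∧ K < N b
  · rw [if_pos hb, if_pos hb.1]
  · rw [if_neg hb, norm_zero]
    split_ifs <;> positivity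

theorem hb2_tail {ε : ℝ} (hε : 0 < ε) (hε1 : ε ≤ 1) : ∃ C : ℝ, 0 < C ∧
    ∀ (Z M R R' K : ℝ) (e f : O) (c : O → ℂ), 1 ≤ M → R ≤ Z → 1 ≤ K → 1 ≤ R' →
    N e * N f * R' ≤ R → NN e → NN f → (∀ n, R' < N n → c n = 0) →
    ‖∑ n1 ∈ ballN R, ∑ n2 ∈ ballN R, c n1 * conj (c n2) *
        ∑' b : O, if Squarefree b ∧ K < N b then hb1_P M e (f * n1) (f * n2) b else 0‖ ≤
      C * Z ^ (4 * ε) * (R * √(M / K) + R ^ 3 / M) * ∑ n ∈ ballN R, ‖c n‖ ^ 2 := by
  obtain ⟨C1, hC1, h1⟩ := hb2a (σ := 1 / 2 + ε) hε (by linarith)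
  obtain ⟨C2, hC2, h2⟩ := hb2a (σ := 4) hε (by norm_num)
  refine ⟨12 * (C1 + C2), by positivity, fun Z M R R' K e f c hM hRZ hK hR' hL he hf hc => ?_⟩
  have e1 := one_le_N he.ne_zero
  have f1 := one_le_N hf.ne_zero
  have ef : 1 ≤ N e * N f := one_le_mul_of_one_le_of_one_le e1 f1
  have L1 : R' ≤ N e * N f * R' := le_mul_of_one_le_left (by positivity) ef
  have R0 : 0 < R := by linarith
  have Z0 : 0 < Z := by linarith
  set S := ∑ n ∈ ballN R, ‖c n‖ ^ 2 with hS
  have S0 : 0 ≤ S := Finset.sum_nonneg fun _ _ => by positivity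
  have sm : ∀ n1 ∈ ballN R, ∀ n2 ∈ ballN R, Summable fun b => c n1 * conj (c n2) *
      if Squarefree b ∧ K < N b then hb1_P M e (f * n1) (f * n2) b else 0 := fun n1 m1 n2 m2 =>
    (hb2_sumP (by linarith) K he.ne_zero (mul_ne_zero hf.ne_zero (mem_ballN.1 m1).1.ne_zero)
      (mul_ne_zero hf.ne_zero (mem_ballN.1 m2).1.ne_zero)).mul_left _
  have sm2 := fun n1 m1 => summable_sum (sm n1 m1)
  have e2 : ∀ b, ∑ n1 ∈ ballN R, ∑ n2 ∈ ballN R, c n1 * conj (c n2) *
      (if Squarefree b ∧ K < N b then hb1_P M e (f * n1) (f * n2) b else 0) =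
      if Squarefree b ∧ K < N b then
        ∑ n1 ∈ ballN R, ∑ n2 ∈ ballN R, c n1 * conj (c n2) * hb1_P M e (f * n1) (f * n2) b
      else 0 := fun b => by split_ifs <;> simp
  simp_rw [← tsum_mul_left]
  rw [Finset.sum_congr rfl fun n1 m1 => (Summable.tsum_finsetSum (sm n1 m1)).symm,
    ← Summable.tsum_finsetSum sm2, tsum_congr e2]
  refine (hb2_dyad (by linarith) (Ψ := fun x => (C1 + C2) * (2 * Z ^ (4 * ε)) * S *
    hb2_Psi M R (N e * N f * R') x) (fun x hx => by unfold hb2_Psi; positivity)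
    ((summable_sum sm2).congr e2) fun K' hK' => ?_).trans ?_
  · obtain ⟨Z', σ, hσ, z1, z2, z3⟩ := hb2_num hε hε1 hM (hK.trans hK') (hR'.trans L1) hL hRZ
    have K0 : 0 < K' := by linarith
    rw [← Finset.sum_comm_cycle]
    simp_rw [← Finset.mul_sum]
    have key : ∀ C, 0 < C → C ≤ C1 + C2 → C * Z' ^ ε * (M / (N e * N f * R')) *
        ((N e * N f * R') ^ 2 / (M * K')) ^ σ * (R + K' ^ 2) * S ≤
        (C1 + C2) * (2 * Z ^ (4 * ε)) * S * hb2_Psi M R (N e * N f * R') K' -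
        (C1 + C2) * (2 * Z ^ (4 * ε)) * S * hb2_Psi M R (N e * N f * R') (2 * K') :=
      fun C _ hC =>
      calc _ = C * S * (Z' ^ ε * (M / (N e * N f * R')) *
            ((N e * N f * R') ^ 2 / (M * K')) ^ σ * (R + K' ^ 2)) := by ring
        _ ≤ (C1 + C2) * S * _ := mul_le_mul (by gcongr) z3 (by positivity) (by positivity)
        _ = _ := by ring
    rcases hσ with rfl | rfl
    · exact (h1 Z' M R R' K' e f c z1 (by linarith) R0 (by linarith) (L1.trans hL) K0 z2 he hf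
        hc).trans (key C1 hC1 (by linarith))
    · exact (h2 Z' M R R' K' e f c z1 (by linarith) R0 (by linarith) (L1.trans hL) K0 z2 he hf
        hc).trans (key C2 hC2 (by linarith))
  · have p1 : hb2_Psi M R (N e * N f * R') K ≤ 6 * (R * √(M / K) + R ^ 3 / M) := by
      have : 6 / (1 + M * K / (N e * N f * R') ^ 2) ≤ 6 :=
        div_le_self (by norm_num) (le_add_of_nonneg_right (by positivity))
      have := mul_le_mul_of_nonneg_left this (show 0 ≤ R ^ 3 / M by positivity)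
      have : 0 ≤ R * √(M / K) := by positivity
      unfold hb2_Psi
      linarith
    exact (mul_le_mul_of_nonneg_left p1 (by positivity)).trans (le_of_eq (by ring))

theorem hb2 {ε : ℝ} (hε : 0 < ε) : ∃ C : ℝ, 0 < C ∧ ∀ (Z M R K : ℝ) (a : O → ℂ),
    1 ≤ M → M ≤ Z → 1 ≤ R → R ≤ Z → 1 ≤ K → K ≤ Z →
    ‖∑ g ∈ ballN R, ∑ n1 ∈ ballN R, ∑ n2 ∈ ballN R,
        if g * n1 ∈ ballN R ∧ g * n2 ∈ ballN R ∧ IsCoprime n1 n2 then
          a (g * n1) * conj (a (g * n2)) *
            ∑' b : O, (if Squarefree b ∧ K < N b then Sds M g n1 n2 b else 0)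
        else 0‖ ≤
      C * Z ^ ε * (R * √(M / K) + R ^ 3 / M) * ∑ n ∈ ballN R, ‖a n‖ ^ 2 := by
  have d0 : 0 < min (ε / 5) 1 := by positivity
  obtain ⟨C1, hC1, h1⟩ := hb2_tail d0 (min_le_right _ _)
  obtain ⟨C2, hC2, h2⟩ := sum_trip_le (show 0 < ε / 5 by positivity)
  refine ⟨C1 * C2, by positivity, fun Z M R K a hM _ hR hRZ hK _ => ?_⟩
  have e1 : ∀ g ∈ ballN R, ∀ n1 ∈ ballN R, ∀ n2 ∈ ballN R, a (g * n1) * conj (a (g * n2)) *
      ∑' b : O, (if Squarefree b ∧ K < N b then Sds M g n1 n2 b else 0) =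
      ∑ e ∈ divs g, a (g * n1) * conj (a (g * n2)) * (mu e *
        ∑' b : O, if Squarefree b ∧ K < N b then hb1_P M e n1 n2 b else 0) :=
    fun g hg n1 m1 n2 m2 => by
      simp_rw [← Finset.mul_sum, ← tsum_mul_left (a := mu _)]
      rw [← Summable.tsum_finsetSum fun e he => (hb2_sumP (by linarith) K
        ((mem_divs (mem_ballN.1 hg).1.ne_zero).1 he).1.ne_zero (mem_ballN.1 m1).1.ne_zero
        (mem_ballN.1 m2).1.ne_zero).mul_left _]
      congr 1
      refine tsum_congr fun b => ?_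
      split_ifs <;> simp [hb1_Sds]
  rw [Finset.sum_congr rfl fun g hg => Finset.sum_congr rfl fun n1 m1 =>
    Finset.sum_congr rfl fun n2 m2 => by rw [e1 g hg n1 m1 n2 m2], gm_trip]
  set D := C1 * Z ^ (4 * min (ε / 5) 1) * (R * √(M / K) + R ^ 3 / M) with hD
  have Z1 : 1 ≤ Z := hR.trans hRZ
  refine (norm_sum_le_of_le _ (n := fun t => D * ∑ n ∈ ballN R,
    if t.1 * t.2.1 * t.2.2 * n ∈ ballN R then ‖a (t.1 * t.2.1 * t.2.2 * n)‖ ^ 2 else 0)
    fun t ht => ?_).trans ?_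
  · obtain ⟨g, e, f⟩ := t
    obtain ⟨hg, he, hf, hn, hN⟩ := mem_trip.1 ht
    simp only at hg he hf hn hN ⊢
    have p0 := N_pos hn.ne_zero
    have := h1 Z M R (R / N (g * e * f)) K e f
      (fun n => if g * e * f * n ∈ ballN R then a (g * e * f * n) else 0) hM hRZ hK
      ((one_le_div p0).2 hN) (by
        have := N_pos he.ne_zero
        have := N_pos hf.ne_zero
        have := one_le_N hg.ne_zero
        rw [N_mul, N_mul, show N e * N f * (R / (N g * N e * N f)) = R / N g by field_simp]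
        exact div_le_self (by linarith) this) he hf fun n hn => if_neg fun hh => by
          have := (mem_ballN.1 hh).2
          rw [N_mul] at this
          rw [div_lt_iff₀' p0] at hn
          linarith
    simp only [apply_ite (fun z : ℂ => ‖z‖ ^ 2), norm_zero, ne_eq, OfNat.ofNat_ne_zero,
      not_false_eq_true, zero_pow] at this
    refine le_trans ?_ this
    rw [norm_mul]
    refine (mul_le_of_le_one_left (norm_nonneg _) (norm_mu_le _)).trans
      (le_trans (le_of_eq ?_) (mul_le_of_le_one_left (norm_nonneg _) (norm_mu_le e)))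
    rw [← norm_mul, Finset.mul_sum]
    congr 1
    refine Finset.sum_congr rfl fun n1 _ => ?_
    rw [Finset.mul_sum]
    refine Finset.sum_congr rfl fun n2 _ => ?_
    rw [← mul_assoc (g * e), ← mul_assoc (g * e)]
    by_cases c1 : g * e * f * n1 ∈ ballN R <;> by_cases c2 : g * e * f * n2 ∈ ballN R <;>
      simp only [c1, c2, and_self, and_true, and_false, if_true, if_false, map_zero, mul_zero,
        zero_mul]
    ring
  · rw [← Finset.mul_sum]
    have S0 : 0 ≤ ∑ n ∈ ballN R, ‖a n‖ ^ 2 := Finset.sum_nonneg fun _ _ => by positivity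
    have z1 : Z ^ (4 * min (ε / 5) 1) * R ^ (ε / 5) ≤ Z ^ ε := by
      calc _ ≤ Z ^ (4 * (ε / 5)) * Z ^ (ε / 5) := by
            gcongr
            exact min_le_left _ _
        _ = _ := by rw [← Real.rpow_add (by positivity)]; congr 1; ring
    calc _ ≤ D * (C2 * R ^ (ε / 5) * ∑ n ∈ ballN R, ‖a n‖ ^ 2) :=
          mul_le_mul_of_nonneg_left (h2 R (fun n => ‖a n‖ ^ 2) hR fun _ => by positivity)
            (by positivity)
      _ = C1 * C2 * (Z ^ (4 * min (ε / 5) 1) * R ^ (ε / 5)) * (R * √(M / K) + R ^ 3 / M) *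
          ∑ n ∈ ballN R, ‖a n‖ ^ 2 := by rw [hD]; ring
      _ ≤ _ := by gcongr

end

end Vale.Agent.P026
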