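import Vale.Agent.P026.Dual
import Vale.Agent.P026.GamB
import Vale.Agent.P026.HB1

namespace Vale.Agent.P026

open Complex MeasureTheory Filter Topology
open scoped Classical ComplexConjugate Real MatrixGroups

noncomputable section

theorem hb2a_mel {σ : ℝ} (hσ : 0 < σ) : ∃ C : ℝ, 0 < C ∧
    ∀ (I : Finset (O × O × O)) (w : O × O × O → ℂ) (z : O × O × O → ℝ) (B : ℝ),
      (∀ i ∈ I, 0 < z i) →
      (∀ τ : ℝ, ‖∑ i ∈ I, w i * (z i : ℂ) ^ (-(σ + τ * Complex.I))‖ ≤ B) →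
      ‖∑ i ∈ I, w i * ((Real.exp (-(z i)) : ℝ) : ℂ)‖ ≤ C * B := by
  have hG := integrable_Gamma_line hσ
  have G0 : 0 ≤ ∫ τ : ℝ, ‖Complex.Gamma (σ + τ * Complex.I)‖ :=
    integral_nonneg fun _ => norm_nonneg _
  refine ⟨(∫ τ : ℝ, ‖Complex.Gamma (σ + τ * Complex.I)‖) + 1, by positivity,
    fun I w z B hz hB => ?_⟩
  have B0 : 0 ≤ B := (norm_nonneg _).trans (hB 0)
  have e1 : ∑ i ∈ I, w i * ((Real.exp (-(z i)) : ℝ) : ℂ) = 1 / (2 * π) * ∫ τ : ℝ,
      Complex.Gamma (σ + τ * Complex.I) * ∑ i ∈ I, w i * (z i : ℂ) ^ (-(σ + τ * Complex.I)) := by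
    simp_rw [Finset.mul_sum, mul_left_comm (Complex.Gamma _)]
    rw [integral_finsetSum _ fun i hi => ?_, Finset.mul_sum]
    · refine Finset.sum_congr rfl fun i hi => ?_
      rw [exp_mellin hσ (hz i hi), integral_const_mul]
      ring
    · refine (hG.mul_bdd (c := z i ^ (-σ)) (Continuous.const_cpow (by fun_prop)
        (Or.inl (ofReal_ne_zero.2 (hz i hi).ne'))).aestronglyMeasurable
        (ae_of_all _ fun τ => ?_)).const_mul _
      rw [Complex.norm_cpow_eq_rpow_re_of_pos (hz i hi)]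
      simp
  rw [e1, norm_mul]
  have h1 : ‖(1 / (2 * π) : ℂ)‖ ≤ 1 := by
    have := Real.pi_gt_three
    rw [norm_div, norm_one, norm_mul, Complex.norm_real, Real.norm_of_nonneg Real.pi_pos.le,
      Complex.norm_ofNat, div_le_one (by positivity)]
    linarith
  refine (mul_le_of_le_one_left (norm_nonneg _) h1).trans ((norm_integral_le_of_norm_le
    (hG.norm.mul_const B) (ae_of_all _ fun τ => ?_)).trans ?_)
  · rw [norm_mul]
    exact mul_le_mul_of_nonneg_left (hB τ) (norm_nonneg _)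
  · rw [integral_mul_const]
    nlinarith

theorem hb2a_pow {A x y1 y2 : ℝ} (hA : 0 < A) (hx : 0 < x) (h1 : 0 < y1) (h2 : 0 < y2) (s : ℂ) :
    ((A * x / (y1 * y2) : ℝ) : ℂ) ^ (-s) =
      (A : ℂ) ^ (-s) * (x : ℂ) ^ (-s) * ((y1 : ℂ) ^ s * (y2 : ℂ) ^ s) := by
  rw [wb_cpow (by positivity), wb_cpow hA, wb_cpow hx, wb_cpow h1, wb_cpow h2,
    Real.log_div (by positivity) (by positivity), Real.log_mul hA.ne' hx.ne',
    Real.log_mul h1.ne' h2.ne']
  simp only [← Complex.exp_add]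
  congr 1
  push_cast
  ring

theorem hb2a_coef {σ R R' : ℝ} (hσ : 1 / 2 < σ) (hR' : 0 < R') {f : O} (hf : NN f) (x : O)
    {c : O → ℂ} (hc : ∀ n, R' < N n → c n = 0) {s : ℂ} (hs : s.re = σ) :
    ∑ n ∈ ballN R, ‖c n * (sym2 x (f * n) * (N (f * n) : ℂ) ^ s / (√(N (f * n)) : ℝ))‖ ^ 2 ≤
      (N f * R') ^ (2 * σ - 1) * ∑ n ∈ ballN R, ‖c n‖ ^ 2 := by
  have f0 := N_pos hf.ne_zero
  rw [Finset.mul_sum]
  refine Finset.sum_le_sum fun n hn => ?_
  by_cases h : R' < N n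
  · simp [hc n h]
  have n0 := N_pos (mem_ballN.1 hn).1.ne_zero
  have p0 : 0 < N (f * n) := by rw [N_mul]; positivity
  rw [norm_mul, mul_pow, mul_comm]
  refine mul_le_mul_of_nonneg_right ?_ (by positivity)
  rw [norm_div, norm_mul, Complex.norm_cpow_eq_rpow_re_of_pos p0, hs, Complex.norm_real,
    Real.norm_of_nonneg (Real.sqrt_nonneg _), div_pow, Real.sq_sqrt p0.le, mul_pow]
  calc _ ≤ 1 * (N (f * n) ^ σ) ^ 2 / N (f * n) := by
        gcongr
        exact pow_le_one₀ (norm_nonneg _) (norm_sym2_le _ _)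
    _ = N (f * n) ^ (2 * σ - 1) := by
        rw [Real.rpow_sub_one p0.ne', mul_comm 2 σ, Real.rpow_mul p0.le, one_mul, Real.rpow_two]
    _ ≤ _ := by
        refine Real.rpow_le_rpow p0.le ?_ (by linarith)
        rw [N_mul]
        exact mul_le_mul_of_nonneg_left (not_lt.1 h) f0.le

/-- the bilinear form on the line `re s = σ` -/
theorem hb2a_line {ε σ : ℝ} (hε : 0 < ε) (hσ : 1 / 2 < σ) : ∃ C : ℝ, 0 < C ∧
    ∀ (Z A R R' K : ℝ) (f x : O) (c : O → ℂ) (p : O → Prop) (s : ℂ), 1 ≤ Z → 0 < A → 0 < R →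
    0 < R' → 0 < K → 2 * K ≤ Z → NN f → (∀ n, R' < N n → c n = 0) → s.re = σ →
    ‖∑ i ∈ ballN R ×ˢ ballN R ×ˢ (ballO (2 * K)).filter (fun b => Squarefree b ∧ K < N b),
        (if p i.2.2 then c i.1 * conj (c i.2.1) / (√(N (f * i.1) * N (f * i.2.1)) : ℝ) *
          (sym2 (i.2.2 * x) (f * i.1) * sym2 (i.2.2 * x) (f * i.2.1)) else 0) *
          ((A * N i.2.2 / (N (f * i.1) * N (f * i.2.1)) : ℝ) : ℂ) ^ (-s)‖ ≤
      C * Z ^ ε * (A * K) ^ (-σ) * (N f * R') ^ (2 * σ - 1) * (R + K ^ 2) *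
        ∑ n ∈ ballN R, ‖c n‖ ^ 2 := by
  obtain ⟨C, hC, h⟩ := ls0 hε
  refine ⟨4 * C, by positivity, fun Z A R R' K f x c p s hZ hA hR hR' hK hKZ hf hc hs => ?_⟩
  have f0 := N_pos hf.ne_zero
  set d : O → ℂ := fun n => sym2 x (f * n) * (N (f * n) : ℂ) ^ s / (√(N (f * n)) : ℝ) with hd
  set S := ∑ n ∈ ballN R, ‖c n‖ ^ 2 with hS
  set D := C * Z ^ ε * (R + (2 * K) ^ 2) * ((N f * R') ^ (2 * σ - 1) * S) with hD
  have b1 : ∑ b ∈ (ballO (2 * K)).filter Squarefree,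
      ‖∑ n ∈ ballN R, c n * d n * sym2 b n‖ ^ 2 ≤ D :=
    (h Z R (2 * K) _ hZ hR (by positivity) hKZ).trans
      (mul_le_mul_of_nonneg_left (hb2a_coef hσ hR' hf x hc hs) (by positivity))
  have b2 : ∑ b ∈ (ballO (2 * K)).filter Squarefree,
      ‖∑ n ∈ ballN R, conj (c n) * d n * sym2 b n‖ ^ 2 ≤ D := by
    have := hb2a_coef (R := R) hσ hR' hf x (c := fun n => conj (c n))
      (fun n hn => by simp [hc n hn]) hs
    simp only [RCLike.norm_conj] at this
    exact (h Z R (2 * K) _ hZ hR (by positivity) hKZ).trans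
      (mul_le_mul_of_nonneg_left this (by positivity))
  have key : ∀ b ∈ (ballO (2 * K)).filter (fun b => Squarefree b ∧ K < N b),
      ‖∑ n1 ∈ ballN R, ∑ n2 ∈ ballN R,
        (if p b then c n1 * conj (c n2) / (√(N (f * n1) * N (f * n2)) : ℝ) *
          (sym2 (b * x) (f * n1) * sym2 (b * x) (f * n2)) else 0) *
          ((A * N b / (N (f * n1) * N (f * n2)) : ℝ) : ℂ) ^ (-s)‖ ≤
      (A * K) ^ (-σ) * ((‖∑ n ∈ ballN R, c n * d n * sym2 b n‖ ^ 2 +
        ‖∑ n ∈ ballN R, conj (c n) * d n * sym2 b n‖ ^ 2) / 2) := fun b hb => by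
    have hb' := (Finset.mem_filter.1 hb).2.2
    have b0 : 0 < N b := hK.trans hb'
    by_cases hp : p b
    swap
    · simp only [hp, if_false, zero_mul, Finset.sum_const_zero, norm_zero]
      positivity
    have e1 : ∑ n1 ∈ ballN R, ∑ n2 ∈ ballN R,
        (if p b then c n1 * conj (c n2) / (√(N (f * n1) * N (f * n2)) : ℝ) *
          (sym2 (b * x) (f * n1) * sym2 (b * x) (f * n2)) else 0) *
          ((A * N b / (N (f * n1) * N (f * n2)) : ℝ) : ℂ) ^ (-s) =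
        (A : ℂ) ^ (-s) * (N b : ℂ) ^ (-s) * (sym2 b f * sym2 b f) *
          ((∑ n ∈ ballN R, c n * d n * sym2 b n) * ∑ n ∈ ballN R, conj (c n) * d n * sym2 b n) := by
      rw [Finset.sum_mul_sum, Finset.mul_sum]
      refine Finset.sum_congr rfl fun n1 h1 => ?_
      rw [Finset.mul_sum]
      refine Finset.sum_congr rfl fun n2 h2 => ?_
      have m1 := (mem_ballN.1 h1).1
      have m2 := (mem_ballN.1 h2).1
      have p1 := N_pos (mul_ne_zero hf.ne_zero m1.ne_zero)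
      have p2 := N_pos (mul_ne_zero hf.ne_zero m2.ne_zero)
      rw [if_pos hp, hb2a_pow hA b0 p1 p2, Real.sqrt_mul p1.le,
        sym2_mul_left _ _ (oddO_mul.2 ⟨hf.2.2, m1.2.2⟩),
        sym2_mul_left _ _ (oddO_mul.2 ⟨hf.2.2, m2.2.2⟩), sym2_mul_right b hf.ne_zero m1.ne_zero,
        sym2_mul_right b hf.ne_zero m2.ne_zero, ofReal_mul]
      simp only [hd]
      ring
    rw [e1, norm_mul, norm_mul, norm_mul, Complex.norm_cpow_eq_rpow_re_of_pos hA,
      Complex.norm_cpow_eq_rpow_re_of_pos b0, neg_re, hs, norm_mul (∑ _ ∈ _, _),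
      Real.mul_rpow hA.le hK.le]
    refine mul_le_mul ((mul_le_of_le_one_right (by positivity) (hb1_nb _ _ _)).trans ?_) ?_
      (by positivity) (by positivity)
    · exact mul_le_mul_of_nonneg_left (Real.rpow_le_rpow_of_nonpos hK hb'.le (by linarith))
        (by positivity)
    · nlinarith [sq_nonneg (‖∑ n ∈ ballN R, c n * d n * sym2 b n‖ -
        ‖∑ n ∈ ballN R, conj (c n) * d n * sym2 b n‖)]
  rw [Finset.sum_product]
  simp_rw [Finset.sum_product]
  rw [Finset.sum_comm_cycle]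
  refine (norm_sum_le_of_le _ key).trans ((Finset.sum_le_sum_of_subset_of_nonneg
    (Finset.monotone_filter_right _ fun b _ hb => hb.1) fun _ _ _ => by positivity).trans ?_)
  rw [← Finset.mul_sum, ← Finset.sum_div, Finset.sum_add_distrib]
  have S0 : 0 ≤ S := Finset.sum_nonneg fun _ _ => by positivity
  calc _ ≤ (A * K) ^ (-σ) * D := mul_le_mul_of_nonneg_left (by linarith) (by positivity)
    _ ≤ (A * K) ^ (-σ) * (C * Z ^ ε * (4 * (R + K ^ 2)) * ((N f * R') ^ (2 * σ - 1) * S)) := by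
        rw [hD]
        gcongr
        linarith
    _ = _ := by ring

/-- one triple, one dyadic block of `b` -/
theorem hb2a {ε σ : ℝ} (hε : 0 < ε) (hσ : 1 / 2 < σ) : ∃ C : ℝ, 0 < C ∧
    ∀ (Z M R R' K : ℝ) (e f : O) (c : O → ℂ), 1 ≤ Z → 0 < M → 0 < R → 0 < R' → R' ≤ R → 0 < K →
    2 * K ≤ Z → NN e → NN f → (∀ n, R' < N n → c n = 0) →
    ‖∑ n1 ∈ ballN R, ∑ n2 ∈ ballN R, c n1 * conj (c n2) *
        ∑ b ∈ (ballO (2 * K)).filter (fun b => Squarefree b ∧ K < N b),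
          ((M / (N e * √(N (f * n1) * N (f * n2))) : ℝ) : ℂ) *
          ∑' a : O, if a ≠ 0 ∧ e ∣ b * a ^ 2 then
            sym2 (b * a ^ 2) (f * n1) * sym2 (b * a ^ 2) (f * n2) *
              (Real.exp (-(kap * N (b * a ^ 2) * M / (N e ^ 2 * N (f * n1) * N (f * n2)))) : ℝ)
            else 0‖ ≤
      C * Z ^ ε * (M / (N e * N f * R')) * ((N e * N f * R') ^ 2 / (M * K)) ^ σ * (R + K ^ 2) *
        ∑ n ∈ ballN R, ‖c n‖ ^ 2 := by
  obtain ⟨C1, hC1, h1⟩ := hb2a_mel (σ := σ) (by linarith)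
  obtain ⟨C2, hC2, h2⟩ := hb2a_line hε hσ
  obtain ⟨_, -, h3⟩ := hb1_sumP
  have h4 := summable_N_rpow (s := 2 * σ) (by linarith)
  have T0 : 0 ≤ ∑' a : O, N a ^ (-(2 * σ)) :=
    tsum_nonneg fun a => Real.rpow_nonneg (N_nonneg a) _
  have k0 := kap_pos
  refine ⟨C1 * C2 * kap ^ (-σ) * (∑' a : O, N a ^ (-(2 * σ)) + 1), by positivity,
    fun Z M R R' K e f c hZ hM hR hR' _ hK hKZ he hf hc => ?_⟩
  have e0 := N_pos he.ne_zero
  have f0 := N_pos hf.ne_zero
  set S := ∑ n ∈ ballN R, ‖c n‖ ^ 2 with hS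
  have S0 : 0 ≤ S := Finset.sum_nonneg fun _ _ => by positivity
  set I := ballN R ×ˢ ballN R ×ˢ (ballO (2 * K)).filter (fun b => Squarefree b ∧ K < N b) with hI
  have mI : ∀ i ∈ I, f * i.1 ≠ 0 ∧ f * i.2.1 ≠ 0 ∧ Squarefree i.2.2 := fun i hi => by
    simp only [hI, Finset.mem_product, Finset.mem_filter, mem_ballN] at hi
    exact ⟨mul_ne_zero hf.ne_zero hi.1.1.ne_zero, mul_ne_zero hf.ne_zero hi.2.1.1.ne_zero,
      hi.2.2.2.1⟩
  set t : O × O × O → O → ℂ := fun i a => c i.1 * conj (c i.2.1) *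
    (((M / (N e * √(N (f * i.1) * N (f * i.2.1))) : ℝ) : ℂ) *
      if a ≠ 0 ∧ e ∣ i.2.2 * a ^ 2 then
        sym2 (i.2.2 * a ^ 2) (f * i.1) * sym2 (i.2.2 * a ^ 2) (f * i.2.1) *
          (Real.exp (-(kap * N (i.2.2 * a ^ 2) * M /
            (N e ^ 2 * N (f * i.1) * N (f * i.2.1)))) : ℝ) else 0) with ht
  set D := C1 * C2 * kap ^ (-σ) * Z ^ ε * (M / (N e * N f * R')) *
    ((N e * N f * R') ^ 2 / (M * K)) ^ σ * (R + K ^ 2) * S with hD
  have D0 : 0 ≤ D := by positivity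
  have key : ∀ a, ‖∑ i ∈ I, t i a‖ ≤ D * N a ^ (-(2 * σ)) := fun a => by
    by_cases ha : a = 0
    · simp only [ht, ha, ne_eq, not_true, false_and, if_false, mul_zero, Finset.sum_const_zero,
        norm_zero]
      exact mul_nonneg D0 (Real.rpow_nonneg (N_nonneg _) _)
    have a0 := N_pos ha
    have hA : 0 < kap * N a ^ 2 * M / N e ^ 2 := by positivity
    have := h1 I _ _ _ (fun i hi => by
      have := N_pos (mI i hi).1
      have := N_pos (mI i hi).2.1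
      have := N_pos (mI i hi).2.2.ne_zero
      positivity) fun τ => h2 Z _ R R' K f (a ^ 2) c (fun b => e ∣ b * a ^ 2) (σ + τ * Complex.I)
        hZ hA hR hR' hK hKZ hf hc (by simp)
    have e1 : ∑ i ∈ I, t i a = ((M / N e : ℝ) : ℂ) * ∑ i ∈ I,
        (if e ∣ i.2.2 * a ^ 2 then c i.1 * conj (c i.2.1) / (√(N (f * i.1) * N (f * i.2.1)) : ℝ) *
          (sym2 (i.2.2 * a ^ 2) (f * i.1) * sym2 (i.2.2 * a ^ 2) (f * i.2.1)) else 0) *
          ((Real.exp (-(kap * N a ^ 2 * M / N e ^ 2 * N i.2.2 /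
            (N (f * i.1) * N (f * i.2.1)))) : ℝ) : ℂ) := by
      rw [Finset.mul_sum]
      refine Finset.sum_congr rfl fun i hi => ?_
      simp only [ht, ha, ne_eq, not_false_eq_true, true_and]
      rw [show kap * N (i.2.2 * a ^ 2) * M / (N e ^ 2 * N (f * i.1) * N (f * i.2.1)) =
        kap * N a ^ 2 * M / N e ^ 2 * N i.2.2 / (N (f * i.1) * N (f * i.2.1)) by
          rw [N_mul i.2.2, N_pow]; ring]
      split_ifs
      · push_cast
        ring
      · simp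
    rw [e1, norm_mul, Complex.norm_real, Real.norm_of_nonneg (by positivity)]
    refine (mul_le_mul_of_nonneg_left this (by positivity)).trans (le_of_eq ?_)
    have r1 : (kap * N a ^ 2 * M / N e ^ 2 * K) ^ (-σ) * (N f * R') ^ (2 * σ - 1) =
        kap ^ (-σ) * N a ^ (-(2 * σ)) * ((N e * N f * R') ^ 2 / (M * K)) ^ σ / (N f * R') := by
      rw [Real.rpow_sub_one (by positivity), Real.rpow_mul (by positivity), Real.rpow_two,
        Real.rpow_neg a0.le, Real.rpow_mul a0.le, Real.rpow_two, ← Real.rpow_neg (by positivity),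
        ← Real.mul_rpow k0.le (by positivity), Real.rpow_neg (by positivity),
        Real.rpow_neg (by positivity), ← Real.inv_rpow (by positivity),
        ← Real.inv_rpow (by positivity), ← mul_div_assoc,
        ← Real.mul_rpow (by positivity) (by positivity),
        ← Real.mul_rpow (by positivity) (by positivity)]
      congr 2
      field_simp
    rw [mul_assoc (C2 * Z ^ ε), r1, hD, ← hS]
    field_simp
  have e2 : ∑ i ∈ I, ∑' a, t i a = ∑' a, ∑ i ∈ I, t i a :=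
    (Summable.tsum_finsetSum fun i hi => (((h3 M e _ _ hM he.ne_zero (mI i hi).1
      (mI i hi).2.1).1 _ (mI i hi).2.2).mul_left _).mul_left _).symm
  have e3 := tsum_of_norm_bounded (h4.mul_left D).hasSum key
  rw [← e2, tsum_mul_left, Finset.sum_product] at e3
  simp only [Finset.sum_product, ht, tsum_mul_left, ← Finset.mul_sum] at e3 ⊢
  refine e3.trans ?_
  calc _ ≤ D * (∑' a : O, N a ^ (-(2 * σ)) + 1) := by gcongr; linarith
    _ = _ := by rw [hD]; ring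

end

end Vale.Agent.P026
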