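import Vale.Agent.P026.Defs

namespace Vale.Agent.P026

open Complex MeasureTheory Filter Topology
open scoped Classical ComplexConjugate Real MatrixGroups

noncomputable section

theorem UU_le : (UU : Filter ℝ) ≤ 𝓝[>] (0 : ℝ) := Ultrafilter.of_le _
theorem isOpen_Om : IsOpen Om :=
  (isOpen_lt continuous_const Complex.continuous_re).inter
    ((isOpen_lt continuous_const Complex.continuous_im).inter
      (isOpen_lt Complex.continuous_im continuous_const))
theorem convex_Om : Convex ℝ Om :=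
  (convex_halfSpace_re_gt 1).inter ((convex_halfSpace_im_gt 0).inter (convex_halfSpace_im_lt 2))
theorem eventually_mem_Om :
    ∀ᶠ ε : ℝ in (UU : Filter ℝ), (4 / 3 + ε * Complex.I : ℂ) ∈ Om ∧ 0 < ε ∧ ε ≤ 1 := by
  filter_upwards [UU_le (Ioo_mem_nhdsGT (show (0 : ℝ) < 1 by norm_num))] with ε hε
  refine ⟨⟨by simp; norm_num, by simpa using hε.1, by simp; linarith [hε.2]⟩, hε.1, hε.2.le⟩
theorem tendsto_UU :
    Tendsto (fun ε : ℝ => (4 / 3 + ε * Complex.I : ℂ)) (UU : Filter ℝ) (𝓝 (4 / 3)) := by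
  have h : Tendsto (fun ε : ℝ => (4 / 3 + ε * Complex.I : ℂ)) (𝓝 0)
      (𝓝 (4 / 3 + (0 : ℝ) * Complex.I)) := Continuous.tendsto (by fun_prop) 0
  simpa using h.mono_left (UU_le.trans nhdsWithin_le_nhds)

theorem hil_lower {E : Type*} [NormedAddCommGroup E] [InnerProductSpace ℂ E] [CompleteSpace E]
    {T : E →L[ℂ] E} (hT : IsSelfAdjoint T) (z : ℂ) (y : E) : z.im * ‖y‖ ≤ ‖T y - z • y‖ := by
  rcases eq_or_ne y 0 with rfl | hy
  · simp
  have h1 : (inner ℂ y (T y)).im = 0 := hT.isSymmetric.im_inner_self_apply y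
  have h2 : (inner ℂ y (T y - z • y)).im = -(z.im * ‖y‖ ^ 2) := by
    have h0 : (inner ℂ y y : ℂ) = ((‖y‖ ^ 2 : ℝ) : ℂ) := by
      rw [inner_self_eq_norm_sq_to_K]; push_cast; rfl
    rw [inner_sub_right, inner_smul_right, h0, Complex.sub_im, h1, Complex.mul_im,
      Complex.ofReal_re, Complex.ofReal_im]
    ring
  have h3 := (Complex.abs_im_le_norm _).trans (norm_inner_le_norm (𝕜 := ℂ) y (T y - z • y))
  rw [h2, abs_neg] at h3
  have h4 := (le_abs_self _).trans h3
  have h5 := norm_pos_iff.2 hy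
  refine le_of_mul_le_mul_left ?_ h5
  nlinarith
theorem hil {E : Type*} [NormedAddCommGroup E] [InnerProductSpace ℂ E] [CompleteSpace E]
    (T : E →L[ℂ] E) (hT : IsSelfAdjoint T) (h : ℂ → ℂ) (hd : Differentiable ℂ h) (p : ℂ → E)
    (hp : Differentiable ℂ p) (hpos : ∀ s ∈ Om, 0 < (h s).im) (c : ℝ) (hc : 0 < c)
    (hge : ∀ ε : ℝ, 0 < ε → ε ≤ 1 → c * ε ≤ (h (4 / 3 + ε * Complex.I)).im)
    (hre : (h (4 / 3)).im = 0) :
    ∃ (g : ℂ → E) (u : E), DifferentiableOn ℂ g Om ∧
      (∀ s ∈ Om, ∀ y, T y - h s • y = p s → y = g s) ∧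
      (∀ y, Tendsto (fun ε : ℝ => (ε : ℂ) * inner ℂ y (g (4 / 3 + ε * Complex.I)))
        (UU : Filter ℝ) (𝓝 (inner ℂ y u))) ∧
      T u = h (4 / 3) • u ∧ ((∀ s, inner ℂ u (p s) = 0) → u = 0) := by
  have hres : ∀ s ∈ Om, h s ∈ resolventSet ℂ T := by
    intro s hs
    by_contra hn
    have := congrArg Complex.im (hT.mem_spectrum_eq_re hn)
    rw [Complex.ofReal_im] at this
    exact (hpos s hs).ne' this
  let g : ℂ → E := fun s => -(resolvent T (h s) (p s))
  have hg : ∀ s ∈ Om, T (g s) - h s • g s = p s := by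
    intro s hs
    have h1 := congrArg (fun A : E →L[ℂ] E => A (p s)) (Ring.mul_inverse_cancel _ (hres s hs))
    simp only [ContinuousLinearMap.mul_apply, ContinuousLinearMap.sub_apply,
      Algebra.algebraMap_eq_smul_one, ContinuousLinearMap.smul_apply,
      ContinuousLinearMap.one_apply] at h1
    simp only [g, resolvent, Algebra.algebraMap_eq_smul_one, map_neg, smul_neg]
    rw [← h1]
    conv_lhs => rw [h1]
    abel
  have hgd : DifferentiableOn ℂ g Om := fun s hs =>
    (((spectrum.hasDerivAt_resolvent_const_left (hres s hs)).differentiableAt.comp s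
      (hd s)).clm_apply (hp s)).neg.differentiableWithinAt
  clear_value g
  have hps : Tendsto (fun ε : ℝ => p (4 / 3 + ε * Complex.I)) (UU : Filter ℝ) (𝓝 (p (4 / 3))) :=
    (hp.continuous.tendsto _).comp tendsto_UU
  have hhs : Tendsto (fun ε : ℝ => h (4 / 3 + ε * Complex.I)) (UU : Filter ℝ) (𝓝 (h (4 / 3))) :=
    (hd.continuous.tendsto _).comp tendsto_UU
  set v : ℝ → E := fun ε => (ε : ℂ) • g (4 / 3 + ε * Complex.I) with hv
  have hvb : ∀ᶠ ε in (UU : Filter ℝ), ‖v ε‖ ≤ (‖p (4 / 3)‖ + 1) / c := by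
    filter_upwards [eventually_mem_Om, hps.norm.eventually (eventually_le_nhds (lt_add_one _))]
      with ε hε hb
    have h1 := hil_lower hT (h (4 / 3 + ε * Complex.I)) (g (4 / 3 + ε * Complex.I))
    rw [hg _ hε.1] at h1
    have h2 := mul_le_mul_of_nonneg_right (hge ε hε.2.1 hε.2.2)
      (norm_nonneg (g (4 / 3 + ε * Complex.I)))
    rw [le_div_iff₀ hc, hv, norm_smul, Complex.norm_real, Real.norm_of_nonneg hε.2.1.le]
    linarith
  have hlim : ∀ y : E, ∃ L : ℂ, ‖L‖ ≤ (‖p (4 / 3)‖ + 1) / c * ‖y‖ ∧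
      Tendsto (fun ε => inner ℂ (v ε) y) (UU : Filter ℝ) (𝓝 L) := by
    intro y
    obtain ⟨L, hL, hL'⟩ := (isCompact_closedBall (0 : ℂ)
      ((‖p (4 / 3)‖ + 1) / c * ‖y‖)).ultrafilter_le_nhds (UU.map fun ε => inner ℂ (v ε) y) (by
        rw [Ultrafilter.coe_map, le_principal_iff, mem_map]
        filter_upwards [hvb] with ε hε
        exact mem_closedBall_zero_iff.2 ((norm_inner_le_norm _ _).trans
          (mul_le_mul_of_nonneg_right hε (norm_nonneg y))))
    exact ⟨L, mem_closedBall_zero_iff.1 hL, hL'⟩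
  choose L hLb hL using hlim
  let ℓ : E →ₗ[ℂ] ℂ :=
    { toFun := L
      map_add' := fun x y => tendsto_nhds_unique (hL (x + y))
        (by simpa only [inner_add_right] using (hL x).add (hL y))
      map_smul' := fun a x => tendsto_nhds_unique (hL (a • x))
        (by simpa only [inner_smul_right, smul_eq_mul, RingHom.id_apply]
          using (hL x).const_mul a) }
  let u : E := (InnerProductSpace.toDual ℂ E).symm (ℓ.mkContinuous _ hLb)
  have hu : ∀ y, Tendsto (fun ε : ℝ => inner ℂ y (v ε)) (UU : Filter ℝ) (𝓝 (inner ℂ y u)) := by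
    intro y
    have h1 : inner ℂ u y = L y := InnerProductSpace.toDual_symm_apply
    have h2 := (Complex.continuous_conj.tendsto _).comp (hL y)
    rw [← h1, inner_conj_symm] at h2
    exact h2.congr fun ε => inner_conj_symm _ _
  clear_value u
  have hsym : ∀ x y : E, inner ℂ (T x) y = inner ℂ x (T y) := hT.isSymmetric
  have hTu : T u = h (4 / 3) • u := by
    refine ext_inner_left ℂ fun y => ?_
    have h1 := (hu (T y)).sub (hhs.mul (hu y))
    have h2 : Tendsto (fun ε : ℝ => (ε : ℂ) * inner ℂ y (p (4 / 3 + ε * Complex.I)))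
        (UU : Filter ℝ) (𝓝 (((0 : ℝ) : ℂ) * inner ℂ y (p (4 / 3)))) :=
      ((Complex.continuous_ofReal.tendsto 0).mono_left (UU_le.trans nhdsWithin_le_nhds)).mul
        (tendsto_const_nhds.inner hps)
    have h3 := tendsto_nhds_unique_of_eventuallyEq h1 h2 (by
      filter_upwards [eventually_mem_Om] with ε hε
      rw [← hg _ hε.1, hsym, hv]
      simp only [map_smul, inner_smul_right, inner_sub_right]
      ring)
    rw [inner_smul_right, ← hsym, ← sub_eq_zero, h3]
    simp
  refine ⟨g, u, hgd, fun s hs y hy => ?_, fun y => ?_, hTu, fun h0 => ?_⟩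
  · have h1 := hil_lower hT (h s) (y - g s)
    have h2 : T (y - g s) - h s • (y - g s) = 0 := by
      rw [map_sub, smul_sub, sub_sub_sub_comm, hy, hg s hs, sub_self]
    rw [h2, norm_zero] at h1
    exact sub_eq_zero.1 (norm_le_zero_iff.1 (nonpos_of_mul_nonpos_right h1 (hpos s hs)))
  · simpa only [hv, inner_smul_right] using hu y
  · have h1 : ∀ s ∈ Om, inner ℂ u (g s) = 0 := by
      intro s hs
      have h2 := h0 s
      rw [← hg s hs, inner_sub_right, inner_smul_right, ← hsym, hTu, inner_smul_left,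
        ← sub_mul] at h2
      refine (mul_eq_zero.1 h2).resolve_left fun h3 => ?_
      have h4 := congrArg Complex.im h3
      simp only [Complex.sub_im, Complex.conj_im, hre, Complex.zero_im] at h4
      linarith [hpos s hs]
    have h2 := tendsto_nhds_unique_of_eventuallyEq (hu u) tendsto_const_nhds (g := fun _ => 0) (by
      filter_upwards [eventually_mem_Om] with ε hε
      simp only [hv, inner_smul_right, h1 _ hε.1, mul_zero])
    exact inner_self_eq_zero.1 h2

end

end Vale.Agent.P026
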