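import Vale.Agent.P026.Defs2
import Vale.Agent.P026.QuadB
import Vale.Agent.P026.Div

namespace Vale.Agent.P026

open Complex MeasureTheory Filter Topology
open scoped Classical ComplexConjugate Real MatrixGroups

noncomputable section

theorem norm_coefA {q0 : O} {ω : O → ℂ} (hω : Wt q0 ω) (n : O) : ‖mu n * ω n‖ ≤ 1 := by
  rw [norm_mul]
  exact mul_le_one₀ (norm_mu_le n) (norm_nonneg _) (hω.2 n)
theorem norm_coefB {q0 : O} {ω : O → ℂ} (hω : Wt q0 ω) {n : O} (hn : NN n) :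
    ‖mu n * gt 1 n * ω n‖ ≤ 1 := by
  rw [norm_mul, norm_mul, norm_gt hn le_rfl (by norm_num), mul_one]
  exact mul_le_one₀ (norm_mu_le n) (norm_nonneg _) (hω.2 n)
theorem B_mul (ω : O → ℂ) (X : ℝ) (w : ℂ) (h k : O) :
    B ω X w (h * k) = AA (fun n => mu n * gt 1 n * ω n * chi6 k n ^ 5) 5 X w h := by
  refine tsum_congr fun n => ?_
  split_ifs with hn
  · rw [chi6_mul_left _ _ hn.2.2]
    ring
  · rfl

theorem idn_gen {α β : O → ℂ} {k k' : ℕ} {m m' : O} {K : ℂ} (hK : ‖K‖ ≤ 1)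
    (h : ∀ n, NN n → α n * chi6 m n ^ k = K * (β n * chi6 m' n ^ k')) (X : ℝ) (w : ℂ) :
    ‖AA α k X w m‖ ≤ ‖AA β k' X w m'‖ := by
  have : AA α k X w m = K * AA β k' X w m' := by
    rw [AA, AA, ← tsum_mul_left]
    refine tsum_congr fun n => ?_
    split_ifs with hn
    · rw [h n hn, mul_assoc]
    · rw [mul_zero]
  rw [this, norm_mul]
  exact mul_le_of_le_one_left (norm_nonneg _) hK

theorem idn_kt (t : O × O × O) {n : O} (hn : OddO n) :
    chi6 (kt t) n ^ 5 = chi6 t.2.1 n * chi6 t.2.2 n ^ 2 * chi6 t.1 n ^ 6 := by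
  have h := fun x k hk => chi6_pow_add_six x hn.ne_zero (k := k) hk
  have e1 : ∀ x, chi6 x n ^ 25 = chi6 x n := fun x => by
    rw [h x 19 (by norm_num), h x 13 (by norm_num), h x 7 (by norm_num), h x 1 le_rfl, pow_one]
  have e2 : ∀ x, chi6 x n ^ 20 = chi6 x n ^ 2 := fun x => by
    rw [h x 14 (by norm_num), h x 8 (by norm_num), h x 2 (by norm_num)]
  have e3 : ∀ x, chi6 x n ^ 30 = chi6 x n ^ 6 := fun x => by
    rw [h x 24 (by norm_num), h x 18 (by norm_num), h x 12 (by norm_num), h x 6 (by norm_num)]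
  rw [kt, chi6_mul_left _ _ hn, chi6_mul_left _ _ hn, chi6_pow_left _ hn, chi6_pow_left _ hn,
    chi6_pow_left _ hn, mul_pow, mul_pow, ← pow_mul, ← pow_mul, ← pow_mul, e1, e2, e3]

theorem idn_zero {g e f n : O} (hn : n ≠ 0) (h : ¬ IsCoprime (g * e * f) n) :
    chi6 g n * chi6 e n * chi6 f n = 0 := by
  by_contra h0
  simp only [mul_eq_zero, not_or, chi6_eq_zero_iff hn, not_not] at h0
  exact h ((h0.1.1.mul_left h0.1.2).mul_left h0.2)

theorem idn_odd {n c : O} (hn : NN n) (h : (4 : O) ∣ n - c) : OddO c :=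
  hn.2.2.congr (Dvd.dvd.trans ⟨2, by norm_num⟩ h)

theorem idn_fwd {q0 : O} (hq : (4 : O) ∣ q0) {ω : O → ℂ} (hω : Wt q0 ω) {R : ℝ} {t : O × O × O}
    (ht : t ∈ trip R) (c : O) : ∃ ω' : O → ℂ, Wt q0 ω' ∧ ∀ (X : ℝ) (w : ℂ) (h : O),
      ‖AA (alp (fun n => mu n * ω n) 1 t c) 5 X w h‖ ≤ ‖B ω' X w (h * kt t)‖ := by
  obtain ⟨g, e, f⟩ := t
  obtain ⟨-, -, hf, hP, -⟩ := mem_trip.1 ht
  simp only at hf hP
  refine ⟨_, (hω.comp_mul (g * e * f)).mul ((wt_class 4 c).mono hq), fun X w h => ?_⟩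
  refine idn_gen (K := if OddO c then mu (g * e * f) * gt 1 f * eps c f else 0) ?_ (fun n hn => ?_) X w
  · split_ifs with hc
    · rw [norm_mul, norm_mul, norm_gt hf le_rfl (by norm_num), norm_eps hc hf.2.2, mul_one, mul_one]
      exact norm_mu_le _
    · simp
  · rw [chi6_mul_left _ _ hn.2.2, mul_pow, idn_kt _ hn.2.2]
    simp only [alp, nn_mul_iff hP.1 hn.1]
    by_cases h4 : (4 : O) ∣ n - c
    · by_cases hc : IsCoprime (g * e * f) n
      · rw [if_pos ⟨⟨hP, hn, hc⟩, h4⟩, if_pos (idn_odd hn h4), if_pos h4, mu_mul hc,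
          gt_mul hf hn hc.of_mul_left_right, chi6_flip hn.1 hf.1 hn.2.2 hf.2.2,
          eps_congr h4 (b := f) (b' := f) (by simp), chi6_pow_six hn.ne_zero,
          if_pos hc.of_mul_left_left.of_mul_left_left]
        ring
      · rw [if_neg fun hh => hc hh.1.2.2]
        linear_combination (-(if OddO c then mu (g * e * f) * gt 1 f * eps c f else 0) * mu n * gt 1 n *
          (ω (g * e * f * n) * if (4 : O) ∣ n - c then 1 else 0) * chi6 h n ^ 5 * chi6 f n *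
          chi6 g n ^ 5) * idn_zero hn.ne_zero hc
    · simp [h4]

theorem idn_rev {q0 : O} (hq : (4 : O) ∣ q0) {ω : O → ℂ} (hω : Wt q0 ω) {R : ℝ}
    (t : O × O × O) {t2 : O × O × O} (ht2 : t2 ∈ trip R) (c : O) :
    ∃ ω' : O → ℂ, Wt q0 ω' ∧ ∀ (X : ℝ) (w : ℂ) (m : O),
      ‖AA (alp (fun n => mu n * gt 1 n * ω n * chi6 (kt t) n ^ 5) 5 t2 c) 1 X w m‖ ≤
        ‖A ω' X w (m * (t2.2.1 * t2.1 ^ 2 * t.2.1 * t.2.2 ^ 2) * (t.1 * t2.2.2) ^ 6)‖ := by
  obtain ⟨g, e, f⟩ := t2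
  obtain ⟨-, -, hf, hP, -⟩ := mem_trip.1 ht2
  simp only at hf hP
  refine ⟨_, (hω.comp_mul (g * e * f)).mul ((wt_class 4 c).mono hq), fun X w m => ?_⟩
  refine idn_gen (K := if OddO c then mu (g * e * f) * gt 1 (g * e * f) * eps c (g * e * f) *
    chi6 (kt t) (g * e * f) ^ 5 * gt 5 f * eps c f ^ 5 * sym2 (-1) c else 0) ?_ (fun n hn => ?_) X w
  · split_ifs with hc
    · simp only [norm_mul, norm_pow, norm_gt hP le_rfl (by norm_num), norm_eps hc hf.2.2,
        norm_eps hc hP.2.2, norm_gt hf (show 1 ≤ 5 by norm_num) le_rfl, mul_one, one_pow]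
      exact mul_le_one₀ (mul_le_one₀ (norm_mu_le _) (by positivity)
        (pow_le_one₀ (norm_nonneg _) (norm_chi6_le _ _))) (norm_nonneg _) (norm_sym2_le _ _)
    · simp
  · simp only [alp, nn_mul_iff hP.1 hn.1, chi6_mul_left _ _ hn.2.2, chi6_pow_left _ hn.2.2]
    by_cases h4 : (4 : O) ∣ n - c
    · by_cases hc : IsCoprime (g * e * f) n
      · have a1 := mul_conj (gt 1 n)
        rw [normSq_eq_norm_sq, norm_gt hn le_rfl (by norm_num), one_pow, ofReal_one] at a1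
        have a2 := chi6_pow_six (x := e) hn.ne_zero
        have a3 := chi6_pow_six (x := f) hn.ne_zero
        rw [if_pos hc.of_mul_left_left.of_mul_left_right] at a2
        rw [if_pos hc.of_mul_left_right] at a3
        rw [if_pos ⟨⟨hP, hn, hc⟩, h4⟩, if_pos (idn_odd hn h4), if_pos h4, mu_mul hc,
          gt_mul hf hn hc.of_mul_left_right, gt_mul hP hn hc, chi6_flip hn.1 hf.1 hn.2.2 hf.2.2,
          chi6_flip hn.1 hP.1 hn.2.2 hP.2.2, eps_congr h4 (b := f) (b' := f) (by simp),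
          eps_congr h4 (b := g * e * f) (b' := g * e * f) (by simp), gt_five hn,
          sym2_neg_one_congr hn.2.2 h4, chi6_mul_right _ hP.ne_zero hn.ne_zero, mul_pow (chi6 (kt t) _),
          idn_kt _ hn.2.2, chi6_mul_left _ _ hn.2.2, chi6_mul_left _ _ hn.2.2]
        generalize chi6 e n = E at a2 ⊢
        generalize chi6 f n = F at a3 ⊢
        linear_combination (mu (g * e * f) * gt 1 (g * e * f) * eps c (g * e * f) *
          chi6 (kt t) (g * e * f) ^ 5 * gt 5 f * eps c f ^ 5 * sym2 (-1) c * mu n * ω (g * e * f * n) *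
          chi6 m n * chi6 g n ^ 2 * chi6 t.2.1 n * chi6 t.2.2 n ^ 2 * chi6 t.1 n ^ 6 * E * F ^ 6) *
          (E ^ 6 * F ^ 6 * a1 + F ^ 6 * a2 + a3)
      · rw [if_neg fun hh => hc hh.1.2.2]
        linear_combination (-(if OddO c then mu (g * e * f) * gt 1 (g * e * f) * eps c (g * e * f) *
          chi6 (kt t) (g * e * f) ^ 5 * gt 5 f * eps c f ^ 5 * sym2 (-1) c else 0) * mu n *
          (ω (g * e * f * n) * if (4 : O) ∣ n - c then 1 else 0) * chi6 m n * chi6 g n *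
          chi6 t.2.1 n * chi6 t.2.2 n ^ 2 * chi6 t.1 n ^ 6 * chi6 f n ^ 5) * idn_zero hn.ne_zero hc
    · simp [h4]

end

end Vale.Agent.P026
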