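import Vale.Agent.P026.GeoM
import Vale.Agent.P026.Hfun

namespace Vale.Agent.P026

open Complex MeasureTheory Filter Topology
open scoped Classical ComplexConjugate Real MatrixGroups

noncomputable section

theorem measurableSet_uball (w : Hs) : MeasurableSet {w' | uu w w' ≤ 2} :=
  measurableSet_le (continuous_uu.comp (Continuous.prodMk_right w)).measurable measurable_const

theorem rad_emb (g : SL(2, ℂ)) : MeasurableEmbedding (act g) :=
  (MeasurableEquiv.mk ⟨act g, act g⁻¹, fun w => by rw [← act_mul, inv_mul_cancel, act_one],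
    fun w => by rw [← act_mul, mul_inv_cancel, act_one]⟩ (continuous_act g).measurable
    (continuous_act g⁻¹).measurable).measurableEmbedding

theorem rad_mem (z : ℂ) (t : ℝ) :
    uu (0, 0) (z, t) ≤ 2 ↔ normSq z ≤ 2 * Real.exp t * (2 - Real.cosh t) := by
  have h := Real.exp_pos t
  have h4 : Real.exp t * Real.exp (-t) = 1 := by rw [← Real.exp_add]; simp
  simp only [uu, ht, Real.exp_zero, zero_sub, normSq_neg]
  rw [div_le_iff₀ (by positivity), Real.cosh_eq]
  constructor <;> intro e <;> nlinarith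

theorem rad_pre (g : SL(2, ℂ)) :
    act g ⁻¹' {w' | uu (act g (0, 0)) w' ≤ 2} = {w' | uu (0, 0) w' ≤ 2} := by
  ext w'
  simp only [Set.mem_preimage, Set.mem_ofPred_eq, uu_act]

theorem rad_compact (w : Hs) : IsCompact {w' | uu w w' ≤ 2} := by
  have h0 : IsCompact {w' : Hs | uu (0, 0) w' ≤ 2} := by
    refine ((isCompact_closedBall (0 : ℂ) 4).prod (isCompact_Icc (a := (-2 : ℝ)) (b := 2))).of_isClosed_subset
      (isClosed_le (continuous_uu.comp (Continuous.prodMk_right _)) continuous_const) ?_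
    rintro ⟨z, t⟩ h
    have h1 := (rad_mem z t).1 h
    have h2 := normSq_nonneg z
    have h3 := Real.exp_pos t
    have h4 := Real.exp_pos (-t)
    have h5 := Real.cosh_eq t
    have h6 : 0 ≤ 2 - Real.cosh t := nonneg_of_mul_nonneg_right (h2.trans h1) (by positivity)
    have h7 := Real.one_le_cosh t
    have h8 : 4 < Real.exp 2 := by
      have b := Real.exp_one_gt_d9
      rw [show (2 : ℝ) = 1 + 1 by norm_num, Real.exp_add]
      nlinarith
    refine ⟨mem_closedBall_zero_iff.2 (abs_le_of_sq_le_sq' ?_ (by norm_num)).2,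
      neg_le.1 (Real.exp_le_exp.1 (by linarith)), Real.exp_le_exp.1 (by linarith)⟩
    rw [← normSq_eq_norm_sq]
    nlinarith
  obtain ⟨g, rfl, -⟩ := exists_upper w
  have := h0.image (continuous_act g)
  rwa [← rad_pre g, Set.image_preimage_eq _ fun w => ⟨act g⁻¹ w, by
    rw [← act_mul, mul_inv_cancel, act_one]⟩] at this

theorem uball_vol : ∃ V : ℝ, ∀ w : Hs, muH {w' | uu w w' ≤ 2} = ENNReal.ofReal V := by
  refine ⟨(muH {w' | uu (0, 0) w' ≤ 2}).toReal, fun w => ?_⟩
  obtain ⟨g, rfl, -⟩ := exists_upper w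
  rw [ENNReal.ofReal_toReal (rad_compact _).measure_lt_top.ne, ← rad_pre g,
    (measurePreserving_act g).measure_preimage (measurableSet_uball _).nullMeasurableSet]

theorem rad_disc (c : ℝ) : volume.real {z : ℂ | normSq z ≤ c} = π * max c 0 := by
  rcases lt_or_ge c 0 with h | h
  · rw [max_eq_right h.le, show {z : ℂ | normSq z ≤ c} = ∅ from
      Set.eq_empty_of_forall_notMem fun z e => by
        have := normSq_nonneg z; simp only [Set.mem_ofPred_eq] at e; linarith]
    simp
  · rw [max_eq_left h, show {z : ℂ | normSq z ≤ c} = Metric.closedBall 0 √c by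
      ext z; rw [mem_closedBall_zero_iff, Real.le_sqrt (norm_nonneg _) h, ← normSq_eq_norm_sq]; rfl,
      Measure.real, Complex.volume_closedBall]
    simp [Real.sq_sqrt h, mul_comm]

theorem rad_origin {H : ℝ → ℂ} (hH : Measurable H) {Bd : ℝ} (hb : ∀ q, ‖H q‖ ≤ Bd) :
    ∫ w' in {w' : Hs | uu (0, 0) w' ≤ 2}, H w'.2 ∂muH =
      2 * π * ∫ τ : ℝ, H τ * ((Real.exp (-τ) * max (2 - Real.cosh τ) 0 : ℝ) : ℂ) := by
  have hi : IntegrableOn (fun w' : Hs => H w'.2) {w' : Hs | uu (0, 0) w' ≤ 2} muH :=
    Measure.integrableOn_of_bounded (rad_compact _).measure_lt_top.ne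
      (hH.comp measurable_snd).aestronglyMeasurable (Eventually.of_forall fun w => hb _)
  rw [← integral_indicator (measurableSet_uball _),
    integral_muH ((integrable_indicator_iff (measurableSet_uball _)).2 hi), ← integral_const_mul]
  congr 1
  ext t
  have e : (fun z : ℂ => {w' : Hs | uu (0, 0) w' ≤ 2}.indicator (fun w' => H w'.2) (z, t)) =
      {z : ℂ | normSq z ≤ 2 * Real.exp t * (2 - Real.cosh t)}.indicator fun _ => H t := by
    ext z
    simp only [Set.indicator, Set.mem_ofPred_eq, rad_mem]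
  have h4 : Real.exp (-2 * t) * Real.exp t = Real.exp (-t) := by rw [← Real.exp_add]; ring_nf
  rw [e, integral_indicator_const _ (measurableSet_le (by fun_prop) measurable_const), rad_disc,
    ← mul_zero (2 * Real.exp t), ← mul_max_of_nonneg _ _ (by positivity), ← h4, real_smul]
  push_cast
  ring_nf

theorem Lop_radial {G : ℝ → ℂ} (hG : Measurable G) {Bd : ℝ} (hb : ∀ q, ‖G q‖ ≤ Bd) {x : O × O}
    (hx : IsCoprime x.1 x.2) (w : Hs) :
    Lop (fun w' => G (Qr w' x)) w = LL G (Qr w x) := by
  obtain ⟨γ, rfl⟩ := exists_row hx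
  obtain ⟨g, h1, h2⟩ := exists_upper (actO γ w)
  set h := (Matrix.SpecialLinearGroup.map toC γ)⁻¹ * g with hh
  have e1 : ∀ w', actO γ (act h w') = act g w' := fun w' => by
    rw [actO, ← act_mul, hh, mul_inv_cancel_left]
  have e2 : act h (0, 0) = w := by
    rw [hh, act_mul, h1, actO, ← act_mul, inv_mul_cancel, act_one]
  have e3 : ∀ w', Qr (act h w') (row γ) = Qr w (row γ) * Real.exp (-w'.2) := fun w' => by
    rw [← inv_inv (Qr (act h w') _), ← ht_actO, e1, h2, ht_actO, mul_inv, inv_inv, Real.exp_neg, ht]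
  rw [Lop, ← (measurePreserving_act h).setIntegral_preimage_emb (rad_emb h)]
  simp only [e3]
  rw [← e2, rad_pre, e2]
  exact rad_origin (H := fun t => G (Qr w (row γ) * Real.exp (-t))) (hG.comp (by fun_prop))
    fun _ => hb _

end

end Vale.Agent.P026
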