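import Vale.Agent.P026.Cnt
import Vale.Agent.P026.Rad
import Vale.Agent.P026.Hfun

namespace Vale.Agent.P026

open Complex MeasureTheory Filter Topology
open scoped Classical ComplexConjugate Real MatrixGroups

noncomputable section

theorem Inc_actO (Φ : O × O → ℂ) (G : ℝ → ℂ) (σ : SLO) (w : Hs) :
    Inc Φ G (actO σ w) = Inc (tw Φ σ) G w := by
  unfold Inc
  rw [← (Equiv.ofBijective _ (rmul_bijective σ)).tsum_eq fun x => tw Φ σ x * G (Qr w x)]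
  refine tsum_congr fun x => ?_
  simp only [Equiv.ofBijective_apply, tw, ← rmul_mul, mul_inv_cancel, rmul_one, Qr_actO]

theorem aut_Inc {m : O} {κ : SLO → ℂ} (hκ : MulS m κ) {Φ : O × O → ℂ} (hΦ : Equi m κ Φ)
    (G : ℝ → ℂ) : Aut m κ (Inc Φ G) := by
  intro γ hγ w
  rw [Inc_actO, Inc, Inc, ← tsum_mul_left]
  refine tsum_congr fun x => ?_
  rw [tw, hΦ.eqv _ (inv_mem hγ), hκ.inv hγ, mul_assoc]

theorem measurable_Inc (Φ : O × O → ℂ) {G : ℝ → ℂ} (hG : Measurable G)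
    (hs : ∀ w, Summable (fun x : O × O => Φ x * G (Qr w x))) : Measurable (Inc Φ G) :=
  measurable_of_tendsto_metrizable' (f := fun (S : Finset (O × O)) w => ∑ x ∈ S, Φ x * G (Qr w x))
    atTop (fun S => Finset.measurable_sum _ fun x _ =>
      (hG.comp (continuous_Qr x).measurable).const_mul _)
    (tendsto_pi_nhds.2 fun w => (hs w).hasSum)

theorem incp_supp {Φ : O × O → ℂ} (hΦ : ∀ x, ¬ IsCoprime x.1 x.2 → Φ x = 0) {G : ℝ → ℂ} {q1 : ℝ}
    (hs : ∀ q, q1 < q → G q = 0) {w : Hs}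
    (h : {x : O × O | IsCoprime x.1 x.2 ∧ Qr w x ≤ max q1 0}.Finite) :
    ∀ x ∉ h.toFinset, Φ x * G (Qr w x) = 0 := by
  intro x hx
  by_cases c : IsCoprime x.1 x.2
  · rw [hs _ (by simpa [c] using (by simpa [c] using hx : q1 < Qr w x ∧ 0 < Qr w x).1), mul_zero]
  · rw [hΦ x c, zero_mul]

theorem Inc_band (q1 : ℝ) : ∃ C : ℝ, 0 < C ∧ ∀ (Φ : O × O → ℂ) (G : ℝ → ℂ) (Bd : ℝ),
    (∀ x, ‖Φ x‖ ≤ 1) → (∀ x, ¬ IsCoprime x.1 x.2 → Φ x = 0) → (∀ q, 0 < q → ‖G q‖ ≤ Bd) →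
    (∀ q, q1 < q → G q = 0) → ∀ w, Summable (fun x : O × O => Φ x * G (Qr w x)) ∧
      ‖Inc Φ G w‖ ≤ C * Bd := by
  obtain ⟨C, hC, h⟩ := count_prim
  refine ⟨C * (1 + max q1 0 ^ 2), by positivity, fun Φ G Bd hb hΦ hG hs w => ?_⟩
  obtain ⟨hf, hc⟩ := h w _ (le_max_right q1 0)
  have h0 : 0 ≤ Bd := (norm_nonneg _).trans (hG 1 one_pos)
  refine ⟨summable_of_ne_finset_zero (incp_supp hΦ hs hf), ?_⟩
  rw [Inc, tsum_eq_sum (incp_supp hΦ hs hf)]
  refine (norm_sum_le _ _).trans ((Finset.sum_le_card_nsmul _ _ Bd fun x hx => ?_).trans ?_)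
  · rw [norm_mul]
    exact (mul_le_of_le_one_left (norm_nonneg _) (hb x)).trans
      (hG _ (Qr_pos w (hf.mem_toFinset.1 hx).1))
  · rw [nsmul_eq_mul, ← Set.ncard_eq_toFinset_card _ hf]
    exact mul_le_mul_of_nonneg_right hc h0

theorem differentiable_Inc_band {Φ : O × O → ℂ} (hΦ : ∀ x, ¬ IsCoprime x.1 x.2 → Φ x = 0)
    {G : ℂ → ℝ → ℂ} (hd : ∀ q, 0 < q → Differentiable ℂ (fun s => G s q)) {q1 : ℝ}
    (hs : ∀ s q, q1 < q → G s q = 0) (w : Hs) :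
    Differentiable ℂ (fun s => Inc Φ (G s) w) := by
  obtain ⟨C, -, h⟩ := count_prim
  obtain ⟨hf, -⟩ := h w _ (le_max_right q1 0)
  rw [show (fun s => Inc Φ (G s) w) = fun s => ∑ x ∈ hf.toFinset, Φ x * G s (Qr w x) from
    funext fun s => tsum_eq_sum (incp_supp hΦ (hs s) hf)]
  exact Differentiable.fun_sum fun x hx =>
    (hd _ (Qr_pos w (hf.mem_toFinset.1 hx).1)).const_mul _

theorem incp_le {Φ : O × O → ℂ} (hb : ∀ x, ‖Φ x‖ ≤ 1) (hΦ : ∀ x, ¬ IsCoprime x.1 x.2 → Φ x = 0)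
    {s : ℂ} (hs : 3 < s.re) (w : Hs) (x : O × O) : ‖Φ x * Gs s (Qr w x)‖ ≤
      if IsCoprime x.1 x.2 ∧ 1 ≤ Qr w x then Qr w x ^ (-3 : ℝ) else 0 := by
  by_cases c : IsCoprime x.1 x.2
  · rw [norm_mul, norm_Gs]
    by_cases d : 1 ≤ Qr w x
    · simp only [c, d, if_true, and_self]
      exact (mul_le_of_le_one_left (by positivity) (hb x)).trans
        (Real.rpow_le_rpow_of_exponent_le d (by linarith))
    · simp [d]
  · simp [c, hΦ x c]

theorem Inc_Gs : ∃ C : ℝ, 0 < C ∧ ∀ (Φ : O × O → ℂ) (s : ℂ),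
    (∀ x, ‖Φ x‖ ≤ 1) → (∀ x, ¬ IsCoprime x.1 x.2 → Φ x = 0) → 3 < s.re →
    ∀ w, Summable (fun x : O × O => Φ x * Gs s (Qr w x)) ∧ ‖Inc Φ (Gs s) w‖ ≤ C := by
  obtain ⟨C, hC, h⟩ := sum_Q_rpow
  exact ⟨C, hC, fun Φ s hb hΦ hs w => ⟨(h w).1.of_norm_bounded (incp_le hb hΦ hs w),
    (tsum_of_norm_bounded (h w).1.hasSum (incp_le hb hΦ hs w)).trans (h w).2⟩⟩

theorem Lop_Inc {Φ : O × O → ℂ} (hb : ∀ x, ‖Φ x‖ ≤ 1) (hΦ : ∀ x, ¬ IsCoprime x.1 x.2 → Φ x = 0)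
    {s : ℂ} (hs : 3 < s.re) (w : Hs) :
    Lop (Inc Φ (Gs s)) w - hh s * Inc Φ (Gs s) w = Inc Φ (pis s) w := by
  obtain ⟨C, hC, h⟩ := sum_Q_rpow
  obtain ⟨V, hV⟩ := uball_vol
  set μ := muH.restrict {w' | uu w w' ≤ 2} with hμ
  haveI : IsFiniteMeasure μ := isFiniteMeasure_restrict.2 (by rw [hV]; exact ENNReal.ofReal_ne_top)
  have sm : ∀ w', Summable fun x : O × O => ‖Φ x * Gs s (Qr w' x)‖ := fun w' =>
    (h w').1.of_nonneg_of_le (fun _ => norm_nonneg _) (incp_le hb hΦ hs w')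
  have bd : ∀ w' (S : Finset (O × O)), ∑ x ∈ S, ‖Φ x * Gs s (Qr w' x)‖ ≤ C := fun w' S =>
    ((sm w').sum_le_tsum S fun _ _ => norm_nonneg _).trans
      (((sm w').tsum_le_tsum (incp_le hb hΦ hs w') (h w').1).trans (h w').2)
  have it : ∀ x : O × O, Integrable (fun w' => Φ x * Gs s (Qr w' x)) μ := fun x =>
    .of_bound (((measurable_Gs s).comp (continuous_Qr x).measurable).const_mul
      _).aestronglyMeasurable C (.of_forall fun w' => by simpa using bd w' {x})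
  have hs1 := hasSum_integral_of_summable_integral_norm it
    (summable_of_sum_le (c := ∫ _, C ∂μ) (fun _ => integral_nonneg fun _ => norm_nonneg _)
      fun S => by
        rw [← integral_finset_sum _ fun x _ => (it x).norm]
        exact integral_mono (integrable_finset_sum _ fun x _ => (it x).norm) (integrable_const _)
          fun w' => bd w' S)
  have g1 : ∀ q, ‖Gs s q‖ ≤ 1 := fun q => by
    rw [norm_Gs]
    split_ifs with c
    · exact Real.rpow_le_one_of_one_le_of_nonpos c (by linarith)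
    · exact zero_le_one
  have e : ∀ x : O × O, ∫ w', Φ x * Gs s (Qr w' x) ∂μ = Φ x * LL (Gs s) (Qr w x) := fun x => by
    by_cases c : IsCoprime x.1 x.2
    · rw [integral_const_mul, ← Lop_radial (measurable_Gs s) g1 c]; rfl
    · simp [hΦ x c]
  simp only [e] at hs1
  have hs2 := hs1.sub ((sm w).of_norm.hasSum.mul_left (hh s))
  refine (hs2.tsum_eq.symm.trans (tsum_congr fun x => ?_))
  rw [pis]; ring

end

end Vale.Agent.P026
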