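import Vale.Agent.P026.Gau

namespace Vale.Agent.P026

open Complex MeasureTheory Filter Topology
open scoped Classical ComplexConjugate Real MatrixGroups

noncomputable section

theorem jac_mk_eq {q x y : O} :
    Ideal.Quotient.mk (Ideal.span {q}) x = Ideal.Quotient.mk _ y ↔ q ∣ x - y := by
  rw [Ideal.Quotient.eq, Ideal.mem_span_singleton]

theorem jac_out (q x : O) : q ∣ (Ideal.Quotient.mk (Ideal.span {q}) x).out - x :=
  jac_mk_eq.1 (Ideal.Quotient.mk_out _)

theorem jac_unit {q x : O} : IsUnit (Ideal.Quotient.mk (Ideal.span {q}) x) ↔ IsCoprime x q := by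
  constructor
  · intro h
    obtain ⟨y, hy⟩ := h.exists_right_inv
    obtain ⟨y, rfl⟩ := Ideal.Quotient.mk_surjective y
    rw [← map_mul, ← map_one (Ideal.Quotient.mk _), jac_mk_eq] at hy
    obtain ⟨c, hc⟩ := hy
    exact ⟨y, -c, by linear_combination hc⟩
  · rintro ⟨a, b, h⟩
    refine IsUnit.of_mul_eq_one (Ideal.Quotient.mk _ a) ?_
    rw [← map_mul, ← map_one (Ideal.Quotient.mk _), jac_mk_eq]
    exact ⟨-b, by linear_combination h⟩

theorem jac_max {p : O} (hp : Prime p) : (Ideal.span {p}).IsMaximal :=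
  PrincipalIdealRing.isMaximal_of_irreducible hp.irreducible

/-- a multiplicative character of the quotient from a periodic multiplicative function -/
theorem jac_mulChar {R : Type} [CommRing R] {q : O} (f : O → R) (h0 : ∀ x y, q ∣ x - y → f x = f y)
    (h1 : f 1 = 1) (h2 : ∀ x y, f (x * y) = f x * f y) (h3 : ∀ x, ¬ IsCoprime x q → f x = 0) :
    ∃ χ : MulChar (O ⧸ Ideal.span {q}) R, ∀ x, χ (Ideal.Quotient.mk _ x) = f x := by
  have e : ∀ x, f (Ideal.Quotient.mk (Ideal.span {q}) x).out = f x := fun x => h0 _ _ (jac_out q x)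
  refine ⟨{ toFun := fun y => f y.out
            map_one' := by rw [← map_one (Ideal.Quotient.mk _), e, h1]
            map_mul' := fun x y => ?_
            map_nonunit' := fun x hx => ?_ }, e⟩
  · obtain ⟨x, rfl⟩ := Ideal.Quotient.mk_surjective x
    obtain ⟨y, rfl⟩ := Ideal.Quotient.mk_surjective y
    rw [← map_mul, e, e, e, h2]
  · obtain ⟨x, rfl⟩ := Ideal.Quotient.mk_surjective x
    exact (e x).trans (h3 x fun h => hx (jac_unit.2 h))

theorem jac_psi {q : O} (hq : q ≠ 0) : ∃ ψ : AddChar (O ⧸ Ideal.span {q}) ℂ,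
    (∀ x, ψ (Ideal.Quotient.mk _ x) = psi (toC x / toC q)) ∧ (¬ IsUnit q → ψ ≠ 1) := by
  have e : ∀ x, psi (toC (Ideal.Quotient.mk (Ideal.span {q}) x).out / toC q) = psi (toC x / toC q) :=
    fun x => psi_congr hq (jac_out q x)
  refine ⟨{ toFun := fun y => psi (toC y.out / toC q)
            map_zero_eq_one' := by
              rw [← map_zero (Ideal.Quotient.mk _), e, map_zero, zero_div, psi_zero]
            map_add_eq_mul' := fun x y => ?_ }, e, fun hu h => ?_⟩
  · obtain ⟨x, rfl⟩ := Ideal.Quotient.mk_surjective x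
    obtain ⟨y, rfl⟩ := Ideal.Quotient.mk_surjective y
    rw [← map_add, e, e, e, map_add, add_div, psi_add]
  · refine hu (isUnit_of_dvd_one ((psi_div_eq_one_iff hq 1).1 fun x => ?_))
    rw [map_one, one_mul, ← e x]
    exact DFunLike.congr_fun h (Ideal.Quotient.mk _ x)

theorem jac_lift (x n : O) : ∃ ζ : O, toC ζ = sym3 x n := by
  rcases sym3_cases x n with h | h | h | h <;> rw [h]
  · exact ⟨0, map_zero _⟩
  · exact ⟨1, map_one _⟩
  · exact ⟨om, toC_om⟩
  · exact ⟨om ^ 2, by rw [map_pow, toC_om]⟩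

theorem jac_order {R : Type} [CommRing R] {p : O} (hp : Prime p) (hP : Prim p) (f : O →+* R)
    (hf : ∀ ζ : O, ζ ^ 3 = 1 → f ζ = 1 → ζ = 1) {χ : MulChar (O ⧸ Ideal.span {p}) O}
    (hχ : ∀ x, toC (χ (Ideal.Quotient.mk _ x)) = sym3 x p) : orderOf (χ.ringHomComp f) = 3 := by
  have h3 : ∀ x, IsCoprime x p → χ (Ideal.Quotient.mk _ x) ^ 3 = 1 := fun x hx =>
    toC_inj (by rw [map_pow, hχ, sym3_cube hx, map_one])
  haveI : Fact (Nat.Prime 3) := ⟨Nat.prime_three⟩
  refine orderOf_eq_prime (MulChar.ext fun a => ?_) fun h => ?_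
  · obtain ⟨x, hx⟩ := Ideal.Quotient.mk_surjective (a : O ⧸ Ideal.span {p})
    rw [MulChar.pow_apply_coe, MulChar.one_apply_coe, MulChar.ringHomComp_apply, ← map_pow, ← hx,
      h3 x (jac_unit.1 (hx ▸ a.isUnit)), map_one]
  · obtain ⟨x, hx, hx'⟩ := exists_sym3_ne hp hP
    have hc : IsCoprime x p := ((hp.irreducible.coprime_iff_not_dvd).2 hx).symm
    have := DFunLike.congr_fun h (Ideal.Quotient.mk _ x)
    rw [MulChar.ringHomComp_apply, MulChar.one_apply (jac_unit.2 hc)] at this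
    exact hx' (by rw [← hχ, hf _ (h3 x hc) this, map_one])

theorem jac_sum0 {F : Type} [Field F] [Fintype F] {k : ℕ} (hk : 2 * k < Fintype.card F - 1) :
    ∑ y : F, y ^ k * (1 - y) ^ k = 0 := by
  have : ∀ y : F, y ^ k * (1 - y) ^ k =
      ∑ m ∈ Finset.range (k + 1), ((-1) ^ m * (k.choose m : F)) * y ^ (k + m) := by
    intro y
    rw [sub_eq_neg_add, add_pow, Finset.mul_sum]
    refine Finset.sum_congr rfl fun m _ => ?_
    rw [neg_pow, pow_add]
    ring
  simp only [this]
  rw [Finset.sum_comm]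
  refine Finset.sum_eq_zero fun m hm => ?_
  rw [← Finset.mul_sum, FiniteField.sum_pow_lt_card_sub_one F _
    (by have := Finset.mem_range.1 hm; omega), mul_zero]

theorem jac_card {q : O} (hq : q ≠ 0) [Fintype (O ⧸ Ideal.span {q})] :
    Fintype.card (O ⧸ Ideal.span {q}) = Nm q := by
  rw [← Nat.card_eq_fintype_card, natCard_quot hq]

theorem jac_four {p : O} (hp : Prime p) (hP : Prim p) : 4 ≤ Nm p := by
  have := four_le_N_of_prime hp hP
  unfold N at this
  exact_mod_cast this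

theorem jac_prim : IsPrimitiveRoot om 3 := by
  haveI : Fact (Nat.Prime 3) := ⟨Nat.prime_three⟩
  have : orderOf om = 3 := orderOf_eq_prime om_cube (by decide)
  exact this ▸ IsPrimitiveRoot.orderOf om

theorem jac_exists {p : O} (hp : Prime p) (hP : Prim p) :
    ∃ χ : MulChar (O ⧸ Ideal.span {p}) O,
      (∀ x, toC (χ (Ideal.Quotient.mk _ x)) = sym3 x p) ∧ orderOf χ = 3 ∧
      ∑ x ∈ rs p, χ (Ideal.Quotient.mk _ x) * χ (Ideal.Quotient.mk _ (1 - x)) = -p := by
  choose z hz using fun x => jac_lift x p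
  obtain ⟨χ, hχ⟩ := jac_mulChar (q := p) z
    (fun x y h => toC_inj (by rw [hz, hz, sym3_congr h]))
    (toC_inj (by rw [hz, sym3_one_left, map_one]))
    (fun x y => toC_inj (by rw [map_mul, hz, hz, hz, sym3_mul_left]))
    (fun x hx => toC_inj (by rw [hz, map_zero, (sym3_eq_zero_iff hp.ne_zero).2 hx]))
  have hχ' : ∀ x, toC (χ (Ideal.Quotient.mk _ x)) = sym3 x p := fun x => by rw [hχ, hz]
  have ho : orderOf χ = 3 := jac_order hp hP (RingHom.id O) (fun _ _ h => h) hχ'
  have hoC : orderOf (χ.ringHomComp toC) = 3 :=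
    jac_order hp hP toC (fun _ _ h => toC_inj (by rw [h, map_one])) hχ'
  refine ⟨χ, hχ', ho, ?_⟩
  haveI := jac_max hp
  letI := Ideal.Quotient.field (Ideal.span {p})
  haveI := finite_quot hp.ne_zero
  letI := Fintype.ofFinite (O ⧸ Ideal.span {p})
  have hc := jac_card hp.ne_zero
  have h4 := jac_four hp hP
  have h3 := hP.Nm_mod
  have e1 : ∑ x ∈ rs p, χ (Ideal.Quotient.mk _ x) * χ (Ideal.Quotient.mk _ (1 - x)) =
      jacobiSum χ χ := by
    rw [jacobiSum, ← sum_rs_eq_sum_quot hp.ne_zero (fun y => χ y * χ (1 - y))]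
    simp only [map_sub, map_one]
  rw [e1]
  have d1 : p ∣ jacobiSum χ χ := by
    rw [← Ideal.mem_span_singleton, ← Ideal.Quotient.eq_zero_iff_mem, jacobiSum, map_sum]
    have : ∀ y : O ⧸ Ideal.span {p}, Ideal.Quotient.mk (Ideal.span {p}) (χ y) =
        y ^ ((Nm p - 1) / 3) := by
      intro y
      obtain ⟨x, rfl⟩ := Ideal.Quotient.mk_surjective y
      obtain ⟨ζ, h1, h2⟩ := sym3_spec hp hP x
      rw [toC_inj ((hχ' x).trans h1.symm), ← map_pow]
      exact (jac_mk_eq.2 h2).symm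
    simp only [map_mul, this]
    exact jac_sum0 (by omega)
  have d2 : Nm (jacobiSum χ χ) = Nm p := by
    set X := χ.ringHomComp toC with hX
    have n1 : X ≠ 1 := fun h => by simp [h] at hoC
    have n2 : X * X ≠ 1 := fun h => by
      have := orderOf_dvd_of_pow_eq_one ((pow_two X).trans h)
      rw [hoC] at this
      omega
    have := jacobiSum_mul_jacobiSum_inv (F' := ℂ)
      (by rw [ringChar.eq_zero]; exact (CharP.ringChar_ne_zero_of_finite _).symm) n1 n1 n2
    have e2 : jacobiSum X⁻¹ X⁻¹ = conj (jacobiSum X X) := by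
      simp only [jacobiSum, map_sum, map_mul, ← MulChar.star_apply']
      rfl
    rw [e2, hX, jacobiSum_ringHomComp, mul_conj, normSq_toC, hc, N] at this
    exact_mod_cast this
  obtain ⟨w, -, hw⟩ := exists_jacobiSum_eq_neg_one_add (n := 3) (by norm_num) (χ := χ) (ψ := χ)
    (ho ▸ pow_orderOf_eq_one χ) (ho ▸ pow_orderOf_eq_one χ) (by omega) jac_prim
  have d3 : Prim (-jacobiSum χ χ) := ⟨w * om, by rw [hw]; linear_combination (-w) * om_sq⟩
  obtain ⟨c, hc'⟩ := d1
  have hu : IsUnit c := by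
    rw [hc', Nm_mul] at d2
    exact isUnit_iff_Nm.2 (Nat.eq_of_mul_eq_mul_left (by omega : 0 < Nm p) (by rw [d2, mul_one]))
  have ha : Associated p (-jacobiSum χ χ) := by
    rw [hc', ← mul_neg]
    exact associated_mul_unit_right _ _ hu.neg
  exact neg_eq_iff_eq_neg.1 (hP.eq_of_associated d3 ha).symm

theorem g3_cube {p : O} (hp : Prime p) (hP : Prim p) :
    g3 1 p ^ 3 = -((N p : ℝ) : ℂ) * toC p := by
  obtain ⟨χ, hχ, -, hJ⟩ := jac_exists hp hP
  obtain ⟨ψ, hψ, hψ1⟩ := jac_psi hp.ne_zero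
  have hoC : orderOf (χ.ringHomComp toC) = 3 :=
    jac_order hp hP toC (fun _ _ h => toC_inj (by rw [h, map_one])) hχ
  haveI := jac_max hp
  letI := Ideal.Quotient.field (Ideal.span {p})
  haveI := finite_quot hp.ne_zero
  letI := Fintype.ofFinite (O ⧸ Ideal.span {p})
  have e1 : jacobiSum χ χ = -p := by
    rw [jacobiSum, ← sum_rs_eq_sum_quot hp.ne_zero (fun y => χ y * χ (1 - y)), ← hJ]
    simp only [map_sub, map_one]
  have e2 : g3 1 p = gaussSum (χ.ringHomComp toC) ψ := by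
    rw [gaussSum, ← sum_rs_eq_sum_quot hp.ne_zero (fun y => χ.ringHomComp toC y * ψ y), g3]
    simp only [MulChar.ringHomComp_apply, hχ, hψ, map_one, one_mul]
  have := gaussSum_pow_eq_prod_jacobiSum (χ := χ.ringHomComp toC) (ψ := ψ) (by omega)
    (AddChar.IsPrimitive.of_ne_one (hψ1 hp.not_unit))
  have e3 : χ.ringHomComp toC (-1) = 1 := by
    have := hχ (-1)
    rwa [map_neg, map_one, sym3_neg_one] at this
  rw [hoC, e3, jac_card hp.ne_zero] at this
  rw [e2, this]
  simp [jacobiSum_ringHomComp, e1, N]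

end

end Vale.Agent.P026
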