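import Vale.Agent.P026.Defs

namespace Vale.Agent.P026

open Complex MeasureTheory Filter Topology
open scoped Classical ComplexConjugate Real MatrixGroups

noncomputable section

theorem schur_sq {X : Type*} [MeasurableSpace X] (ν : Measure X) [SigmaFinite ν]
    {k : X → X → ENNReal} (hk : Measurable (Function.uncurry k)) (hs : ∀ x y, k y x = k x y)
    {C : ENNReal} (hC : ∀ x, ∫⁻ y, k x y ∂ν ≤ C) {f : X → ENNReal} (hf : Measurable f) :
    ∫⁻ x, (∫⁻ y, k x y * f y ∂ν) ^ (2 : ℝ) ∂ν ≤ C ^ (2 : ℝ) * ∫⁻ y, f y ^ (2 : ℝ) ∂ν := by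
  have hkx : ∀ x, Measurable (k x) := fun x => hk.comp (measurable_const.prodMk measurable_id)
  have hf2 : Measurable fun y => f y ^ (2 : ℝ) := hf.pow_const _
  have hk2 : Measurable (Function.uncurry fun x y => k x y * f y ^ (2 : ℝ)) :=
    hk.mul (hf2.comp measurable_snd)
  have h1 : ∀ x, (∫⁻ y, k x y * f y ∂ν) ^ (2 : ℝ) ≤ C * ∫⁻ y, k x y * f y ^ (2 : ℝ) ∂ν := by
    intro x
    have h2 := ENNReal.lintegral_mul_norm_pow_le (μ := ν) (hkx x).aemeasurable
      ((hkx x).mul hf2).aemeasurable (p := 1 / 2) (q := 1 / 2) (by norm_num) (by norm_num)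
      (by norm_num)
    have h3 : ∀ y, k x y ^ (1 / 2 : ℝ) * (k x y * f y ^ (2 : ℝ)) ^ (1 / 2 : ℝ) = k x y * f y := by
      intro y
      rw [ENNReal.mul_rpow_of_nonneg _ _ (by norm_num), ← mul_assoc,
        ← ENNReal.rpow_add_of_nonneg _ _ (by norm_num) (by norm_num), ← ENNReal.rpow_mul]
      norm_num
    simp only [Pi.mul_apply, h3] at h2
    refine (ENNReal.rpow_le_rpow h2 (by norm_num)).trans ?_
    rw [ENNReal.mul_rpow_of_nonneg _ _ (by norm_num), ← ENNReal.rpow_mul, ← ENNReal.rpow_mul]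
    norm_num
    exact mul_le_mul_left (hC x) _
  calc _ ≤ ∫⁻ x, C * ∫⁻ y, k x y * f y ^ (2 : ℝ) ∂ν ∂ν := lintegral_mono h1
    _ = C * ∫⁻ y, ∫⁻ x, k x y * f y ^ (2 : ℝ) ∂ν ∂ν := by
      rw [lintegral_const_mul _ hk2.lintegral_prod_right, lintegral_lintegral_swap hk2.aemeasurable]
    _ ≤ C * ∫⁻ y, C * f y ^ (2 : ℝ) ∂ν := by
      refine mul_le_mul_right (lintegral_mono fun y => ?_) _
      simp only [hs y]
      rw [lintegral_mul_const _ (hkx y)]
      exact mul_le_mul_left (hC y) _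
    _ = _ := by rw [lintegral_const_mul _ hf2, ← mul_assoc, ENNReal.rpow_two, sq]

theorem schur {X : Type*} [MeasurableSpace X] (ν : Measure X) [SigmaFinite ν] (K : X → X → ℂ)
    (hK : Measurable (Function.uncurry K)) (hs : ∀ x y, K y x = conj (K x y)) (C : ℝ)
    (hC : ∀ x, ∫⁻ y, ‖K x y‖ₑ ∂ν ≤ ENNReal.ofReal C) :
    ∃ T : Lp ℂ 2 ν →L[ℂ] Lp ℂ 2 ν, IsSelfAdjoint T ∧
      ∀ f : Lp ℂ 2 ν, (T f : X → ℂ) =ᵐ[ν] fun x => ∫ y, K x y * f y ∂ν := by
  have hm : ∀ f : Lp ℂ 2 ν, Measurable (f : X → ℂ) := fun f =>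
    (Lp.stronglyMeasurable f).measurable
  have hKf : ∀ f : Lp ℂ 2 ν, Measurable (Function.uncurry fun x y => K x y * f y) := fun f =>
    hK.mul ((hm f).comp measurable_snd)
  have he : ∀ g : X → ℂ, eLpNorm g 2 ν = (∫⁻ y, ‖g y‖ₑ ^ (2 : ℝ) ∂ν) ^ (1 / 2 : ℝ) := fun g => by
    rw [eLpNorm_eq_lintegral_rpow_enorm_toReal two_ne_zero ENNReal.ofNat_ne_top]
    norm_num
  set A : Lp ℂ 2 ν → X → ENNReal := fun f x => ∫⁻ y, ‖K x y * f y‖ₑ ∂ν with hA
  have hAm : ∀ f, Measurable (A f) := fun f => (hKf f).enorm.lintegral_prod_right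
  have hA2 : ∀ f, (∫⁻ x, A f x ^ (2 : ℝ) ∂ν) ^ (1 / 2 : ℝ) ≤
      ENNReal.ofReal C * eLpNorm f 2 ν := fun f => by
    have h1 := schur_sq ν (k := fun x y => ‖K x y‖ₑ) hK.enorm
      (fun x y => by rw [hs x y, RCLike.enorm_conj]) hC (hm f).enorm
    simp only [hA, enorm_mul]
    refine (ENNReal.rpow_le_rpow h1 (by norm_num)).trans_eq ?_
    rw [ENNReal.mul_rpow_of_nonneg _ _ (by norm_num), ← ENNReal.rpow_mul, he]
    norm_num
  have hfin : ∀ f : Lp ℂ 2 ν, ENNReal.ofReal C * eLpNorm f 2 ν < ⊤ := fun f =>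
    ENNReal.mul_lt_top ENNReal.ofReal_lt_top (Lp.eLpNorm_lt_top f)
  have hint : ∀ f : Lp ℂ 2 ν, ∀ᵐ x ∂ν, Integrable (fun y => K x y * f y) ν := fun f => by
    have h1 := ((hA2 f).trans_lt (hfin f)).ne
    have h2 : ∫⁻ x, A f x ^ (2 : ℝ) ∂ν ≠ ⊤ := fun h => h1 (by rw [h]; simp)
    filter_upwards [ae_lt_top ((hAm f).pow_const _) h2] with x hx
    exact ⟨((hKf f).comp (measurable_const.prodMk measurable_id)).aestronglyMeasurable,
      (ENNReal.rpow_lt_top_iff_of_pos two_pos).1 hx⟩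
  have hb : ∀ f : Lp ℂ 2 ν, eLpNorm (fun x => ∫ y, K x y * f y ∂ν) 2 ν ≤
      ENNReal.ofReal C * eLpNorm f 2 ν := fun f => by
    refine le_trans ?_ (hA2 f)
    rw [he]
    exact ENNReal.rpow_le_rpow (lintegral_mono fun x =>
      ENNReal.rpow_le_rpow (enorm_integral_le_lintegral_enorm _) (by norm_num)) (by norm_num)
  have hL : ∀ f : Lp ℂ 2 ν, MemLp (fun x => ∫ y, K x y * f y ∂ν) 2 ν := fun f =>
    ⟨(hKf f).stronglyMeasurable.integral_prod_right.aestronglyMeasurable,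
      (hb f).trans_lt (hfin f)⟩
  let ℓ : Lp ℂ 2 ν →ₗ[ℂ] Lp ℂ 2 ν :=
    { toFun := fun f => (hL f).toLp _
      map_add' := fun f g => by
        rw [← MemLp.toLp_add]
        refine MemLp.toLp_congr _ _ ?_
        filter_upwards [hint f, hint g] with x h1 h2
        rw [Pi.add_apply, ← integral_add h1 h2]
        refine integral_congr_ae ?_
        filter_upwards [Lp.coeFn_add f g] with y hy
        rw [hy, Pi.add_apply, mul_add]
      map_smul' := fun a f => by
        rw [RingHom.id_apply, ← MemLp.toLp_const_smul]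
        refine MemLp.toLp_congr _ _ (ae_of_all _ fun x => ?_)
        rw [Pi.smul_apply, ← integral_smul]
        refine integral_congr_ae ?_
        filter_upwards [Lp.coeFn_smul a f] with y hy
        rw [hy, Pi.smul_apply, smul_eq_mul, smul_eq_mul, mul_left_comm] }
  have hℓ : ∀ f, ‖ℓ f‖ ≤ (ENNReal.ofReal C).toReal * ‖f‖ := fun f => by
    rw [show ‖ℓ f‖ = _ from Lp.norm_toLp _ (hL f), Lp.norm_def, ← ENNReal.toReal_mul]
    exact ENNReal.toReal_mono (hfin f).ne (hb f)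
  have hT : ∀ f, (ℓ.mkContinuous _ hℓ f : X → ℂ) =ᵐ[ν] fun x => ∫ y, K x y * f y ∂ν :=
    fun f => (hL f).coeFn_toLp
  refine ⟨ℓ.mkContinuous _ hℓ, ?_, hT⟩
  rw [ContinuousLinearMap.isSelfAdjoint_iff_isSymmetric]
  intro f g
  have hI : Integrable (Function.uncurry fun x y => g x * conj (K x y * f y)) (ν.prod ν) := by
    have h0 : Measurable (Function.uncurry fun x y => g x * conj (K x y * f y)) :=
      ((hm g).comp measurable_fst).mul (Complex.continuous_conj.measurable.comp (hKf f))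
    refine ⟨h0.aestronglyMeasurable, ?_⟩
    rw [hasFiniteIntegral_iff_enorm, lintegral_prod _ h0.enorm.aemeasurable]
    have h1 : ∀ x, ∫⁻ y, ‖g x * conj (K x y * f y)‖ₑ ∂ν = A f x * ‖g x‖ₑ := fun x => by
      simp only [enorm_mul (g x), RCLike.enorm_conj]
      rw [lintegral_const_mul' _ _ enorm_ne_top, mul_comm]
    simp only [Function.uncurry, h1]
    refine (ENNReal.lintegral_mul_le_Lp_mul_Lq ν Real.HolderConjugate.two_two
      (hAm f).aemeasurable (hm g).enorm.aemeasurable).trans_lt ?_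
    rw [← he]
    exact ENNReal.mul_lt_top ((hA2 f).trans_lt (hfin f)) (Lp.eLpNorm_lt_top g)
  calc _ = ∫ x, ∫ y, g x * conj (K x y * f y) ∂ν ∂ν := by
        rw [L2.inner_def]
        refine integral_congr_ae ?_
        filter_upwards [hT f] with x hx
        rw [integral_const_mul, integral_conj, ← hx]
        rfl
    _ = ∫ y, ∫ x, g x * conj (K x y * f y) ∂ν ∂ν := integral_integral_swap hI
    _ = _ := by
        rw [L2.inner_def]
        refine integral_congr_ae ?_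
        filter_upwards [hT g] with y hy
        have : inner ℂ (f y) ((ℓ.mkContinuous _ hℓ g : X → ℂ) y) =
          (ℓ.mkContinuous _ hℓ g : X → ℂ) y * conj (f y) := rfl
        refine Eq.trans ?_ this.symm
        rw [hy, ← integral_mul_const]
        refine integral_congr_ae (ae_of_all _ fun x => ?_)
        simp only [map_mul, ← hs x y]
        ring

end

end Vale.Agent.P026
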