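import Vale.Agent.P026.Wgt
import Vale.Agent.P026.Rad
import Vale.Agent.P026.Schur

namespace Vale.Agent.P026

open Complex MeasureTheory Filter Topology
open scoped Classical ComplexConjugate Real MatrixGroups

noncomputable section

def ker_K (m : O) (κ : SLO → ℂ) (w w' : Hs) : ℂ :=
  ∑' γ : Gam m, if uu w (actO γ w') ≤ 2 then conj (κ γ) else 0

theorem ker_meas (m : O) (κ : SLO → ℂ) : Measurable (Function.uncurry (ker_K m κ)) :=
  Measurable.tsum fun γ => Measurable.ite (measurableSet_le (continuous_uu.comp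
    (continuous_fst.prodMk ((continuous_actO γ).comp continuous_snd))).measurable measurable_const)
    measurable_const measurable_const

theorem ker_herm (m : O) {κ : SLO → ℂ} (hκ : MulS m κ) (x y : Hs) :
    ker_K m κ y x = conj (ker_K m κ x y) := by
  rw [ker_K, ker_K, conj_tsum, ← (Equiv.inv (Gam m)).tsum_eq]
  refine tsum_congr fun γ => ?_
  rw [Equiv.inv_apply, Subgroup.coe_inv, hκ.inv γ.2, ← uu_actO γ, ← actO_mul, mul_inv_cancel,
    actO_one, uu_symm]
  split_ifs <;> simp

theorem ker_aut (m : O) {κ : SLO → ℂ} (hκ : MulS m κ) {γ : SLO} (hγ : γ ∈ Gam m) (x y : Hs) :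
    ker_K m κ (actO γ x) y = conj (κ γ) * ker_K m κ x y := by
  rw [ker_K, ker_K, ← tsum_mul_left, ← (Equiv.mulLeft (⟨γ, hγ⟩ : Gam m)).tsum_eq]
  refine tsum_congr fun σ => ?_
  simp only [Equiv.coe_mulLeft, Subgroup.coe_mul, actO_mul, uu_actO, hκ.mul γ hγ σ σ.2, map_mul,
    mul_ite, mul_zero]

theorem exists_T (m : O) {κ : SLO → ℂ} (hκ : MulS m κ) :
    ∃ T : Lp ℂ 2 (nu m) →L[ℂ] Lp ℂ 2 (nu m), IsSelfAdjoint T ∧
      (∀ f, ∃ F : Hs → ℂ, Measurable F ∧ Aut m κ F ∧ (T f : Hs → ℂ) =ᵐ[nu m] F) ∧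
      ∀ (f : Lp ℂ 2 (nu m)) (F : Hs → ℂ) (Bd : ℝ), Measurable F → Aut m κ F → (∀ w, ‖F w‖ ≤ Bd) →
        (f : Hs → ℂ) =ᵐ[nu m] F → (T f : Hs → ℂ) =ᵐ[nu m] Lop F := by
  obtain ⟨V, hV⟩ := uball_vol
  obtain ⟨T, h1, h2⟩ := schur (nu m) (ker_K m κ) (ker_meas m κ) (ker_herm m hκ) V fun x => by
    rw [← hV x, ← lintegral_indicator_one (measurableSet_uball x),
      ← lintegral_unfold m (measurable_one.indicator (measurableSet_uball x))]
    refine lintegral_mono fun y => enorm_tsum_le_tsum_enorm.trans (ENNReal.tsum_le_tsum fun γ => ?_)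
    simp only [Set.indicator, Set.mem_ofPred_eq]
    split_ifs
    · rw [← ofReal_norm, RCLike.norm_conj, hκ.norm γ γ.2]; simp
    · simp
  refine ⟨T, h1, fun f => ⟨_, (StronglyMeasurable.integral_prod_right
    ((ker_meas m κ).stronglyMeasurable.mul
      ((Lp.stronglyMeasurable f).comp_measurable measurable_snd))).measurable,
    fun γ hγ w => ?_, h2 f⟩, fun f F Bd hF ha hb hf => (h2 f).trans (.of_forall fun w => ?_)⟩
  · simp only [ker_aut m hκ hγ, mul_assoc, integral_const_mul]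
  · have hi : IntegrableOn F {w' : Hs | uu w w' ≤ 2} muH :=
      Measure.integrableOn_of_bounded (rad_compact _).measure_lt_top.ne
        hF.aestronglyMeasurable (Eventually.of_forall hb)
    rw [Lop, ← integral_indicator (measurableSet_uball _),
      ← (integral_unfold m ((integrable_indicator_iff (measurableSet_uball _)).2 hi)).2]
    refine integral_congr_ae (hf.mono fun y hy => ?_)
    simp only [hy, ker_K, ← tsum_mul_right]
    refine tsum_congr fun γ => ?_
    simp only [Set.indicator, Set.mem_ofPred_eq, ha γ γ.2, ite_mul, zero_mul]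

end

end Vale.Agent.P026
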