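import Vale.Agent.P026.Coef
import Vale.Agent.P026.Cop
import Vale.Agent.P026.Rev
import Vale.Agent.P026.StepB
import Vale.Agent.P026.Step
import Vale.Agent.P026.Base
import Vale.Agent.P026.Fin1
import Vale.Agent.P026.Fin2

namespace Vale.Agent.P026

open Complex MeasureTheory Filter Topology
open scoped Classical ComplexConjugate Real MatrixGroups

noncomputable section

theorem ha_final {q0 : O} (hq : q0 ≠ 0) (h36 : (36 : O) ∣ q0) : HA q0 (439 / 200) := by
  obtain ⟨t, ht⟩ := exists_coef
  have h4 : (4 : O) ∣ q0 := Dvd.dvd.trans ⟨9, by norm_num⟩ h36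
  have key : ∀ j : ℕ, HA q0 (max (439 / 200) (3 - (j : ℝ) / 2000)) := by
    intro j
    induction j with
    | zero =>
      have : max (439 / 200 : ℝ) (3 - ((0 : ℕ) : ℝ) / 2000) = 3 := by norm_num
      rw [this]; exact ha_base q0
    | succ j ih =>
      have hγ : (439 / 200 : ℝ) ≤ max (439 / 200) (3 - (j : ℝ) / 2000) := le_max_left _ _
      refine ha_of_hb h4 (le_max_left _ _) (stepB hq h36 ht hγ (le_max_left _ _) ?_
        (rev hq h4 (by linarith) (ha6_of_ha (by linarith) ih)))
      rw [sub_le_iff_le_add, max_le_iff]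
      constructor
      · have := le_max_left (439 / 200 : ℝ) (3 - ((j + 1 : ℕ) : ℝ) / 2000)
        linarith
      · have := le_max_right (439 / 200 : ℝ) (3 - ((j + 1 : ℕ) : ℝ) / 2000)
        push_cast at this ⊢
        linarith
  have := key 2000
  rwa [max_eq_left (by norm_num)] at this

theorem lfun_ne_zero {M : ℕ} [NeZero M] (χ : DirichletCharacter ℂ M) {s : ℂ}
    (hs : 999 / 1000 < s.re) (hs1 : s ≠ 1) : DirichletCharacter.LFunction χ s ≠ 0 := by
  have hM : M ≠ 0 := NeZero.ne M
  have : NeZero (36 * M) := ⟨by omega⟩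
  have hd : M ∣ 36 * M := Dvd.intro_left 36 rfl
  have hq : (((36 * M : ℕ) : O)) ≠ 0 := by exact_mod_cast (by omega : 36 * M ≠ 0)
  have h36 : (36 : O) ∣ ((36 * M : ℕ) : O) := ⟨(M : O), by push_cast; ring⟩
  obtain ⟨C, hC⟩ := fin1 (ha_final hq h36) (wt_dirichlet (DirichletCharacter.changeLevel hd χ))
  have h := fin2 (⟨6 * M, by ring⟩ : 6 ∣ 36 * M) (DirichletCharacter.changeLevel hd χ)
    (by norm_num) hC hs hs1
  rw [DirichletCharacter.LFunction_changeLevel hd χ (Or.inr hs1)] at h
  exact left_ne_zero_of_mul h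

end

end Vale.Agent.P026
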