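import Vale.Agent.P026.ThF

namespace Vale.Agent.P026

open Complex MeasureTheory Filter Topology
open scoped Classical ComplexConjugate Real MatrixGroups

noncomputable section

theorem vor_kap_pos : 0 < kap := by unfold kap; have := bas_sqrt3_pos; positivity

theorem vor_norm_le (n : O) : ‖toC n‖ ≤ N n := by
  by_cases hn : n = 0
  · rw [hn, map_zero, norm_zero, N_zero]
  · have h1 := one_le_N hn
    have h2 := norm_toC_sq n
    have h3 := norm_nonneg (toC n)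
    nlinarith

theorem vor_exp_lim {w : ℝ → ℂ} {w0 : ℂ} (hw : Tendsto w (𝓝[>] 0) (𝓝 w0)) :
    Tendsto (fun r : ℝ => (Complex.exp (r * w r) - Complex.exp (-(r * w r))) / r) (𝓝[>] 0)
      (𝓝 (2 * w0)) := by
  set g : ℂ → ℂ := fun u => Complex.exp u - Complex.exp (-u) with hg
  have hd : HasDerivAt g 2 0 := by
    have h1 := (Complex.hasDerivAt_exp 0).sub ((hasDerivAt_neg (0 : ℂ)).cexp)
    have h2 : Complex.exp 0 - Complex.exp (-0) * (-1) = 2 := by simp; norm_num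
    rw [h2] at h1
    exact h1
  have hc : ContinuousAt (dslope g 0) 0 := continuousAt_dslope_same.2 hd.differentiableAt
  have h0 : Tendsto (fun r : ℝ => (r : ℂ) * w r) (𝓝[>] 0) (𝓝 0) := by
    have h1 : Tendsto (fun r : ℝ => (r : ℂ)) (𝓝[>] 0) (𝓝 ((0 : ℝ) : ℂ)) :=
      (Complex.continuous_ofReal.tendsto 0).mono_left nhdsWithin_le_nhds
    simpa using h1.mul hw
  have h2 := (hc.tendsto.comp h0).mul hw
  rw [dslope_same, hd.deriv] at h2
  refine h2.congr' ?_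
  filter_upwards [self_mem_nhdsWithin] with r hr
  have hr' : (r : ℂ) ≠ 0 := by exact_mod_cast (ne_of_gt hr)
  have h3 := sub_smul_dslope g 0 ((r : ℂ) * w r)
  simp only [hg, sub_zero, neg_zero, sub_self, smul_eq_mul] at h3
  simp only [Function.comp, hg]
  rw [← h3]
  field_simp

theorem vor_psi_lim (A : ℂ) {b : ℝ → ℂ} {b0 : ℂ} (hb : Tendsto b (𝓝[>] 0) (𝓝 b0)) :
    Tendsto (fun r : ℝ => (psi (A + r * b r) - psi (A - r * b r)) / r) (𝓝[>] 0)
      (𝓝 (psi A * (2 * (kap * (b0 - conj b0))))) := by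
  have h1 : Tendsto (fun r => (kap : ℂ) * (b r - conj (b r))) (𝓝[>] 0)
      (𝓝 (kap * (b0 - conj b0))) :=
    (hb.sub ((Complex.continuous_conj.tendsto b0).comp hb)).const_mul _
  refine ((vor_exp_lim h1).const_mul (psi A)).congr fun r => ?_
  rw [sub_eq_add_neg A, psi_add, psi_add]
  have h2 : psi (r * b r) = Complex.exp (r * (kap * (b r - conj (b r)))) := by
    unfold psi
    congr 1
    simp only [map_mul, conj_ofReal]
    ring
  have h3 : psi (-(r * b r)) = Complex.exp (-(r * (kap * (b r - conj (b r))))) := by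
    unfold psi
    congr 1
    simp only [map_neg, map_mul, conj_ofReal]
    ring
  rw [h2, h3]
  ring

/-- the terms of the theta series -/
def vorP (ρ : O → ℂ) (w : Hs) (n : O) : ℂ :=
  ρ n * ((ht w ^ (2 / 3 : ℝ) : ℝ) : ℂ) * bb (N n * ht w ^ 2 / (3 * N 9)) (4 / 3) *
    psi (toC n * w.1 / toC 9)

theorem vor_nine : (9 : O) ≠ 0 := by
  intro h
  have h1 : N (9 : O) = (9 : ℝ) ^ 2 := N_ofNat 9
  rw [h, N_zero] at h1
  norm_num at h1

theorem vor_summ {ρ : O → ℂ} {Bd : ℝ}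
    (hb : ∀ R : ℝ, 1 ≤ R → ∑ n ∈ ballO R, ‖ρ n‖ ^ 2 ≤ Bd * R) (w : Hs) {f : O → ℂ}
    (hf : ∀ n, ‖f n‖ ≤ N n) : Summable (fun n => vorP ρ w n * f n) := by
  have h1 := (summable_thetaF vor_nine hb w).1
  refine Summable.of_norm_bounded (h1.mul_left (ht w ^ (2 / 3 : ℝ))) fun n => ?_
  have hv : 0 ≤ ht w ^ (2 / 3 : ℝ) := Real.rpow_nonneg (ht_pos w).le _
  unfold vorP
  simp only [norm_mul, norm_psi, Complex.norm_real, Real.norm_of_nonneg hv, mul_one]
  calc _ ≤ ‖ρ n‖ * ht w ^ (2 / 3 : ℝ) * ‖bb (N n * ht w ^ 2 / (3 * N 9)) (4 / 3)‖ * N n := by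
        gcongr
        exact hf n
    _ = _ := by ring

theorem vor_lim {ρ : O → ℂ} {Bd : ℝ}
    (hb : ∀ R : ℝ, 1 ≤ R → ∑ n ∈ ballO R, ‖ρ n‖ ^ 2 ≤ Bd * R) (a0 : ℂ) {tt : ℝ → ℝ} {t0 : ℝ}
    (htt : Tendsto tt (𝓝[>] 0) (𝓝 t0)) {β : ℝ → ℂ} {β0 : ℂ} (hβ : Tendsto β (𝓝[>] 0) (𝓝 β0)) :
    Tendsto (fun r : ℝ => (thetaF 9 ρ (a0 + r * β r, tt r) - thetaF 9 ρ (a0 - r * β r, tt r)) / r)
      (𝓝[>] 0) (𝓝 (2 * kap / 9 * (β0 * ∑' n, vorP ρ (a0, t0) n * toC n -
        conj β0 * ∑' n, vorP ρ (a0, t0) n * conj (toC n)))) := by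
  have h9 : toC 9 = 9 := map_ofNat toC 9
  have hN9 : 0 < N (9 : O) := N_pos vor_nine
  have hk := vor_kap_pos
  have s1 := vor_summ hb (a0, t0) (f := fun n => toC n) vor_norm_le
  have s2 := vor_summ hb (a0, t0) (f := fun n => conj (toC n))
    (fun n => by rw [Complex.norm_conj]; exact vor_norm_le n)
  rw [← tsum_mul_left, ← tsum_mul_left, ← (s1.mul_left _).tsum_sub (s2.mul_left _),
    ← tsum_mul_left]
  set F : ℝ → O → ℂ := fun r n => ρ n * ((Real.exp (tt r) ^ (2 / 3 : ℝ) : ℝ) : ℂ) *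
    bb (N n * Real.exp (tt r) ^ 2 / (3 * N 9)) (4 / 3) *
      ((psi (toC n * a0 / 9 + r * (toC n * β r / 9)) -
        psi (toC n * a0 / 9 - r * (toC n * β r / 9))) / r) with hF
  have hEq : ∀ r : ℝ, (thetaF 9 ρ (a0 + r * β r, tt r) - thetaF 9 ρ (a0 - r * β r, tt r)) / r =
      ∑' n, F r n := by
    intro r
    unfold thetaF
    rw [← ((summable_thetaF vor_nine hb (a0 + r * β r, tt r)).2.of_norm).tsum_sub
      ((summable_thetaF vor_nine hb (a0 - r * β r, tt r)).2.of_norm), ← tsum_div_const]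
    refine tsum_congr fun n => ?_
    simp only [hF, ht, h9]
    rw [show toC n * (a0 + r * β r) / 9 = toC n * a0 / 9 + r * (toC n * β r / 9) by ring,
      show toC n * (a0 - r * β r) / 9 = toC n * a0 / 9 - r * (toC n * β r / 9) by ring]
    ring
  simp only [hEq]
  obtain ⟨b, hb1, hb2⟩ := bb_real
  have s3 := (summable_thetaF vor_nine hb (a0, t0 - 1)).1
  refine tendsto_tsum_of_dominated_convergence
    (s3.mul_left (Real.exp (t0 + 1) ^ (2 / 3 : ℝ) * (4 * kap * (‖β0‖ + 1) / 9))) ?_ ?_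
  · intro n
    have h1 : Tendsto (fun r => toC n * β r / 9) (𝓝[>] 0) (𝓝 (toC n * β0 / 9)) :=
      (hβ.const_mul _).div_const _
    have h2 := vor_psi_lim (toC n * a0 / 9) h1
    have h3 : Tendsto (fun r => Real.exp (tt r)) (𝓝[>] 0) (𝓝 (Real.exp t0)) :=
      (Real.continuous_exp.tendsto t0).comp htt
    have h4 : Tendsto (fun r => ((Real.exp (tt r) ^ (2 / 3 : ℝ) : ℝ) : ℂ)) (𝓝[>] 0)
        (𝓝 ((Real.exp t0 ^ (2 / 3 : ℝ) : ℝ) : ℂ)) :=
      (Complex.continuous_ofReal.tendsto _).comp (h3.rpow_const (Or.inr (by norm_num)))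
    have hx : ∀ t : ℝ, N n * Real.exp t ^ 2 / (3 * N 9) ∈ Set.Ici (0 : ℝ) := fun t => by
      have := N_nonneg n
      exact Set.mem_Ici.2 (by positivity)
    have h5 : Tendsto (fun r => N n * Real.exp (tt r) ^ 2 / (3 * N 9)) (𝓝[>] 0)
        (𝓝[Set.Ici 0] (N n * Real.exp t0 ^ 2 / (3 * N 9))) :=
      tendsto_nhdsWithin_iff.2 ⟨((h3.pow 2).const_mul _).div_const _,
        Eventually.of_forall fun r => hx _⟩
    have h6 := ((continuousOn_bb (s := 4 / 3) (by norm_num)) _ (hx t0)).tendsto.comp h5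
    have h7 := ((h4.const_mul (ρ n)).mul h6).mul h2
    have h8 : 2 * kap / 9 * (β0 * (vorP ρ (a0, t0) n * toC n) -
        conj β0 * (vorP ρ (a0, t0) n * conj (toC n))) =
        ρ n * ((Real.exp t0 ^ (2 / 3 : ℝ) : ℝ) : ℂ) *
          bb (N n * Real.exp t0 ^ 2 / (3 * N 9)) (4 / 3) *
          (psi (toC n * a0 / 9) * (2 * (kap * (toC n * β0 / 9 - conj (toC n * β0 / 9))))) := by
      simp only [vorP, ht, h9, map_div₀, map_mul, map_ofNat]
      ring
    rw [h8]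
    exact h7
  · have e1 : ∀ᶠ r in 𝓝[>] (0 : ℝ), t0 - 1 ≤ tt r := htt.eventually_const_le (by linarith)
    have e2 : ∀ᶠ r in 𝓝[>] (0 : ℝ), tt r ≤ t0 + 1 := htt.eventually_le_const (by linarith)
    have e3 : ∀ᶠ r in 𝓝[>] (0 : ℝ), ‖β r‖ ≤ ‖β0‖ + 1 :=
      hβ.norm.eventually_le_const (by linarith)
    filter_upwards [e1, e2, e3, self_mem_nhdsWithin] with r h1 h2 h3 hr n
    have hr0 : 0 < r := hr
    have hn0 := N_nonneg n
    have hx : ∀ t : ℝ, 0 ≤ N n * Real.exp t ^ 2 / (3 * N 9) := fun t => by positivity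
    have hbb : ‖bb (N n * Real.exp (tt r) ^ 2 / (3 * N 9)) (4 / 3)‖ ≤
        ‖bb (N n * Real.exp (t0 - 1) ^ 2 / (3 * N 9)) (4 / 3)‖ := by
      rw [(hb1 _ (hx _)).1, (hb1 _ (hx _)).1, Complex.norm_real, Complex.norm_real,
        Real.norm_of_nonneg (hb1 _ (hx _)).2.le, Real.norm_of_nonneg (hb1 _ (hx _)).2.le]
      refine hb2 (hx _) (hx _) ?_
      gcongr
    have hps : ‖(psi (toC n * a0 / 9 + r * (toC n * β r / 9)) -
        psi (toC n * a0 / 9 - r * (toC n * β r / 9))) / r‖ ≤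
          4 * kap * (‖β0‖ + 1) / 9 * N n := by
      rw [norm_div, Complex.norm_real, Real.norm_of_nonneg hr0.le, div_le_iff₀ hr0]
      refine (norm_psi_sub_le _ _).trans ?_
      rw [show toC n * a0 / 9 + r * (toC n * β r / 9) - (toC n * a0 / 9 - r * (toC n * β r / 9)) =
        ((2 / 9 * r : ℝ) : ℂ) * (toC n * β r) by push_cast; ring, norm_mul, norm_mul,
        Complex.norm_real, Real.norm_of_nonneg (by positivity)]
      have h4 := vor_norm_le n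
      calc 2 * kap * (2 / 9 * r * (‖toC n‖ * ‖β r‖))
          ≤ 2 * kap * (2 / 9 * r * (N n * (‖β0‖ + 1))) := by gcongr
        _ = _ := by ring
    have hv : Real.exp (tt r) ^ (2 / 3 : ℝ) ≤ Real.exp (t0 + 1) ^ (2 / 3 : ℝ) := by gcongr
    have hv0 : 0 ≤ Real.exp (tt r) ^ (2 / 3 : ℝ) := by positivity
    simp only [hF, ht]
    rw [norm_mul, norm_mul, norm_mul, norm_mul, Complex.norm_real, Real.norm_of_nonneg hv0]
    calc _ ≤ ‖ρ n‖ * Real.exp (t0 + 1) ^ (2 / 3 : ℝ) *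
          ‖bb (N n * Real.exp (t0 - 1) ^ 2 / (3 * N 9)) (4 / 3)‖ *
            (4 * kap * (‖β0‖ + 1) / 9 * N n) := by gcongr
      _ = _ := by ring

theorem vor_key {ρ : SLO → O → ℂ} (h : ThetaOut 9 Phi1 ρ) (γ : SLO) (hc : γ 1 0 ≠ 0) (t : ℝ) :
    conj (toC (γ 1 0)) / toC (γ 1 0) / ((N (γ 1 0) * Real.exp t ^ 2 : ℝ) : ℂ) *
      ∑' n, vorP (ρ 1) (toC (γ 0 0) / toC (γ 1 0), -Real.log (N (γ 1 0) * Real.exp t)) n * toC n =
      ∑' n, vorP (ρ γ) (-(toC (γ 1 1) / toC (γ 1 0)), t) n * conj (toC n) := by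
  obtain ⟨C, hC⟩ := h.bound
  have hb : ∀ σ, ∀ R : ℝ, 1 ≤ R → ∑ n ∈ ballO R, ‖ρ σ n‖ ^ 2 ≤ max C 0 * R := by
    intro σ R hR
    refine (hC σ R hR).trans ?_
    have h1 : R ^ (2 / 3 : ℝ) ≤ R := by
      conv_rhs => rw [← Real.rpow_one R]
      exact Real.rpow_le_rpow_of_exponent_le hR (by norm_num)
    have h2 : 0 ≤ R ^ (2 / 3 : ℝ) := by positivity
    calc C * R ^ (2 / 3 : ℝ) ≤ max C 0 * R ^ (2 / 3 : ℝ) := by gcongr; exact le_max_left _ _
      _ ≤ max C 0 * R := by gcongr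
  have hNc := N_pos hc
  have hv := Real.exp_pos t
  set κ : ℂ := conj (toC (γ 1 0)) / toC (γ 1 0) / ((N (γ 1 0) * Real.exp t ^ 2 : ℝ) : ℂ) with hκ
  set w1 : Hs := (toC (γ 0 0) / toC (γ 1 0), -Real.log (N (γ 1 0) * Real.exp t)) with hw1
  set w2 : Hs := (-(toC (γ 1 1) / toC (γ 1 0)), t) with hw2
  have key : ∀ η : ℂ, (-(κ * conj η) * ∑' n, vorP (ρ 1) w1 n * toC n -
      conj (-(κ * conj η)) * ∑' n, vorP (ρ 1) w1 n * conj (toC n)) =
      (η * ∑' n, vorP (ρ γ) w2 n * toC n - conj η * ∑' n, vorP (ρ γ) w2 n * conj (toC n)) := by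
    intro η
    have hq : Tendsto (fun r : ℝ => N (γ 1 0) * (normSq ((r : ℂ) * η) + Real.exp t ^ 2))
        (𝓝[>] 0) (𝓝 (N (γ 1 0) * Real.exp t ^ 2)) := by
      have h1 : Continuous (fun r : ℝ => N (γ 1 0) * (normSq ((r : ℂ) * η) + Real.exp t ^ 2)) := by
        fun_prop
      have h2 := (h1.tendsto 0).mono_left (nhdsWithin_le_nhds (s := Set.Ioi 0))
      simpa using h2
    have htt : Tendsto (fun r : ℝ => -Real.log (N (γ 1 0) *
        (normSq ((r : ℂ) * η) + Real.exp t ^ 2) / Real.exp t)) (𝓝[>] 0)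
        (𝓝 (-Real.log (N (γ 1 0) * Real.exp t))) := by
      have h1 := hq.div_const (Real.exp t)
      rw [show N (γ 1 0) * Real.exp t ^ 2 / Real.exp t = N (γ 1 0) * Real.exp t by
        field_simp] at h1
      exact (h1.log (by positivity)).neg
    have hβ : Tendsto (fun r : ℝ => -(conj (toC (γ 1 0)) / toC (γ 1 0) * conj η /
        ((N (γ 1 0) * (normSq ((r : ℂ) * η) + Real.exp t ^ 2) : ℝ) : ℂ))) (𝓝[>] 0)
        (𝓝 (-(κ * conj η))) := by
      have h1 := (Complex.continuous_ofReal.tendsto _).comp hq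
      have h2 := (tendsto_const_nhds (x := conj (toC (γ 1 0)) / toC (γ 1 0) * conj η)).div h1
        (by exact_mod_cast (by positivity : N (γ 1 0) * Real.exp t ^ 2 ≠ 0))
      rw [show κ * conj η = conj (toC (γ 1 0)) / toC (γ 1 0) * conj η /
        ((N (γ 1 0) * Real.exp t ^ 2 : ℝ) : ℂ) by rw [hκ]; ring]
      exact h2.neg
    have L1 := vor_lim (hb 1) (toC (γ 0 0) / toC (γ 1 0)) htt hβ
    have L2 := vor_lim (hb γ) (-(toC (γ 1 1) / toC (γ 1 0))) (tt := fun _ => t)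
      tendsto_const_nhds (β := fun _ => η) tendsto_const_nhds
    have hE : ∀ r : ℝ, (thetaF 9 (ρ γ) (-(toC (γ 1 1) / toC (γ 1 0)) + r * η, t) -
        thetaF 9 (ρ γ) (-(toC (γ 1 1) / toC (γ 1 0)) - r * η, t)) / r =
        (thetaF 9 (ρ 1) (toC (γ 0 0) / toC (γ 1 0) + r * -(conj (toC (γ 1 0)) / toC (γ 1 0) *
          conj η / ((N (γ 1 0) * (normSq ((r : ℂ) * η) + Real.exp t ^ 2) : ℝ) : ℂ)),
          -Real.log (N (γ 1 0) * (normSq ((r : ℂ) * η) + Real.exp t ^ 2) / Real.exp t)) -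
        thetaF 9 (ρ 1) (toC (γ 0 0) / toC (γ 1 0) - r * -(conj (toC (γ 1 0)) / toC (γ 1 0) *
          conj η / ((N (γ 1 0) * (normSq ((r : ℂ) * η) + Real.exp t ^ 2) : ℝ) : ℂ)),
          -Real.log (N (γ 1 0) * (normSq ((r : ℂ) * η) + Real.exp t ^ 2) / Real.exp t))) / r := by
      intro r
      rw [← h.aut γ, ← h.aut γ, sub_eq_add_neg (-(toC (γ 1 1) / toC (γ 1 0))),
        actO_cusp γ hc, actO_cusp γ hc, normSq_neg]
      simp only [map_neg, map_mul, conj_ofReal]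
      congr 4 <;> ring
    simp only [hE] at L2
    have h3 := tendsto_nhds_unique L1 L2
    have hk : (2 * kap / 9 : ℂ) ≠ 0 := by
      have := vor_kap_pos.ne'
      exact_mod_cast (by positivity : (2 * kap / 9 : ℝ) ≠ 0)
    exact mul_left_cancel₀ hk h3
  have k1 := key 1
  have k2 := key Complex.I
  simp only [map_neg, map_mul, conj_I, map_one, mul_one, one_mul] at k1 k2
  have hI := Complex.I_mul_I
  linear_combination (-1 / 2) * k1 - Complex.I / 2 * k2 +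
    (1 / 2) * (κ * ∑' n, vorP (ρ 1) w1 n * toC n +
      conj κ * ∑' n, vorP (ρ 1) w1 n * conj (toC n) - ∑' n, vorP (ρ γ) w2 n * toC n -
      ∑' n, vorP (ρ γ) w2 n * conj (toC n)) * hI

theorem vor_pow {x y : ℝ} (hx : 0 < x) (hy : 0 ≤ y) :
    x ^ (1 / 6 : ℝ) / √x * (x * y) ^ (1 / 3 : ℝ) = y ^ (1 / 3 : ℝ) := by
  rw [Real.mul_rpow hx.le hy, Real.sqrt_eq_rpow, ← Real.rpow_sub hx, ← mul_assoc,
    ← Real.rpow_add hx]
  norm_num

theorem vor_term (n : O) {y : ℝ} (hy : 0 ≤ y) (z : ℂ) (hz : n = 0 → z = 0) :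
    ((N n ^ (1 / 6 : ℝ) : ℝ) : ℂ) * (z / (‖toC n‖ : ℂ)) * (((N n * y) ^ (1 / 3 : ℝ) : ℝ) : ℂ) =
      ((y ^ (1 / 3 : ℝ) : ℝ) : ℂ) * z := by
  by_cases hn : n = 0
  · rw [hz hn]; simp
  · rw [← vor_pow (N_pos hn) hy, norm_toC]
    push_cast
    ring

theorem vor_theta {ρ : SLO → O → ℂ} (h : ThetaOut 9 Phi1 ρ) (γ : SLO) (hc : γ 1 0 ≠ 0) {X : ℝ}
    (hX : 0 < X) :
    ∑' n : O, tauOf ρ 1 n * ang n * psi (toC n * toC (γ 0 0) / (9 * toC (γ 1 0))) * kk (N n / X) =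
      toC (γ 1 0) / conj (toC (γ 1 0)) * ((X / (243 * N (γ 1 0)) : ℝ) : ℂ) *
        ∑' n : O, tauOf ρ γ n * conj (ang n) *
          psi (-(toC n * toC (γ 1 1) / (9 * toC (γ 1 0)))) *
          kk (N n * X / (243 * N (γ 1 0)) ^ 2) := by
  have hNc := N_pos hc
  have hc' := toC_ne_zero hc
  have hc'' : conj (toC (γ 1 0)) ≠ 0 := by simpa using hc'
  have h9 : toC 9 = 9 := map_ofNat toC 9
  have hN9 : N (9 : O) = 81 := by rw [N_ofNat 9]; norm_num
  set v : ℝ := √(X / (243 * N (γ 1 0) ^ 2)) with hvdef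
  have hv : 0 < v := Real.sqrt_pos.2 (by positivity)
  have hv2 : v ^ 2 = X / (243 * N (γ 1 0) ^ 2) := Real.sq_sqrt (by positivity)
  have key := vor_key h γ hc (Real.log v)
  rw [Real.exp_log hv] at key
  have h23 : ∀ u : ℝ, 0 < u → u ^ (2 / 3 : ℝ) = (u ^ 2) ^ (1 / 3 : ℝ) := by
    intro u hu
    rw [← Real.rpow_natCast, ← Real.rpow_mul hu.le]
    norm_num
  have hA : ∀ n : O, tauOf ρ 1 n * ang n * psi (toC n * toC (γ 0 0) / (9 * toC (γ 1 0))) *
      kk (N n / X) = ((((243 : ℝ)⁻¹) ^ (1 / 3 : ℝ) : ℝ) : ℂ) *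
        (vorP (ρ 1) (toC (γ 0 0) / toC (γ 1 0), -Real.log (N (γ 1 0) * v)) n * toC n) := by
    intro n
    have e1 : ht (toC (γ 0 0) / toC (γ 1 0), -Real.log (N (γ 1 0) * v)) ^ 2 = 243 / X := by
      unfold ht
      simp only
      rw [Real.exp_neg, Real.exp_log (by positivity), inv_pow, mul_pow, hv2]
      field_simp
    have e2 := vor_term n (y := X⁻¹) (by positivity) (toC n) (fun h0 => by rw [h0, map_zero])
    have e3 : (X⁻¹) ^ (1 / 3 : ℝ) = ((243 : ℝ)⁻¹) ^ (1 / 3 : ℝ) * (243 / X) ^ (1 / 3 : ℝ) := by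
      rw [← Real.mul_rpow (by positivity) (by positivity)]
      congr 1
      field_simp
    unfold vorP tauOf ang kk
    rw [h23 _ (ht_pos _), e1, hN9, h9, show N n * (243 / X) / (3 * 81) = N n / X by
        field_simp; ring,
      show toC n * (toC (γ 0 0) / toC (γ 1 0), -Real.log (N (γ 1 0) * v)).1 / 9 =
        toC n * toC (γ 0 0) / (9 * toC (γ 1 0)) by simp only; field_simp]
    rw [e3, Complex.ofReal_mul, ← div_eq_mul_inv] at e2
    linear_combination (ρ 1 n * psi (toC n * toC (γ 0 0) / (9 * toC (γ 1 0))) *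
      bb (N n / X) (4 / 3)) * e2
  have hB : ∀ n : O, tauOf ρ γ n * conj (ang n) *
      psi (-(toC n * toC (γ 1 1) / (9 * toC (γ 1 0)))) * kk (N n * X / (243 * N (γ 1 0)) ^ 2) =
        ((((243 : ℝ)⁻¹) ^ (1 / 3 : ℝ) : ℝ) : ℂ) *
        (vorP (ρ γ) (-(toC (γ 1 1) / toC (γ 1 0)), Real.log v) n * conj (toC n)) := by
    intro n
    have e1 : ht (-(toC (γ 1 1) / toC (γ 1 0)), Real.log v) ^ 2 = X / (243 * N (γ 1 0) ^ 2) := by
      unfold ht
      simp only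
      rw [Real.exp_log hv, hv2]
    have e2 := vor_term n (y := X / (243 * N (γ 1 0)) ^ 2) (by positivity) (conj (toC n))
      (fun h0 => by rw [h0, map_zero, map_zero])
    have e3 : (X / (243 * N (γ 1 0)) ^ 2) ^ (1 / 3 : ℝ) =
        ((243 : ℝ)⁻¹) ^ (1 / 3 : ℝ) * (X / (243 * N (γ 1 0) ^ 2)) ^ (1 / 3 : ℝ) := by
      rw [← Real.mul_rpow (by positivity) (by positivity)]
      congr 1
      field_simp
    unfold vorP tauOf ang kk
    rw [h23 _ (ht_pos _), e1, hN9, h9, show N n * (X / (243 * N (γ 1 0) ^ 2)) / (3 * 81) =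
        N n * X / (243 * N (γ 1 0)) ^ 2 by
        field_simp; ring,
      show toC n * (-(toC (γ 1 1) / toC (γ 1 0)), Real.log v).1 / 9 =
        -(toC n * toC (γ 1 1) / (9 * toC (γ 1 0))) by simp only; field_simp,
      map_div₀, conj_ofReal]
    rw [e3, Complex.ofReal_mul, ← mul_div_assoc (N n)] at e2
    linear_combination (ρ γ n * psi (-(toC n * toC (γ 1 1) / (9 * toC (γ 1 0)))) *
      bb (N n * X / (243 * N (γ 1 0)) ^ 2) (4 / 3)) * e2
  simp only [hA, hB]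
  rw [tsum_mul_left, tsum_mul_left, ← key, hv2]
  have hX' : (X : ℂ) ≠ 0 := by exact_mod_cast hX.ne'
  have hN' : ((N (γ 1 0) : ℝ) : ℂ) ≠ 0 := by exact_mod_cast hNc.ne'
  push_cast
  field_simp

end

end Vale.Agent.P026
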