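import Vale.Agent.P026.ThN
import Vale.Agent.P026.Vor

namespace Vale.Agent.P026

open Complex MeasureTheory Filter Topology
open scoped Classical ComplexConjugate Real MatrixGroups

noncomputable section

theorem exists_pkg : ∃ τ, ThetaPkg τ := by
  obtain ⟨ρ, h⟩ := theta_machine (m := 9) (by decide) (mulS_kap0 dvd_rfl) (equi_Phi1 dvd_rfl)
  refine ⟨tauOf ρ, fun σ => ?_, tau_bound h, fun σ n d hd => tau_cube h σ n hd,
    fun σ n p hp hP hn => ?_, fun n p hp hP hn => tau_gauss h hp hP hn, tau_nz h,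
    fun γ σ hγ n => ?_, fun γ hc X hX => vor_theta h γ hc hX⟩
  · rw [tauOf, N_zero, Real.zero_rpow (by norm_num)]
    simp
  · rw [tauOf, rho_sq h σ hp hP hn, mul_zero]
  · rw [tauOf, tauOf, rho_mult h hγ]
    ring

end

end Vale.Agent.P026
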