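import Vale.Agent.P026.Defs

namespace Vale.Agent.P026

open Complex MeasureTheory Filter Topology
open scoped Classical ComplexConjugate Real MatrixGroups

noncomputable section

theorem pois2_s1 {δ : ℝ} (hδ : 0 < δ) (l : ℝ) :
    Summable (fun n : ℤ => Real.exp (-π * δ * n ^ 2 + l * n)) := by
  refine Summable.of_nonneg_of_le (fun _ => (Real.exp_pos _).le) (fun n => ?_)
    (summable_pow_mul_jacobiTheta₂_term_bound (|l| / (2 * π)) hδ 0)
  rw [pow_zero, one_mul]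
  refine Real.exp_le_exp.2 ?_
  have h1 : l * n ≤ |l| * |(n : ℝ)| := by rw [← abs_mul]; exact le_abs_self _
  have h2 : π * (2 * (|l| / (2 * π)) * |(n : ℝ)|) = |l| * |(n : ℝ)| := by
    have := Real.pi_pos
    field_simp
  rw [Int.cast_abs]
  linarith

theorem pois2_summ {a b c : ℂ} (ha : 0 < a.re) (hd : b.re ^ 2 < a.re * c.re) (l1 l2 k : ℂ) :
    Summable (fun p : ℤ × ℤ => Complex.exp (-π * (a * p.1 ^ 2 + 2 * b * p.1 * p.2 + c * p.2 ^ 2) +
      (l1 * p.1 + l2 * p.2 + k))) := by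
  have hc : 0 < c.re := by
    by_contra h
    nlinarith [sq_nonneg b.re, mul_nonneg ha.le (neg_nonneg.2 (not_lt.1 h))]
  set δ := (a.re * c.re - b.re ^ 2) / (a.re + c.re) with hδ
  have δ0 : 0 < δ := div_pos (by linarith) (by linarith)
  have hs := ((pois2_s1 δ0 l1.re).mul_of_nonneg (pois2_s1 δ0 l2.re)
    (fun _ => (Real.exp_pos _).le) (fun _ => (Real.exp_pos _).le)).mul_right (Real.exp k.re)
  refine Summable.of_norm_bounded hs fun p => ?_
  rw [Complex.norm_exp, ← Real.exp_add, ← Real.exp_add]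
  refine Real.exp_le_exp.2 ?_
  have e : (-π * (a * p.1 ^ 2 + 2 * b * p.1 * p.2 + c * p.2 ^ 2) + (l1 * p.1 + l2 * p.2 + k) : ℂ).re =
      -π * (a.re * p.1 ^ 2 + 2 * b.re * p.1 * p.2 + c.re * p.2 ^ 2) +
        (l1.re * p.1 + l2.re * p.2 + k.re) := by
    simp [sq]
  rw [e]
  have h1 : δ * ((p.1 : ℝ) ^ 2 + (p.2 : ℝ) ^ 2) ≤
      a.re * p.1 ^ 2 + 2 * b.re * p.1 * p.2 + c.re * p.2 ^ 2 := by
    rw [hδ, div_mul_eq_mul_div, div_le_iff₀ (by linarith)]
    nlinarith [sq_nonneg (a.re * p.1 + b.re * p.2), sq_nonneg (b.re * p.1 + c.re * p.2)]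
  have := mul_le_mul_of_nonneg_left h1 Real.pi_pos.le
  linarith

theorem pois2_T {a b c : ℂ} (ha : 0 < a.re) (hd : b.re ^ 2 < a.re * c.re) :
    0 < (1 / a).re ∧ (-(Complex.I * b / a)).re ^ 2 < (1 / a).re * (c - b ^ 2 / a).re := by
  have n0 : 0 < normSq a := normSq_pos.2 fun h => by simp [h] at ha
  have hn : normSq a = a.re * a.re + a.im * a.im := normSq_apply a
  refine ⟨by rw [one_div, inv_re]; positivity, ?_⟩
  have e : (1 / a).re * (c - b ^ 2 / a).re - (-(Complex.I * b / a)).re ^ 2 =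
      (a.re * c.re - b.re ^ 2) / normSq a := by
    simp only [one_div, inv_re, sub_re, div_re, neg_re, sq, mul_re, mul_im, I_re, I_im]
    field_simp
    rw [hn]
    ring
  have := div_pos (sub_pos.2 hd) n0
  linarith

theorem pois2_re_pos {a b c : ℂ} (ha : 0 < a.re) (hd : b.re ^ 2 < a.re * c.re) :
    0 < (c - b ^ 2 / a).re := by
  obtain ⟨h1, h2⟩ := pois2_T ha hd
  exact (mul_pos_iff_of_pos_left h1).1 (lt_of_le_of_lt (sq_nonneg _) h2)

theorem pois2_s2 {a b c : ℂ} (ha : 0 < a.re) (hd : b.re ^ 2 < a.re * c.re) (b1 b2 : ℂ) :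
    Summable (fun p : ℤ × ℤ => Complex.exp (-π / a * (p.1 + Complex.I * (b1 - b * p.2)) ^ 2) *
      Complex.exp (-π * c * p.2 ^ 2 + 2 * π * b2 * p.2)) := by
  have a0 : a ≠ 0 := fun h => by simp [h] at ha
  obtain ⟨t1, t2⟩ := pois2_T ha hd
  have hI := Complex.I_mul_I
  refine (pois2_summ t1 t2 (-(2 * π * Complex.I * b1 / a)) (2 * π * b2 - 2 * π * b * b1 / a)
      (π * b1 ^ 2 / a)).congr fun p => ?_
  rw [← Complex.exp_add]
  congr 1
  field_simp
  linear_combination (b1 - b * p.2) ^ 2 * hI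

theorem pois2_s3 {a b c : ℂ} (ha : 0 < a.re) (hd : b.re ^ 2 < a.re * c.re) (b1 b2 : ℂ) :
    Summable (fun p : ℤ × ℤ => Complex.exp (-π / (a * c - b ^ 2) *
      (c * (p.1 + Complex.I * b1) ^ 2 - 2 * b * (p.1 + Complex.I * b1) * (p.2 + Complex.I * b2) +
        a * (p.2 + Complex.I * b2) ^ 2))) := by
  have a0 : a ≠ 0 := fun h => by simp [h] at ha
  have hc' := pois2_re_pos ha hd
  have c0 : c - b ^ 2 / a ≠ 0 := fun h => by simp [h] at hc'
  have eD : a * c - b ^ 2 = a * (c - b ^ 2 / a) := by field_simp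
  obtain ⟨t1, t2⟩ := pois2_T ha hd
  obtain ⟨t3, t4⟩ := pois2_T hc' (t2.trans_eq (mul_comm _ _))
  have t5 := pois2_re_pos hc' (t2.trans_eq (mul_comm _ _))
  have hI := Complex.I_mul_I
  have e3 : c = (c - b ^ 2 / a) + b ^ 2 / a := by ring
  have e1 : 1 / a - (-(Complex.I * b / a)) ^ 2 / (c - b ^ 2 / a) = c / (a * c - b ^ 2) := by
    rw [eD]
    generalize c - b ^ 2 / a = c' at *
    rw [e3]
    field_simp
    linear_combination (-b ^ 2) * hI
  have e2 : -(Complex.I * -(Complex.I * b / a) / (c - b ^ 2 / a)) = -b / (a * c - b ^ 2) := by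
    rw [eD]
    generalize c - b ^ 2 / a = c' at *
    field_simp
    linear_combination b * hI
  have e4 : 1 / (c - b ^ 2 / a) = a / (a * c - b ^ 2) := by
    rw [eD]
    generalize c - b ^ 2 / a = c' at *
    field_simp
  rw [e1] at t4 t5
  rw [e2, e4] at t4
  refine (pois2_summ t5 (t4.trans_eq (mul_comm _ _))
    (-π / (a * c - b ^ 2) * (2 * c * Complex.I * b1 - 2 * b * Complex.I * b2))
    (-π / (a * c - b ^ 2) * (2 * a * Complex.I * b2 - 2 * b * Complex.I * b1))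
    (-π / (a * c - b ^ 2) * (c * (Complex.I * b1) ^ 2 - 2 * b * (Complex.I * b1) * (Complex.I * b2)
      + a * (Complex.I * b2) ^ 2))).congr fun p => ?_
  congr 1
  simp only [div_eq_mul_inv]
  generalize (a * c - b ^ 2)⁻¹ = D
  ring

theorem pois2_i1 {a : ℂ} (ha : 0 < a.re) (b c b1 b2 : ℂ) (y : ℤ) :
    ∑' x : ℤ, Complex.exp (-π * (a * x ^ 2 + 2 * b * x * y + c * y ^ 2) +
      2 * π * (b1 * x + b2 * y)) = 1 / a ^ (1 / 2 : ℂ) * ∑' x : ℤ,
        Complex.exp (-π / a * (x + Complex.I * (b1 - b * y)) ^ 2) *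
          Complex.exp (-π * c * y ^ 2 + 2 * π * b2 * y) := by
  rw [tsum_mul_right, ← mul_assoc, ← Complex.tsum_exp_neg_quadratic ha, ← tsum_mul_right]
  refine tsum_congr fun x => ?_
  rw [← Complex.exp_add]
  congr 1
  ring

theorem pois2_i2 {a b c : ℂ} (ha : 0 < a.re) (hd : b.re ^ 2 < a.re * c.re) (b1 b2 : ℂ) (x : ℤ) :
    ∑' y : ℤ, Complex.exp (-π / a * (x + Complex.I * (b1 - b * y)) ^ 2) *
      Complex.exp (-π * c * y ^ 2 + 2 * π * b2 * y) = 1 / (c - b ^ 2 / a) ^ (1 / 2 : ℂ) *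
        ∑' y : ℤ, Complex.exp (-π / (a * c - b ^ 2) *
          (c * (x + Complex.I * b1) ^ 2 - 2 * b * (x + Complex.I * b1) * (y + Complex.I * b2) +
            a * (y + Complex.I * b2) ^ 2)) := by
  have a0 : a ≠ 0 := fun h => by simp [h] at ha
  have hc' := pois2_re_pos ha hd
  have c0 : c - b ^ 2 / a ≠ 0 := fun h => by simp [h] at hc'
  have eD : a * c - b ^ 2 = a * (c - b ^ 2 / a) := by field_simp
  have hI := Complex.I_mul_I
  have h := Complex.tsum_exp_neg_quadratic hc' (b2 + Complex.I * b * (x + Complex.I * b1) / a)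
  have e1 : ∀ y : ℤ, Complex.exp (-π / a * (x + Complex.I * (b1 - b * y)) ^ 2) *
      Complex.exp (-π * c * y ^ 2 + 2 * π * b2 * y) =
      Complex.exp (-π * (c - b ^ 2 / a) * y ^ 2 +
        2 * π * (b2 + Complex.I * b * (x + Complex.I * b1) / a) * y) *
        Complex.exp (-π / a * (x + Complex.I * b1) ^ 2) := fun y => by
    rw [← Complex.exp_add, ← Complex.exp_add]
    congr 1
    field_simp
    linear_combination (-(b ^ 2 * y ^ 2)) * hI
  rw [tsum_congr e1, tsum_mul_right, h, mul_assoc, ← tsum_mul_right]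
  congr 1
  refine tsum_congr fun y => ?_
  rw [← Complex.exp_add]
  congr 1
  have e2 : (y : ℂ) + Complex.I * (b2 + Complex.I * b * (x + Complex.I * b1) / a) =
      (y + Complex.I * b2) - b * (x + Complex.I * b1) / a := by
    field_simp
    linear_combination (b * (x + Complex.I * b1)) * hI
  rw [e2, eD]
  generalize (y : ℂ) + Complex.I * b2 = v
  generalize (x : ℂ) + Complex.I * b1 = u
  have e3 : c = (c - b ^ 2 / a) + b ^ 2 / a := by ring
  generalize c - b ^ 2 / a = c' at *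
  rw [e3]
  field_simp
  ring

theorem pois2_abs {F G H : ℤ → ℤ → ℂ} {A B : ℂ} (sF : Summable (Function.uncurry F))
    (sG : Summable (Function.uncurry G)) (sH : Summable (Function.uncurry H))
    (i1 : ∀ y, ∑' x, F x y = A * ∑' x, G x y) (i2 : ∀ x, ∑' y, G x y = B * ∑' y, H x y) :
    ∑' p : ℤ × ℤ, F p.1 p.2 = A * B * ∑' p : ℤ × ℤ, H p.1 p.2 := by
  have a1 : ∑' p : ℤ × ℤ, F p.1 p.2 = ∑' x, ∑' y, F x y := sF.tsum_prod
  have a2 : ∑' p : ℤ × ℤ, H p.1 p.2 = ∑' x, ∑' y, H x y := sH.tsum_prod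
  rw [a1, a2, ← sF.tsum_comm, tsum_congr i1, tsum_mul_left, sG.tsum_comm, tsum_congr i2,
    tsum_mul_left, mul_assoc]

theorem pois2 {a b c : ℂ} (ha : 0 < a.re) (hd : b.re ^ 2 < a.re * c.re) (b1 b2 : ℂ) :
    ∑' p : ℤ × ℤ, Complex.exp (-π * (a * p.1 ^ 2 + 2 * b * p.1 * p.2 + c * p.2 ^ 2) +
        2 * π * (b1 * p.1 + b2 * p.2)) =
      1 / (a ^ (1 / 2 : ℂ) * (c - b ^ 2 / a) ^ (1 / 2 : ℂ)) *
        ∑' p : ℤ × ℤ, Complex.exp (-π / (a * c - b ^ 2) *
          (c * (p.1 + Complex.I * b1) ^ 2 - 2 * b * (p.1 + Complex.I * b1) * (p.2 + Complex.I * b2) +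
            a * (p.2 + Complex.I * b2) ^ 2)) := by
  have s1 : Summable (fun p : ℤ × ℤ => Complex.exp (-π * (a * p.1 ^ 2 + 2 * b * p.1 * p.2 + c * p.2 ^ 2) +
      2 * π * (b1 * p.1 + b2 * p.2))) :=
    (pois2_summ ha hd (2 * π * b1) (2 * π * b2) 0).congr fun p => by congr 1; ring
  rw [← one_div_mul_one_div]
  exact pois2_abs (F := fun x y : ℤ => Complex.exp (-π * (a * x ^ 2 + 2 * b * x * y + c * y ^ 2) +
      2 * π * (b1 * x + b2 * y)))
    (G := fun x y : ℤ => Complex.exp (-π / a * (x + Complex.I * (b1 - b * y)) ^ 2) *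
      Complex.exp (-π * c * y ^ 2 + 2 * π * b2 * y))
    (H := fun x y : ℤ => Complex.exp (-π / (a * c - b ^ 2) *
      (c * (x + Complex.I * b1) ^ 2 - 2 * b * (x + Complex.I * b1) * (y + Complex.I * b2) +
        a * (y + Complex.I * b2) ^ 2))) s1 (pois2_s2 ha hd b1 b2) (pois2_s3 ha hd b1 b2)
    (pois2_i1 ha b c b1 b2) (pois2_i2 ha hd b1 b2)

end

end Vale.Agent.P026
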