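import Vale.Agent.P026.QLS

namespace Vale.Agent.P026

open Complex MeasureTheory Filter Topology
open scoped Classical ComplexConjugate Real MatrixGroups

noncomputable section

theorem qls2_cs {γ : Type*} (J : Finset γ) (w : γ → ℝ) (hw : ∀ j ∈ J, 0 < w j) (x : γ → ℂ) :
    ‖∑ j ∈ J, x j‖ ^ 2 ≤ (∑ j ∈ J, w j) * ∑ j ∈ J, ‖x j‖ ^ 2 / w j := by
  rcases J.eq_empty_or_nonempty with rfl | hJ
  · simp
  have h := Finset.sq_sum_div_le_sum_sq_div J (fun j => ‖x j‖) hw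
  rw [div_le_iff₀' (Finset.sum_pos hw hJ)] at h
  exact (pow_le_pow_left₀ (norm_nonneg _) (norm_sum_le _ _) 2).trans h

theorem qls2_dec {τ : O → ℂ} (h1 : ∀ n d, Prim d → ‖τ (n * d ^ 3)‖ = ‖toC d‖ * ‖τ n‖)
    (h2 : ∀ n p, Prime p → Prim p → ¬ p ∣ n → τ (n * p ^ 2) = 0) {L : ℝ} {n : O}
    (hn : n ∈ ballO L) (ht : τ n ≠ 0) : ∃ j : O × O, j.1 ∣ 2 * lam ^ qls_j L ∧ Prim j.2 ∧
      ∃ b, NN b ∧ n = j.1 * b * j.2 ^ 3 := by
  obtain ⟨n0, nL⟩ := mem_ballO.1 hn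
  obtain ⟨u, k, y, hu, hy, rfl⟩ := exists_unit_lam_prim n0
  obtain ⟨m, d, hm, hd, rfl, h3⟩ := cube_decomp hy
  have hs : Squarefree m := by
    by_contra hs
    obtain ⟨p, n', hp, hP, -, hpn, rfl⟩ := exists_exact_sq hm h3 hs
    apply ht
    have e : u * lam ^ k * (n' * p ^ 2 * d ^ 3) = u * lam ^ k * n' * p ^ 2 * d ^ 3 := by ring
    rw [← norm_eq_zero, e, h1 _ _ hd, h2 _ _ hp hP, norm_zero, mul_zero]
    intro h
    rcases hp.dvd_or_dvd h with h | h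
    · rcases hp.dvd_or_dvd h with h | h
      · exact hp.not_isUnit (isUnit_of_dvd_unit h hu)
      · exact hP.not_lam_dvd
          ((hp.irreducible.associated_of_dvd prime_lam.irreducible (hp.dvd_of_dvd_pow h)).symm.dvd)
    · exact hpn h
  obtain ⟨u', i, j, b, hu', hi, -, hb, rfl⟩ := sqfree_decomp hs
  refine ⟨(u * u' * (-2) ^ i * lam ^ (k + j), d), ?_, hd, b, hb, by ring⟩
  have hk : k + j ≤ qls_j L := by
    have a1 : N (lam ^ (k + j)) ≤ L :=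
      (N_le_of_dvd ⟨u * u' * (-2) ^ i * b * d ^ 3, by ring⟩ n0).trans nL
    rw [N_pow, N_lam] at a1
    have a2 : (2 : ℝ) ^ (k + j) ≤ 3 ^ (k + j) := by gcongr; norm_num
    have a3 : (2 : ℝ) ^ (k + j) < 2 ^ (qls_j L + 1) := by
      rw [pow_succ]; linarith [qls_lt_j L]
    exact Nat.lt_succ_iff.1 ((pow_lt_pow_iff_right₀ (by norm_num)).1 a3)
  refine mul_dvd_mul ?_ (pow_dvd_pow _ hk)
  rw [(hu.mul hu').mul_left_dvd]
  interval_cases i <;> simp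

theorem qls2 {ε : ℝ} (hε : 0 < ε) : ∃ C : ℝ, 0 < C ∧ ∀ (Z H L Bd : ℝ) (τ θ : O → ℂ),
    1 ≤ Z → 0 < H → H ≤ Z → 0 < L → L ≤ Z → 0 ≤ Bd →
    (∀ n d, Prim d → ‖τ (n * d ^ 3)‖ = ‖toC d‖ * ‖τ n‖) →
    (∀ n p, Prime p → Prim p → ¬ p ∣ n → τ (n * p ^ 2) = 0) →
    (∀ R : ℝ, 1 ≤ R → ∑ n ∈ ballO R, ‖τ n‖ ^ 2 ≤ Bd * R) → (∀ n, ‖θ n‖ ≤ 1) →
    ∑ h ∈ ballN H, ‖∑ n ∈ ballO L, τ n * θ n * sym2 n h‖ ^ 2 ≤
      C * Bd * Z ^ ε * L * (H ^ (8 / 7 : ℝ) + L ^ (8 / 5 : ℝ)) := by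
  have hε' : 0 < ε / 7 := by positivity
  obtain ⟨C1, c1, h1⟩ := qls' hε'
  obtain ⟨C2, c2, h2⟩ := dv_le hε'
  obtain ⟨C3, c3, h3⟩ := sum_inv_N_le hε'
  refine ⟨C1 * (C2 * 4 ^ (ε / 7) * C3) ^ 2, by positivity,
    fun Z H L Bd τ θ hZ hH hHZ hL hLZ hB t1 t2 t3 hθ => ?_⟩
  rcases lt_or_ge L 1 with hL1 | hL1
  · simp only [ballO_eq_empty hL1, Finset.sum_empty, norm_zero]
    simp only [ne_eq, OfNat.ofNat_ne_zero, not_false_eq_true, zero_pow, Finset.sum_const_zero]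
    positivity
  set q : O := 2 * lam ^ qls_j L with hq
  have q0 : q ≠ 0 := mul_ne_zero prime_two.ne_zero (pow_ne_zero _ prime_lam.ne_zero)
  have t3' : ∀ R : ℝ, 0 ≤ R → ∑ n ∈ ballO R, ‖τ n‖ ^ 2 ≤ Bd * R := fun R hR => by
    rcases lt_or_ge R 1 with h | h
    · rw [ballO_eq_empty h, Finset.sum_empty]; positivity
    · exact t3 R h
  set T := (ballO L).filter (fun n => τ n ≠ 0) with hT
  have ex : ∀ n, ∃ j : O × O, n ∈ T → j.1 ∣ q ∧ Prim j.2 ∧ ∃ b, NN b ∧ n = j.1 * b * j.2 ^ 3 :=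
    fun n => by
      by_cases h : n ∈ T
      · obtain ⟨j, hj⟩ := qls2_dec t1 t2 (Finset.mem_filter.1 h).1 (Finset.mem_filter.1 h).2
        exact ⟨j, fun _ => hj⟩
      · exact ⟨0, fun h' => absurd h' h⟩
  choose g hg using ex
  set J := ((ballO (N q)).filter (· ∣ q)) ×ˢ ballO L with hJ
  have mp : ∀ n ∈ T, g n ∈ J := fun n hn => by
    obtain ⟨a1, a2, b, -, a3⟩ := hg n hn
    obtain ⟨n0, nL⟩ := mem_ballO.1 (Finset.mem_filter.1 hn).1
    refine Finset.mem_product.2 ⟨Finset.mem_filter.2 ⟨mem_ballO.2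
      ⟨ne_zero_of_dvd_ne_zero q0 a1, N_le_of_dvd a1 q0⟩, a1⟩, mem_ballO.2 ⟨a2.ne_zero, ?_⟩⟩
    exact (N_le_of_dvd ⟨(g n).1 * b * (g n).2 ^ 2, a3.trans (by ring)⟩ n0).trans nL
  set a : O × O → O → ℂ := fun j b => if j.1 * b * j.2 ^ 3 ∈ T.filter (fun n => g n = j) then
    τ (j.1 * b * j.2 ^ 3) * θ (j.1 * b * j.2 ^ 3) else 0 with ha
  have J0 : ∀ j ∈ J, j.1 ≠ 0 ∧ j.2 ≠ 0 := fun j hj =>
    ⟨(mem_ballO.1 (Finset.mem_filter.1 (Finset.mem_product.1 hj).1).1).1,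
      (mem_ballO.1 (Finset.mem_product.1 hj).2).1⟩
  have e1 : ∀ h ∈ ballN H, ∑ n ∈ ballO L, τ n * θ n * sym2 n h =
      ∑ j ∈ J, sym2 (j.1 * j.2 ^ 3) h * ∑ b ∈ ballN L, a j b * sym2 b h := fun h hh => by
    rw [← Finset.sum_subset (Finset.filter_subset (fun n => τ n ≠ 0) (ballO L)) fun n x y => by
      have : τ n = 0 := by simpa [x] using y
      simp [this]]
    rw [← Finset.sum_fiberwise_of_maps_to mp]
    refine Finset.sum_congr rfl fun j hj => ?_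
    have e : ∀ b, sym2 (j.1 * j.2 ^ 3) h * (a j b * sym2 b h) =
        if j.1 * b * j.2 ^ 3 ∈ T.filter (fun n => g n = j) then
          τ (j.1 * b * j.2 ^ 3) * θ (j.1 * b * j.2 ^ 3) * sym2 (j.1 * b * j.2 ^ 3) h else 0 := by
      intro b
      simp only [ha]
      split_ifs
      · rw [show sym2 (j.1 * b * j.2 ^ 3) h = sym2 (j.1 * j.2 ^ 3 * b) h by ring_nf,
          sym2_mul_left _ b (dual_odd h hh)]
        ring
      · simp
    rw [Finset.mul_sum, Finset.sum_congr rfl fun b _ => e b, ← Finset.sum_filter]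
    symm
    refine Finset.sum_bij (fun b _ => j.1 * b * j.2 ^ 3) (fun b hb => (Finset.mem_filter.1 hb).2)
      (fun b _ b' _ e => mul_left_cancel₀ (J0 j hj).1
        (mul_right_cancel₀ (pow_ne_zero 3 (J0 j hj).2) e)) (fun n hn => ?_) fun _ _ => rfl
    obtain ⟨x, rfl⟩ := Finset.mem_filter.1 hn
    obtain ⟨-, -, b, hb, a3⟩ := hg n x
    obtain ⟨n0, nL⟩ := mem_ballO.1 (Finset.mem_filter.1 x).1
    refine ⟨b, Finset.mem_filter.2 ⟨mem_ballN.2 ⟨hb, le_trans (N_le_of_dvd ?_ n0) nL⟩, ?_⟩, a3.symm⟩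
    · exact ⟨(g n).1 * (g n).2 ^ 3, a3.trans (by ring)⟩
    · rwa [← a3]
  have e2 : ∀ j ∈ J, ∑ b ∈ ballN L, ‖a j b‖ ^ 2 ≤ Bd * L * ((N j.2)⁻¹) ^ 2 := fun j hj => by
    have d0 := N_pos (J0 j hj).2
    have s1 : ∑ b ∈ ballN L, ‖a j b‖ ^ 2 ≤ ∑ b ∈ (ballN L).filter
        (fun b => j.1 * b ∈ ballO (L / N j.2 ^ 3)), N j.2 * ‖τ (j.1 * b)‖ ^ 2 := by
      rw [Finset.sum_filter]
      refine Finset.sum_le_sum fun b _ => ?_
      simp only [ha]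
      by_cases h : j.1 * b * j.2 ^ 3 ∈ T.filter (fun n => g n = j)
      · obtain ⟨x, y⟩ := Finset.mem_filter.1 h
        obtain ⟨n0, nL⟩ := mem_ballO.1 (Finset.mem_filter.1 x).1
        have pd := (hg _ x).2.1
        rw [y] at pd
        rw [if_pos h, if_pos (mem_ballO.2 ⟨left_ne_zero_of_mul n0, by
          rw [le_div_iff₀ (by positivity), ← N_pow, ← N_mul]; exact nL⟩), norm_mul,
          ← norm_toC_sq, ← mul_pow, ← t1 _ _ pd]
        exact pow_le_pow_left₀ (by positivity) (mul_le_of_le_one_right (norm_nonneg _) (hθ _)) 2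
      · rw [if_neg h]
        split_ifs
        · rw [norm_zero, zero_pow two_ne_zero]; positivity
        · simp
    refine s1.trans ?_
    rw [← Finset.mul_sum]
    have s2 : ∑ b ∈ (ballN L).filter (fun b => j.1 * b ∈ ballO (L / N j.2 ^ 3)),
        ‖τ (j.1 * b)‖ ^ 2 ≤ ∑ n ∈ ballO (L / N j.2 ^ 3), ‖τ n‖ ^ 2 := by
      rw [← Finset.sum_image (f := fun n => ‖τ n‖ ^ 2)
        fun b _ b' _ e => mul_left_cancel₀ (J0 j hj).1 e]
      refine Finset.sum_le_sum_of_subset_of_nonneg (fun n hn => ?_) fun _ _ _ => by positivity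
      obtain ⟨b, hb, rfl⟩ := Finset.mem_image.1 hn
      exact (Finset.mem_filter.1 hb).2
    refine (mul_le_mul_of_nonneg_left (s2.trans (t3' _ (by positivity))) d0.le).trans (le_of_eq ?_)
    field_simp
  set S : ℝ := H ^ (8 / 7 : ℝ) + L ^ (8 / 5 : ℝ) with hS
  set Wt : ℝ := ∑ j ∈ J, (N j.2)⁻¹ with hW
  have W0 : 0 ≤ Wt := Finset.sum_nonneg fun j _ => inv_nonneg.2 (N_nonneg _)
  set z : ℝ := Z ^ (ε / 7) with hz
  have W1 : Wt ≤ C2 * 4 ^ (ε / 7) * C3 * z ^ 3 := by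
    rw [hW, hJ, Finset.sum_product]
    simp only [Finset.sum_const, nsmul_eq_mul]
    have a1 : N q ≤ 4 * Z * Z := by
      have h4 : N (2 : O) = 4 := by rw [N_ofNat]; norm_num
      rw [hq, N_mul, N_pow, N_lam, h4]
      have b1 := (qls_j_le hL1).trans hLZ
      have b2 : (3 : ℝ) ^ qls_j L ≤ 2 ^ qls_j L * 2 ^ qls_j L := by
        rw [← mul_pow]; gcongr; norm_num
      have b3 : (2 : ℝ) ^ qls_j L * 2 ^ qls_j L ≤ Z * Z := by gcongr
      linarith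
    have a2 : dv q ≤ C2 * (4 ^ (ε / 7) * z * z) := (h2 q q0).trans (by
      rw [hz, ← Real.mul_rpow (by norm_num) (by linarith),
        ← Real.mul_rpow (by linarith) (by linarith)]
      have := N_nonneg q
      gcongr)
    have a3 : ∑ n ∈ ballO L, (N n)⁻¹ ≤ C3 * z := (h3 L hL1).trans (by rw [hz]; gcongr)
    calc _ ≤ C2 * (4 ^ (ε / 7) * z * z) * (C3 * z) :=
          mul_le_mul a2 a3 (Finset.sum_nonneg fun j _ => inv_nonneg.2 (N_nonneg _)) (by positivity)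
      _ = _ := by ring
  calc ∑ h ∈ ballN H, ‖∑ n ∈ ballO L, τ n * θ n * sym2 n h‖ ^ 2
      ≤ ∑ h ∈ ballN H, Wt * ∑ j ∈ J, ‖∑ b ∈ ballN L, a j b * sym2 b h‖ ^ 2 / (N j.2)⁻¹ := by
        refine Finset.sum_le_sum fun h hh => ?_
        rw [e1 h hh]
        refine (qls2_cs J _ (fun j hj => inv_pos.2 (N_pos (J0 j hj).2)) _).trans
          (mul_le_mul_of_nonneg_left (Finset.sum_le_sum fun j hj => ?_) W0)
        refine div_le_div_of_nonneg_right ?_ (inv_nonneg.2 (N_nonneg _))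
        rw [norm_mul]
        exact pow_le_pow_left₀ (by positivity)
          (mul_le_of_le_one_left (norm_nonneg _) (norm_sym2_le _ _)) 2
    _ = Wt * ∑ j ∈ J, (∑ h ∈ ballN H, ‖∑ b ∈ ballN L, a j b * sym2 b h‖ ^ 2) / (N j.2)⁻¹ := by
        rw [← Finset.mul_sum, Finset.sum_comm]
        simp only [Finset.sum_div]
    _ ≤ Wt * ∑ j ∈ J, C1 * z * S * (Bd * L) * (N j.2)⁻¹ := by
        refine mul_le_mul_of_nonneg_left (Finset.sum_le_sum fun j hj => ?_) W0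
        have d0 := N_pos (J0 j hj).2
        rw [div_le_iff₀ (by positivity)]
        refine (h1 Z H L (a j) hZ hH hHZ hL hLZ).trans
          ((mul_le_mul_of_nonneg_left (e2 j hj) (by positivity)).trans (le_of_eq ?_))
        ring
    _ = C1 * z * S * (Bd * L) * Wt ^ 2 := by rw [← Finset.mul_sum]; ring
    _ ≤ C1 * z * S * (Bd * L) * (C2 * 4 ^ (ε / 7) * C3 * z ^ 3) ^ 2 := by gcongr
    _ = _ := by
        have : Z ^ ε = z ^ 7 := by
          rw [hz, ← Real.rpow_natCast, ← Real.rpow_mul (by linarith)]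
          congr 1
          push_cast
          ring
        rw [this]; ring

end

end Vale.Agent.P026
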