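import Vale.Agent.P026.Pois

namespace Vale.Agent.P026

open Complex MeasureTheory Filter Topology
open scoped Classical ComplexConjugate Real MatrixGroups

noncomputable section

theorem tendsto_per {q : O} (hq : q ≠ 0) {f : O → ℂ} (hf : Per q f) :
    Tendsto (fun ε : ℝ => (ε : ℂ) * ∑' x : O, f x * ((Real.exp (-(kap * ε * N x)) : ℝ) : ℂ))
      (𝓝[>] 0) (𝓝 ((∑ x ∈ rs q, f x) / ((N q : ℝ) : ℂ))) := by
  have q0 := N_pos hq
  obtain ⟨C, hC, hs⟩ := sum_exp_le kap_pos
  set B := ∑ x ∈ rs q, ‖f x‖ with hB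
  have B0 : 0 ≤ B := Finset.sum_nonneg fun _ _ => norm_nonneg _
  have cb : ∀ h : O, ‖∑ x ∈ rs q, f x * psi (toC h * toC x / toC q)‖ ≤ B := fun h =>
    (norm_sum_le _ _).trans (Finset.sum_le_sum fun x _ => by rw [norm_mul, norm_psi, mul_one])
  rw [tendsto_iff_norm_sub_tendsto_zero]
  have lim : Tendsto (fun ε : ℝ => B * C * ε) (𝓝[>] 0) (𝓝 0) := by
    have : Tendsto (fun ε : ℝ => B * C * ε) (𝓝 0) (𝓝 (B * C * 0)) :=
      (continuous_const.mul continuous_id).tendsto 0
    rw [mul_zero] at this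
    exact this.mono_left nhdsWithin_le_nhds
  refine squeeze_zero' (Eventually.of_forall fun _ => norm_nonneg _) ?_ lim
  filter_upwards [self_mem_nhdsWithin] with ε hε
  have hε' : 0 < ε := hε
  have h := poisson_char hq hf (inv_pos.2 hε')
  have e1 : ∀ x : O, kap * ε * N x = kap * N x / ε⁻¹ := fun x => by field_simp
  have e2 : ∀ x : O, kap * N x * ε⁻¹ / N q = kap * N x / (ε * N q) := fun x => by field_simp
  simp_rw [e1, h, e2]
  have T0 : 0 < ε * N q := by positivity
  have sm := pois_summ cb T0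
  rw [sm.tsum_eq_add_tsum_ite 0]
  simp only [map_zero, zero_mul, zero_div, psi_zero, mul_one, N_zero, mul_zero, neg_zero,
    Real.exp_zero, ofReal_one]
  have e3 : (ε : ℂ) * ((ε⁻¹ / N q : ℝ) : ℂ) = 1 / ((N q : ℝ) : ℂ) := by
    have : (ε : ℂ) ≠ 0 := by exact_mod_cast hε'.ne'
    push_cast
    field_simp
  rw [← mul_assoc, e3, mul_add, one_div_mul_eq_div, add_sub_cancel_left, norm_mul, norm_div,
    norm_one, Complex.norm_real, Real.norm_of_nonneg q0.le]
  have sm2 : Summable (fun h : O => if h ≠ 0 then Real.exp (-(kap * N h / (ε * N q))) else 0) :=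
    Summable.of_nonneg_of_le (fun h => by split_ifs <;> positivity)
      (fun h => by split_ifs; exacts [le_rfl, (Real.exp_pos _).le]) (hs _ T0).1
  have b := tsum_of_norm_bounded (f := fun h : O => if h = 0 then (0 : ℂ) else
      (∑ x ∈ rs q, f x * psi (toC h * toC x / toC q)) *
        ((Real.exp (-(kap * N h / (ε * N q))) : ℝ) : ℂ)) (sm2.mul_left B).hasSum (fun h => by
    by_cases h0 : h = 0
    · simp [h0]
    · simp only [h0, if_false, ne_eq, not_false_eq_true, if_true]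
      rw [norm_mul, Complex.norm_real, Real.norm_of_nonneg (Real.exp_pos _).le]
      exact mul_le_mul_of_nonneg_right (cb h) (Real.exp_pos _).le)
  rw [tsum_mul_left] at b
  have b2 := b.trans (mul_le_mul_of_nonneg_left (hs _ T0).2 B0)
  refine (mul_le_mul_of_nonneg_left b2 (by positivity)).trans (le_of_eq ?_)
  field_simp

theorem quada_eq (t n h : O) :
    -(toC n * toC h ^ 2 / (4 * toC t)) = toC (-(n * h ^ 2)) / toC (4 * t) := by
  rw [map_neg, map_mul, map_mul, map_pow, neg_div, map_ofNat]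

theorem Ft_per {t : O} (ht : t ≠ 0) : Per (4 * t) (Ft t) := by
  intro n n' h
  unfold Ft
  congr 1
  refine Finset.sum_congr rfl fun x _ => ?_
  rw [quada_eq, quada_eq]
  refine psi_congr (mul_ne_zero (by decide) ht) ?_
  have : -(n * x ^ 2) - -(n' * x ^ 2) = (n - n') * -(x ^ 2) := by ring
  rw [this]
  exact h.mul_right _

theorem quada_per {t : O} (ht : t ≠ 0) (n : O) :
    Per (2 * t) (fun h => psi (-(toC n * toC h ^ 2 / (4 * toC t)))) := by
  rintro x y ⟨k, hk⟩
  beta_reduce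
  rw [quada_eq, quada_eq]
  refine psi_congr (mul_ne_zero (by decide) ht) ⟨-(n * (k * y + t * k ^ 2)), ?_⟩
  have : x = y + 2 * t * k := by rw [← hk]; ring
  rw [this]
  ring

theorem quada_per2 {n : O} (hn : n ≠ 0) (t : O) :
    Per n (fun x => psi (toC t * toC x ^ 2 / toC n)) := by
  intro x y h
  beta_reduce
  rw [← map_pow, ← map_pow, ← map_mul, ← map_mul]
  refine psi_congr hn ?_
  have : t * x ^ 2 - t * y ^ 2 = (x - y) * (t * (x + y)) := by ring
  rw [this]
  exact h.mul_right _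

theorem quada_err (β : ℂ) (hβ : 0 < normSq β) : Tendsto (fun ε : ℝ =>
    ((ε / (ε ^ 2 + 4 * normSq β) : ℝ) : ℂ) * (∑' h : O,
      psi (-(conj β * toC h ^ 2 / ((ε ^ 2 + 4 * normSq β : ℝ) : ℂ))) *
        ((Real.exp (-(kap * (ε / (ε ^ 2 + 4 * normSq β)) * N h)) : ℝ) : ℂ)) -
    ((ε / (ε ^ 2 + 4 * normSq β) : ℝ) : ℂ) * ∑' h : O,
      psi (-(conj β * toC h ^ 2 / ((4 * normSq β : ℝ) : ℂ))) *
        ((Real.exp (-(kap * (ε / (ε ^ 2 + 4 * normSq β)) * N h)) : ℝ) : ℂ)) (𝓝[>] 0) (𝓝 0) := by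
  obtain ⟨C, hC, hs⟩ := sum_N_mul_exp_le kap_pos
  have k0 := kap_pos
  set K := 2 * kap * ‖β‖ * C / (4 * normSq β) with hK
  have lim : Tendsto (fun ε : ℝ => K * ε) (𝓝[>] 0) (𝓝 0) := by
    have : Tendsto (fun ε : ℝ => K * ε) (𝓝 0) (𝓝 (K * 0)) :=
      (continuous_const.mul continuous_id).tendsto 0
    rw [mul_zero] at this
    exact this.mono_left nhdsWithin_le_nhds
  refine squeeze_zero_norm' ?_ lim
  filter_upwards [self_mem_nhdsWithin] with ε hε
  have hε' : 0 < ε := hε
  set D := ε ^ 2 + 4 * normSq β with hD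
  have D0 : 0 < D := by positivity
  have T0 : 0 < D / ε := by positivity
  have e1 : ∀ h : O, kap * (ε / D) * N h = kap * N h / (D / ε) := fun h => by field_simp
  simp_rw [e1]
  rw [← mul_sub, ← (pois_summ (B := 1) (fun m => (norm_psi _).le) T0).tsum_sub
    (pois_summ (B := 1) (fun m => (norm_psi _).le) T0), norm_mul, Complex.norm_real,
    Real.norm_of_nonneg (by positivity)]
  have b := tsum_of_norm_bounded (f := fun h : O =>
      psi (-(conj β * toC h ^ 2 / (D : ℂ))) * ((Real.exp (-(kap * N h / (D / ε))) : ℝ) : ℂ) -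
      psi (-(conj β * toC h ^ 2 / ((4 * normSq β : ℝ) : ℂ))) *
        ((Real.exp (-(kap * N h / (D / ε))) : ℝ) : ℂ))
    ((hs _ T0).1.mul_left (2 * kap * (‖β‖ * (ε ^ 2 / (D * (4 * normSq β)))))).hasSum (fun h => by
      rw [← sub_mul, norm_mul, Complex.norm_real, Real.norm_of_nonneg (Real.exp_pos _).le,
        ← mul_assoc]
      refine mul_le_mul_of_nonneg_right ((norm_psi_sub_le _ _).trans (le_of_eq ?_))
        (Real.exp_pos _).le
      have : -(conj β * toC h ^ 2 / (D : ℂ)) - -(conj β * toC h ^ 2 / ((4 * normSq β : ℝ) : ℂ)) =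
          conj β * toC h ^ 2 * ((ε ^ 2 / (D * (4 * normSq β)) : ℝ) : ℂ) := by
        have e : ε ^ 2 / (D * (4 * normSq β)) = 1 / (4 * normSq β) - 1 / D := by
          field_simp
          rw [hD]
          ring
        rw [e]
        push_cast
        ring
      rw [this, norm_mul, norm_mul, norm_pow, norm_toC_sq, Complex.norm_real,
        Real.norm_of_nonneg (by positivity), Complex.norm_conj]
      ring)
  rw [tsum_mul_left] at b
  have b2 := b.trans (mul_le_mul_of_nonneg_left (hs _ T0).2 (by positivity))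
  refine (mul_le_mul_of_nonneg_left b2 (by positivity)).trans (le_of_eq ?_)
  rw [hK]
  field_simp

theorem Gq_eq {t n : O} (ht : t ≠ 0) (hn : n ≠ 0) : Gq t n = (‖toC n‖ : ℂ) * Ft t n := by
  have t0 := toC_ne_zero ht
  have n0 := toC_ne_zero hn
  set β := toC t / toC n with hβ
  have β0 : β ≠ 0 := div_ne_zero t0 n0
  have b0 : 0 < normSq β := normSq_pos.2 β0
  have h2t : (2 : O) * t ≠ 0 := mul_ne_zero (by decide) ht
  have L := tendsto_per hn (quada_per2 hn t)
  have R0 := tendsto_per h2t (quada_per ht n)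
  have tε : Tendsto (fun ε : ℝ => ε / (ε ^ 2 + 4 * normSq β)) (𝓝[>] 0) (𝓝[>] 0) := by
    refine tendsto_nhdsWithin_iff.2 ⟨?_, ?_⟩
    · have : Tendsto (fun ε : ℝ => ε / (ε ^ 2 + 4 * normSq β)) (𝓝 0)
          (𝓝 (0 / (0 ^ 2 + 4 * normSq β))) :=
        (continuous_id.tendsto 0).div (((continuous_pow 2).add continuous_const).tendsto 0)
          (by positivity)
      rw [zero_div] at this
      exact this.mono_left nhdsWithin_le_nhds
    · filter_upwards [self_mem_nhdsWithin] with ε hε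
      have : 0 < ε := hε
      show 0 < ε / _
      positivity
  have ph : ∀ h : O, -(conj β * toC h ^ 2 / ((4 * normSq β : ℝ) : ℂ)) =
      -(toC n * toC h ^ 2 / (4 * toC t)) := fun h => by
    have : conj β ≠ 0 := by simpa using β0
    push_cast
    rw [← mul_conj, neg_inj]
    generalize conj β = b at *
    rw [hβ]
    field_simp
  have R1 := (quada_err β b0).add (R0.comp tε)
  simp only [ph, Function.comp_apply, sub_add_cancel, zero_add] at R1
  have tS : Tendsto (fun ε : ℝ => ((√(ε ^ 2 + 4 * normSq β) : ℝ) : ℂ)) (𝓝[>] 0)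
      (𝓝 ((√(0 ^ 2 + 4 * normSq β) : ℝ) : ℂ)) :=
    ((continuous_ofReal.comp (Real.continuous_sqrt.comp
      ((continuous_pow 2).add continuous_const))).tendsto 0).mono_left nhdsWithin_le_nhds
  have R2 := tS.mul R1
  have key := tendsto_nhds_unique_of_eventuallyEq L R2 (by
    filter_upwards [self_mem_nhdsWithin] with ε hε
    have hε' : 0 < ε := hε
    have D0 : 0 < ε ^ 2 + 4 * normSq β := by positivity
    have h := lsp β hε'
    have e1 : ∀ x : O, toC t * toC x ^ 2 / toC n = β * toC x ^ 2 := fun x => by rw [hβ]; ring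
    have e2 : ∀ x : O, kap * (ε / (ε ^ 2 + 4 * normSq β)) * N x =
        kap * ε * N x / (ε ^ 2 + 4 * normSq β) := fun x => by ring
    simp_rw [e1, e2, h]
    rw [← mul_assoc, ← mul_assoc, ← ofReal_mul, ← ofReal_mul]
    congr 2
    have s0 : 0 < √(ε ^ 2 + 4 * normSq β) := Real.sqrt_pos.2 D0
    have s1 := Real.mul_self_sqrt D0.le
    generalize √(ε ^ 2 + 4 * normSq β) = S at *
    rw [← s1]
    field_simp)
  have e3 : √(0 ^ 2 + 4 * normSq β) = 2 * (‖toC t‖ / ‖toC n‖) := by
    rw [← norm_div, ← hβ, normSq_eq_norm_sq, Real.sqrt_eq_iff_mul_self_eq (by positivity)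
      (by positivity)]
    ring
  have e4 : N (2 * t) = 4 * ‖toC t‖ ^ 2 := by rw [N_mul, N_ofNat, norm_toC_sq]; norm_num
  rw [e3, e4, ← norm_toC_sq n] at key
  have t1 : (‖toC t‖ : ℂ) ≠ 0 := by exact_mod_cast norm_ne_zero_iff.2 t0
  have n1 : (‖toC n‖ : ℂ) ≠ 0 := by exact_mod_cast norm_ne_zero_iff.2 n0
  unfold Gq Ft
  push_cast at key
  rw [div_eq_iff (pow_ne_zero 2 n1)] at key
  rw [key]
  field_simp
  ring

end

end Vale.Agent.P026
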