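import Vale.Agent.P026.Kub

namespace Vale.Agent.P026

open Complex MeasureTheory Filter Topology
open scoped Classical ComplexConjugate Real MatrixGroups

noncomputable section

theorem sr_Ssum (m : O) (Φ : O × O → ℂ) (n c : O) :
    Ssum m Φ n c = ∑ d ∈ rs (m * c), Φ (c, d) * psi (toC (n * d) / toC (m * c)) := by
  unfold Ssum
  simp only [map_mul]

theorem sr_per {q n : O} (hq : q ≠ 0) {F : O → ℂ} (hF : Per q F) :
    Per q (fun d => F d * psi (toC (n * d) / toC q)) := by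
  intro x y h
  simp only
  rw [hF x y h, psi_congr hq (x := n * x) (y := n * y) (by rw [← mul_sub]; exact h.mul_left _)]

theorem sr_nine_ne : (9 : O) ≠ 0 := by
  intro h
  have h1 := Nm_natCast 9
  rw [show ((9 : ℕ) : O) = 9 from rfl, h, Nm_eq_zero.2 rfl] at h1
  norm_num at h1

theorem sr_Phi_per (σ : SLO) (c : O) : Per (9 * c) (fun d => tw Phi1 σ (c, d)) :=
  fun _ _ h => Phi_per σ h

theorem norm_Ssum_le {m c : O} (hm : m ≠ 0) (hc : c ≠ 0) {Φ : O × O → ℂ} (hΦ : ∀ x, ‖Φ x‖ ≤ 1)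
    (n : O) : ‖Ssum m Φ n c‖ ≤ N m * N c := by
  unfold Ssum
  refine (norm_sum_le _ _).trans ?_
  have : ∑ d ∈ rs (m * c), ‖Φ (c, d) * psi (toC n * toC d / (toC m * toC c))‖ ≤
      ∑ d ∈ rs (m * c), (1 : ℝ) := by
    apply Finset.sum_le_sum
    intro d _
    rw [norm_mul, norm_psi, mul_one]
    exact hΦ _
  refine this.trans ?_
  rw [Finset.sum_const, card_rs (mul_ne_zero hm hc), ← N_mul]
  simp [N]

/-- vanishing by a shift -/
theorem sr_vanish {q q' n : O} (hq : q ≠ 0) (hq' : q' ≠ 0) {F : O → ℂ} (hF : Per q F)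
    (hn : ¬ q' ∣ n) : ∑ d ∈ rs (q * q'), F d * psi (toC (n * d) / toC (q * q')) = 0 := by
  have hqq := mul_ne_zero hq hq'
  rw [← psi_div_eq_one_iff hq'] at hn
  push Not at hn
  obtain ⟨j, hj⟩ := hn
  have h1 := sum_rs_add hqq (sr_per (n := n) hqq (hF.mono (dvd_mul_right q q'))) (q * j)
  have h2 : ∑ x ∈ rs (q * q'), F (x + q * j) * psi (toC (n * (x + q * j)) / toC (q * q')) =
      psi (toC n * toC j / toC q') *
        ∑ d ∈ rs (q * q'), F d * psi (toC (n * d) / toC (q * q')) := by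
    rw [Finset.mul_sum]
    apply Finset.sum_congr rfl
    intro x _
    rw [hF (x + q * j) x ⟨j, by ring⟩]
    have : toC (n * (x + q * j)) / toC (q * q') =
        toC n * toC j / toC q' + toC (n * x) / toC (q * q') := by
      have := toC_ne_zero hq
      have := toC_ne_zero hq'
      simp only [map_mul, map_add]
      field_simp
      ring
    rw [this, psi_add]
    ring
  rw [h2] at h1
  by_contra hne
  exact hj (mul_right_cancel₀ hne (h1.trans (one_mul _).symm))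

theorem sr_scale (σ : SLO) {c t : O} (hc : c ≠ 0) (ht : (9 : O) ∣ t - 1) (hct : IsCoprime t c)
    (n : O) : Ssum 9 (tw Phi1 σ) n c = sym3 c t * Ssum 9 (tw Phi1 σ) (n * t) c := by
  have h9c := mul_ne_zero sr_nine_ne hc
  have h9 : IsCoprime t 9 := by
    obtain ⟨w, hw⟩ := ht
    exact ⟨1, -w, by linear_combination hw⟩
  rw [sr_Ssum, sr_Ssum, ← sum_rs_mul h9c (h9.mul_right hct) (sr_per h9c (sr_Phi_per σ c)),
    Finset.mul_sum]
  apply Finset.sum_congr rfl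
  intro x _
  rw [Phi_scale σ (d := x) ht (by simp), mul_assoc n]
  ring

theorem sr_congr_n {m c n n' : O} (hmc : m * c ≠ 0) (Φ : O × O → ℂ) (h : m * c ∣ n - n') :
    Ssum m Φ n c = Ssum m Φ n' c := by
  rw [sr_Ssum, sr_Ssum]
  apply Finset.sum_congr rfl
  intro x _
  rw [psi_congr hmc (x := n * x) (y := n' * x) (by rw [← sub_mul]; exact h.mul_right _)]

theorem sr_ne {p c : O} (hc : ¬ p ∣ c) : c ≠ 0 := fun h => hc (h ▸ dvd_zero p)

theorem sr_cop {p c : O} (hp : Prime p) (hc : ¬ p ∣ c) : IsCoprime p c :=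
  hp.coprime_iff_not_dvd.2 hc

theorem sr_cop9 {p c : O} (hp : Prime p) (hP : Prim p) (hc : ¬ p ∣ c) : IsCoprime p (9 * c) := by
  have h9 : (9 : O) = 3 * 3 := by norm_num
  rw [h9]
  exact (hP.coprime_three.mul_right hP.coprime_three).mul_right (sr_cop hp hc)

theorem sr_nine_pow {p : O} (hP : Prim p) {k : ℕ} (hk : 3 ∣ k) : (9 : O) ∣ p ^ k - 1 := by
  obtain ⟨j, rfl⟩ := hk
  rw [mul_comm, pow_mul]
  exact (hP.pow j).cube

theorem sr_sym3_pow {p : O} (hp : Prime p) {k : ℕ} (hk : 3 ∣ k) (hk1 : 1 ≤ k) (d : O) :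
    sym3 d (p ^ k) = if p ∣ d then 0 else 1 := by
  rw [sym3_pow_right _ hp.ne_zero]
  split_ifs with h
  · rw [(sym3_eq_zero_iff hp.ne_zero).2 (fun h' => hp.coprime_iff_not_dvd.1 h'.symm h),
      zero_pow (by omega)]
  · obtain ⟨j, rfl⟩ := hk
    rw [pow_mul, sym3_cube (sr_cop hp h).symm, one_pow]

theorem S_P (σ : SLO) {p c : O} (hp : Prime p) (hP : Prim p) (hc : ¬ p ∣ c) (n : O) :
    Ssum 9 (tw Phi1 σ) (n * p ^ 3) c = Ssum 9 (tw Phi1 σ) n c := by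
  rw [sr_scale σ (sr_ne hc) hP.cube (sr_cop hp hc).pow_left n,
    sr_sym3_pow hp dvd_rfl (by norm_num), if_neg hc, one_mul]

theorem sr_pow_ne {z : ℂ} (hz : z ^ 3 = 1) (h1 : z ≠ 1) {k : ℕ} (hk : ¬ 3 ∣ k) : z ^ k ≠ 1 := by
  intro h
  rw [← Nat.div_add_mod k 3, pow_add, pow_mul, hz, one_pow, one_mul] at h
  have : k % 3 = 1 ∨ k % 3 = 2 := by omega
  rcases this with h' | h'
  · rw [h', pow_one] at h; exact h1 h
  · rw [h'] at h
    apply h1
    linear_combination hz - z * h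

theorem sr_nonres (σ : SLO) {p c n : O} (hp : Prime p) (hP : Prim p) (hc : ¬ p ∣ c) {k : ℕ}
    (hk : ¬ 3 ∣ k) (hn : p ^ k ∣ n) : Ssum 9 (tw Phi1 σ) n (c * p ^ k) = 0 := by
  obtain ⟨x, hx, hx1⟩ := exists_sym3_ne hp hP
  obtain ⟨t, ht1, ht2⟩ := exists_crt (sr_cop9 hp hP hc) x 1
  have ht9 : (9 : O) ∣ t - 1 := (dvd_mul_right _ _).trans ht2
  have htc : c ∣ t - 1 := (dvd_mul_left _ _).trans ht2
  have Pt := kub_prim_of_nine ht9
  have hpt : ¬ p ∣ t := fun h => hx (by simpa using dvd_sub h ht1)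
  have hne : c * p ^ k ≠ 0 := mul_ne_zero (sr_ne hc) (pow_ne_zero _ hp.ne_zero)
  have hcop : IsCoprime t (c * p ^ k) := by
    refine IsCoprime.mul_right ?_ (sr_cop hp hpt).symm.pow_right
    obtain ⟨w, hw⟩ := htc
    exact ⟨1, -w, by linear_combination hw⟩
  have h1 := sr_scale σ hne ht9 hcop n
  have h2 : Ssum 9 (tw Phi1 σ) (n * t) (c * p ^ k) = Ssum 9 (tw Phi1 σ) n (c * p ^ k) := by
    apply sr_congr_n (mul_ne_zero sr_nine_ne hne)
    obtain ⟨w, hw⟩ := ht2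
    obtain ⟨v, hv⟩ := hn
    exact ⟨v * w, by rw [hv]; linear_combination p ^ k * v * hw⟩
  have h3 : sym3 (c * p ^ k) t = sym3 x p ^ k := by
    rw [sym3_mul_left, sym3_pow_left, cubic_recip hP Pt, sym3_congr ht1,
      sym3_SYM Pt prim_one ht9 htc, kub_sym3_one, one_mul]
  rw [h2, h3] at h1
  by_contra hS
  exact sr_pow_ne (sym3_cube (sr_cop hp hx).symm) hx1 hk
    (mul_right_cancel₀ hS (h1.symm.trans (one_mul _).symm))

theorem sr_Phi_pow (σ : SLO) {p : O} (hp : Prime p) (hP : Prim p) {k : ℕ} (hk : 3 ∣ k)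
    (hk1 : 1 ≤ k) (c d : O) :
    tw Phi1 σ (c * p ^ k, d) = (if p ∣ d then 0 else 1) * tw Phi1 σ (c, d) := by
  rw [mul_comm c, Phi_scale' σ (sr_nine_pow hP hk), sr_sym3_pow hp hk hk1]

theorem sr_not_cube {p n : O} (hp : Prime p) (hn : ¬ p ∣ n) : ¬ p ^ 3 ∣ n * p ^ 2 := by
  intro h
  rw [pow_succ' p 2] at h
  exact hn ((mul_dvd_mul_iff_right (pow_ne_zero 2 hp.ne_zero)).1 h)

theorem S_Q (σ : SLO) {p c n : O} (hp : Prime p) (hP : Prim p) (hc : ¬ p ∣ c) (hn : ¬ p ∣ n)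
    {k : ℕ} (hk : k = 1 ∨ k = 2 ∨ 4 ≤ k) :
    Ssum 9 (tw Phi1 σ) (n * p ^ 2) (c * p ^ k) = 0 := by
  rcases hk with rfl | rfl | hk
  · exact sr_nonres σ hp hP hc (by norm_num) ⟨n * p, by ring⟩
  · exact sr_nonres σ hp hP hc (by norm_num) ⟨n, by ring⟩
  · obtain ⟨j, rfl⟩ : ∃ j, k = j + 1 + 3 := ⟨k - 4, by omega⟩
    have e : 9 * (c * p ^ (j + 1 + 3)) = 9 * (c * p ^ (j + 1)) * p ^ 3 := by ring
    rw [sr_Ssum, e]
    have hne : c * p ^ (j + 1) ≠ 0 := mul_ne_zero (sr_ne hc) (pow_ne_zero _ hp.ne_zero)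
    apply sr_vanish (mul_ne_zero sr_nine_ne hne) (pow_ne_zero _ hp.ne_zero) _ (sr_not_cube hp hn)
    intro x y hxy
    simp only
    rw [pow_add p (j + 1), ← mul_assoc, sr_Phi_pow σ hp hP dvd_rfl (by norm_num),
      sr_Phi_pow σ hp hP dvd_rfl (by norm_num), Phi_per σ hxy]
    have hd : p ∣ x - y := Dvd.dvd.trans ⟨9 * c * p ^ j, by ring⟩ hxy
    have : p ∣ x ↔ p ∣ y := by
      constructor
      · intro h; simpa using dvd_sub h hd
      · intro h; simpa using dvd_add hd h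
    simp only [this]

theorem sr_psi_crt {q1 q2 : O} (h1 : q1 ≠ 0) (h2 : q2 ≠ 0) (n x1 x2 : O) :
    psi (toC (n * (x1 * q2 + x2 * q1)) / toC (q1 * q2)) =
      psi (toC (n * x1) / toC q1) * psi (toC (n * x2) / toC q2) := by
  rw [← psi_add]
  congr 1
  have := toC_ne_zero h1
  have := toC_ne_zero h2
  simp only [map_mul, map_add]
  field_simp

theorem sr_crt (σ : SLO) {p c : O} (hp : Prime p) (hP : Prim p) (hc : ¬ p ∣ c) {k : ℕ}
    (hk : 3 ∣ k) (hk1 : 1 ≤ k) (n : O) :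
    Ssum 9 (tw Phi1 σ) n (c * p ^ k) = Ssum 9 (tw Phi1 σ) n c *
      ∑ x ∈ rs (p ^ k), (if p ∣ x then 0 else 1) * psi (toC (n * x) / toC (p ^ k)) := by
  have h9c := mul_ne_zero sr_nine_ne (sr_ne hc)
  have hpk := pow_ne_zero k hp.ne_zero
  have hper := sr_per (n := n) (mul_ne_zero sr_nine_ne (mul_ne_zero (sr_ne hc) hpk))
    (sr_Phi_per σ (c * p ^ k))
  rw [sr_Ssum, sr_Ssum]
  rw [← mul_assoc] at hper ⊢
  rw [sum_rs_crt h9c hpk (sr_cop9 hp hP hc).pow_left.symm hper, Finset.sum_mul_sum]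
  apply Finset.sum_congr rfl
  intro x1 _
  apply Finset.sum_congr rfl
  intro x2 _
  rw [sr_psi_crt h9c hpk, sr_Phi_pow σ hp hP hk hk1,
    Phi_scale σ (d := x1) (sr_nine_pow hP hk) ⟨x2, by ring⟩, sr_sym3_pow hp hk hk1, if_neg hc]
  have hpp : p ∣ x1 * p ^ k := (dvd_pow_self p (by omega)).mul_left _
  have : p ∣ x1 * p ^ k + x2 * (9 * c) ↔ p ∣ x2 := by
    rw [dvd_add_right hpp]
    exact ⟨fun h => (sr_cop9 hp hP hc).dvd_of_dvd_mul_right h, fun h => h.mul_right _⟩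
  simp only [this]
  ring

theorem sr_ram {p n : O} (hp : Prime p) (j : ℕ) (hn : p ^ j ∣ n) :
    ∑ x ∈ rs (p ^ (j + 1)), (if p ∣ x then 0 else 1) * psi (toC (n * x) / toC (p ^ (j + 1))) =
      (if p ^ (j + 1) ∣ n then ((N p : ℝ) : ℂ) ^ (j + 1) else 0) - ((N p : ℝ) : ℂ) ^ j := by
  have hpk := pow_ne_zero (j + 1) hp.ne_zero
  have h1 := sum_psi hpk n
  have h2 : ∑ x ∈ rs (p ^ (j + 1)), (if p ∣ x then (1 : ℂ) else 0) = ((N p : ℝ) : ℂ) ^ j := by
    have hper : Per (p * p ^ j) (fun x => if p ∣ x then (1 : ℂ) else 0) := by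
      intro x y hxy
      have hd : p ∣ x - y := (dvd_mul_right _ _).trans hxy
      have : p ∣ x ↔ p ∣ y := by
        constructor
        · intro h; simpa using dvd_sub h hd
        · intro h; simpa using dvd_add hd h
      simp only [this]
    rw [pow_succ', sum_rs_split hp.ne_zero (pow_ne_zero j hp.ne_zero) hper,
      ← sum_class hp.ne_zero 0 (((N p : ℝ) : ℂ) ^ j)]
    apply Finset.sum_congr rfl
    intro x _
    have : ∀ i, p ∣ x + p * i ↔ p ∣ 0 - x := fun i => by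
      rw [dvd_add_left (dvd_mul_right p i), zero_sub, dvd_neg]
    simp only [this]
    rw [Finset.sum_const, card_rs (pow_ne_zero j hp.ne_zero), Nm_pow]
    split_ifs <;> simp [N]
  rw [N_pow] at h1
  push_cast at h1
  rw [← h1, ← h2, ← Finset.sum_sub_distrib]
  apply Finset.sum_congr rfl
  intro x _
  split_ifs with h
  · have : p ^ (j + 1) ∣ n * x - 0 := by
      rw [sub_zero, pow_succ]; exact mul_dvd_mul hn h
    have h3 := psi_congr hpk this
    rw [map_zero, zero_div, psi_zero, map_mul] at h3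
    rw [h3]; ring
  · rw [map_mul]; ring

theorem S_Q3 (σ : SLO) {p c n : O} (hp : Prime p) (hP : Prim p) (hc : ¬ p ∣ c) (hn : ¬ p ∣ n) :
    Ssum 9 (tw Phi1 σ) (n * p ^ 2) (c * p ^ 3) =
      -((N p : ℝ) : ℂ) ^ 2 * Ssum 9 (tw Phi1 σ) (n * p ^ 2) c := by
  rw [sr_crt σ hp hP hc dvd_rfl (by norm_num), sr_ram hp 2 (dvd_mul_left _ _),
    if_neg (sr_not_cube hp hn)]
  ring

theorem sr_Phi1_per (c : O) : Per (9 * c) (fun d => Phi1 (c, d)) := by
  have := sr_Phi_per 1 c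
  rwa [tw_one] at this

theorem sr_Phi1_left {p : O} (hP : Prim p) (c d : O) :
    Phi1 (c * p, d) = Phi1 (c, d) * sym3 d p := by
  unfold Phi1
  have : (3 : O) ∣ c * p ↔ (3 : O) ∣ c :=
    ⟨fun h => hP.coprime_three.symm.dvd_of_dvd_mul_right h, fun h => h.mul_right _⟩
  simp only [this]
  split_ifs with h
  · rw [sym3_mul_left, cubic_recip hP h.2]
  · simp

theorem sr_Phi1_right {p : O} (hP : Prim p) (c d : O) :
    Phi1 (c, p * d) = sym3 c p * Phi1 (c, d) := by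
  unfold Phi1
  have : Prim (p * d) ↔ Prim d := ⟨fun h => h.of_mul hP, fun h => hP.mul h⟩
  simp only [this]
  split_ifs with h
  · rw [sym3_mul_right _ hP.ne_zero h.2.ne_zero]
  · simp

theorem S_G1 {p c : O} (hp : Prime p) (hP : Prim p) (hc : ¬ p ∣ c) (n : O) :
    Ssum 9 Phi1 n (c * p) = sym3 9 p * g3 n p * Ssum 9 Phi1 (n * p) c := by
  have h9c := mul_ne_zero sr_nine_ne (sr_ne hc)
  have hcop := sr_cop9 hp hP hc
  have h1 : Ssum 9 Phi1 n c = sym3 c p * Ssum 9 Phi1 (n * p) c := by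
    rw [sr_Ssum, sr_Ssum, ← sum_rs_mul h9c hcop (sr_per h9c (sr_Phi1_per c)), Finset.mul_sum]
    apply Finset.sum_congr rfl
    intro x _
    rw [sr_Phi1_right hP, mul_assoc n]
    ring
  have h2 : Ssum 9 Phi1 n (c * p) = sym3 9 p * sym3 c p ^ 2 * (Ssum 9 Phi1 n c * g3 n p) := by
    have hper := sr_per (n := n) (mul_ne_zero sr_nine_ne (mul_ne_zero (sr_ne hc) hp.ne_zero))
      (sr_Phi1_per (c * p))
    rw [sr_Ssum, sr_Ssum]
    rw [← mul_assoc] at hper ⊢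
    unfold g3
    rw [sum_rs_crt h9c hp.ne_zero hcop.symm hper, Finset.sum_mul_sum, Finset.mul_sum]
    apply Finset.sum_congr rfl
    intro x1 _
    rw [Finset.mul_sum]
    apply Finset.sum_congr rfl
    intro x2 _
    have e1 : Phi1 (c, x1 * p + x2 * (9 * c)) = Phi1 (c, p * x1) :=
      sr_Phi1_per c _ _ ⟨x2, by ring⟩
    have e2 : sym3 (x1 * p + x2 * (9 * c)) p = sym3 (x2 * (9 * c)) p :=
      sym3_congr ⟨x1, by ring⟩
    rw [sr_psi_crt h9c hp.ne_zero, sr_Phi1_left hP, e1, e2, sr_Phi1_right hP, sym3_mul_left,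
      sym3_mul_left, map_mul toC n x2]
    ring
  have h3 := sym3_cube (sr_cop hp hc).symm
  rw [h2, h1]
  linear_combination sym3 9 p * g3 n p * Ssum 9 Phi1 (n * p) c * h3

theorem S_G2 {p c n : O} (hp : Prime p) (hP : Prim p) (hc : ¬ p ∣ c) (hn : ¬ p ∣ n)
    {k : ℕ} (hk : 2 ≤ k) : Ssum 9 Phi1 n (c * p ^ k) = 0 := by
  obtain ⟨j, rfl⟩ : ∃ j, k = j + 1 + 1 := ⟨k - 2, by omega⟩
  have e : 9 * (c * p ^ (j + 1 + 1)) = 9 * (c * p ^ (j + 1)) * p := by ring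
  rw [sr_Ssum, e]
  have hne : c * p ^ (j + 1) ≠ 0 := mul_ne_zero (sr_ne hc) (pow_ne_zero _ hp.ne_zero)
  apply sr_vanish (mul_ne_zero sr_nine_ne hne) hp.ne_zero _ hn
  intro x y hxy
  simp only
  have hd : p ∣ x - y := Dvd.dvd.trans ⟨9 * c * p ^ j, by ring⟩ hxy
  rw [pow_succ p (j + 1), ← mul_assoc, sr_Phi1_left hP, sr_Phi1_left hP, sym3_congr hd]
  congr 1
  exact sr_Phi1_per _ x y hxy

theorem S_C (σ : SLO) {p c : O} (hp : Prime p) (hP : Prim p) (hc : ¬ p ∣ c) {k : ℕ}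
    (hk : 1 ≤ k) :
    Ssum 9 (tw Phi1 σ) 0 (c * p ^ k) =
      if 3 ∣ k then ((N p : ℝ) : ℂ) ^ k * (1 - 1 / ((N p : ℝ) : ℂ)) * Ssum 9 (tw Phi1 σ) 0 c
      else 0 := by
  split_ifs with h
  · rw [sr_crt σ hp hP hc h hk]
    obtain ⟨j, rfl⟩ : ∃ j, k = j + 1 := ⟨k - 1, by omega⟩
    rw [sr_ram hp j (dvd_zero _), if_pos (dvd_zero _)]
    have : ((N p : ℝ) : ℂ) ≠ 0 := by exact_mod_cast (N_pos hp.ne_zero).ne'
    field_simp
    ring
  · exact sr_nonres σ hp hP hc h (dvd_zero _)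

theorem S_three {n c : O} (hn : ¬ (3 : O) ∣ n) (hc : c ≠ 0) : Ssum 9 Phi1 n c = 0 := by
  have h3 : (3 : O) ≠ 0 := fun h => sr_nine_ne (by linear_combination 3 * h)
  have e : 9 * c = 3 * c * 3 := by ring
  rw [sr_Ssum, e]
  apply sr_vanish (mul_ne_zero h3 hc) h3 _ hn
  intro x y hxy
  simp only
  unfold Phi1
  have hd : (3 : O) ∣ x - y := (dvd_mul_right _ _).trans hxy
  have : Prim x ↔ Prim y := ⟨fun h => h.congr hd, fun h => h.congr (dvd_sub_comm.1 hd)⟩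
  simp only [← this]
  split_ifs with h
  · apply sym3_SYM h.2 (this.1 h.2) _ ((dvd_mul_left _ _).trans hxy)
    obtain ⟨w, hw⟩ := h.1
    refine Dvd.dvd.trans ⟨w, ?_⟩ hxy
    rw [hw]; ring
  · rfl

end

end Vale.Agent.P026
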