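import Vale.Agent.P026.Strip
import Vale.Agent.P026.Bes

namespace Vale.Agent.P026

open Complex MeasureTheory Filter Topology
open scoped Classical ComplexConjugate Real MatrixGroups

noncomputable section

theorem slice_int {S : Set ℂ} (hS : MeasurableSet S) {G : Hs → ℂ}
    (hG : IntegrableOn G (S ×ˢ (Set.univ : Set ℝ)) muH) :
    (∀ᵐ t : ℝ, IntegrableOn (fun z => G (z, t)) S) ∧
      Integrable fun t : ℝ => ((Real.exp (-2 * t) : ℝ) : ℂ) * ∫ z in S, G (z, t) := by
  have h := integrable_muH_iff.1 ((integrable_indicator_iff (hS.prod .univ)).2 hG)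
  have e : ∀ (z : ℂ) (t : ℝ), (S ×ˢ (Set.univ : Set ℝ)).indicator G (z, t) =
      S.indicator (fun z => G (z, t)) z := fun z t => by
    by_cases c : z ∈ S <;> simp [c]
  rw [Measure.volume_eq_prod] at h
  constructor
  · filter_upwards [h.prod_left_ae] with t ht
    simp only [e] at ht
    rw [← integrable_indicator_iff hS]
    exact (integrable_const_mul_iff (isUnit_iff_ne_zero.2
      (ofReal_ne_zero.2 (Real.exp_pos _).ne')) _).1 ht
  · simpa only [e, integral_const_mul, integral_indicator hS] using h.integral_prod_right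

theorem slice_tst {E : Set ℝ} (hE : MeasurableSet E) (T : ℝ) :
    Tst ((E ∩ Set.Icc (-T) T).indicator fun _ => (1 : ℂ)) :=
  ⟨measurable_const.indicator (hE.inter measurableSet_Icc), 1, T,
    fun t => by by_cases c : t ∈ E ∩ Set.Icc (-T) T <;> simp [c],
    fun t ht => Set.indicator_of_notMem (fun c => not_le.2 ht (abs_le.2 c.2)) _⟩

theorem uout_slice {m : O} (hm : m ≠ 0) {κ : SLO → ℂ} {Φ : O × O → ℂ} {u : Hs → ℂ}
    {ρ : SLO → O → ℂ} (h : UOut m κ Φ u ρ) (σ : SLO) (z0 : ℂ) :
    ∀ᵐ t : ℝ, MemLp (fun z => u (actO σ (z, t))) 2 (volume.restrict (Fm m z0)) ∧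
      ∀ n : O, ∫ z in Fm m z0, u (actO σ (z, t)) * psi (-(toC n * z / toC m)) =
        ρ σ n * (((Real.exp t ^ (2 / 3 : ℝ) : ℝ) : ℂ) *
          bb (N n * Real.exp t ^ 2 / (3 * N m)) (4 / 3)) := by
  have hF := measurableSet_Fm m z0
  have mu : Measurable fun w => u (actO σ w) := h.meas.comp (continuous_actO σ).measurable
  have h1 : ∀ T : ℕ, ∀ᵐ t : ℝ, t ∈ Set.Icc (-T : ℝ) T →
      MemLp (fun z => u (actO σ (z, t))) 2 (volume.restrict (Fm m z0)) := by
    intro T
    have a := (memLp_two_iff_integrable_sq_norm mu.aestronglyMeasurable).1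
      (strip_memLp m z0 σ T h.mem)
    have b : IntegrableOn (fun w : Hs => (Set.Icc (-T : ℝ) T).indicator
        (fun _ => ((‖u (actO σ w)‖ ^ 2 : ℝ) : ℂ)) w.2) (Fm m z0 ×ˢ (Set.univ : Set ℝ)) muH := by
      refine IntegrableOn.of_forall_sdiff_eq_zero (s := Fm m z0 ×ˢ Set.Icc (-T : ℝ) T) ?_
        (hF.prod .univ) fun w hw => Set.indicator_of_notMem (fun c => hw.2 ⟨hw.1.1, c⟩) _
      exact IntegrableOn.congr_fun a.ofReal (fun w hw => by
        simp only [Set.indicator_of_mem hw.2]; rfl)
        (hF.prod measurableSet_Icc)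
    filter_upwards [(slice_int hF b).1] with t ht hT
    simp only [Set.indicator_of_mem hT] at ht
    exact (memLp_two_iff_integrable_sq_norm
      (mu.comp measurable_prodMk_right).aestronglyMeasurable).2 (by
        simpa only [RCLike.re_to_complex, ofReal_re, Function.comp_def] using ht.re)
  have h2 : ∀ (T : ℕ) (n : O), ∀ᵐ t : ℝ, t ∈ Set.Icc (-T : ℝ) T →
      ∫ z in Fm m z0, u (actO σ (z, t)) * psi (-(toC n * z / toC m)) =
        ρ σ n * (((Real.exp t ^ (2 / 3 : ℝ) : ℝ) : ℂ) *
          bb (N n * Real.exp t ^ 2 / (3 * N m)) (4 / 3)) := by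
    intro T n
    set a : ℝ → ℂ := fun t => ((Real.exp (-2 * t) : ℝ) : ℂ) *
      ∫ z in Fm m z0, u (actO σ (z, t)) * psi (-(toC n * z / toC m)) with ha
    set b : ℝ → ℂ := fun t => ((Real.exp (-2 * t) : ℝ) : ℂ) * (ρ σ n *
      (((Real.exp t ^ (2 / 3 : ℝ) : ℝ) : ℂ) * bb (N n * Real.exp t ^ 2 / (3 * N m)) (4 / 3)))
      with hb
    have ea : ∀ (A : Set ℝ) (t : ℝ), ((Real.exp (-2 * t) : ℝ) : ℂ) * ∫ z in Fm m z0,
        u (actO σ (z, t)) * psi (-(toC n * z / toC m)) * A.indicator (fun _ => (1 : ℂ)) t =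
          A.indicator a t := fun A t => by
      by_cases c : t ∈ A <;> simp [c, ha]
    have ia : IntegrableOn a (Set.Icc (-T : ℝ) T) := by
      have := (slice_int hF (strip_integrable m n z0 σ (slice_tst .univ T) h.mem)).2
      simp only [ea, Set.univ_inter] at this
      exact (integrable_indicator_iff measurableSet_Icc).1 this
    have cb : Continuous b := by
      have c1 : Continuous fun t : ℝ => bb (N n * Real.exp t ^ 2 / (3 * N m)) (4 / 3) :=
        (continuousOn_bb (s := 4 / 3) (by norm_num)).comp_continuous (by fun_prop) fun t => by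
          have := N_nonneg n
          have := N_nonneg m
          exact Set.mem_Ici.2 (by positivity)
      have c2 : Continuous fun t : ℝ => Real.exp t ^ (2 / 3 : ℝ) :=
        Real.continuous_exp.rpow_const fun _ => Or.inr (by norm_num)
      simp only [hb]
      fun_prop
    have key := Integrable.ae_eq_of_forall_setIntegral_eq a b ia
      cb.continuousOn.integrableOn_Icc fun E hE _ => by
        have c := h.coef σ n z0 _ (slice_tst hE T)
        rw [strip, setIntegral_muH hF (strip_integrable m n z0 σ (slice_tst hE T) h.mem)] at c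
        simp only [ea] at c
        rw [Measure.restrict_restrict hE, ← integral_indicator (hE.inter measurableSet_Icc), c,
          ← integral_indicator (hE.inter measurableSet_Icc), betaF, ← integral_const_mul]
        refine integral_congr_ae (.of_forall fun t => ?_)
        by_cases d : t ∈ E ∩ Set.Icc (-T : ℝ) T
        · simp only [Set.indicator_of_mem d, hb]
          rw [ofReal_cpow (Real.exp_pos t).le, show (2 : ℂ) - 4 / 3 = ((2 / 3 : ℝ) : ℂ) by
            push_cast; ring]
          ring
        · simp only [Set.indicator_of_notMem d, zero_mul, mul_zero]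
    filter_upwards [(ae_restrict_iff' measurableSet_Icc).1 key] with t ht hT
    exact mul_left_cancel₀ (ofReal_ne_zero.2 (Real.exp_pos _).ne') (ht hT)
  filter_upwards [ae_all_iff.2 h1, ae_all_iff.2 fun T => ae_all_iff.2 (h2 T)] with t a b
  obtain ⟨T, hT⟩ := exists_nat_ge |t|
  exact ⟨a T (abs_le.1 hT), fun n => b T n (abs_le.1 hT)⟩

end

end Vale.Agent.P026
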