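import Vale.Agent.P026.Defs2
import Vale.Agent.P026.Gm

namespace Vale.Agent.P026

open Complex MeasureTheory Filter Topology
open scoped Classical ComplexConjugate Real MatrixGroups

noncomputable section

theorem stepA_num {x y κ G P D H X2 : ℝ} (hx : 0 ≤ x) (hy : 239 / 200 * x ≤ y) (hκ : 0 ≤ κ)
    (hG : G ≤ Real.exp (x / 1000)) (hP0 : 0 < P) (hP : P ≤ Real.exp (x / 1000))
    (hD1 : 1 ≤ D) (hD : D ≤ Real.exp (x / 1000)) (hH0 : 0 ≤ H)
    (hH : H ≤ Real.exp (κ + 2 * x - y)) (hX2 : X2 = Real.exp x / P / D ^ 3) :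
    Real.exp y * G / Real.exp x * (D * (P * X2 * (H ^ (8 / 7 : ℝ) +
      (H ^ 2 * P ^ 2 / X2) ^ (8 / 5 : ℝ)))) ≤
      2 * Real.exp (16 / 5 * κ + (439 / 200 - 4 / 1000) * x) := by
  have hD0 : 0 < D := by linarith
  have a1 : H ^ (8 / 7 : ℝ) ≤ Real.exp ((κ + 2 * x - y) * (8 / 7)) := by
    rw [Real.exp_mul]; exact Real.rpow_le_rpow hH0 hH (by norm_num)
  have a2 : H ^ 2 * P ^ 2 / X2 ≤ Real.exp (2 * κ + 3 * x - 2 * y + 6 * (x / 1000)) := by
    have e : H ^ 2 * P ^ 2 / X2 = H ^ 2 * P ^ 3 * D ^ 3 / Real.exp x := by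
      rw [hX2]; field_simp
    rw [e, div_le_iff₀ (Real.exp_pos x)]
    calc H ^ 2 * P ^ 3 * D ^ 3 ≤ Real.exp (κ + 2 * x - y) ^ 2 * Real.exp (x / 1000) ^ 3 *
          Real.exp (x / 1000) ^ 3 := by gcongr
      _ = _ := by
        simp only [← Real.exp_nat_mul, ← Real.exp_add]; congr 1; push_cast; ring
  have a3 : (H ^ 2 * P ^ 2 / X2) ^ (8 / 5 : ℝ) ≤
      Real.exp ((2 * κ + 3 * x - 2 * y + 6 * (x / 1000)) * (8 / 5)) := by
    rw [Real.exp_mul]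
    exact Real.rpow_le_rpow (by rw [hX2]; positivity) a2 (by norm_num)
  have a4 : D * (P * X2) ≤ Real.exp x := by
    have e : D * (P * X2) = Real.exp x / D ^ 2 := by rw [hX2]; field_simp
    rw [e]
    exact div_le_self (Real.exp_pos x).le (one_le_pow₀ hD1)
  have a5 : 0 ≤ H ^ (8 / 7 : ℝ) + (H ^ 2 * P ^ 2 / X2) ^ (8 / 5 : ℝ) := by
    rw [hX2]; positivity
  calc _ = Real.exp y * G / Real.exp x * (D * (P * X2)) * (H ^ (8 / 7 : ℝ) +
        (H ^ 2 * P ^ 2 / X2) ^ (8 / 5 : ℝ)) := by ring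
    _ ≤ Real.exp y * Real.exp (x / 1000) / Real.exp x * Real.exp x *
        (Real.exp ((κ + 2 * x - y) * (8 / 7)) +
          Real.exp ((2 * κ + 3 * x - 2 * y + 6 * (x / 1000)) * (8 / 5))) := by
        gcongr
        rw [hX2]; positivity
    _ = Real.exp (y + x / 1000 + (κ + 2 * x - y) * (8 / 7)) +
        Real.exp (y + x / 1000 + (2 * κ + 3 * x - 2 * y + 6 * (x / 1000)) * (8 / 5)) := by
        rw [div_mul_cancel₀ _ (Real.exp_pos x).ne', mul_add]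
        simp only [← Real.exp_add]
    _ ≤ _ := by
        rw [two_mul (Real.exp _)]
        refine add_le_add (Real.exp_le_exp.2 ?_) (Real.exp_le_exp.2 ?_) <;> linarith

theorem stepA {q0 : O} {t : O → ℂ} (h : SMALL q0 t) {ε : ℝ} (hε : 0 < ε) (R0 : ℝ) :
    ∃ C : ℝ, 0 < C ∧ ∀ (Z X Y K : ℝ) (w : ℂ) (I : Finset (O × O × O))
      (ω : O × O × O → O → O → ℂ),
    1 ≤ X → X ≤ Z → X ^ (239 / 200 : ℝ) ≤ Y → Y ≤ Z → 1 ≤ K → |w.re| ≤ R0 →
    I ⊆ trip (X ^ (1 / 1000 : ℝ)) → (∀ i ∈ I, ∀ d, Wt q0 (ω i d)) →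
    ∑ i ∈ I, Y * N i.1 / X * ∑ h ∈ ballO (K * Ht X Y i),
        (∑ d ∈ ballN (X ^ (1 / 1000 : ℝ)),
          √(N d) * ‖TH t (ω i d) (X / N (pr i) / N d ^ 3) w (h * kt i)‖) ^ 2 ≤
      C * Real.exp (C * |w.im|) * Z ^ ε * K ^ (7 / 2 : ℝ) * X ^ (439 / 200 : ℝ) := by
  obtain ⟨ε', hε0, hε1, hε2⟩ : ∃ ε' : ℝ, 0 < ε' ∧ ε' ≤ ε / 2 ∧ ε' ≤ 1 / 10 :=
    ⟨min (ε / 2) (1 / 10), lt_min (by linarith) (by norm_num), min_le_left _ _, min_le_right _ _⟩
  obtain ⟨C0, hC0, h0⟩ := h ε' hε0 R0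
  obtain ⟨C1, hC1, h1⟩ := card_ballO_le
  obtain ⟨C2, hC2, h2⟩ := card_trip_le (ε := 1) one_pos
  refine ⟨C0 + 1 + 2 * C0 * C1 ^ 2 * C2, by positivity,
    fun Z X Y K w I ω hX hXZ hXY hYZ hK hw hI hω => ?_⟩
  obtain ⟨x, rfl⟩ : ∃ x, X = Real.exp x := ⟨Real.log X, (Real.exp_log (by linarith)).symm⟩
  obtain ⟨κ, rfl⟩ : ∃ x, K = Real.exp x := ⟨Real.log K, (Real.exp_log (by linarith)).symm⟩
  obtain ⟨z, rfl⟩ : ∃ x, Z = Real.exp x := ⟨Real.log Z, (Real.exp_log (by linarith)).symm⟩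
  rw [← Real.exp_mul] at hXY
  obtain ⟨y, rfl⟩ : ∃ x, Y = Real.exp x :=
    ⟨Real.log Y, (Real.exp_log ((Real.exp_pos _).trans_le hXY)).symm⟩
  rw [Real.one_le_exp_iff] at hX hK
  rw [Real.exp_le_exp] at hXZ hXY hYZ
  simp only [← Real.exp_mul] at hI ⊢
  rw [show x * (1 / 1000) = x / 1000 by ring] at hI ⊢
  set Δ := Real.exp (x / 1000) with hΔ
  have hΔ1 : 1 ≤ Δ := Real.one_le_exp (by linarith)
  obtain ⟨M, hM⟩ : ∃ M, M = C0 * Real.exp (C0 * |w.im|) * Real.exp ((κ + 2 * z) * ε') := ⟨_, rfl⟩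
  have hM0 : 0 ≤ M := hM ▸ by positivity
  obtain ⟨Q, hQ⟩ : ∃ Q, Q = 2 * Real.exp (16 / 5 * κ + (439 / 200 - 4 / 1000) * x) := ⟨_, rfl⟩
  have hQ0 : 0 ≤ Q := hQ ▸ by positivity
  have hcard : ((ballN Δ).card : ℝ) ≤ C1 * Δ :=
    (Nat.cast_le.2 (Finset.card_filter_le _ _)).trans (h1 Δ (by linarith))
  have key : ∀ i ∈ I, Real.exp y * N i.1 / Real.exp x *
      ∑ h ∈ ballO (Real.exp κ * Ht (Real.exp x) (Real.exp y) i), (∑ d ∈ ballN Δ,
        √(N d) * ‖TH t (ω i d) (Real.exp x / N (pr i) / N d ^ 3) w (h * kt i)‖) ^ 2 ≤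
      (C1 * Δ) ^ 2 * (M * Q) := by
    intro i hi
    obtain ⟨t1, t2, t3, t4, t5⟩ := mem_trip.1 (hI hi)
    have hp : pr i ≠ 0 := t4.ne_zero
    have hP := N_pos hp
    have hP1 := one_le_N hp
    have n1 := one_le_N t1.ne_zero
    have n2 := one_le_N t2.ne_zero
    have hG : N i.1 ≤ Δ := (N_le_of_dvd ⟨i.2.1 * i.2.2, by rw [pr]; ring⟩ hp).trans t5
    set H := Real.exp κ * Ht (Real.exp x) (Real.exp y) i with hH
    have hH0 : 0 < H := by rw [hH, Ht]; positivity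
    have hH1 : H ≤ Real.exp (κ + 2 * x - y) := by
      have e : Real.exp (κ + 2 * x - y) = Real.exp κ * (Real.exp x ^ 2 / (1 * 1 ^ 2 * Real.exp y)) := by
        rw [Real.exp_sub, Real.exp_add, ← Real.exp_nat_mul]; push_cast; ring
      rw [e, hH, Ht]
      gcongr
    have each : ∀ d ∈ ballN Δ, Real.exp y * N i.1 / Real.exp x * (N d * ∑ h ∈ ballO H,
        ‖TH t (ω i d) (Real.exp x / N (pr i) / N d ^ 3) w (h * kt i)‖ ^ 2) ≤ M * Q := by
      intro d hd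
      obtain ⟨d1, d2⟩ := mem_ballN.1 hd
      have d3 := one_le_N d1.ne_zero
      have b1 : 1 ≤ Real.exp x / N (pr i) / N d ^ 3 := by
        rw [div_div, one_le_div (by positivity)]
        calc N (pr i) * N d ^ 3 ≤ Δ * Δ ^ 3 := by gcongr; exact t5
          _ ≤ _ := by
            rw [hΔ, ← Real.exp_nat_mul, ← Real.exp_add, Real.exp_le_exp]; push_cast; linarith
      have b2 : Real.exp x / N (pr i) / N d ^ 3 ≤ Real.exp (κ + 2 * z) :=
        ((div_le_self (by positivity) (one_le_pow₀ d3)).trans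
          (div_le_self (by positivity) hP1)).trans (Real.exp_le_exp.2 (by linarith))
      have b3 := h0 (Real.exp (κ + 2 * z)) _ H w (ω i d) (pr i) (kt i) b1 b2 hH0
        (hH1.trans (Real.exp_le_exp.2 (by linarith))) hp
        (t5.trans (Real.exp_le_exp.2 (by linarith)))
        ⟨i.2.1 * i.2.2 ^ 2, by rw [pr, kt]; ring⟩ hw (hω i hi d)
      rw [← Real.exp_mul, ← hM] at b3
      have b4 := stepA_num hX (by linarith) hK hG hP t5 d3 d2 hH0.le hH1 rfl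
      rw [← hQ] at b4
      calc _ ≤ Real.exp y * N i.1 / Real.exp x * (N d * _) :=
            mul_le_mul_of_nonneg_left (mul_le_mul_of_nonneg_left b3 (by positivity)) (by positivity)
        _ = M * (Real.exp y * N i.1 / Real.exp x * (N d * (N (pr i) *
            (Real.exp x / N (pr i) / N d ^ 3) * (H ^ (8 / 7 : ℝ) +
              (H ^ 2 * N (pr i) ^ 2 / (Real.exp x / N (pr i) / N d ^ 3)) ^ (8 / 5 : ℝ))))) := by
            ring
        _ ≤ M * Q := mul_le_mul_of_nonneg_left b4 hM0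
    calc _ ≤ Real.exp y * N i.1 / Real.exp x * ∑ h ∈ ballO H, ((ballN Δ).card : ℝ) *
          ∑ d ∈ ballN Δ, N d * ‖TH t (ω i d) (Real.exp x / N (pr i) / N d ^ 3) w (h * kt i)‖ ^ 2 := by
          refine mul_le_mul_of_nonneg_left (Finset.sum_le_sum fun h _ => ?_) (by positivity)
          refine sq_sum_le_card_mul_sum_sq.trans_eq ?_
          simp only [mul_pow, Real.sq_sqrt (N_nonneg _)]
      _ = ((ballN Δ).card : ℝ) * ∑ d ∈ ballN Δ, Real.exp y * N i.1 / Real.exp x *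
          (N d * ∑ h ∈ ballO H,
            ‖TH t (ω i d) (Real.exp x / N (pr i) / N d ^ 3) w (h * kt i)‖ ^ 2) := by
          rw [← Finset.mul_sum, Finset.sum_comm, ← Finset.mul_sum, mul_left_comm]
          simp only [Finset.mul_sum]
      _ ≤ ((ballN Δ).card : ℝ) * (((ballN Δ).card : ℝ) * (M * Q)) := by
          refine mul_le_mul_of_nonneg_left ((Finset.sum_le_sum each).trans_eq ?_) (by positivity)
          rw [Finset.sum_const, nsmul_eq_mul]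
      _ ≤ (C1 * Δ) * ((C1 * Δ) * (M * Q)) := by gcongr
      _ = _ := by ring
  refine (Finset.sum_le_sum key).trans ?_
  rw [Finset.sum_const, nsmul_eq_mul]
  have c1 : (I.card : ℝ) ≤ C2 * Δ ^ 2 := by
    have := h2 Δ hΔ1
    rw [one_add_one_eq_two, Real.rpow_two] at this
    exact (Nat.cast_le.2 (Finset.card_le_card hI)).trans this
  have c2 : Δ ^ 4 * Real.exp ((κ + 2 * z) * ε') *
      Real.exp (16 / 5 * κ + (439 / 200 - 4 / 1000) * x) ≤
      Real.exp (z * ε) * Real.exp (κ * (7 / 2)) * Real.exp (x * (439 / 200)) := by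
    simp only [hΔ, ← Real.exp_nat_mul, ← Real.exp_add, Real.exp_le_exp]
    push_cast
    nlinarith [mul_le_mul_of_nonneg_left hε1 (by linarith : 0 ≤ z),
      mul_le_mul_of_nonneg_left hε2 hK]
  have c3 : 2 * C0 * C1 ^ 2 * C2 ≤ C0 + 1 + 2 * C0 * C1 ^ 2 * C2 := by linarith
  have c4 : C0 ≤ C0 + 1 + 2 * C0 * C1 ^ 2 * C2 := by
    have : 0 ≤ 2 * C0 * C1 ^ 2 * C2 := by positivity
    linarith
  calc _ ≤ C2 * Δ ^ 2 * ((C1 * Δ) ^ 2 * (M * Q)) := by gcongr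
    _ = 2 * C0 * C1 ^ 2 * C2 * Real.exp (C0 * |w.im|) * (Δ ^ 4 * Real.exp ((κ + 2 * z) * ε') *
        Real.exp (16 / 5 * κ + (439 / 200 - 4 / 1000) * x)) := by rw [hM, hQ]; ring
    _ ≤ (C0 + 1 + 2 * C0 * C1 ^ 2 * C2) * Real.exp ((C0 + 1 + 2 * C0 * C1 ^ 2 * C2) * |w.im|) *
        (Real.exp (z * ε) * Real.exp (κ * (7 / 2)) * Real.exp (x * (439 / 200))) := by gcongr
    _ = _ := by ring

end

end Vale.Agent.P026
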