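import Vale.Agent.P026.TL2
import Vale.Agent.P026.Gau

namespace Vale.Agent.P026

open Complex MeasureTheory Filter Topology
open scoped Classical ComplexConjugate Real MatrixGroups

noncomputable section

theorem norm_alp_le {α : O → ℂ} (hα : ∀ n, NN n → ‖α n‖ ≤ 1) {k : ℕ} (hk : k = 1 ∨ k = 5)
    {t : O × O × O} (h1 : NN t.1) (h2 : NN t.2.1) (h3 : NN t.2.2) (c n : O) (hn : NN n) :
    ‖alp α k t c n‖ ≤ 1 := by
  have _ := h1
  have _ := h2
  unfold alp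
  split_ifs with h
  · have hf : NN (t.2.2 * n) := h.1.of_dvd (h3.1.mul hn.1) ⟨t.1 * t.2.1, by ring⟩
    rw [norm_mul, norm_mul, norm_gt hf (by omega) (by omega), mul_one, norm_pow]
    exact mul_le_one₀ (hα _ h.1) (by positivity) (pow_le_one₀ (norm_nonneg _) (norm_chi6_le _ _))
  · simp

theorem tl3a_sum {R X : ℝ} (hX : 0 < X) (α : O → ℂ) (w s : ℂ) (k : ℕ) {t : O × O × O}
    (hp : pr t ≠ 0) (c h : O) :
    (∑ n ∈ ballN R, if pr t * n ∈ ballN R then alp (fun n => α n * W w (N n / X)) k t c n *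
      chi6 h n ^ (6 - k) * ((N n : ℝ) : ℂ) ^ s else 0) = ((X / N (pr t) : ℝ) : ℂ) ^ s *
      ∑ n ∈ ballN (R / N (pr t)), alp α k t c n * chi6 h n ^ (6 - k) *
        W (w + s) (N n / (X / N (pr t))) := by
  have hP := N_pos hp
  rw [← Finset.sum_filter, Finset.mul_sum]
  have hsub : (ballN R).filter (fun n => pr t * n ∈ ballN R) ⊆ ballN (R / N (pr t)) := by
    intro n hn
    obtain ⟨h1, h2⟩ := Finset.mem_filter.1 hn
    refine mem_ballN.2 ⟨(mem_ballN.1 h1).1, ?_⟩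
    rw [le_div_iff₀ hP, mul_comm, ← N_mul]
    exact (mem_ballN.1 h2).2
  rw [← Finset.sum_subset hsub]
  · refine Finset.sum_congr rfl fun n hn => ?_
    have hn0 := N_pos (mem_ballN.1 (Finset.mem_filter.1 hn).1).1.ne_zero
    have e1 : N (t.1 * t.2.1 * t.2.2 * n) / X = N n / (X / N (pr t)) := by
      rw [N_mul, ← pr]; field_simp
    have e2 : ((N n : ℝ) : ℂ) ^ s =
        ((X / N (pr t) : ℝ) : ℂ) ^ s * ((N n / (X / N (pr t)) : ℝ) : ℂ) ^ s := by
      rw [← Complex.mul_cpow_ofReal_nonneg (by positivity) (by positivity), ← Complex.ofReal_mul]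
      congr 2; field_simp
    rw [← W_cpow w s (by positivity), e2]
    simp only [alp, e1]
    split_ifs <;> ring
  · intro n hn hn'
    obtain ⟨h1, h2⟩ := mem_ballN.1 hn
    rw [le_div_iff₀ hP, mul_comm, ← N_mul] at h2
    have h3 : N n ≤ R := (N_le_of_dvd (dvd_mul_left _ _) (mul_ne_zero hp h1.ne_zero)).trans h2
    rw [alp, if_neg, zero_mul, zero_mul, mul_zero]
    exact fun h => hn' (Finset.mem_filter.2 ⟨mem_ballN.2 ⟨h1, h3⟩, mem_ballN.2 ⟨h.1, h2⟩⟩)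

theorem tl3a_pref {σ X Y L H G E F : ℝ} (hσ : 0 < σ) (hX : 0 < X) (hY : 0 < Y) (hL : 0 < L)
    (hH : L ≤ H) (hG : 0 < G) (hE : 0 < E) (hF : 0 < F) :
    Y / (E * F) * ((H * Y / (E * F ^ 2)) ^ (-σ) * ((X / (G * E * F)) ^ (σ - 1 / 2)) ^ 2) ≤
      Y * G / X * (X ^ 2 / (E * G ^ 2 * Y) / L) ^ σ := by
  have h1 : (H * Y / (E * F ^ 2)) ^ (-σ) ≤ (L * Y / (E * F ^ 2)) ^ (-σ) :=
    Real.rpow_le_rpow_of_nonpos (by positivity) (by gcongr) (by linarith)
  have e1 : ((X / (G * E * F)) ^ (σ - 1 / 2)) ^ 2 =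
      ((X / (G * E * F)) ^ 2) ^ σ * (G * E * F / X) := by
    rw [← Real.rpow_natCast, ← Real.rpow_natCast (X / _), ← Real.rpow_mul (by positivity),
      ← Real.rpow_mul (by positivity), ← inv_div X, ← Real.rpow_neg_one,
      ← Real.rpow_add (by positivity)]
    congr 1; push_cast; ring
  have e2 : X ^ 2 / (E * G ^ 2 * Y) / L = (L * Y / (E * F ^ 2))⁻¹ * (X / (G * E * F)) ^ 2 := by
    field_simp
  rw [e1, e2, Real.mul_rpow (by positivity) (by positivity), Real.inv_rpow (by positivity),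
    ← Real.rpow_neg (by positivity)]
  calc _ ≤ Y / (E * F) * ((L * Y / (E * F ^ 2)) ^ (-σ) *
        (((X / (G * E * F)) ^ 2) ^ σ * (G * E * F / X))) := by gcongr
    _ = _ := by field_simp

theorem tl3a {σ a : ℝ} (hσ : 0 < σ) (ha : 2 ≤ a) (R0 : ℝ) : ∃ C : ℝ, 0 < C ∧
    ∀ (k : ℕ) (R X Y L : ℝ) (α : O → ℂ) (w : ℂ) (t : O × O × O) (S : Finset O),
    k = 1 ∨ k = 5 → 0 < X → 0 < Y → 0 < L → (∀ n, NN n → ‖α n‖ ≤ 1) →
    |w.re + (σ - 1 / 2)| ≤ R0 → t ∈ trip R → (∀ h ∈ S, h ≠ 0 ∧ L ≤ N h) →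
    Y / (N t.2.1 * N t.2.2) * ∑ h ∈ S, ‖Off R (fun n => α n * W w (N n / X)) k Y t h‖ ≤
      C * (Y * N t.1 / X) * (Ht X Y t / L) ^ σ *
        ((∫ τ : ℝ, Real.exp (-τ ^ 2 / 4) * ∑ c ∈ rs 4, ∑ h ∈ S,
          ‖AA (alp α k t c) (6 - k) (X / N (pr t)) (w + (σ - 1 / 2 + τ * Complex.I)) h‖ ^ 2) +
          S.card * (R * (X / R) ^ a) ^ 2) := by
  obtain ⟨C0, hC0, h0⟩ := tl2 hσ
  obtain ⟨C1, hC1, h1⟩ := AA_trunc ha R0
  obtain ⟨C2, hC2, h2⟩ := norm_AA_le (a := 1) le_rfl R0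
  obtain ⟨g, hg⟩ : ∃ g, g = ∫ τ : ℝ, Real.exp (-τ ^ 2 / 4) := ⟨_, rfl⟩
  have hg0 : 0 ≤ g := hg ▸ integral_nonneg fun τ => (Real.exp_pos _).le
  obtain ⟨D, hD⟩ : ∃ D, D = 2 * C1 ^ 2 * (rs 4).card * g := ⟨_, rfl⟩
  have hD0 : 0 ≤ D := hD ▸ by positivity
  refine ⟨C0 * (2 + D), by positivity, fun k R X Y L α w t S hk hX hY hL hα hw ht hS => ?_⟩
  obtain ⟨t1, t2, t3, t4, t5⟩ := mem_trip.1 ht
  have hp : pr t ≠ 0 := t4.ne_zero
  have hP := N_pos hp
  have hP1 := one_le_N hp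
  have hR : 0 < R := hP.trans_le t5
  have hX' : 0 < X / N (pr t) := by positivity
  have hal := fun c => norm_alp_le hα hk t1 t2 t3 c
  set T := R * (X / R) ^ a with hT
  have hT0 : 0 ≤ T := by positivity
  let A : O → O → ℝ → ℂ := fun c h τ =>
    AA (alp α k t c) (6 - k) (X / N (pr t)) (w + (σ - 1 / 2 + τ * I)) h
  have hre : ∀ τ : ℝ, |(w + (σ - 1 / 2 + τ * I)).re| ≤ R0 := fun τ => by simpa using hw
  have iA : ∀ c h, Integrable fun τ : ℝ => Real.exp (-τ ^ 2 / 4) * ‖A c h τ‖ ^ 2 := fun c h =>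
    tl2_integrable' ((((differentiable_AA (hal c) _ hX' h).continuous.comp
      (by fun_prop)).norm).pow 2) ((C2 * (X / N (pr t)) ^ (1 : ℝ)) ^ 2) (fun τ => sq_nonneg _)
      fun τ => pow_le_pow_left₀ (norm_nonneg _) (h2 _ _ _ _ _ (hal c) hX' (hre τ)) 2
  have iE : Integrable fun τ : ℝ => Real.exp (-τ ^ 2 / 4) :=
    tl2_integrable (by fun_prop) 1 fun τ => by
      rw [one_mul, Real.norm_of_nonneg (Real.exp_pos _).le]
  let J : O → ℝ := fun h => ∑ c ∈ rs 4, ∫ τ : ℝ, Real.exp (-τ ^ 2 / 4) * ‖A c h τ‖ ^ 2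
  have hJ : ∀ h, 0 ≤ J h := fun h => Finset.sum_nonneg fun c _ =>
    integral_nonneg fun τ => by positivity
  obtain ⟨V, hV⟩ : ∃ V, V = ((X / N (pr t)) ^ (σ - 1 / 2)) ^ 2 := ⟨_, rfl⟩
  have hV0 : 0 ≤ V := hV ▸ sq_nonneg _
  have key : ∀ h ∈ S, Y / (N t.2.1 * N t.2.2) * ‖Off R (fun n => α n * W w (N n / X)) k Y t h‖ ≤
      C0 * (Y * N t.1 / X) * (Ht X Y t / L) ^ σ * (2 * J h + D * T ^ 2) := by
    intro h hh
    have b1 := h0 k R Y (fun n => α n * W w (N n / X)) t h hY ht (hS h hh).1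
    simp only [tl3a_sum hX α w _ k hp] at b1
    have b2 : ∫ τ : ℝ, Real.exp (-τ ^ 2 / 4) * ∑ c ∈ rs 4,
        ‖((X / N (pr t) : ℝ) : ℂ) ^ (σ - 1 / 2 + τ * I) * ∑ n ∈ ballN (R / N (pr t)),
          alp α k t c n * chi6 h n ^ (6 - k) *
            W (w + (σ - 1 / 2 + τ * I)) (N n / (X / N (pr t)))‖ ^ 2 ≤
        V * (2 * J h + D * T ^ 2) := by
      have i1 := ((integrable_finsetSum (rs 4) fun c _ => iA c h).const_mul (2 * V)).add
        (iE.const_mul (V * (2 * C1 ^ 2 * (rs 4).card * T ^ 2)))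
      refine (integral_mono_of_nonneg (Eventually.of_forall fun τ => by positivity) i1
        (Eventually.of_forall fun τ => ?_)).trans_eq ?_
      · have b3 : ∀ c ∈ rs 4, ‖((X / N (pr t) : ℝ) : ℂ) ^ (σ - 1 / 2 + τ * I) *
            ∑ n ∈ ballN (R / N (pr t)), alp α k t c n * chi6 h n ^ (6 - k) *
              W (w + (σ - 1 / 2 + τ * I)) (N n / (X / N (pr t)))‖ ^ 2 ≤
            V * (2 * ‖A c h τ‖ ^ 2 + 2 * C1 ^ 2 * T ^ 2) := fun c _ => by
          have b4 := h1 _ (6 - k) _ (R / N (pr t)) _ h (hal c) hX' (by positivity) (hre τ)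
          have b5 : C1 * (R / N (pr t)) * (X / N (pr t) / (R / N (pr t))) ^ a ≤ C1 * T := by
            rw [div_div_div_cancel_right₀ hP.ne', mul_assoc, hT]
            gcongr
            exact div_le_self hR.le hP1
          have e : (σ - 1 / 2 + τ * I : ℂ).re = σ - 1 / 2 := by simp
          rw [norm_mul, mul_pow, Complex.norm_cpow_eq_rpow_re_of_pos hX', e, ← hV]
          refine mul_le_mul_of_nonneg_left ?_ hV0
          have b6 := (norm_le_norm_add_norm_sub' _ _).trans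
            (add_le_add le_rfl ((norm_sub_rev _ _).trans_le (b4.trans b5)))
          have b7 := pow_le_pow_left₀ (norm_nonneg _) b6 2
          refine b7.trans ?_
          nlinarith [sq_nonneg (‖A c h τ‖ - C1 * T)]
        refine (mul_le_mul_of_nonneg_left (Finset.sum_le_sum b3) (Real.exp_pos _).le).trans_eq ?_
        simp only [Pi.add_apply, mul_add, Finset.sum_add_distrib, ← Finset.mul_sum,
          Finset.sum_const, nsmul_eq_mul]
        ring
      · rw [integral_add' ((integrable_finsetSum (rs 4) fun c _ => iA c h).const_mul _)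
          (iE.const_mul _), integral_const_mul, integral_const_mul,
          integral_finsetSum _ fun c _ => iA c h, ← hg, hD]
        simp only [J]
        ring
    have b8 := tl3a_pref hσ hX hY hL (hS h hh).2 (N_pos t1.ne_zero) (N_pos t2.ne_zero)
      (N_pos t3.ne_zero)
    rw [← N_mul t.1, ← N_mul (t.1 * t.2.1), ← pr, ← hV, ← Ht] at b8
    have n2 := N_pos t2.ne_zero
    have n3 := N_pos t3.ne_zero
    have n4 := N_pos (hS h hh).1
    have b9 : 0 ≤ 2 * J h + D * T ^ 2 := by have := hJ h; positivity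
    calc _ ≤ Y / (N t.2.1 * N t.2.2) * (C0 * (N h * Y / (N t.2.1 * N t.2.2 ^ 2)) ^ (-σ) *
          (V * (2 * J h + D * T ^ 2))) :=
          mul_le_mul_of_nonneg_left (b1.trans (mul_le_mul_of_nonneg_left b2 (by positivity)))
            (by positivity)
      _ = C0 * (Y / (N t.2.1 * N t.2.2) * ((N h * Y / (N t.2.1 * N t.2.2 ^ 2)) ^ (-σ) * V)) *
          (2 * J h + D * T ^ 2) := by ring
      _ ≤ C0 * (Y * N t.1 / X * (Ht X Y t / L) ^ σ) * (2 * J h + D * T ^ 2) := by gcongr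
      _ = _ := by ring
  have eJ : ∫ τ : ℝ, Real.exp (-τ ^ 2 / 4) * ∑ c ∈ rs 4, ∑ h ∈ S, ‖A c h τ‖ ^ 2 =
      ∑ h ∈ S, J h := by
    simp only [Finset.mul_sum, J]
    rw [integral_finsetSum _ fun c _ => integrable_finsetSum _ fun h _ => iA c h, Finset.sum_comm]
    exact Finset.sum_congr rfl fun c _ => integral_finsetSum _ fun h _ => iA c h
  rw [Finset.mul_sum]
  refine (Finset.sum_le_sum key).trans ?_
  rw [← Finset.mul_sum, eJ, Finset.sum_add_distrib, ← Finset.mul_sum, Finset.sum_const,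
    nsmul_eq_mul]
  have s0 : 0 ≤ ∑ h ∈ S, J h := Finset.sum_nonneg fun h _ => hJ h
  have n1 := N_pos t1.ne_zero
  have n2 := N_pos t2.ne_zero
  have q0 : 0 ≤ Y * N t.1 / X * (Ht X Y t / L) ^ σ := by unfold Ht; positivity
  have q1 : 0 ≤ (S.card : ℝ) * T ^ 2 := by positivity
  have q2 : 2 * ∑ h ∈ S, J h + S.card * (D * T ^ 2) ≤ (2 + D) * (∑ h ∈ S, J h + S.card * T ^ 2) := by
    nlinarith [mul_nonneg hD0 s0]
  calc _ = C0 * (Y * N t.1 / X * (Ht X Y t / L) ^ σ) *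
        (2 * ∑ h ∈ S, J h + S.card * (D * T ^ 2)) := by ring
    _ ≤ C0 * (Y * N t.1 / X * (Ht X Y t / L) ^ σ) *
        ((2 + D) * (∑ h ∈ S, J h + S.card * T ^ 2)) := by gcongr
    _ = _ := by ring

end

end Vale.Agent.P026
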