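import Vale.Agent.P026.Wgt
import Vale.Agent.P026.Fmp

namespace Vale.Agent.P026

open Complex MeasureTheory Filter Topology
open scoped Classical ComplexConjugate Real MatrixGroups

noncomputable section

theorem unf_tsum {α : Type} (P : α → Prop) [DecidablePred P] (h : {k | P k}.Finite) (a : ENNReal) :
    ∑' k, (if P k then a else 0) = {k | P k}.ncard * a := by
  rw [tsum_eq_sum (s := h.toFinset) fun k hk => if_neg (by simpa using hk),
    Finset.sum_congr rfl fun k hk => if_pos (by simpa using hk), Finset.sum_const,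
    Set.ncard_eq_toFinset_card _ h, nsmul_eq_mul]

theorem unf_coset (m : O) :
    Function.Bijective fun p : (SLO ⧸ Gam m) × Gam m => p.1.out * p.2 := by
  refine ⟨fun ⟨i, γ⟩ ⟨j, δ⟩ h => ?_, fun g => ?_⟩
  · have h1 := congrArg (QuotientGroup.mk (s := Gam m)) h
    simp only [QuotientGroup.mk_mul_of_mem _ (Subtype.prop _), QuotientGroup.out_eq'] at h1
    subst h1
    exact Prod.ext rfl (Subtype.ext (mul_left_cancel h))
  · obtain ⟨h, e⟩ := QuotientGroup.mk_out_eq_mul (Gam m) g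
    exact ⟨(g, h⁻¹), by simp [e]⟩

/-- counting primitive rows through the cosets of `Gam m` -/
theorem row_count {m : O} (hm : m ≠ 0) (w : Hs) (G : O × O → ENNReal) :
    ∑' i : SLO ⧸ Gam m, ∑' γ : Gam m,
        (if (actO (i.out * γ) w).1 ∈ Fm m 0 then G (row (i.out * γ)) else 0) =
      (Nm m : ENNReal) * ∑' x : O × O, if IsCoprime x.1 x.2 then G x else 0 := by
  choose σ hσ using fun x : {x : O × O | IsCoprime x.1 x.2} => exists_row x.2
  have hr : ∀ k g, row (Tm k * g) = row g := fun k g => (row_eq_iff.2 ⟨k, rfl⟩).symm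
  have hb : Function.Bijective fun p : {x : O × O | IsCoprime x.1 x.2} × O => Tm p.2 * σ p.1 := by
    refine ⟨fun ⟨x, k⟩ ⟨y, l⟩ h => ?_, fun g => ?_⟩
    · have h1 := congrArg row h
      simp only [hr, hσ] at h1
      obtain rfl := Subtype.ext h1
      exact Prod.ext rfl (congrArg (fun g : SLO => g 0 1) (mul_right_cancel h))
    · obtain ⟨k, e⟩ := row_eq_iff.1 (hσ ⟨_, coprime_row g⟩)
      exact ⟨(_, k), e.symm⟩
  let f : SLO → ENNReal := fun g => if (actO g w).1 ∈ Fm m 0 then G (row g) else 0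
  refine (ENNReal.tsum_prod' (f := fun p : (SLO ⧸ Gam m) × Gam m => f (p.1.out * p.2))).symm.trans
    (((Equiv.ofBijective _ (unf_coset m)).tsum_eq f).trans
      (((Equiv.ofBijective _ hb).tsum_eq f).symm.trans ?_))
  rw [ENNReal.tsum_prod', ← ENNReal.tsum_mul_left]
  refine Eq.trans (tsum_congr fun x => ?_) ((tsum_subtype {x : O × O | IsCoprime x.1 x.2}
    fun x => Nm m * G x).trans (tsum_congr fun x => by simp [Set.indicator_apply]))
  simp only [f, Equiv.ofBijective_apply, hr, hσ, actO_mul, actO_Tm]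
  rw [unf_tsum _ (Fm_card hm 0 _).1, (Fm_card hm 0 _).2]
theorem finite_nu {m : O} (hm : m ≠ 0) : IsFiniteMeasure (nu m) := by
  have := finite_quot_Gam hm
  have := Fintype.ofFinite (SLO ⧸ Gam m)
  set S := Fm m 0 ×ˢ Set.Ici (Real.log 2⁻¹) with hS
  have h1 : MeasurableSet S := (measurableSet_Fm m 0).prod measurableSet_Ici
  have h2 : muH S < ⊤ := by
    rw [muH, withDensity_apply _ h1, Measure.volume_eq_prod, ← Measure.prod_restrict,
      lintegral_prod _ (by fun_prop)]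
    simp only [lintegral_const, Measure.restrict_apply_univ, volume_Fm]
    exact ENNReal.mul_lt_top (((integrableOn_Ici_iff_integrableOn_Ioi enorm_ne_top).2
      (exp_neg_integrableOn_Ioi _ two_pos)).lintegral_lt_top) ENNReal.ofReal_lt_top
  have h3 : ∀ g, Measurable fun w => S.indicator (1 : Hs → ENNReal) (actO g w) := fun g =>
    (measurable_one.indicator h1).comp (continuous_actO g).measurable
  have h4 : ∀ w, 1 ≤ ∑' i : SLO ⧸ Gam m, ∑' γ : Gam m,
      S.indicator (1 : Hs → ENNReal) (actO i.out (actO γ w)) := fun w => by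
    obtain ⟨x, hx, h⟩ := exists_small w
    refine le_trans (le_trans ?_ (row_count hm w fun x => if Qr w x ≤ 2 then 1 else 0).ge)
      (ENNReal.tsum_le_tsum fun i => ENNReal.tsum_le_tsum fun γ => ?_)
    · exact one_le_mul (Nat.one_le_cast.2 (bas_Nm_pos hm))
        (le_trans (by simp [hx, h]) (ENNReal.le_tsum x))
    · rw [← actO_mul]
      split_ifs with h5 h6
      · refine (Set.indicator_of_mem (Set.mem_prod.2 ⟨h5, (Real.log_le_iff_le_exp (inv_pos.2 two_pos)).2
          (le_of_le_of_eq ?_ (ht_actO _ w).symm)⟩) (1 : Hs → ENNReal)).ge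
        exact inv_anti₀ (Qr_pos w (coprime_row _)) h6
      all_goals exact zero_le
  refine ⟨lt_of_le_of_lt (lintegral_one.ge.trans (lintegral_mono h4)) ?_⟩
  rw [lintegral_tsum fun i => (Measurable.tsum fun γ : Gam m => by
    simpa only [actO_mul] using h3 (i.out * γ)).aemeasurable, tsum_fintype]
  refine ENNReal.sum_lt_top.2 fun i _ => ?_
  rwa [lintegral_unfold m (h3 _), (measurePreserving_actO _).lintegral_comp
    (measurable_one.indicator h1), lintegral_indicator_one h1]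
theorem mult_bound {m : O} (hm : m ≠ 0) {κ : SLO → ℂ} (hκ : MulS m κ) :
    ∃ C : ℝ, 0 < C ∧ ∀ (u : Hs → ℂ) (σ : SLO) (z0 : ℂ) (R : ℝ), Measurable u → Aut m κ u → 1 ≤ R →
      ∫⁻ w in Fm m z0 ×ˢ {t : ℝ | R⁻¹ ≤ Real.exp t}, ‖u (actO σ w)‖ₑ ^ 2 ∂muH ≤
        ENNReal.ofReal (C * R ^ 2) * ∫⁻ w, ‖u w‖ₑ ^ 2 ∂(nu m) := by
  obtain ⟨C, hC, H⟩ := count_prim
  refine ⟨2 * C, by positivity, fun u σ z0 R hu ha hR => ?_⟩
  set S := Fm m z0 ×ˢ {t : ℝ | R⁻¹ ≤ Real.exp t} with hS
  have h1 : MeasurableSet S :=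
    (measurableSet_Fm m z0).prod (measurableSet_le measurable_const Real.measurable_exp)
  have h2 : Measurable fun w => if actO σ⁻¹ w ∈ S then ‖u w‖ₑ ^ 2 else 0 :=
    Measurable.ite ((continuous_actO _).measurable h1) (hu.enorm.pow_const 2) measurable_const
  have h3 : ∫⁻ w in S, ‖u (actO σ w)‖ₑ ^ 2 ∂muH =
      ∫⁻ w, (if actO σ⁻¹ w ∈ S then ‖u w‖ₑ ^ 2 else 0) ∂muH := by
    rw [← (measurePreserving_actO σ).lintegral_comp h2, ← lintegral_indicator h1]
    simp only [← actO_mul, inv_mul_cancel, actO_one, Set.indicator_apply]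
  rw [h3, ← lintegral_unfold m h2, ← lintegral_const_mul _ (hu.enorm.pow_const 2)]
  refine lintegral_mono fun w => ?_
  have h4 : ∀ γ : Gam m, ‖u (actO γ w)‖ₑ = ‖u w‖ₑ := fun γ => by
    rw [← ofReal_norm, ← ofReal_norm, ha _ γ.2, norm_mul, norm_conj, hκ.norm _ γ.2, one_mul]
  have h5 : Set.MapsTo (fun γ : Gam m => row (σ⁻¹ * γ)) {γ | actO (σ⁻¹ * γ) w ∈ S}
      {x | IsCoprime x.1 x.2 ∧ Qr w x ≤ R} := fun γ h => ⟨coprime_row _,
    (inv_le_inv₀ (by positivity) (Qr_pos w (coprime_row _))).1 (le_of_le_of_eq h.2 (ht_actO _ w))⟩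
  have h6 : Set.InjOn (fun γ : Gam m => row (σ⁻¹ * γ)) {γ | actO (σ⁻¹ * γ) w ∈ S} := by
    intro γ h γ' h' e
    obtain ⟨k, hk⟩ := row_eq_iff.1 e
    have h7 : Tm k = σ⁻¹ * (γ' * γ⁻¹ : Gam m) * σ⁻¹⁻¹ := by
      rw [← mul_inv_eq_iff_eq_mul] at hk
      simp [← hk, mul_assoc]
    obtain ⟨j, rfl⟩ := Tm_mem_Gam.1 (h7 ▸ (MonoidHom.normal_ker _).conj_mem _ (γ' * γ⁻¹).2 σ⁻¹)
    have h8 : (actO (σ⁻¹ * γ') w).1 ∈ Fm m z0 := h'.1
    rw [hk, actO_mul, actO_Tm] at h8
    obtain rfl : j = 0 := (Fm_unique hm z0 _).unique h8 (by simpa using h.1)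
    have h9 : Tm 0 = 1 := by simpa using Tm_add 0 0
    rw [mul_zero, h9, one_mul] at hk
    exact Subtype.ext (mul_left_cancel hk).symm
  obtain ⟨h7, h8⟩ := H w R (by positivity)
  simp only [h4, ← actO_mul]
  rw [unf_tsum _ (h7.of_injOn h5 h6), ← ENNReal.ofReal_natCast]
  gcongr
  exact (Nat.cast_le.2 (Set.ncard_le_ncard_of_injOn _ h5 h6 h7)).trans (h8.trans (by
    nlinarith [mul_le_mul_of_nonneg_left (one_le_pow₀ hR (n := 2)) hC.le]))

end

end Vale.Agent.P026
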