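import Vale.Agent.P026.Ker
import Vale.Agent.P026.IncP
import Vale.Agent.P026.Unf
import Vale.Agent.P026.Hil

namespace Vale.Agent.P026

open Complex MeasureTheory Filter Topology
open scoped Classical ComplexConjugate Real MatrixGroups

noncomputable section

theorem thA1 {m : O} (hm : m ≠ 0) {κ : SLO → ℂ} (hκ : MulS m κ) {Φ : O × O → ℂ}
    (hΦ : Equi m κ Φ) :
    ∃ (g : ℂ → Lp ℂ 2 (nu m)) (u0 : Lp ℂ 2 (nu m)) (u : Hs → ℂ), Measurable u ∧ Aut m κ u ∧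
      (u0 : Hs → ℂ) =ᵐ[nu m] u ∧ DifferentiableOn ℂ g Om ∧
      (∀ s ∈ Om, 3 < s.re → (g s : Hs → ℂ) =ᵐ[nu m] Inc Φ (Gs s)) ∧
      (∀ y, Tendsto (fun ε : ℝ => (ε : ℂ) * inner ℂ y (g (4 / 3 + ε * Complex.I)))
        (UU : Filter ℝ) (𝓝 (inner ℂ y u0))) ∧
      ((∀ s, ∫ w, conj (u w) * Inc Φ (pis s) w ∂(nu m) = 0) → u =ᵐ[nu m] 0) := by
  haveI := finite_nu hm
  obtain ⟨C, hC, hb⟩ := Inc_band 4
  have sup : ∀ s q, (4 : ℝ) < q → pis s q = 0 := fun s q hq =>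
    pis_support s (by linarith) (Or.inr hq)
  obtain ⟨p, hp, hpe⟩ := dl2 (nu m) (fun s => Inc Φ (pis s))
    (fun s => measurable_Inc Φ (measurable_pis s) fun w => by
      obtain ⟨B, hB⟩ := pis_bound ‖s‖
      exact (hb Φ _ B hΦ.bd hΦ.supp (hB s le_rfl) (sup s) w).1)
    (fun w => differentiable_Inc_band hΦ.supp (fun q hq => differentiable_pis hq) sup w)
    (fun R => by
      obtain ⟨B, hB⟩ := pis_bound R
      exact ⟨C * B, fun s hs w => (hb Φ _ B hΦ.bd hΦ.supp (hB s hs) (sup s) w).2⟩)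
  obtain ⟨T, hT, hF, hL⟩ := exists_T m hκ
  obtain ⟨c, hc, hge⟩ := im_hh_ge
  obtain ⟨g, u0, g1, g2, g3, g4, g5⟩ :=
    hil T hT hh differentiable_hh p hp (fun s hs => im_hh_pos hs) c hc hge hh_real.1
  obtain ⟨F, F1, F2, F3⟩ := hF u0
  have h0 : hh (4 / 3) ≠ 0 := fun h => by have := hh_real.2; rw [h] at this; simp at this
  have e0 : (u0 : Hs → ℂ) =ᵐ[nu m] fun w => (hh (4 / 3))⁻¹ * F w := by
    rw [g4] at F3
    filter_upwards [F3, Lp.coeFn_smul (hh (4 / 3)) u0] with w a b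
    rw [← a, b, Pi.smul_apply, smul_eq_mul, inv_mul_cancel_left₀ h0]
  refine ⟨g, u0, fun w => (hh (4 / 3))⁻¹ * F w, F1.const_mul _, fun γ hγ w => ?_, e0, g1,
    fun s hs h3 => ?_, g3, fun h => ?_⟩
  · beta_reduce
    rw [F2 γ hγ w]
    ring
  · obtain ⟨B, -, hB⟩ := Inc_Gs
    have m1 : Measurable (Inc Φ (Gs s)) :=
      measurable_Inc Φ (measurable_Gs s) fun w => (hB Φ s hΦ.bd hΦ.supp h3 w).1
    have m2 : MemLp (Inc Φ (Gs s)) 2 (nu m) := MemLp.of_bound m1.aestronglyMeasurable B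
      (Eventually.of_forall fun w => (hB Φ s hΦ.bd hΦ.supp h3 w).2)
    have e1 := hL (m2.toLp _) _ B m1 (aut_Inc hκ hΦ _) (fun w => (hB Φ s hΦ.bd hΦ.supp h3 w).2)
      m2.coeFn_toLp
    rw [← g2 s hs (m2.toLp _) ?_]
    · exact m2.coeFn_toLp
    · refine Lp.ext ?_
      filter_upwards [e1, m2.coeFn_toLp, hpe s, Lp.coeFn_smul (hh s) (m2.toLp _),
        Lp.coeFn_sub (T (m2.toLp _)) (hh s • m2.toLp _)] with w a b c d e
      rw [e, Pi.sub_apply, a, d, Pi.smul_apply, b, c, smul_eq_mul]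
      exact Lop_Inc hΦ.bd hΦ.supp h3 w
  · have : u0 = 0 := g5 fun s => by
      rw [L2.inner_def, ← h s]
      refine integral_congr_ae ?_
      filter_upwards [e0, hpe s] with w a b
      rw [a, b, RCLike.inner_apply, mul_comm]
    rw [this] at e0
    exact e0.symm.trans (Lp.coeFn_zero _ _ _)

end

end Vale.Agent.P026
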