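import Vale.Agent.P026.Efc
import Vale.Agent.P026.IncP
import Vale.Agent.P026.GeoM
import Vale.Agent.P026.DL2

namespace Vale.Agent.P026

open Complex MeasureTheory Filter Topology
open scoped Classical ComplexConjugate Real MatrixGroups

noncomputable section

/-- truncated power -/
def tha2G (a b : ℝ) (s : ℂ) (q : ℝ) : ℂ := if a ≤ q ∧ q < b then (q : ℂ) ^ (-s) else 0

theorem tha2_meas (a b : ℝ) (s : ℂ) : Measurable (tha2G a b s) :=
  Measurable.ite (measurableSet_Ico (a := a) (b := b)) (measurable_ofReal.pow_const _)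
    measurable_const

theorem tha2_bd {a : ℝ} (ha : 0 < a) (b : ℝ) {s : ℂ} {R : ℝ} (hs : ‖s‖ ≤ R) (q : ℝ) (hq : 0 < q) :
    ‖tha2G a b s q‖ ≤ Real.exp ((|Real.log a| + |Real.log b|) * R) := by
  unfold tha2G
  split_ifs with h
  · rw [norm_cpow_eq_rpow_re_of_pos hq, Real.rpow_def_of_pos hq, Real.exp_le_exp]
    refine (le_abs_self _).trans ?_
    rw [abs_mul]
    refine mul_le_mul (abs_le.2 ⟨?_, ?_⟩) ?_ (abs_nonneg _) (by positivity)
    · linarith [Real.log_le_log ha h.1, neg_abs_le (Real.log a), abs_nonneg (Real.log b)]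
    · linarith [Real.log_le_log hq h.2.le, le_abs_self (Real.log b), abs_nonneg (Real.log a)]
    · exact (abs_re_le_norm _).trans (by rwa [norm_neg])
  · rw [norm_zero]; positivity

theorem tha2_fin (m : O) (z0 : ℂ) (T : ℝ) :
    IsFiniteMeasure (muH.restrict (Fm m z0 ×ˢ Set.Icc (-T) T)) :=
  ⟨by simpa using ((isBounded_Fm m z0).prod (Metric.isBounded_Icc _ _)).measure_lt_top⟩

theorem tha2_tst (m n : O) {φ : ℝ → ℂ} (hφ : Measurable φ) {f : Hs → ℂ} (hf : Measurable f) :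
    Measurable fun w : Hs => f w * psi (-(toC n * w.1 / toC m)) * φ w.2 :=
  (hf.mul (continuous_psi.measurable.comp (by fun_prop))).mul (hφ.comp measurable_snd)

theorem tha2_norm (m n : O) {φ : ℝ → ℂ} {Bd C : ℝ} (hb : ∀ t, ‖φ t‖ ≤ Bd) {f : Hs → ℂ} (w : Hs)
    (hC : ‖f w‖ ≤ C) : ‖f w * psi (-(toC n * w.1 / toC m)) * φ w.2‖ ≤ C * Bd := by
  rw [norm_mul, norm_mul, norm_psi, mul_one]
  exact mul_le_mul hC (hb _) (norm_nonneg _) ((norm_nonneg _).trans hC)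

theorem tha2_diff {m : O} {z0 : ℂ} {T : ℝ} {φ : ℝ → ℂ} (h0 : ∀ t, T < |t| → φ t = 0) (f : Hs → ℂ) :
    ∀ w ∈ Fm m z0 ×ˢ (Set.univ : Set ℝ) \ Fm m z0 ×ˢ Set.Icc (-T) T, f w * φ w.2 = 0 :=
  fun w hw => by rw [h0 _ (not_le.1 fun h => hw.2 ⟨hw.1.1, abs_le.1 h⟩), mul_zero]

theorem tha2_int (m n : O) (z0 : ℂ) {φ : ℝ → ℂ} (hφ : Tst φ) {f : Hs → ℂ} (hf : Measurable f)
    {C : ℝ} (hC : ∀ w, ‖f w‖ ≤ C) :
    IntegrableOn (fun w : Hs => f w * psi (-(toC n * w.1 / toC m)) * φ w.2)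
      (Fm m z0 ×ˢ (Set.univ : Set ℝ)) muH := by
  obtain ⟨h1, Bd, T, hb, h0⟩ := hφ
  have := tha2_fin m z0 T
  exact IntegrableOn.of_forall_sdiff_eq_zero (Integrable.of_bound
    (tha2_tst m n h1 hf).aestronglyMeasurable _ (.of_forall fun w => tha2_norm m n hb w (hC w)))
    ((measurableSet_Fm m z0).prod .univ) (tha2_diff h0 _)

theorem tha2_band (m n : O) (z0 : ℂ) {φ : ℝ → ℂ} (hφ : Tst φ) {Ψ : O × O → ℂ}
    (h1 : ∀ x, ‖Ψ x‖ ≤ 1) (h2 : ∀ x, ¬ IsCoprime x.1 x.2 → Ψ x = 0) {a : ℝ} (ha : 0 < a) (b : ℝ) :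
    (Differentiable ℂ fun s => ∫ w in Fm m z0 ×ˢ (Set.univ : Set ℝ),
      Inc Ψ (tha2G a b s) w * psi (-(toC n * w.1 / toC m)) * φ w.2 ∂muH) ∧
    ∀ s, (∀ w, Summable fun x : O × O => Ψ x * tha2G a b s (Qr w x)) ∧
      IntegrableOn (fun w : Hs => Inc Ψ (tha2G a b s) w * psi (-(toC n * w.1 / toC m)) * φ w.2)
      (Fm m z0 ×ˢ (Set.univ : Set ℝ)) muH := by
  obtain ⟨C, -, hC⟩ := Inc_band b
  have hz : ∀ s q, b < q → tha2G a b s q = 0 := fun s q hq => if_neg fun h => lt_asymm hq h.2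
  have H := fun s R hs => hC Ψ (tha2G a b s) _ h1 h2 (tha2_bd (s := s) (R := R) ha b hs) (hz s)
  have hM := fun s => measurable_Inc Ψ (tha2_meas a b s) fun w => (H s _ le_rfl w).1
  refine ⟨?_, fun s => ⟨fun w => (H s _ le_rfl w).1,
    tha2_int m n z0 hφ (hM s) fun w => (H s _ le_rfl w).2⟩⟩
  obtain ⟨h3, Bd, T, hb, h0⟩ := hφ
  have := tha2_fin m z0 T
  simp only [fun f => setIntegral_eq_of_subset_of_forall_sdiff_eq_zero (μ := muH)
    ((measurableSet_Fm m z0).prod .univ) (Set.prod_mono le_rfl (Set.subset_univ _))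
    (tha2_diff h0 f)]
  refine dl_integral _ _ (fun s => tha2_tst m n h3 (hM s)) (fun w =>
    ((differentiable_Inc_band h2 (fun q hq => ?_) hz w).mul_const _).mul_const _)
    fun R => ⟨_, fun s hs w => tha2_norm m n hb w (H s R hs w).2⟩
  unfold tha2G
  split_ifs
  · exact differentiable_neg.const_cpow (Or.inl (ofReal_ne_zero.2 hq.ne'))
  · exact differentiable_const _

theorem thA2 {m : O} (hm : m ≠ 0) {κ : SLO → ℂ} (hκ : MulS m κ) {Φ : O × O → ℂ}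
    (hΦ : Equi m κ Φ) (σ : SLO) (n : O) (z0 : ℂ) {φ : ℝ → ℂ} (hφ : Tst φ) :
    ∃ J : ℂ → ℂ, Differentiable ℂ J ∧ ∀ s : ℂ, 3 < s.re →
      strip m n z0 σ φ (Inc Φ (Gs s)) + J s = Dser m (tw Φ σ) n s * betaF m n φ s := by
  obtain ⟨hb, hc, -⟩ := hΦ.tw hκ σ
  have hφ' := hφ
  obtain ⟨-, -, T, -, h0⟩ := hφ'
  obtain ⟨d1, i1⟩ := tha2_band m n z0 hφ (Ψ := fun x => if x.1 ≠ 0 then tw Φ σ x else 0)
    (fun x => by split_ifs <;> simp [hb]) (fun x hx => by simp [hc x hx]) (Real.exp_pos (-T)) 1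
  obtain ⟨d2, i2⟩ := tha2_band m n z0 hφ (Ψ := fun x => if x.1 = 0 then tw Φ σ x else 0)
    (fun x => by split_ifs <;> simp [hb]) (fun x hx => by simp [hc x hx]) one_pos (Real.exp T + 1)
  refine ⟨_, d1.sub d2, fun s hs => ?_⟩
  obtain ⟨C, -, hC⟩ := Inc_Gs
  have H := hC (tw Φ σ) s hb hc hs
  have hG : Measurable (Gs s) :=
    Measurable.ite (measurableSet_Ici (a := 1)) (measurable_ofReal.pow_const _) measurable_const
  have i0 := tha2_int m n z0 hφ (measurable_Inc _ hG fun w => (H w).1) fun w => (H w).2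
  have i3 := i0.add ((i1 s).2.sub (i2 s).2)
  simp only [strip, Inc_actO, Pi.sub_apply]
  rw [← integral_sub (i1 s).2 (i2 s).2]
  refine (integral_add i0 ((i1 s).2.sub (i2 s).2)).symm.trans
    ((setIntegral_muH (measurableSet_Fm m z0) i3).trans ?_)
  rw [betaF, ← integral_const_mul]
  congr 1
  funext t
  by_cases ht : T < |t|
  · simp [h0 t ht]
  have h1 := efc hm hb ((hΦ.tw hκ σ).per hκ) hs n z0 t
  have h2 : ∀ z, Inc (tw Φ σ) (Gs s) (z, t) +
      (Inc (fun x => if x.1 ≠ 0 then tw Φ σ x else 0) (tha2G (Real.exp (-T)) 1 s) (z, t) -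
      Inc (fun x => if x.1 = 0 then tw Φ σ x else 0) (tha2G 1 (Real.exp T + 1) s) (z, t)) =
      ∑' x : O × O, if x.1 ≠ 0 then tw Φ σ x * ((Qr (z, t) x : ℝ) : ℂ) ^ (-s) else 0 := by
    intro z
    simp only [Inc]
    rw [← ((i1 s).1 _).tsum_sub ((i2 s).1 _),
      ← (H _).1.tsum_add (((i1 s).1 _).sub ((i2 s).1 _))]
    refine tsum_congr fun x => ?_
    by_cases hx : IsCoprime x.1 x.2
    swap
    · simp [hc x hx]
    have h3 : Real.exp (-T) ≤ Qr (z, t) x :=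
      (Real.exp_le_exp.2 (neg_le_neg (not_lt.1 ht))).trans (Qr_ge (z, t) hx)
    by_cases h4 : x.1 = 0
    · have h5 : Qr (z, t) x < Real.exp T + 1 := by
        rw [h4, isCoprime_zero_left] at hx
        rw [show x = (0, x.2) from Prod.ext h4 rfl, Qr_unit _ hx, P026.ht, ← Real.exp_neg]
        exact (Real.exp_le_exp.2 ((neg_le_abs t).trans (not_lt.1 ht))).trans_lt (lt_add_one _)
      simp [h4, Gs, tha2G, h5]
    · rcases le_or_gt 1 (Qr (z, t) x) with h5 | h5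
      · simp [h4, Gs, tha2G, h5, h5.not_gt]
      · simp [h4, Gs, tha2G, h5, h5.not_ge, h3]
  simp only [Pi.add_apply, Pi.sub_apply, ← sub_mul, ← add_mul, h2]
  rw [integral_mul_const, h1]
  ring

end

end Vale.Agent.P026
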