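import Vale.Agent.P026.ThA1
import Vale.Agent.P026.ThA2
import Vale.Agent.P026.Strip
import Vale.Agent.P026.Res
import Vale.Agent.P026.Bes

namespace Vale.Agent.P026

open Complex MeasureTheory Filter Topology
open scoped Classical ComplexConjugate Real MatrixGroups

noncomputable section

theorem exists_UOut {m : O} (hm : m ≠ 0) {κ : SLO → ℂ} (hκ : MulS m κ) {Φ : O × O → ℂ}
    (hΦ : Equi m κ Φ) : ∃ u ρ, UOut m κ Φ u ρ := by
  obtain ⟨g, u0, u, u1, u2, u3, g1, g2, g3, g4⟩ := thA1 hm hκ hΦ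
  have key : ∀ (σ : SLO) (n : O) (z0 : ℂ) (φ : ℝ → ℂ), Tst φ → ∃ I : ℂ → ℂ,
      DifferentiableOn ℂ I Om ∧
      (∀ s ∈ Om, 3 < s.re → I s = Dser m (tw Φ σ) n s * betaF m n φ s) ∧
      Tendsto (fun ε : ℝ => (ε : ℂ) * I (4 / 3 + ε * Complex.I)) (UU : Filter ℝ)
        (𝓝 (strip m n z0 σ φ u)) := fun σ n z0 φ hφ => by
    obtain ⟨y, hy⟩ := strip_inner m n z0 σ hφ
    obtain ⟨J, J1, J2⟩ := thA2 hm hκ hΦ σ n z0 hφ
    refine ⟨fun s => inner ℂ y (g s) + J s,
      ((innerSL ℂ y).differentiable.comp_differentiableOn g1).add J1.differentiableOn,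
      fun s hs h3 => ?_, ?_⟩
    · beta_reduce
      rw [← hy, strip_congr m n z0 σ φ (g2 s hs h3), J2 s h3]
    · have t0 : Tendsto (fun ε : ℝ => (ε : ℂ)) (UU : Filter ℝ) (𝓝 0) :=
        ((continuous_ofReal.tendsto' 0 0 rfl).mono_left nhdsWithin_le_nhds).mono_left UU_le
      have t := (g3 y).add (t0.mul (res_lim J1.differentiableOn))
      rw [zero_mul, add_zero, ← hy, strip_congr m n z0 σ φ u3] at t
      exact t.congr fun ε => by ring
  set φ0 := (Set.Icc (0 : ℝ) 1).indicator (fun _ => (1 : ℂ)) with hφ0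
  refine ⟨u, fun σ n => strip m n 0 σ φ0 u / betaF m n φ0 (4 / 3), u1, u2,
    (Lp.memLp u0).ae_eq u3, fun σ n => ?_, fun σ n z0 φ hφ => ?_, g4⟩
  · obtain ⟨I, I1, I2, I3⟩ := key σ n 0 φ0 tst_ind
    refine ⟨I, betaF m n φ0, I1, differentiableOn_betaF m n tst_ind, betaF_ne m n, I2, ?_⟩
    rwa [div_mul_cancel₀ _ (betaF_ne m n)]
  · obtain ⟨I, I1, I2, I3⟩ := key σ n 0 φ0 tst_ind
    obtain ⟨I', I1', I2', I3'⟩ := key σ n z0 φ hφ
    have b1 := differentiableOn_betaF m n tst_ind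
    have b2 := differentiableOn_betaF m n hφ
    have e := eqOn_Om (I1'.mul (res_Om b1)) (I1.mul (res_Om b2)) fun s hs h3 => by
      simp only [Pi.mul_apply]
      rw [I2 s hs h3, I2' s hs h3]
      ring
    have := tendsto_nhds_unique_of_eventuallyEq (I3'.mul (res_lim b1)) (I3.mul (res_lim b2)) (by
      filter_upwards [eventually_mem_Om] with ε hε
      have := e _ hε.1
      simp only [Pi.mul_apply] at this
      rw [mul_assoc, mul_assoc, this])
    rw [div_mul_eq_mul_div, ← this, mul_div_cancel_right₀ _ (betaF_ne m n)]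

end

end Vale.Agent.P026
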