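import Vale.Agent.P026.GamB
import Vale.Agent.P026.Wb
import Vale.Agent.P026.Bes2

namespace Vale.Agent.P026

open Complex MeasureTheory Filter Topology
open scoped Classical ComplexConjugate Real MatrixGroups

noncomputable section

def vw_L (a : O → ℂ) (s : ℂ) : ℂ := ∑' n : O, a n * (N n : ℂ) ^ (-s)
def vw_th (a : O → ℂ) (t : ℝ) : ℂ := ∑' n : O, a n * kk (N n * t)

/-- admissible coefficients -/
def vw_ok (a : O → ℂ) : Prop := a 0 = 0 ∧ ∀ s : ℝ, 1 < s → Summable fun n : O => ‖a n‖ * N n ^ (-s)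

theorem vw_swap {a : O → ℂ} (ha : vw_ok a) {m : ℝ → ℂ} (hm : Integrable m) {σ y : ℝ}
    (hσ : 1 < σ) (hy : 0 < y) :
    ∑' n : O, a n * ∫ τ : ℝ, m τ * ((N n * y : ℝ) : ℂ) ^ (-(σ + τ * Complex.I)) =
      ∫ τ : ℝ, m τ * ((y : ℂ) ^ (-(σ + τ * Complex.I)) * vw_L a (σ + τ * Complex.I)) := by
  have hn : ∀ (n : O) (τ : ℝ), ‖a n * (m τ * ((N n * y : ℝ) : ℂ) ^ (-(σ + τ * Complex.I)))‖ =
      ‖a n‖ * N n ^ (-σ) * y ^ (-σ) * ‖m τ‖ := fun n τ => by
    rcases eq_or_ne n 0 with rfl | h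
    · simp [ha.1]
    rw [norm_mul, norm_mul, norm_cpow_eq_rpow_re_of_pos (mul_pos (N_pos h) hy),
      Real.mul_rpow (N_nonneg n) hy.le]
    simp; ring
  simp only [← integral_const_mul]
  rw [integral_tsum_of_summable_integral_norm]
  · congr 1
    ext τ
    rw [vw_L, ← tsum_mul_left, ← tsum_mul_left]
    refine tsum_congr fun n => ?_
    rw [ofReal_mul, mul_cpow_ofReal_nonneg (N_nonneg n) hy.le]
    ring
  · intro n
    refine (hm.norm.const_mul (‖a n‖ * N n ^ (-σ) * y ^ (-σ))).mono'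
      ((hm.aestronglyMeasurable.mul (Measurable.aestronglyMeasurable (by fun_prop))).const_mul _)
      (ae_of_all _ fun τ => (hn n τ).le)
  · simp only [hn, integral_const_mul]
    exact ((ha.2 σ hσ).mul_right _).mul_right _

theorem vw_term {A : ℝ} (hA : 1 < A) : ∃ C : ℝ, 0 < C ∧ ∀ a : O → ℂ, a 0 = 0 → ∀ t : ℝ, 0 < t →
    ∀ n : O, ‖a n * kk (N n * t)‖ ≤ ‖a n‖ * N n ^ (-A) * (C * t ^ (-A)) := by
  obtain ⟨C, hC, h⟩ := kk_decay (a := A) (by linarith)
  refine ⟨C, hC, fun a ha t ht n => ?_⟩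
  rcases eq_or_ne n 0 with rfl | hn
  · simp [ha]
  rw [norm_mul, mul_assoc, mul_left_comm (N n ^ _), ← Real.mul_rpow (N_nonneg n) ht.le]
  exact mul_le_mul_of_nonneg_left (h _ (mul_pos (N_pos hn) ht)) (norm_nonneg _)

theorem vw_th_le {a : O → ℂ} (ha : vw_ok a) {A : ℝ} (hA : 1 < A) :
    ∃ C : ℝ, 0 ≤ C ∧ ∀ t : ℝ, 0 < t → ‖vw_th a t‖ ≤ C * t ^ (-A) := by
  obtain ⟨C, hC, h⟩ := vw_term hA
  refine ⟨(∑' n : O, ‖a n‖ * N n ^ (-A)) * C, mul_nonneg (tsum_nonneg fun n => by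
    have := N_nonneg n; positivity) hC.le, fun t ht => ?_⟩
  rw [mul_assoc]
  exact tsum_of_norm_bounded ((ha.2 A hA).hasSum.mul_right _) (h a ha.1 t ht)

theorem vw_th_cont {a : O → ℂ} (ha : vw_ok a) : ContinuousOn (vw_th a) (Set.Ioi 0) := by
  obtain ⟨C, hC, h⟩ := vw_term one_lt_two
  intro x hx
  have hx' : 0 < x / 2 := half_pos hx
  refine ((continuousOn_tsum (s := Set.Ioi (x / 2)) (fun n => continuousOn_const.mul
    (continuousOn_kk.comp (by fun_prop) fun t ht => mul_nonneg (N_nonneg n) (hx'.trans ht).le))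
    ((ha.2 2 one_lt_two).mul_right (C * (x / 2) ^ (-2 : ℝ))) fun n t ht =>
      (h a ha.1 t (hx'.trans ht) n).trans ?_).continuousAt
    (Ioi_mem_nhds (half_lt_self hx))).continuousWithinAt
  have := N_nonneg n
  have := Real.rpow_le_rpow_of_nonpos hx' (le_of_lt ht) (by norm_num : (-2 : ℝ) ≤ 0)
  gcongr

theorem vw_mellin {a : O → ℂ} (ha : vw_ok a) {s : ℂ} (hs : 1 < s.re) :
    mellin (vw_th a) s = mellin kk s * vw_L a s := by
  have hk := (kk_mellin (s := s) (by linarith)).1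
  have e : ∀ n : O, ∫ t in Set.Ioi (0 : ℝ), a n * ((t : ℂ) ^ (s - 1) • kk (N n * t)) =
      mellin kk s * (a n * (N n : ℂ) ^ (-s)) := fun n => by
    rcases eq_or_ne n 0 with rfl | hn
    · simp [ha.1]
    rw [integral_const_mul, ← mellin, mellin_comp_mul_left _ _ (N_pos hn), smul_eq_mul]
    ring
  rw [vw_L, ← tsum_mul_left, ← tsum_congr e, integral_tsum_of_summable_integral_norm, mellin]
  · congr 1
    ext t
    rw [vw_th, smul_eq_mul, ← tsum_mul_left]
    exact tsum_congr fun n => by rw [smul_eq_mul]; ring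
  · intro n
    rcases eq_or_ne n 0 with rfl | hn
    · simp [ha.1]
    exact Integrable.const_mul ((MellinConvergent.comp_mul_left (N_pos hn)).2 hk) _
  · refine ((ha.2 _ hs).mul_right (∫ t in Set.Ioi (0 : ℝ), t ^ (s.re - 1) * ‖kk t‖)).congr
      fun n => ?_
    rcases eq_or_ne n 0 with rfl | hn
    · simp [ha.1]
    have hp := N_pos hn
    have h := integral_comp_mul_left_Ioi' (fun t => t ^ (s.re - 1) * ‖kk t‖) 0 hp
    rw [mul_zero] at h
    rw [← h, smul_eq_mul, ← mul_assoc, ← integral_const_mul]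
    refine setIntegral_congr_fun measurableSet_Ioi fun t ht => ?_
    rw [norm_mul, norm_smul, norm_cpow_eq_rpow_re_of_pos ht, Real.mul_rpow hp.le (le_of_lt ht),
      Real.rpow_sub_one hp.ne', Real.rpow_neg hp.le, sub_re, one_re]
    have := Real.rpow_pos_of_pos hp s.re
    field_simp

/-- a function of rapid decay at both ends has an entire, strip-bounded Mellin transform -/
theorem vw_entire {f : ℝ → ℂ} (hc : ContinuousOn f (Set.Ioi 0)) {C D : ℝ}
    (h1 : ∀ t : ℝ, 0 < t → ‖f t‖ ≤ C * t ^ (-(3 : ℝ)))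
    (h2 : ∀ t : ℝ, 0 < t → ‖f t‖ ≤ D * t ^ (-(-3 : ℝ))) :
    ∃ K : ℝ, ∀ s : ℂ, -2 ≤ s.re → s.re ≤ 2 →
      DifferentiableAt ℂ (mellin f) s ∧ ‖mellin f s‖ ≤ K := by
  have hl := hc.locallyIntegrableOn measurableSet_Ioi (μ := volume)
  have b1 : f =O[atTop] (· ^ (-(3 : ℝ))) :=
    Asymptotics.IsBigO.of_bound C ((eventually_gt_atTop 0).mono fun x hx => by
      rw [Real.norm_of_nonneg (by positivity)]; exact h1 x hx)
  have b2 : f =O[𝓝[>] 0] (· ^ (-(-3 : ℝ))) :=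
    Asymptotics.IsBigO.of_bound D (eventually_mem_nhdsWithin.mono fun x hx => by
      rw [Real.norm_of_nonneg (Real.rpow_nonneg (le_of_lt hx) _)]; exact h2 x hx)
  have m1 := mellinConvergent_of_isBigO_rpow (s := 2) hl b1 (by norm_num) b2 (by norm_num)
  have m2 := mellinConvergent_of_isBigO_rpow (s := -2) hl b1 (by norm_num) b2 (by norm_num)
  refine ⟨_, fun s k1 k2 => ⟨mellin_differentiableAt_of_isBigO_rpow hl b1 (by linarith) b2
    (by linarith), norm_integral_le_of_norm_le (m1.norm.add m2.norm)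
      ((ae_restrict_mem measurableSet_Ioi).mono fun t ht => ?_)⟩⟩
  have ht' : 0 < t := ht
  simp only [Pi.add_apply, norm_smul, norm_cpow_eq_rpow_re_of_pos ht', ← add_mul]
  refine mul_le_mul_of_nonneg_right ?_ (norm_nonneg _)
  rcases le_total 1 t with k | k
  · exact le_add_of_le_of_nonneg (Real.rpow_le_rpow_of_exponent_le k (by simp; linarith))
      (by positivity)
  · exact le_add_of_nonneg_of_le (by positivity)
      (Real.rpow_le_rpow_of_exponent_ge ht' k (by simp; linarith))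

theorem vw_fe {f g : ℝ → ℂ} {b : ℂ} {c : ℝ} (hc : 0 < c)
    (h : ∀ t : ℝ, 0 < t → f t = b * (t⁻¹ : ℝ) * g (t⁻¹ * c)) (s : ℂ) :
    mellin f (1 - s) = b * ((c : ℂ) ^ (-s) * mellin g s) := by
  have e : mellin f (1 - s) = mellin (fun t : ℝ => b • ((t : ℂ) ^ (-1 : ℂ) •
      (fun u : ℝ => g (u * c)) t⁻¹)) (1 - s) :=
    setIntegral_congr_fun measurableSet_Ioi fun t ht => by
      simp only [h t ht, smul_eq_mul, cpow_neg_one, ofReal_inv, mul_assoc]
  rw [e, mellin_const_smul, mellin_cpow_smul, mellin_comp_inv (fun u : ℝ => g (u * c)),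
    mellin_comp_mul_right _ _ hc, show -(1 - s + -1) = s by ring, smul_eq_mul, smul_eq_mul]

end

end Vale.Agent.P026
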