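import Vale.Agent.P026.GeoM
import Vale.Agent.P026.Cnt

namespace Vale.Agent.P026

open Complex MeasureTheory Filter Topology
open scoped Classical ComplexConjugate Real MatrixGroups

noncomputable section

theorem wgt_sum (m : O) : ∃ C : ℝ, 0 < C ∧ ∀ w : Hs,
    Summable (fun γ : Gam m => Real.exp (-uu (actO γ w) (0, 0))) ∧
    ∑' γ : Gam m, Real.exp (-uu (actO γ w) (0, 0)) ≤ C := by
  obtain ⟨C, hC, H⟩ := sum_Q_exp
  refine ⟨C * C, by positivity, fun w => ?_⟩
  obtain ⟨h1, h2⟩ := H w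
  set f := fun x : O × O => if IsCoprime x.1 x.2 then Real.exp (-(Qr w x / 2)) else 0 with hf
  have h0 : ∀ x, 0 ≤ f x := fun x => ite_nonneg (Real.exp_pos _).le le_rfl
  have h3 := h1.mul_of_nonneg h1 h0 h0
  let i : Gam m → (O × O) × O × O := fun γ => ((γ.1 0 0, γ.1 0 1), row γ)
  have hi : Function.Injective i := fun γ γ' h => Subtype.ext (SLO_ext (congrArg (·.1.1) h)
    (congrArg (·.1.2) h) (congrArg (·.2.1) h) (congrArg (·.2.2) h))
  have e : (fun γ : Gam m => Real.exp (-uu (actO γ w) (0, 0))) =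
      (fun p : (O × O) × O × O => f p.1 * f p.2) ∘ i := funext fun γ => by
    have h4 : IsCoprime (γ.1 0 0) (γ.1 0 1) :=
      ⟨γ.1 1 1, -γ.1 1 0, by linear_combination det_SLO γ.1⟩
    simp only [Function.comp, hf, i, if_pos h4, if_pos (coprime_row γ.1), uu_actO_j, ← Real.exp_add]
    congr 1
    ring
  rw [e]
  refine ⟨h3.comp_injective hi, (tsum_comp_le_tsum_of_inj h3
    (fun _ => mul_nonneg (h0 _) (h0 _)) hi).trans ?_⟩
  rw [← h1.tsum_mul_tsum h1 h3]
  exact mul_self_le_mul_self (tsum_nonneg h0) h2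

theorem wgt_pos (m : O) (w : Hs) : 0 < ∑' γ : Gam m, Real.exp (-uu (actO γ w) (0, 0)) :=
  ((wgt_sum m).choose_spec.2 w).1.tsum_pos (fun _ => (Real.exp_pos _).le) 1 (Real.exp_pos _)

theorem beta_pos (m : O) (w : Hs) : 0 < beta m w := by
  exact div_pos (Real.exp_pos _) (wgt_pos m w)
theorem beta_ge (m : O) : ∃ c : ℝ, 0 < c ∧ ∀ w, c * Real.exp (-uu w (0, 0)) ≤ beta m w := by
  obtain ⟨C, hC, H⟩ := wgt_sum m
  refine ⟨C⁻¹, inv_pos.2 hC, fun w => ?_⟩
  rw [← div_eq_inv_mul]
  exact div_le_div_of_nonneg_left (Real.exp_pos _).le (wgt_pos m w) (H w).2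
theorem measurable_beta (m : O) : Measurable (beta m) := by
  have h : Continuous fun w : Hs => Real.exp (-uu w (0, 0)) :=
    (continuous_uu.comp (continuous_id.prodMk continuous_const)).neg.rexp
  exact h.measurable.div (Measurable.tsum fun γ => (h.comp (continuous_actO _)).measurable)
theorem hasSum_beta (m : O) (w : Hs) : HasSum (fun γ : Gam m => beta m (actO γ w)) 1 := by
  have h := ((wgt_sum m).choose_spec.2 w).1.hasSum.div_const
    (∑' γ : Gam m, Real.exp (-uu (actO γ w) (0, 0)))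
  rw [div_self (wgt_pos m w).ne'] at h
  refine h.congr_fun fun γ => ?_
  rw [beta, ← (Equiv.mulRight γ).tsum_eq fun γ : Gam m => Real.exp (-uu (actO γ w) (0, 0))]
  simp only [← actO_mul]
  rfl
instance nu_sigmaFinite (m : O) : SigmaFinite (nu m) := by
  exact SigmaFinite.withDensity_ofReal _
theorem nu_ac (m : O) : nu m ≪ muH := by
  exact withDensity_absolutelyContinuous _ _
theorem ac_nu (m : O) : muH ≪ nu m := by
  exact withDensity_absolutelyContinuous' (measurable_beta m).ennreal_ofReal.aemeasurable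
    (ae_of_all _ fun w => (ENNReal.ofReal_pos.2 (beta_pos m w)).ne')
theorem wgt_inv (m : O) (w : Hs) : HasSum (fun γ : Gam m => beta m (actO (γ⁻¹ : Gam m) w)) 1 :=
  (Equiv.inv (Gam m)).hasSum_iff.2 (hasSum_beta m w)

theorem wgt_cancel {m : O} (γ : Gam m) (w : Hs) : actO (γ⁻¹ : Gam m) (actO γ w) = w := by
  rw [← actO_mul, InvMemClass.coe_inv, inv_mul_cancel, actO_one]

theorem wgt_meas {m : O} (γ : SLO) : Measurable fun w => beta m (actO γ w) :=
  (measurable_beta m).comp (continuous_actO γ).measurable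

theorem wgt_un (m : O) {F : Hs → ENNReal} (hF : AEMeasurable F muH) :
    ∑' γ : Gam m, ∫⁻ w, F (actO γ w) ∂(nu m) = ∫⁻ w, F w ∂muH := by
  have h : ∀ γ : Gam m, ∫⁻ w, F (actO γ w) ∂(nu m) =
      ∫⁻ w, ENNReal.ofReal (beta m (actO (γ⁻¹ : Gam m) w)) * F w ∂muH := fun γ => by
    rw [nu, lintegral_withDensity_eq_lintegral_mul_non_measurable _
      (measurable_beta m).ennreal_ofReal (ae_of_all _ fun _ => ENNReal.ofReal_lt_top),
      ← (measurePreserving_actO γ).lintegral_comp_emb (measurableEmbedding_actO γ)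
        fun w => ENNReal.ofReal (beta m (actO (γ⁻¹ : Gam m) w)) * F w]
    simp only [wgt_cancel, Pi.mul_apply]
  rw [tsum_congr h, ← lintegral_tsum fun γ => (wgt_meas _).ennreal_ofReal.aemeasurable.fun_mul hF]
  refine lintegral_congr fun w => ?_
  rw [ENNReal.tsum_mul_right, ← ENNReal.ofReal_tsum_of_nonneg (fun _ => (beta_pos _ _).le)
    (wgt_inv m w).summable, (wgt_inv m w).tsum_eq, ENNReal.ofReal_one, one_mul]

theorem lintegral_unfold (m : O) {F : Hs → ENNReal} (hF : Measurable F) :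
    ∫⁻ w, ∑' γ : Gam m, F (actO γ w) ∂(nu m) = ∫⁻ w, F w ∂muH := by
  rw [← wgt_un m hF.aemeasurable]
  exact lintegral_tsum fun γ => (hF.comp (continuous_actO _).measurable).aemeasurable
theorem integral_unfold (m : O) {F : Hs → ℂ} (hF : Integrable F muH) :
    HasSum (fun γ : Gam m => ∫ w, F (actO γ w) ∂(nu m)) (∫ w, F w ∂muH) ∧
    ∫ w, ∑' γ : Gam m, F (actO γ w) ∂(nu m) = ∫ w, F w ∂muH := by
  have h : ∀ γ : Gam m, ∫ w, F (actO γ w) ∂(nu m) =
      ∫ w, beta m (actO (γ⁻¹ : Gam m) w) • F w ∂muH := fun γ => by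
    rw [nu, integral_withDensity_eq_integral_toReal_smul
      (measurable_beta m).ennreal_ofReal (ae_of_all _ fun _ => ENNReal.ofReal_lt_top),
      ← (measurePreserving_actO γ).integral_comp (measurableEmbedding_actO γ)
        fun w => beta m (actO (γ⁻¹ : Gam m) w) • F w]
    simp only [wgt_cancel, ENNReal.toReal_ofReal (beta_pos _ _).le]
  have h1 : HasSum (fun γ : Gam m => ∫ w, F (actO γ w) ∂(nu m)) (∫ w, F w ∂muH) := by
    rw [funext h]
    refine hasSum_integral_of_dominated_convergence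
      (fun γ w => beta m (actO (γ⁻¹ : Gam m) w) * ‖F w‖)
      (fun γ => (wgt_meas _).aestronglyMeasurable.fun_smul hF.1)
      (fun γ => ae_of_all _ fun w => (norm_smul_of_nonneg (beta_pos _ _).le _).le)
      (ae_of_all _ fun w => (wgt_inv m w).summable.mul_right _) ?_
      (ae_of_all _ fun w => by simpa only [one_smul] using (wgt_inv m w).smul_const (F w))
    simpa only [tsum_mul_right, (wgt_inv m _).tsum_eq, one_mul] using hF.norm
  refine ⟨h1, (integral_tsum (fun γ => (hF.1.comp_measurePreserving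
    (measurePreserving_actO _)).mono_ac (nu_ac m)) ?_).trans h1.tsum_eq⟩
  exact (wgt_un m hF.1.enorm).trans_ne hF.2.ne
theorem muH_le_nu (m : O) {K : Set Hs} (hK : IsCompact K) :
    ∃ C : NNReal, muH.restrict K ≤ C • nu m := by
  obtain ⟨c, hc, H⟩ := beta_ge m
  obtain ⟨B, hB⟩ := hK.bddAbove_image
    (continuous_uu.comp (continuous_id.prodMk (continuous_const (y := ((0, 0) : Hs))))).continuousOn
  have h0 : 0 < c * Real.exp (-B) := mul_pos hc (Real.exp_pos _)
  refine ⟨(c * Real.exp (-B))⁻¹.toNNReal, ?_⟩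
  rw [← withDensity_indicator_one hK.measurableSet, ENNReal.smul_def, nu,
    ← withDensity_smul' _ _ ENNReal.coe_ne_top]
  refine withDensity_mono (ae_of_all _ fun w => Set.indicator_le (fun w hw => ?_) w)
  refine (ENNReal.one_le_ofReal.2 ?_).trans_eq (ENNReal.ofReal_mul (inv_pos.2 h0).le)
  rw [← div_eq_inv_mul, one_le_div h0]
  exact (mul_le_mul_of_nonneg_left (Real.exp_le_exp.2 (neg_le_neg (hB ⟨w, hw, rfl⟩))) hc.le).trans
    (H w)

end

end Vale.Agent.P026
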