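import Vale.Agent.P026.Div
import Vale.Agent.P026.Rs

namespace Vale.Agent.P026

open Complex MeasureTheory Filter Topology
open scoped Classical ComplexConjugate Real MatrixGroups

noncomputable section

theorem zk1_one : chi3D (1 : ZMod 3) = 1 := map_one _

theorem zk1_two : chi3D (2 : ZMod 3) = -1 := by
  have h : quadraticChar (ZMod 3) 2 = -1 := by
    rw [quadraticChar_neg_one_iff_not_isSquare]
    decide
  simp [chi3D, h]

theorem chi3D_ne_one : chi3D ≠ 1 := by
  intro h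
  have h1 := zk1_two
  rw [h, MulChar.one_apply (by decide)] at h1
  norm_num at h1

def zk1_S (k : ℕ) : Finset O := (ballO k).filter (fun n => Prim n ∧ Nm n = k)

theorem zk1_mem {k : ℕ} {n : O} : n ∈ zk1_S k ↔ Prim n ∧ Nm n = k := by
  rw [zk1_S, Finset.mem_filter, mem_ballO]
  refine ⟨fun h => h.2, fun h => ⟨⟨h.1.ne_zero, ?_⟩, h⟩⟩
  rw [N, h.2]

theorem zk1_dvd {a : O} (ha : Prim a) (k : ℕ) :
    ((zk1_S k).filter (a ∣ ·)).card = if Nm a ∣ k then (zk1_S (k / Nm a)).card else 0 := by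
  have h0 : 0 < Nm a := Nat.pos_of_ne_zero fun h => ha.ne_zero (Nm_eq_zero.1 h)
  split_ifs with h
  · obtain ⟨m, rfl⟩ := h
    rw [Nat.mul_div_cancel_left _ h0,
      ← Finset.card_image_of_injective (zk1_S m) (mul_right_injective₀ ha.ne_zero)]
    congr 1
    ext n
    simp only [Finset.mem_filter, Finset.mem_image, zk1_mem]
    constructor
    · rintro ⟨⟨h1, h2⟩, b, rfl⟩
      rw [Nm_mul] at h2
      exact ⟨b, ⟨h1.of_mul ha, Nat.eq_of_mul_eq_mul_left h0 h2⟩, rfl⟩
    · rintro ⟨b, ⟨h1, h2⟩, rfl⟩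
      exact ⟨⟨ha.mul h1, by rw [Nm_mul, h2]⟩, dvd_mul_right _ _⟩
  · rw [Finset.card_eq_zero, Finset.filter_eq_empty_iff]
    rintro n hn ⟨b, rfl⟩
    refine h ⟨Nm b, ?_⟩
    rw [← (zk1_mem.1 hn).2, Nm_mul]

def zk1_F (k : ℕ) : ℂ := ∑ d ∈ k.divisors, chi3D (d : ZMod 3)

theorem zk1_Fd {l k : ℕ} (hl : 0 < l) (hk : 0 < k) :
    ∑ d ∈ k.divisors.filter (l ∣ ·), chi3D (d : ZMod 3)
      = if l ∣ k then chi3D (l : ZMod 3) * zk1_F (k / l) else 0 := by
  split_ifs with h
  · obtain ⟨m, rfl⟩ := h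
    have hm : m ≠ 0 := by rintro rfl; simp at hk
    have e : (l * m).divisors.filter (l ∣ ·) = m.divisors.image (l * ·) := by
      ext d
      simp only [Finset.mem_filter, Finset.mem_image, Nat.mem_divisors]
      constructor
      · rintro ⟨⟨h1, -⟩, b, rfl⟩
        exact ⟨b, ⟨Nat.dvd_of_mul_dvd_mul_left hl h1, hm⟩, rfl⟩
      · rintro ⟨b, ⟨h1, -⟩, rfl⟩
        exact ⟨⟨Nat.mul_dvd_mul_left _ h1, hk.ne'⟩, dvd_mul_right _ _⟩
    rw [Nat.mul_div_cancel_left _ hl, e, Finset.sum_image fun a _ b _ h =>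
      Nat.eq_of_mul_eq_mul_left hl h, zk1_F, Finset.mul_sum]
    exact Finset.sum_congr rfl fun d _ => by rw [Nat.cast_mul, map_mul]
  · refine Finset.sum_eq_zero fun d hd => ?_
    rw [Finset.mem_filter] at hd
    exact absurd (hd.2.trans (Nat.dvd_of_mem_divisors hd.1)) h

theorem zk1_hecke {l k : ℕ} (hl : l.Prime) (hk : 0 < k) :
    zk1_F (l * k) = (1 + chi3D (l : ZMod 3)) * zk1_F k
      - if l ∣ k then chi3D (l : ZMod 3) * zk1_F (k / l) else 0 := by
  have h1 := zk1_Fd hl.pos (Nat.mul_pos hl.pos hk)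
  rw [if_pos (dvd_mul_right _ _), Nat.mul_div_cancel_left _ hl.pos] at h1
  have h2 := Finset.sum_filter_add_sum_filter_not (l * k).divisors (l ∣ ·)
    (fun d => chi3D (d : ZMod 3))
  have h3 := Finset.sum_filter_add_sum_filter_not k.divisors (l ∣ ·) (fun d => chi3D (d : ZMod 3))
  have e : (l * k).divisors.filter (fun d => ¬ l ∣ d) = k.divisors.filter (fun d => ¬ l ∣ d) := by
    ext d
    simp only [Finset.mem_filter, Nat.mem_divisors]
    constructor
    · rintro ⟨⟨g1, -⟩, g2⟩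
      exact ⟨⟨((hl.coprime_iff_not_dvd.2 g2).symm).dvd_of_dvd_mul_left g1, hk.ne'⟩, g2⟩
    · rintro ⟨⟨g1, -⟩, g2⟩
      exact ⟨⟨g1.mul_left _, (Nat.mul_pos hl.pos hk).ne'⟩, g2⟩
  rw [e, h1] at h2
  rw [zk1_Fd hl.pos hk] at h3
  simp only [zk1_F] at h2 h3 ⊢
  linear_combination h3 - h2

theorem zk1_Nm_dvd {a b : O} (h : a ∣ b) : Nm a ∣ Nm b := by
  obtain ⟨c, rfl⟩ := h
  exact ⟨Nm c, Nm_mul _ _⟩

theorem zk1_prime {l : ℕ} (hl : l.Prime) (h3 : l ≠ 3) :
    ∃ p : O, Prime p ∧ Prim p ∧ p ∣ (l : O) ∧ (Nm p = l ∨ Prime (l : O)) := by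
  have h0 : (l : O) ≠ 0 := fun h => by
    have := Nm_natCast l
    rw [h, Nm_eq_zero.2 rfl] at this
    exact (pow_pos hl.pos 2).ne this
  have hu : ¬ IsUnit (l : O) := fun h => by
    rw [isUnit_iff_Nm, Nm_natCast] at h
    exact hl.one_lt.ne' ((Nat.pow_eq_one.1 h).resolve_right two_ne_zero)
  obtain ⟨q, hq, hql⟩ := WfDvdMonoid.exists_irreducible_factor hu h0
  have hlam : ¬ lam ∣ q := fun h => by
    have h1 := zk1_Nm_dvd (h.trans hql)
    rw [Nm_natCast, show Nm lam = 3 by decide] at h1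
    exact h3 ((Nat.prime_dvd_prime_iff_eq Nat.prime_three hl).1
      (Nat.prime_three.dvd_of_dvd_pow h1)).symm
  obtain ⟨u, hu1, hP⟩ := exists_prim_assoc hlam
  have has : Associated q (u * q) := (associated_unit_mul_right q u hu1)
  have hp : Prime (u * q) := has.prime hq.prime
  have hd : u * q ∣ (l : O) := has.symm.dvd.trans hql
  refine ⟨u * q, hp, hP, hd, ?_⟩
  have h1 := zk1_Nm_dvd hd
  rw [Nm_natCast, Nat.dvd_prime_pow hl] at h1
  obtain ⟨i, hi, h2⟩ := h1
  interval_cases i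
  · exact absurd (isUnit_iff_Nm.2 (by simpa using h2)) hp.not_isUnit
  · exact Or.inl (by simpa using h2)
  · right
    obtain ⟨c, hc⟩ := hd
    have h4 := Nm_natCast l
    rw [hc, Nm_mul, h2] at h4
    have h5 : Nm c = 1 := Nat.eq_of_mul_eq_mul_left (pow_pos hl.pos 2) (by rw [h4, mul_one])
    rw [hc]
    exact (associated_mul_unit_right _ _ (isUnit_iff_Nm.2 h5)).prime hp

theorem zk1_not_prime {l : ℕ} (hl : l.Prime) (h1 : l % 3 = 1) : ¬ Prime (l : O) := by
  intro hp
  haveI := Fact.mk hl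
  have hc : 3 ∣ Fintype.card (ZMod l)ˣ := by
    rw [ZMod.card_units]
    omega
  haveI : Fact (Nat.Prime 3) := ⟨Nat.prime_three⟩
  obtain ⟨x, hx⟩ := exists_prime_orderOf_dvd_card 3 hc
  have hx3 : (x : ZMod l) ^ 3 = 1 := by
    rw [← Units.val_pow_eq_pow_val, ← hx, pow_orderOf_eq_one, Units.val_one]
  have hx1 : (x : ZMod l) - 1 ≠ 0 := fun h => by
    have : x = 1 := Units.ext (sub_eq_zero.1 h)
    rw [this, orderOf_one] at hx
    omega
  have h2 : (x : ZMod l) ^ 2 + x + 1 = 0 :=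
    mul_left_cancel₀ hx1 (by linear_combination hx3)
  obtain ⟨y, hy⟩ := ZMod.intCast_surjective (x : ZMod l)
  have h4 : (l : ℤ) ∣ y ^ 2 + y + 1 := by
    rw [← ZMod.intCast_zmod_eq_zero_iff_dvd]
    push_cast
    rw [hy, h2]
  have h5 : (l : O) ∣ (⟨y, -1⟩ : O) * ⟨y + 1, 1⟩ := by
    obtain ⟨c, hc⟩ := h4
    refine ⟨(c : O), ?_⟩
    ext
    · simp only [QuadraticAlgebra.re_mul, QuadraticAlgebra.re_natCast, QuadraticAlgebra.im_natCast,
        QuadraticAlgebra.re_intCast, QuadraticAlgebra.im_intCast]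
      push_cast
      linear_combination hc
    · simp only [QuadraticAlgebra.im_mul, QuadraticAlgebra.re_natCast, QuadraticAlgebra.im_natCast,
        QuadraticAlgebra.re_intCast, QuadraticAlgebra.im_intCast]
      ring
  have h6 : ∀ z : O, (l : O) ∣ z → (l : ℤ) ∣ z.im := fun z hz =>
    ((intCast_dvd_iff l z).1 (by simpa using hz)).2
  have h7 : (l : ℤ) ∣ 1 := by
    rcases hp.dvd_or_dvd h5 with h | h
    · exact (dvd_neg.1 (h6 _ h))
    · exact h6 _ h
  exact hl.one_lt.ne' (Nat.dvd_one.1 (by exact_mod_cast h7))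

theorem zk1_star_dvd {a b : O} (h : a ∣ star b) : star a ∣ b := by
  obtain ⟨c, hc⟩ := h
  exact ⟨star c, by rw [← star_star b, hc, star_mul']⟩

theorem zk1_dvd_mul {l k : ℕ} {n : O} (hn : n ∈ zk1_S (l * k)) : (l : O) ∣ n * star n := by
  rw [mul_star_eq, (zk1_mem.1 hn).2, Nat.cast_mul]
  exact dvd_mul_right _ _

theorem zk1_sq {l k : ℕ} (hl : 0 < l) (f : ℕ → ℕ) :
    (if l ^ 2 ∣ l * k then f (l * k / l ^ 2) else 0) = if l ∣ k then f (k / l) else 0 := by
  rw [sq, Nat.mul_div_mul_left _ _ hl]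
  simp only [Nat.mul_dvd_mul_iff_left hl]

theorem zk1_inert {l : ℕ} (hl : l.Prime) (h2 : l % 3 = 2) (k : ℕ) :
    (zk1_S (l * k)).card = if l ∣ k then (zk1_S (k / l)).card else 0 := by
  obtain ⟨p, -, hP, -, h⟩ := zk1_prime hl (by omega)
  have hp : Prime (l : O) := h.resolve_left fun h => by
    have := hP.Nm_mod
    omega
  have hP' : Prim (-(l : O)) := by
    refine ⟨-((l / 3 + 1 : ℕ) : O), ?_⟩
    have : (l : O) = ((3 * (l / 3) + 2 : ℕ) : O) := by congr 1; omega
    generalize l / 3 = m at *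
    rw [this]
    push_cast
    ring
  have hN : Nm (-(l : O)) = l ^ 2 := by
    have := N_neg (l : O)
    rw [← Nm_natCast]
    simp only [N] at this
    exact_mod_cast this
  have h1 := zk1_dvd hP' (l * k)
  rw [hN, zk1_sq hl.pos fun j => (zk1_S j).card, Finset.filter_true_of_mem] at h1
  · exact h1
  · intro n hn
    rw [neg_dvd]
    rcases hp.dvd_or_dvd (zk1_dvd_mul hn) with h | h
    · exact h
    · simpa using zk1_star_dvd h

theorem zk1_split {l : ℕ} (hl : l.Prime) (h1 : l % 3 = 1) (k : ℕ) :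
    (zk1_S (l * k)).card + (if l ∣ k then (zk1_S (k / l)).card else 0) = 2 * (zk1_S k).card := by
  obtain ⟨p, hp, hP, -, h⟩ := zk1_prime hl (by omega)
  have hN : Nm p = l := h.resolve_right (zk1_not_prime hl h1)
  have hl' : p * star p = l := by rw [mul_star_eq, hN]
  have hnd : ¬ p ∣ star p := fun h => by
    have has : Associated p (star p) := associated_of_dvd_dvd h (by
      simpa using zk1_star_dvd (a := p) (b := p) h)
    have e := congrArg QuadraticAlgebra.im (hP.eq_of_associated hP.star has)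
    rw [QuadraticAlgebra.im_star] at e
    have e0 : p.im = 0 := by omega
    have e1 := Nm_cast p
    rw [hN, e0] at e1
    have e2 : l = p.re.natAbs * p.re.natAbs := by
      have : (l : ℤ) = ((p.re.natAbs * p.re.natAbs : ℕ) : ℤ) := by
        rw [Nat.cast_mul, Int.natAbs_mul_self']
        linear_combination e1
      exact_mod_cast this
    rcases hl.eq_one_or_self_of_dvd p.re.natAbs ⟨_, e2⟩ with h | h
    · rw [h] at e2
      exact hl.one_lt.ne' e2
    · rw [h] at e2
      nlinarith [hl.one_lt]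
  have hcop : IsCoprime p (star p) := (hp.irreducible.coprime_iff_not_dvd).2 hnd
  have a1 := zk1_dvd hP (l * k)
  have a2 := zk1_dvd hP.star (l * k)
  have a3 := zk1_dvd (hP.mul hP.star) (l * k)
  rw [Nm_star] at a2
  rw [hN, if_pos (dvd_mul_right _ _), Nat.mul_div_cancel_left _ hl.pos] at a1 a2
  rw [hl', Nm_natCast, zk1_sq hl.pos fun j => (zk1_S j).card] at a3
  have a4 := Finset.card_union_add_card_inter ((zk1_S (l * k)).filter (p ∣ ·))
    ((zk1_S (l * k)).filter (star p ∣ ·))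
  rw [a1, a2, ← Finset.filter_or, ← Finset.filter_and, Finset.filter_true_of_mem] at a4
  · rw [← a3, two_mul, ← a4]
    congr 2
    refine Finset.filter_congr fun n _ => ?_
    rw [← hl']
    exact ⟨fun h => ⟨(dvd_mul_right _ _).trans h, (dvd_mul_left _ _).trans h⟩,
      fun h => hcop.mul_dvd h.1 h.2⟩
  · intro n hn
    have := zk1_dvd_mul hn
    rw [← hl'] at this
    exact (hp.dvd_or_dvd ((dvd_mul_right _ _).trans this)).imp_right zk1_star_dvd

theorem zk1_main (k : ℕ) : 0 < k → ¬ 3 ∣ k → ((zk1_S k).card : ℂ) = zk1_F k := by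
  induction k using Nat.strong_induction_on with
  | _ k ih =>
    intro hk h3
    rcases eq_or_ne k 1 with rfl | h1
    · have : zk1_S 1 = {1} := by
        ext n
        rw [zk1_mem, Finset.mem_singleton, ← isUnit_iff_Nm]
        exact ⟨fun h => h.1.eq_one_of_isUnit h.2, fun h => h ▸ ⟨prim_one, isUnit_one⟩⟩
      simp [this, zk1_F]
    obtain ⟨l, hl, m, rfl⟩ := Nat.exists_prime_and_dvd h1
    have hm : 0 < m := Nat.pos_of_mul_pos_left hk
    have hm3 : ¬ 3 ∣ m := fun h => h3 (h.mul_left _)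
    have hlt : m < l * m := by nlinarith [hl.one_lt]
    have i1 := ih m hlt hm hm3
    have i2 : ((if l ∣ m then (zk1_S (m / l)).card else 0 : ℕ) : ℂ)
        = if l ∣ m then zk1_F (m / l) else 0 := by
      split_ifs with h
      · exact ih _ (lt_of_le_of_lt (Nat.div_le_self _ _) hlt)
          (Nat.div_pos (Nat.le_of_dvd hm h) hl.pos) fun h' => hm3 (h'.trans (Nat.div_dvd_of_dvd h))
      · simp
    have hl3 : ¬ 3 ∣ l := fun h => h3 (h.mul_right _)
    rw [zk1_hecke hl hm]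
    rcases (by omega : l % 3 = 1 ∨ l % 3 = 2) with h | h
    · have e : (l : ZMod 3) = 1 := by rw [← ZMod.natCast_mod, h]; rfl
      have := congrArg (Nat.cast : ℕ → ℂ) (zk1_split hl h m)
      rw [Nat.cast_add, i2, Nat.cast_mul, i1] at this
      simp only [e, zk1_one, one_mul]
      push_cast at this
      linear_combination this
    · have e : (l : ZMod 3) = 2 := by rw [← ZMod.natCast_mod, h]; rfl
      rw [zk1_inert hl h m, i2, e, zk1_two]
      split_ifs <;> ring

theorem card_prim_norm (k : ℕ) (hk : 0 < k) :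
    ((((ballO k).filter (fun n => Prim n ∧ Nm n = k)).card : ℕ) : ℂ) =
      if 3 ∣ k then 0 else ∑ d ∈ k.divisors, chi3D (d : ZMod 3) := by
  split_ifs with h
  · rw [Nat.cast_eq_zero, Finset.card_eq_zero, Finset.filter_eq_empty_iff]
    rintro n - ⟨h1, h2⟩
    have := h1.Nm_mod
    omega
  · exact zk1_main k hk h

end

end Vale.Agent.P026
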